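import Vale.Agent.P211.MathlibUsed
import Vale.Agent.P211.Defs

set_option linter.all false

section

section

namespace Vale.Agent.P211

/-- The formal calculus of a metric torsion-free connection on an `𝒪`-module `V` of vector
fields. -/
structure LC (𝒪 V : Type*) [CommRing 𝒪] [Algebra ℝ 𝒪] [AddCommGroup V] [Module 𝒪 V] where
  D : V → 𝒪 → 𝒪
  D_add_left : ∀ X Y f, D (X + Y) f = D X f + D Y f
  D_smul_left : ∀ (a : 𝒪) X f, D (a • X) f = a * D X f
  D_add : ∀ X f h, D X (f + h) = D X f + D X h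
  D_mul : ∀ X f h, D X (f * h) = D X f * h + f * D X h
  D_const : ∀ X (c : ℝ), D X (algebraMap ℝ 𝒪 c) = 0
  g : V → V → 𝒪
  g_symm : ∀ X Y, g X Y = g Y X
  g_add_left : ∀ X Y Z, g (X + Y) Z = g X Z + g Y Z
  g_smul_left : ∀ (a : 𝒪) X Y, g (a • X) Y = a * g X Y
  nab : V → V → V
  nab_add_left : ∀ X Y Z, nab (X + Y) Z = nab X Z + nab Y Z
  nab_smul_left : ∀ (a : 𝒪) X Z, nab (a • X) Z = a • nab X Z
  nab_add : ∀ X Y Z, nab X (Y + Z) = nab X Y + nab X Z
  nab_smul : ∀ (a : 𝒪) X Y, nab X (a • Y) = a • nab X Y + D X a • Y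
  metric : ∀ X Y Z, D X (g Y Z) = g (nab X Y) Z + g Y (nab X Z)
  comm : ∀ X Y f, D (nab X Y - nab Y X) f = D X (D Y f) - D Y (D X f)
  jacobi : ∀ X Y Z,
    (nab X (nab Y Z - nab Z Y) - nab (nab Y Z - nab Z Y) X)
    + (nab Y (nab Z X - nab X Z) - nab (nab Z X - nab X Z) Y)
    + (nab Z (nab X Y - nab Y X) - nab (nab X Y - nab Y X) Z) = 0

/-- `𝒪`-multilinearity of a function of four vector fields. -/
structure IsT4 {𝒪 V : Type*} [CommRing 𝒪] [AddCommGroup V] [Module 𝒪 V]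
    (T : V → V → V → V → 𝒪) : Prop where
  add1 : ∀ X X' Y Z W, T (X + X') Y Z W = T X Y Z W + T X' Y Z W
  add2 : ∀ X Y Y' Z W, T X (Y + Y') Z W = T X Y Z W + T X Y' Z W
  add3 : ∀ X Y Z Z' W, T X Y (Z + Z') W = T X Y Z W + T X Y Z' W
  add4 : ∀ X Y Z W W', T X Y Z (W + W') = T X Y Z W + T X Y Z W'
  smul1 : ∀ (a : 𝒪) X Y Z W, T (a • X) Y Z W = a * T X Y Z W
  smul2 : ∀ (a : 𝒪) X Y Z W, T X (a • Y) Z W = a * T X Y Z W
  smul3 : ∀ (a : 𝒪) X Y Z W, T X Y (a • Z) W = a * T X Y Z W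
  smul4 : ∀ (a : 𝒪) X Y Z W, T X Y Z (a • W) = a * T X Y Z W

/-- `𝒪`-multilinearity of a function of five vector fields. -/
structure IsT5 {𝒪 V : Type*} [CommRing 𝒪] [AddCommGroup V] [Module 𝒪 V]
    (T : V → V → V → V → V → 𝒪) : Prop where
  add0 : ∀ U U' X Y Z W, T (U + U') X Y Z W = T U X Y Z W + T U' X Y Z W
  smul0 : ∀ (a : 𝒪) U X Y Z W, T (a • U) X Y Z W = a * T U X Y Z W
  add1 : ∀ U X X' Y Z W, T U (X + X') Y Z W = T U X Y Z W + T U X' Y Z W
  add2 : ∀ U X Y Y' Z W, T U X (Y + Y') Z W = T U X Y Z W + T U X Y' Z W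
  add3 : ∀ U X Y Z Z' W, T U X Y (Z + Z') W = T U X Y Z W + T U X Y Z' W
  add4 : ∀ U X Y Z W W', T U X Y Z (W + W') = T U X Y Z W + T U X Y Z W'
  smul1 : ∀ (a : 𝒪) U X Y Z W, T U (a • X) Y Z W = a * T U X Y Z W
  smul2 : ∀ (a : 𝒪) U X Y Z W, T U X (a • Y) Z W = a * T U X Y Z W
  smul3 : ∀ (a : 𝒪) U X Y Z W, T U X Y (a • Z) W = a * T U X Y Z W
  smul4 : ∀ (a : 𝒪) U X Y Z W, T U X Y Z (a • W) = a * T U X Y Z W

/-- `𝒪`-multilinearity of a function of six vector fields. -/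
structure IsT6 {𝒪 V : Type*} [CommRing 𝒪] [AddCommGroup V] [Module 𝒪 V]
    (T : V → V → V → V → V → V → 𝒪) : Prop where
  add00 : ∀ S S' U X Y Z W, T (S + S') U X Y Z W = T S U X Y Z W + T S' U X Y Z W
  smul00 : ∀ (a : 𝒪) S U X Y Z W, T (a • S) U X Y Z W = a * T S U X Y Z W
  add0 : ∀ S U U' X Y Z W, T S (U + U') X Y Z W = T S U X Y Z W + T S U' X Y Z W
  smul0 : ∀ (a : 𝒪) S U X Y Z W, T S (a • U) X Y Z W = a * T S U X Y Z W
  add1 : ∀ S U X X' Y Z W, T S U (X + X') Y Z W = T S U X Y Z W + T S U X' Y Z W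
  add2 : ∀ S U X Y Y' Z W, T S U X (Y + Y') Z W = T S U X Y Z W + T S U X Y' Z W
  add3 : ∀ S U X Y Z Z' W, T S U X Y (Z + Z') W = T S U X Y Z W + T S U X Y Z' W
  add4 : ∀ S U X Y Z W W', T S U X Y Z (W + W') = T S U X Y Z W + T S U X Y Z W'
  smul1 : ∀ (a : 𝒪) S U X Y Z W, T S U (a • X) Y Z W = a * T S U X Y Z W
  smul2 : ∀ (a : 𝒪) S U X Y Z W, T S U X (a • Y) Z W = a * T S U X Y Z W
  smul3 : ∀ (a : 𝒪) S U X Y Z W, T S U X Y (a • Z) W = a * T S U X Y Z W
  smul4 : ∀ (a : 𝒪) S U X Y Z W, T S U X Y Z (a • W) = a * T S U X Y Z W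

section
variable {𝒪 V : Type*} [CommRing 𝒪] [AddCommGroup V] [Module 𝒪 V]

namespace IsT4
variable {T : V → V → V → V → 𝒪} (h : IsT4 T)
include h
theorem neg1 (X Y Z W) : T (-X) Y Z W = - T X Y Z W := by
  have := h.smul1 (-1) X Y Z W; simpa only [neg_smul, one_smul, neg_mul, one_mul] using this
theorem neg2 (X Y Z W) : T X (-Y) Z W = - T X Y Z W := by
  have := h.smul2 (-1) X Y Z W; simpa only [neg_smul, one_smul, neg_mul, one_mul] using this
theorem neg3 (X Y Z W) : T X Y (-Z) W = - T X Y Z W := by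
  have := h.smul3 (-1) X Y Z W; simpa using this
theorem neg4 (X Y Z W) : T X Y Z (-W) = - T X Y Z W := by
  have := h.smul4 (-1) X Y Z W; simpa using this
theorem sub1 (X X' Y Z W) : T (X - X') Y Z W = T X Y Z W - T X' Y Z W := by
  rw [sub_eq_add_neg, h.add1, h.neg1]; ring
theorem sub2 (X Y Y' Z W) : T X (Y - Y') Z W = T X Y Z W - T X Y' Z W := by
  rw [sub_eq_add_neg, h.add2, h.neg2]; ring
theorem sub3 (X Y Z Z' W) : T X Y (Z - Z') W = T X Y Z W - T X Y Z' W := by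
  rw [sub_eq_add_neg, h.add3, h.neg3]; ring
theorem sub4 (X Y Z W W') : T X Y Z (W - W') = T X Y Z W - T X Y Z W' := by
  rw [sub_eq_add_neg, h.add4, h.neg4]; ring
end IsT4

namespace IsT5
variable {T : V → V → V → V → V → 𝒪} (h : IsT5 T)
include h
end IsT5

end

namespace LC

variable {𝒪 V : Type*} [CommRing 𝒪] [Algebra ℝ 𝒪] [AddCommGroup V] [Module 𝒪 V] (G : LC 𝒪 V)

theorem D_neg_left (X : V) (f : 𝒪) : G.D (-X) f = - G.D X f := by
  have := G.D_smul_left (-1) X f; simpa only [neg_smul, one_smul, neg_mul, one_mul] using this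

theorem D_sub_left (X Y : V) (f : 𝒪) : G.D (X - Y) f = G.D X f - G.D Y f := by
  rw [sub_eq_add_neg, G.D_add_left, G.D_neg_left]; ring

theorem D_zero (X : V) : G.D X 0 = 0 := by
  have := G.D_add X 0 0
  simpa using this

theorem D_neg (X : V) (f : 𝒪) : G.D X (-f) = - G.D X f := by
  have := G.D_add X f (-f)
  rw [add_neg_cancel, G.D_zero] at this
  exact (neg_eq_of_add_eq_zero_right this.symm).symm

theorem D_sub (X : V) (f h : 𝒪) : G.D X (f - h) = G.D X f - G.D X h := by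
  rw [sub_eq_add_neg, G.D_add, G.D_neg]; ring

theorem g_add_right (X Y Z : V) : G.g X (Y + Z) = G.g X Y + G.g X Z := by
  rw [G.g_symm, G.g_add_left, G.g_symm Y, G.g_symm Z]

theorem g_smul_right (a : 𝒪) (X Y : V) : G.g X (a • Y) = a * G.g X Y := by
  rw [G.g_symm, G.g_smul_left, G.g_symm Y]

theorem g_neg_left (X Y : V) : G.g (-X) Y = - G.g X Y := by
  have := G.g_smul_left (-1) X Y; simpa using this

theorem g_sub_left (X Y Z : V) : G.g (X - Y) Z = G.g X Z - G.g Y Z := by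
  rw [sub_eq_add_neg, G.g_add_left, G.g_neg_left]; ring

theorem nab_neg_left (X Z : V) : G.nab (-X) Z = - G.nab X Z := by
  have := G.nab_smul_left (-1) X Z; simpa using this

theorem nab_sub_left (X Y Z : V) : G.nab (X - Y) Z = G.nab X Z - G.nab Y Z := by
  rw [sub_eq_add_neg, G.nab_add_left, G.nab_neg_left]; abel

theorem nab_zero (X : V) : G.nab X 0 = 0 := by
  have := G.nab_add X 0 0
  simpa using this

theorem nab_neg (X Y : V) : G.nab X (-Y) = - G.nab X Y := by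
  have := G.nab_add X Y (-Y)
  rw [add_neg_cancel, G.nab_zero] at this
  exact (neg_eq_of_add_eq_zero_right this.symm).symm

theorem nab_sub (X Y Z : V) : G.nab X (Y - Z) = G.nab X Y - G.nab X Z := by
  rw [sub_eq_add_neg, G.nab_add, G.nab_neg]; abel

/-- The Lie bracket `[X,Y] = ∇_X Y - ∇_Y X`. -/
def brk (X Y : V) : V := G.nab X Y - G.nab Y X

/-- The curvature operator. -/
def R (X Y Z : V) : V := G.nab X (G.nab Y Z) - G.nab Y (G.nab X Z) - G.nab (G.brk X Y) Z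

/-- The curvature as a function of four vector fields. -/
def Rm (X Y Z W : V) : 𝒪 := G.g (G.R X Y Z) W

/-- Covariant derivative of a 4-tensor. -/
def d1 (T : V → V → V → V → 𝒪) (U X Y Z W : V) : 𝒪 :=
  G.D U (T X Y Z W) - T (G.nab U X) Y Z W - T X (G.nab U Y) Z W - T X Y (G.nab U Z) W
    - T X Y Z (G.nab U W)

/-- Second covariant derivative of a 4-tensor. -/
def d2 (T : V → V → V → V → 𝒪) (S U X Y Z W : V) : 𝒪 :=
  G.D S (G.d1 T U X Y Z W) - G.d1 T (G.nab S U) X Y Z W - G.d1 T U (G.nab S X) Y Z W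
    - G.d1 T U X (G.nab S Y) Z W - G.d1 T U X Y (G.nab S Z) W - G.d1 T U X Y Z (G.nab S W)

theorem brk_add_left (X X' Y : V) : G.brk (X + X') Y = G.brk X Y + G.brk X' Y := by
  simp only [brk, G.nab_add_left, G.nab_add]; abel

theorem brk_smul_left (a : 𝒪) (X Y : V) : G.brk (a • X) Y = a • G.brk X Y - G.D Y a • X := by
  simp only [brk, G.nab_smul_left, G.nab_smul, smul_sub]; abel

theorem brk_anti (X Y : V) : G.brk X Y = - G.brk Y X := by
  simp only [brk]; abel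

theorem D_brk (X Y : V) (f : 𝒪) : G.D (G.brk X Y) f = G.D X (G.D Y f) - G.D Y (G.D X f) :=
  G.comm X Y f

theorem R_add1 (X X' Y Z : V) : G.R (X + X') Y Z = G.R X Y Z + G.R X' Y Z := by
  simp only [R, G.brk_add_left, G.nab_add_left, G.nab_add]; abel

theorem R_anti (X Y Z : V) : G.R X Y Z = - G.R Y X Z := by
  simp only [R, G.brk_anti X Y, G.nab_neg_left]; abel

theorem R_add2 (X Y Y' Z : V) : G.R X (Y + Y') Z = G.R X Y Z + G.R X Y' Z := by
  rw [G.R_anti, G.R_add1, G.R_anti Y, G.R_anti Y']; abel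

theorem R_add3 (X Y Z Z' : V) : G.R X Y (Z + Z') = G.R X Y Z + G.R X Y Z' := by
  simp only [R, G.nab_add]; abel

theorem R_smul1 (a : 𝒪) (X Y Z : V) : G.R (a • X) Y Z = a • G.R X Y Z := by
  simp only [R, G.brk_smul_left, G.nab_smul_left, G.nab_smul, G.nab_sub_left, smul_sub]; abel

theorem R_smul2 (a : 𝒪) (X Y Z : V) : G.R X (a • Y) Z = a • G.R X Y Z := by
  rw [G.R_anti, G.R_smul1, G.R_anti Y X, smul_neg, neg_neg]

theorem R_smul3 (a : 𝒪) (X Y Z : V) : G.R X Y (a • Z) = a • G.R X Y Z := by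
  simp only [R, G.nab_smul, G.nab_add, smul_sub, G.D_brk, sub_smul]
  abel

theorem isT4_Rm : IsT4 G.Rm where
  add1 X X' Y Z W := by simp only [Rm, G.R_add1, G.g_add_left]
  add2 X Y Y' Z W := by simp only [Rm, G.R_add2, G.g_add_left]
  add3 X Y Z Z' W := by simp only [Rm, G.R_add3, G.g_add_left]
  add4 X Y Z W W' := by simp only [Rm, G.g_add_right]
  smul1 a X Y Z W := by simp only [Rm, G.R_smul1, G.g_smul_left]
  smul2 a X Y Z W := by simp only [Rm, G.R_smul2, G.g_smul_left]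
  smul3 a X Y Z W := by simp only [Rm, G.R_smul3, G.g_smul_left]
  smul4 a X Y Z W := by simp only [Rm, G.g_smul_right]

theorem Rm_anti12 (X Y Z W : V) : G.Rm X Y Z W = - G.Rm Y X Z W := by
  simp only [Rm, G.R_anti X Y, G.g_neg_left]

theorem Rm_self34 (X Y Z : V) : G.Rm X Y Z Z = 0 := by
  have h1 := G.D_brk X Y (G.g Z Z)
  simp only [G.metric, G.D_add] at h1
  simp only [Rm, R, G.g_sub_left]
  have e1 := G.g_symm (G.nab X Z) (G.nab Y Z)
  have e2 := G.g_symm (G.nab Y (G.nab X Z)) Z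
  have e3 := G.g_symm (G.nab X (G.nab Y Z)) Z
  have e4 := G.g_symm (G.nab (G.brk X Y) Z) Z
  have h2 : (2 : 𝒪) * (G.g (G.nab X (G.nab Y Z)) Z - G.g (G.nab Y (G.nab X Z)) Z
      - G.g (G.nab (G.brk X Y) Z) Z) = 0 := by
    linear_combination (-1 : 𝒪) * h1 + (-1 : 𝒪) * e2 + e3 - e4 
  have h3 : (algebraMap ℝ 𝒪 2⁻¹) * (2 : 𝒪) = 1 := by
    have : (2 : 𝒪) = algebraMap ℝ 𝒪 2 := (map_ofNat (algebraMap ℝ 𝒪) 2).symm
    rw [this, ← map_mul]; norm_num
  calc _ = ((algebraMap ℝ 𝒪 2⁻¹) * (2 : 𝒪)) * (G.g (G.nab X (G.nab Y Z)) Z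
      - G.g (G.nab Y (G.nab X Z)) Z - G.g (G.nab (G.brk X Y) Z) Z) := by rw [h3, one_mul]
    _ = 0 := by rw [mul_assoc, h2, mul_zero]

theorem Rm_anti34 (X Y Z W : V) : G.Rm X Y Z W = - G.Rm X Y W Z := by
  have h := G.Rm_self34 X Y (Z + W)
  rw [G.isT4_Rm.add3, G.isT4_Rm.add4, G.isT4_Rm.add4, G.Rm_self34, G.Rm_self34] at h
  linear_combination h

theorem R_bianchi (X Y Z : V) : G.R X Y Z + G.R Y Z X + G.R Z X Y = 0 := by
  have h := G.jacobi X Y Z
  simp only [G.nab_sub, G.nab_sub_left] at h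
  simp only [R, brk, G.nab_sub_left]
  rw [← h]; abel

theorem Rm_bianchi (X Y Z W : V) : G.Rm X Y Z W + G.Rm Y Z X W + G.Rm Z X Y W = 0 := by
  simp only [Rm, ← G.g_add_left, G.R_bianchi]
  have := G.g_smul_left 0 0 W
  simpa using this

theorem two_cancel {a : 𝒪} (h : (2 : 𝒪) * a = 0) : a = 0 := by
  have h3 : (algebraMap ℝ 𝒪 2⁻¹) * (2 : 𝒪) = 1 := by
    have : (2 : 𝒪) = algebraMap ℝ 𝒪 2 := (map_ofNat (algebraMap ℝ 𝒪) 2).symm
    rw [this, ← map_mul]; norm_num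
  calc a = ((algebraMap ℝ 𝒪 2⁻¹) * (2 : 𝒪)) * a := by rw [h3, one_mul]
    _ = 0 := by rw [mul_assoc, h, mul_zero]

theorem Rm_pair (X Y Z W : V) : G.Rm X Y Z W = G.Rm Z W X Y := by
  have h1 := G.Rm_bianchi X Y Z W
  have h2 := G.Rm_bianchi Y Z W X
  have h3 := G.Rm_bianchi Z W X Y
  have h4 := G.Rm_bianchi W X Y Z
  have a1 := G.Rm_anti34 X Y Z W
  have a2 := G.Rm_anti34 Y Z X W
  have a3 := G.Rm_anti34 Z X Y W
  have a4 := G.Rm_anti34 Z W Y X
  have a5 := G.Rm_anti34 W Y Z X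
  have a6 := G.Rm_anti34 W X Z Y
  have b3 := G.Rm_anti12 X Z W Y
  have b4 := G.Rm_anti12 Y W X Z
  have key : (2 : 𝒪) * (G.Rm X Y Z W - G.Rm Z W X Y) = 0 := by
    linear_combination h1 + h2 - h3 - h4 - a2 - a3 + b3 - a4 - a5 + b4 + a6 + a1
  exact sub_eq_zero.mp (two_cancel key)

end LC

end Vale.Agent.P211
end
end

section

section

namespace Vale.Agent.P211

namespace LC

variable {𝒪 V : Type*} [CommRing 𝒪] [Algebra ℝ 𝒪] [AddCommGroup V] [Module 𝒪 V] (G : LC 𝒪 V)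

section
variable {T : V → V → V → V → 𝒪}

theorem isT5_d1 (h : IsT4 T) : IsT5 (G.d1 T) where
  add0 U U' X Y Z W := by
    simp only [d1, G.D_add_left, G.nab_add_left, h.add1, h.add2, h.add3, h.add4]; ring
  smul0 a U X Y Z W := by
    simp only [d1, G.D_smul_left, G.nab_smul_left, h.smul1, h.smul2, h.smul3, h.smul4]; ring
  add1 U X X' Y Z W := by simp only [d1, G.D_add, G.nab_add, h.add1]; ring
  add2 U X Y Y' Z W := by simp only [d1, G.D_add, G.nab_add, h.add2]; ring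
  add3 U X Y Z Z' W := by simp only [d1, G.D_add, G.nab_add, h.add3]; ring
  add4 U X Y Z W W' := by simp only [d1, G.D_add, G.nab_add, h.add4]; ring
  smul1 a U X Y Z W := by simp only [d1, G.D_mul, G.nab_smul, h.add1, h.smul1]; ring
  smul2 a U X Y Z W := by simp only [d1, G.D_mul, G.nab_smul, h.add2, h.smul2]; ring
  smul3 a U X Y Z W := by simp only [d1, G.D_mul, G.nab_smul, h.add3, h.smul3]; ring
  smul4 a U X Y Z W := by simp only [d1, G.D_mul, G.nab_smul, h.add4, h.smul4]; ring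

theorem isT6_d2 (hT : IsT4 T) : IsT6 (G.d2 T) := by
  have h := G.isT5_d1 hT
  constructor
  · intros
    simp only [d2, G.D_add_left, G.nab_add_left, h.add0, h.add1, h.add2, h.add3, h.add4]; ring
  · intros
    simp only [d2, G.D_smul_left, G.nab_smul_left, h.smul0, h.smul1, h.smul2, h.smul3, h.smul4]
    ring
  · intros; simp only [d2, G.D_add, G.nab_add, h.add0]; ring
  · intros; simp only [d2, G.D_mul, G.nab_smul, h.add0, h.smul0]; ring
  · intros; simp only [d2, G.D_add, G.nab_add, h.add1]; ring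
  · intros; simp only [d2, G.D_add, G.nab_add, h.add2]; ring
  · intros; simp only [d2, G.D_add, G.nab_add, h.add3]; ring
  · intros; simp only [d2, G.D_add, G.nab_add, h.add4]; ring
  · intros; simp only [d2, G.D_mul, G.nab_smul, h.add1, h.smul1]; ring
  · intros; simp only [d2, G.D_mul, G.nab_smul, h.add2, h.smul2]; ring
  · intros; simp only [d2, G.D_mul, G.nab_smul, h.add3, h.smul3]; ring
  · intros; simp only [d2, G.D_mul, G.nab_smul, h.add4, h.smul4]; ring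

/-- The Ricci identity. -/
theorem ricci_identity (h : IsT4 T) (U S X Y Z W : V) :
    G.d2 T U S X Y Z W - G.d2 T S U X Y Z W =
      - T (G.R U S X) Y Z W - T X (G.R U S Y) Z W - T X Y (G.R U S Z) W
        - T X Y Z (G.R U S W) := by
  have hc := G.comm U S (T X Y Z W)
  rw [G.D_sub_left] at hc
  simp only [d2, d1, R, brk, G.D_sub, G.nab_sub_left, h.sub1, h.sub2, h.sub3, h.sub4]
  linear_combination (-1 : 𝒪) * hc

/-- Expansion of a second derivative of the components of a tensor. -/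
theorem DD_expand (T : V → V → V → V → 𝒪) (U X Y Z W : V) :
    G.D U (G.D U (T X Y Z W)) = G.d2 T U U X Y Z W + G.d1 T (G.nab U U) X Y Z W
      + 2 * (G.d1 T U (G.nab U X) Y Z W + G.d1 T U X (G.nab U Y) Z W
        + G.d1 T U X Y (G.nab U Z) W + G.d1 T U X Y Z (G.nab U W))
      + (T (G.nab U (G.nab U X)) Y Z W + T X (G.nab U (G.nab U Y)) Z W
        + T X Y (G.nab U (G.nab U Z)) W + T X Y Z (G.nab U (G.nab U W)))
      + 2 * (T (G.nab U X) (G.nab U Y) Z W + T (G.nab U X) Y (G.nab U Z) W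
        + T (G.nab U X) Y Z (G.nab U W) + T X (G.nab U Y) (G.nab U Z) W
        + T X (G.nab U Y) Z (G.nab U W) + T X Y (G.nab U Z) (G.nab U W)) := by
  simp only [d2, d1, G.D_sub]
  ring

theorem D_expand (T : V → V → V → V → 𝒪) (U X Y Z W : V) :
    G.D U (T X Y Z W) = G.d1 T U X Y Z W + T (G.nab U X) Y Z W + T X (G.nab U Y) Z W
      + T X Y (G.nab U Z) W + T X Y Z (G.nab U W) := by
  simp only [d1]; ring

end

/-- first covariant derivative of the curvature: symmetries. -/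
theorem d1Rm_anti12 (U X Y Z W : V) : G.d1 G.Rm U X Y Z W = - G.d1 G.Rm U Y X Z W := by
  simp only [d1]
  rw [G.Rm_anti12 X Y Z W, G.Rm_anti12 (G.nab U X) Y Z W, G.Rm_anti12 X (G.nab U Y) Z W,
    G.Rm_anti12 X Y (G.nab U Z) W, G.Rm_anti12 X Y Z (G.nab U W), G.D_neg]
  ring

theorem d1Rm_anti34 (U X Y Z W : V) : G.d1 G.Rm U X Y Z W = - G.d1 G.Rm U X Y W Z := by
  simp only [d1]
  rw [G.Rm_anti34 X Y Z W, G.Rm_anti34 (G.nab U X) Y Z W, G.Rm_anti34 X (G.nab U Y) Z W,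
    G.Rm_anti34 X Y (G.nab U Z) W, G.Rm_anti34 X Y Z (G.nab U W), G.D_neg]
  ring

theorem d1Rm_pair (U X Y Z W : V) : G.d1 G.Rm U X Y Z W = G.d1 G.Rm U Z W X Y := by
  simp only [d1]
  rw [G.Rm_pair X Y Z W, G.Rm_pair (G.nab U X) Y Z W, G.Rm_pair X (G.nab U Y) Z W,
    G.Rm_pair X Y (G.nab U Z) W, G.Rm_pair X Y Z (G.nab U W)]
  ring

theorem d1Rm_bianchi1 (U X Y Z W : V) :
    G.d1 G.Rm U X Y Z W + G.d1 G.Rm U Y Z X W + G.d1 G.Rm U Z X Y W = 0 := by
  simp only [d1]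
  have h0 := congrArg (G.D U) (G.Rm_bianchi X Y Z W)
  rw [G.D_add, G.D_add, G.D_zero] at h0
  have h1 := G.Rm_bianchi (G.nab U X) Y Z W
  have h2 := G.Rm_bianchi X (G.nab U Y) Z W
  have h3 := G.Rm_bianchi X Y (G.nab U Z) W
  have h4 := G.Rm_bianchi X Y Z (G.nab U W)
  linear_combination h0 - h1 - h2 - h3 - h4

/-- the second Bianchi identity. -/
theorem d1Rm_bianchi2 (U X Y Z W : V) :
    G.d1 G.Rm U X Y Z W + G.d1 G.Rm X Y U Z W + G.d1 G.Rm Y U X Z W = 0 := by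
  have e : ∀ U X Y Z W : V, G.d1 G.Rm U X Y Z W =
      G.g (G.nab U (G.R X Y Z) - G.R (G.nab U X) Y Z - G.R X (G.nab U Y) Z
        - G.R X Y (G.nab U Z)) W := by
    intro U X Y Z W
    simp only [d1, Rm, G.metric, G.g_sub_left]; ring
  rw [e, e, e, ← G.g_add_left, ← G.g_add_left]
  have hj : G.nab (G.brk U (G.brk X Y) + G.brk X (G.brk Y U) + G.brk Y (G.brk U X)) Z = 0 := by
    have := G.jacobi U X Y
    simp only [brk]
    rw [this]
    have := G.nab_smul_left 0 0 Z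
    simpa using this
  have key : (G.nab U (G.R X Y Z) - G.R (G.nab U X) Y Z - G.R X (G.nab U Y) Z
        - G.R X Y (G.nab U Z)) + (G.nab X (G.R Y U Z) - G.R (G.nab X Y) U Z - G.R Y (G.nab X U) Z
        - G.R Y U (G.nab X Z)) + (G.nab Y (G.R U X Z) - G.R (G.nab Y U) X Z - G.R U (G.nab Y X) Z
        - G.R U X (G.nab Y Z)) = 0 := by
    rw [← neg_zero, ← hj]
    simp only [R, brk, G.nab_sub, G.nab_sub_left, G.nab_add_left]
    abel
  rw [key]
  have := G.g_smul_left 0 0 W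
  simpa using this

theorem d2Rm_anti12 (S U X Y Z W : V) : G.d2 G.Rm S U X Y Z W = - G.d2 G.Rm S U Y X Z W := by
  simp only [d2]
  rw [G.d1Rm_anti12 U X Y Z W, G.d1Rm_anti12 (G.nab S U) X Y Z W,
    G.d1Rm_anti12 U (G.nab S X) Y Z W, G.d1Rm_anti12 U X (G.nab S Y) Z W,
    G.d1Rm_anti12 U X Y (G.nab S Z) W, G.d1Rm_anti12 U X Y Z (G.nab S W), G.D_neg]
  ring

theorem d2Rm_anti34 (S U X Y Z W : V) : G.d2 G.Rm S U X Y Z W = - G.d2 G.Rm S U X Y W Z := by
  simp only [d2]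
  rw [G.d1Rm_anti34 U X Y Z W, G.d1Rm_anti34 (G.nab S U) X Y Z W,
    G.d1Rm_anti34 U (G.nab S X) Y Z W, G.d1Rm_anti34 U X (G.nab S Y) Z W,
    G.d1Rm_anti34 U X Y (G.nab S Z) W, G.d1Rm_anti34 U X Y Z (G.nab S W), G.D_neg]
  ring

theorem d2Rm_pair (S U X Y Z W : V) : G.d2 G.Rm S U X Y Z W = G.d2 G.Rm S U Z W X Y := by
  simp only [d2]
  rw [G.d1Rm_pair U X Y Z W, G.d1Rm_pair (G.nab S U) X Y Z W,
    G.d1Rm_pair U (G.nab S X) Y Z W, G.d1Rm_pair U X (G.nab S Y) Z W,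
    G.d1Rm_pair U X Y (G.nab S Z) W, G.d1Rm_pair U X Y Z (G.nab S W)]
  ring

theorem d2Rm_bianchi2 (S U X Y Z W : V) :
    G.d2 G.Rm S U X Y Z W + G.d2 G.Rm S X Y U Z W + G.d2 G.Rm S Y U X Z W = 0 := by
  simp only [d2]
  have h0 := congrArg (G.D S) (G.d1Rm_bianchi2 U X Y Z W)
  rw [G.D_add, G.D_add, G.D_zero] at h0
  have h1 := G.d1Rm_bianchi2 (G.nab S U) X Y Z W
  have h2 := G.d1Rm_bianchi2 U (G.nab S X) Y Z W
  have h3 := G.d1Rm_bianchi2 U X (G.nab S Y) Z W
  have h4 := G.d1Rm_bianchi2 U X Y (G.nab S Z) W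
  have h5 := G.d1Rm_bianchi2 U X Y Z (G.nab S W)
  linear_combination h0 - h1 - h2 - h3 - h4 - h5

end LC

end Vale.Agent.P211
end
end

section

section

namespace Vale.Agent.P211

open Topology Filter

/-- Abstract Riemannian geometry of dimension four: the formal calculus together with evaluation
at points. -/
structure Geom (M 𝒪 V : Type*) [TopologicalSpace M] [CommRing 𝒪] [Algebra ℝ 𝒪]
    [AddCommGroup V] [Module 𝒪 V] extends LC 𝒪 V where
  ev : M → 𝒪 →ₐ[ℝ] ℝ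
  ev_cont : ∀ f : 𝒪, Continuous fun p => ev p f
  D_local : ∀ (p : M) (f h : 𝒪), (∀ᶠ q in 𝓝 p, ev q f = ev q h) →
    ∀ X, ev p (D X f) = ev p (D X h)
  min_test : ∀ (p : M) (f : 𝒪), IsLocalMin (fun q => ev q f) p →
    ∀ X, ev p (D X f) = 0 ∧ 0 ≤ ev p (D X (D X f))
  g_nonneg : ∀ p X, 0 ≤ ev p (g X X)
  ptwise : ∀ (p : M) (Φ : V →ₗ[𝒪] 𝒪) (X : V), ev p (g X X) = 0 → ev p (Φ X) = 0
  parseval : ∀ (p : M) (F : Fin 4 → V), (∀ i j, ev p (g (F i) (F j)) = if i = j then 1 else 0) →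
    ∀ Z, ev p (g Z Z) = ∑ i, (ev p (g Z (F i))) ^ 2
  extend : ∀ (p : M) (X Y : V), ev p (g X X) = 1 → ev p (g Y Y) = 1 → ev p (g X Y) = 0 →
    ∃ F : Fin 4 → V, (∀ i j, ev p (g (F i) (F j)) = if i = j then 1 else 0) ∧ F 0 = X ∧ F 1 = Y
  jets : ∀ (p : M) (F : Fin 4 → V), (∀ i j, ev p (g (F i) (F j)) = if i = j then 1 else 0) →
    ∀ c : Fin 4 → ℝ, ∃ f : 𝒪, ev p f = 0 ∧ ∀ i, ev p (D (F i) f) = c i
  sync : ∀ (p : M) (F₀ : Fin 4 → V), (∀ i j, ev p (g (F₀ i) (F₀ j)) = if i = j then 1 else 0) →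
    ∃ F : Fin 4 → V, (∀ᶠ q in 𝓝 p, ∀ i j, ev q (g (F i) (F j)) = if i = j then 1 else 0) ∧
      (∀ i, ev p (g (F i - F₀ i) (F i - F₀ i)) = 0) ∧
      (∀ X i, ev p (g (nab X (F i)) (nab X (F i))) = 0)
  gronwall : ∀ (s : M → ℝ) (C : ℝ), (∀ p, 0 ≤ s p) →
    (∀ p, ∃ ρ κ : 𝒪, (∀ᶠ q in 𝓝 p, |s q - ev q ρ| ≤ ev q κ) ∧ ev p κ = 0 ∧
      ∀ X, |ev p (D X ρ)| ≤ C * s p * Real.sqrt (ev p (g X X))) →
    ∀ p q, s p = 0 → s q = 0

namespace Geom

variable {M 𝒪 V : Type*} [TopologicalSpace M] [CommRing 𝒪] [Algebra ℝ 𝒪]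
    [AddCommGroup V] [Module 𝒪 V] (G : Geom M 𝒪 V)

/-- orthonormality at a point -/
def ON (p : M) (F : Fin 4 → V) : Prop :=
  ∀ i j, G.ev p (G.g (F i) (F j)) = if i = j then 1 else 0

/-- a synchronous orthonormal frame at a point. -/
structure Sync (p : M) (F : Fin 4 → V) : Prop where
  on : ∀ᶠ q in 𝓝 p, G.ON q F
  nab : ∀ X i, G.ev p (G.g (G.nab X (F i)) (G.nab X (F i))) = 0

theorem Sync.at {p : M} {F : Fin 4 → V} (h : G.Sync p F) : G.ON p F := h.on.self_of_nhds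

/-- Expansion of a linear functional in an orthonormal frame. -/
theorem expand {p : M} {F : Fin 4 → V} (hF : G.ON p F) (Φ : V →ₗ[𝒪] 𝒪) (Z : V) :
    G.ev p (Φ Z) = ∑ i, G.ev p (G.g Z (F i)) * G.ev p (Φ (F i)) := by
  have hsumg : ∀ (a : Fin 4 → 𝒪) (W : V), G.g (∑ i, a i • F i) W = ∑ i, a i * G.g (F i) W := by
    intro a W
    simp only [Fin.sum_univ_four, G.g_add_left, G.g_smul_left]
  have h0 : G.ev p (G.g (Z - ∑ i, G.g Z (F i) • F i) (Z - ∑ i, G.g Z (F i) • F i)) = 0 := by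
    rw [G.parseval p F hF]
    apply Finset.sum_eq_zero
    intro i _
    rw [G.g_sub_left, hsumg, map_sub, map_sum]
    simp only [map_mul, hF _ i]
    simp
  have h1 := G.ptwise p Φ _ h0
  rw [map_sub, map_sum, map_sub, map_sum] at h1
  rw [sub_eq_zero.mp h1]
  apply Finset.sum_congr rfl
  intro i _
  rw [map_smul, smul_eq_mul, map_mul]

section slots
variable {T : V → V → V → V → 𝒪} (h : IsT4 T)
include h

theorem exp1 {p : M} {F : Fin 4 → V} (hF : G.ON p F) (X Y Z W : V) :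
    G.ev p (T X Y Z W) = ∑ i, G.ev p (G.g X (F i)) * G.ev p (T (F i) Y Z W) :=
  G.expand hF ⟨⟨fun X => T X Y Z W, fun a b => h.add1 a b Y Z W⟩, fun a b => h.smul1 a b Y Z W⟩ X

theorem exp2 {p : M} {F : Fin 4 → V} (hF : G.ON p F) (X Y Z W : V) :
    G.ev p (T X Y Z W) = ∑ i, G.ev p (G.g Y (F i)) * G.ev p (T X (F i) Z W) :=
  G.expand hF ⟨⟨fun Y => T X Y Z W, fun a b => h.add2 X a b Z W⟩, fun a b => h.smul2 a X b Z W⟩ Y

theorem exp3 {p : M} {F : Fin 4 → V} (hF : G.ON p F) (X Y Z W : V) :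
    G.ev p (T X Y Z W) = ∑ i, G.ev p (G.g Z (F i)) * G.ev p (T X Y (F i) W) :=
  G.expand hF ⟨⟨fun Z => T X Y Z W, fun a b => h.add3 X Y a b W⟩, fun a b => h.smul3 a X Y b W⟩ Z

theorem exp4 {p : M} {F : Fin 4 → V} (hF : G.ON p F) (X Y Z W : V) :
    G.ev p (T X Y Z W) = ∑ i, G.ev p (G.g W (F i)) * G.ev p (T X Y Z (F i)) :=
  G.expand hF ⟨⟨fun W => T X Y Z W, fun a b => h.add4 X Y Z a b⟩, fun a b => h.smul4 a X Y Z b⟩ W

end slots

section slots5
variable {T : V → V → V → V → V → 𝒪} (h : IsT5 T)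
include h

theorem exp5_0 {p : M} {F : Fin 4 → V} (hF : G.ON p F) (U X Y Z W : V) :
    G.ev p (T U X Y Z W) = ∑ i, G.ev p (G.g U (F i)) * G.ev p (T (F i) X Y Z W) :=
  G.expand hF ⟨⟨fun U => T U X Y Z W, fun a b => h.add0 a b X Y Z W⟩,
    fun a b => h.smul0 a b X Y Z W⟩ U

theorem exp5_1 {p : M} {F : Fin 4 → V} (hF : G.ON p F) (U X Y Z W : V) :
    G.ev p (T U X Y Z W) = ∑ i, G.ev p (G.g X (F i)) * G.ev p (T U (F i) Y Z W) :=
  G.expand hF ⟨⟨fun X => T U X Y Z W, fun a b => h.add1 U a b Y Z W⟩,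
    fun a b => h.smul1 a U b Y Z W⟩ X

theorem exp5_2 {p : M} {F : Fin 4 → V} (hF : G.ON p F) (U X Y Z W : V) :
    G.ev p (T U X Y Z W) = ∑ i, G.ev p (G.g Y (F i)) * G.ev p (T U X (F i) Z W) :=
  G.expand hF ⟨⟨fun Y => T U X Y Z W, fun a b => h.add2 U X a b Z W⟩,
    fun a b => h.smul2 a U X b Z W⟩ Y

theorem exp5_3 {p : M} {F : Fin 4 → V} (hF : G.ON p F) (U X Y Z W : V) :
    G.ev p (T U X Y Z W) = ∑ i, G.ev p (G.g Z (F i)) * G.ev p (T U X Y (F i) W) :=
  G.expand hF ⟨⟨fun Z => T U X Y Z W, fun a b => h.add3 U X Y a b W⟩,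
    fun a b => h.smul3 a U X Y b W⟩ Z

theorem exp5_4 {p : M} {F : Fin 4 → V} (hF : G.ON p F) (U X Y Z W : V) :
    G.ev p (T U X Y Z W) = ∑ i, G.ev p (G.g W (F i)) * G.ev p (T U X Y Z (F i)) :=
  G.expand hF ⟨⟨fun W => T U X Y Z W, fun a b => h.add4 U X Y Z a b⟩,
    fun a b => h.smul4 a U X Y Z b⟩ W

end slots5

section slots6
variable {T : V → V → V → V → V → V → 𝒪} (h : IsT6 T)
include h

end slots6

/-- the connection coefficients of a synchronous frame vanish -/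
theorem sync_coeff {p : M} {F : Fin 4 → V} (h : G.Sync p F) (X Y : V) (i : Fin 4) :
    G.ev p (G.g (G.nab X (F i)) Y) = 0 :=
  G.ptwise p ⟨⟨fun Z => G.g Z Y, fun a b => G.g_add_left a b Y⟩,
    fun a b => G.g_smul_left a b Y⟩ _ (h.nab X i)

/-- the Einstein condition -/
def Einstein (lam : ℝ) : Prop :=
  ∀ (p : M) (F : Fin 4 → V), G.ON p F → ∀ Y Z,
    ∑ i, G.ev p (G.Rm (F i) Y Z (F i)) = lam * G.ev p (G.g Y Z)

/-- antisymmetry of connection coefficients of a frame orthonormal near the point -/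
theorem coeff_anti {q : M} {F : Fin 4 → V} (h : ∀ᶠ x in 𝓝 q, G.ON x F) (U : V) (i j : Fin 4) :
    G.ev q (G.g (G.nab U (F i)) (F j)) = - G.ev q (G.g (G.nab U (F j)) (F i)) := by
  have h1 : G.ev q (G.D U (G.g (F i) (F j))) = 0 := by
    have := G.D_local q (G.g (F i) (F j)) (algebraMap ℝ 𝒪 (if i = j then 1 else 0)) (by
      filter_upwards [h] with x hx
      rw [hx i j]; simp) U
    rw [this, G.D_const, map_zero]
  rw [G.metric, map_add, G.g_symm (F i)] at h1
  linarith only [h1]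

/-- trace of the first covariant derivative -/
theorem trace_d1 {lam : ℝ} (hE : G.Einstein lam) {q : M} {F : Fin 4 → V}
    (h : ∀ᶠ x in 𝓝 q, G.ON x F) (U Y Z : V) :
    ∑ i, G.ev q (G.d1 G.Rm U (F i) Y Z (F i)) = 0 := by
  have hq : G.ON q F := h.self_of_nhds
  have h1 := G.D_local q (∑ i, G.Rm (F i) Y Z (F i)) (algebraMap ℝ 𝒪 lam * G.g Y Z) (by
      filter_upwards [h] with x hx
      rw [map_sum, hE x F hx Y Z, map_mul]; simp) U
  have hR := hE q F hq
  have e1 : G.D U (∑ i, G.Rm (F i) Y Z (F i)) = ∑ i, (G.d1 G.Rm U (F i) Y Z (F i)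
      + G.Rm (G.nab U (F i)) Y Z (F i) + G.Rm (F i) (G.nab U Y) Z (F i)
      + G.Rm (F i) Y (G.nab U Z) (F i) + G.Rm (F i) Y Z (G.nab U (F i))) := by
    simp only [Fin.sum_univ_four, G.D_add, G.D_expand G.Rm U]
  rw [e1, G.D_mul, G.D_const, zero_mul, zero_add, G.metric, map_sum] at h1
  simp only [map_add, map_mul, Finset.sum_add_distrib] at h1
  rw [hR (G.nab U Y) Z, hR Y (G.nab U Z)] at h1
  have e2 : ∑ i, G.ev q (G.Rm (G.nab U (F i)) Y Z (F i))
      + ∑ i, G.ev q (G.Rm (F i) Y Z (G.nab U (F i))) = 0 := by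
    have a1 : ∀ i, G.ev q (G.Rm (G.nab U (F i)) Y Z (F i)) =
        ∑ j, G.ev q (G.g (G.nab U (F i)) (F j)) * G.ev q (G.Rm (F j) Y Z (F i)) :=
      fun i => G.exp1 G.isT4_Rm hq _ _ _ _
    have a2 : ∀ i, G.ev q (G.Rm (F i) Y Z (G.nab U (F i))) =
        ∑ j, G.ev q (G.g (G.nab U (F i)) (F j)) * G.ev q (G.Rm (F i) Y Z (F j)) :=
      fun i => G.exp4 G.isT4_Rm hq _ _ _ _
    simp only [a1, a2]
    rw [Finset.sum_comm]
    rw [← Finset.sum_add_distrib]
    apply Finset.sum_eq_zero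
    intro i _
    rw [← Finset.sum_add_distrib]
    apply Finset.sum_eq_zero
    intro j _
    rw [G.coeff_anti h U i j]; ring
  have e3 : G.ev q (algebraMap ℝ 𝒪 lam) = lam := by simp
  rw [e3] at h1
  linarith only [h1, e2]

/-- trace of the second covariant derivative -/
theorem trace_d2 {lam : ℝ} (hE : G.Einstein lam) {p : M} {F : Fin 4 → V}
    (h : G.Sync p F) (S U Y Z : V) :
    ∑ i, G.ev p (G.d2 G.Rm S U (F i) Y Z (F i)) = 0 := by
  have h5 := G.isT5_d1 G.isT4_Rm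
  have hp := h.at
  have h1 := G.D_local p (∑ i, G.d1 G.Rm U (F i) Y Z (F i)) 0 (by
      have := h.on.eventually_nhds
      filter_upwards [this] with x hx
      rw [map_sum, G.trace_d1 hE hx, map_zero]) S
  have e1 : G.D S (∑ i, G.d1 G.Rm U (F i) Y Z (F i)) = ∑ i, (G.d2 G.Rm S U (F i) Y Z (F i)
      + G.d1 G.Rm (G.nab S U) (F i) Y Z (F i)
      + G.d1 G.Rm U (G.nab S (F i)) Y Z (F i) + G.d1 G.Rm U (F i) (G.nab S Y) Z (F i)
      + G.d1 G.Rm U (F i) Y (G.nab S Z) (F i) + G.d1 G.Rm U (F i) Y Z (G.nab S (F i))) := by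
    simp only [Fin.sum_univ_four, G.D_add, LC.d2]
    ring
  rw [e1, G.D_zero, map_zero, map_sum] at h1
  simp only [map_add, Finset.sum_add_distrib] at h1
  rw [G.trace_d1 hE h.on, G.trace_d1 hE h.on, G.trace_d1 hE h.on] at h1
  have e2 : ∀ i, G.ev p (G.d1 G.Rm U (G.nab S (F i)) Y Z (F i)) = 0 := by
    intro i
    rw [G.exp5_1 h5 hp]
    apply Finset.sum_eq_zero
    intro j _
    rw [G.sync_coeff h]; ring
  have e3 : ∀ i, G.ev p (G.d1 G.Rm U (F i) Y Z (G.nab S (F i))) = 0 := by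
    intro i
    rw [G.exp5_4 h5 hp]
    apply Finset.sum_eq_zero
    intro j _
    rw [G.sync_coeff h]; ring
  simp only [e2, e3, Finset.sum_const_zero, add_zero] at h1
  exact h1

end Geom

end Vale.Agent.P211
end
end

section

section

namespace Vale.Agent.P211

open scoped Manifold ContDiff Topology
open Bundle Filter

noncomputable section

variable {E : Type*} [NormedAddCommGroup E] [NormedSpace ℝ E]
  {M : Type*} [TopologicalSpace M] [ChartedSpace E M]

/-- smooth functions -/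
abbrev SF (E M : Type*) [NormedAddCommGroup E] [NormedSpace ℝ E]
  [TopologicalSpace M] [ChartedSpace E M] : Type _ := C^∞⟮𝓘(ℝ, E), M; 𝓘(ℝ), ℝ⟯

/-- smooth vector fields -/
abbrev VF (E M : Type*) [NormedAddCommGroup E] [NormedSpace ℝ E]
  [TopologicalSpace M] [ChartedSpace E M] [IsManifold 𝓘(ℝ, E) ∞ M] : Type _ :=
  Cₛ^∞⟮𝓘(ℝ, E); E, (TangentSpace 𝓘(ℝ, E) : M → Type _)⟯

variable [IsManifold 𝓘(ℝ, E) ∞ M]

/-- multiplication of a vector field by a function -/
def smulVF (f : SF E M) (X : VF E M) : VF E M :=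
  ⟨fun x => f x • X x, f.contMDiff.smul_section X.contMDiff⟩

instance : SMul (SF E M) (VF E M) := ⟨smulVF⟩

theorem smulVF_apply (f : SF E M) (X : VF E M) (x : M) : (f • X) x = f x • X x := rfl

instance : Module (SF E M) (VF E M) where
  one_smul X := by ext x; simp [smulVF_apply]
  mul_smul a b X := by ext x; simp [smulVF_apply, mul_smul]
  smul_zero a := by ext x; simp [smulVF_apply]
  smul_add a X Y := by ext x; simp [smulVF_apply]
  add_smul a b X := by ext x; simp [smulVF_apply, add_smul]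
  zero_smul X := by ext x; simp [smulVF_apply]

/-- directional derivative of a smooth function -/
theorem contMDiff_dir (f : SF E M) (X : VF E M) :
    ContMDiff 𝓘(ℝ, E) 𝓘(ℝ) ∞ (fun x : M => mvfderiv 𝓘(ℝ, E) f x (X x)) := by
  have h1 : ContMDiff 𝓘(ℝ, E).tangent 𝓘(ℝ).tangent ∞ (tangentMap 𝓘(ℝ, E) 𝓘(ℝ) f) :=
    f.contMDiff.contMDiff_tangentMap (by simp)
  have h2 := h1.comp X.contMDiff
  intro x
  have h3 := h2 x
  rw [Function.comp_def] at h3
  have h4 := (contMDiffAt_totalSpace.mp h3).2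
  convert! h4 using 1
  ext y
  simp only [mvfderiv, NormedSpace.fromTangentSpace, ContinuousLinearMap.comp_apply, ContinuousLinearEquiv.coe_coe, ContinuousLinearEquiv.coe_mk, tangentMap, trivializationAt_model_space_apply]
  rfl

/-- derivative of a function along a vector field -/
def DVF (X : VF E M) (f : SF E M) : SF E M :=
  ⟨fun x => mvfderiv 𝓘(ℝ, E) f x (X x), contMDiff_dir f X⟩

theorem DVF_apply (X : VF E M) (f : SF E M) (x : M) :
    DVF X f x = mvfderiv 𝓘(ℝ, E) f x (X x) := rfl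

section metric

variable [RiemannianBundle (fun x : M => TangentSpace 𝓘(ℝ, E) x)]
  [IsContMDiffRiemannianBundle 𝓘(ℝ, E) ∞ E (fun x : M => TangentSpace 𝓘(ℝ, E) x)]

/-- pointwise inner product of vector fields -/
def gVF (X Y : VF E M) : SF E M :=
  ⟨fun x => inner ℝ (X x) (Y x), ContMDiff.inner_bundle X.contMDiff Y.contMDiff⟩

theorem gVF_apply (X Y : VF E M) (x : M) : gVF X Y x = inner ℝ (X x) (Y x) := rfl

end metric

/-- covariant derivative of vector fields -/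
def nabVF (cov : CovariantDerivative 𝓘(ℝ, E) E (TangentSpace 𝓘(ℝ, E) : M → Type _))
    (hcov : cov.ContMDiffCovariantDerivative ∞) (X Y : VF E M) : VF E M :=
  ⟨fun x => cov Y x (X x), by
    have h1 := hcov.contMDiff.contMDiff (σ := Y) (by
      have := Y.contMDiff
      simpa using this.contMDiffOn)
    intro x
    have h2 := (h1 x (Set.mem_univ x)).contMDiffAt Filter.univ_mem
    exact ContMDiffAt.clm_bundle_apply h2 X.contMDiff.contMDiffAt⟩

end

end Vale.Agent.P211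
end
end

section

section

namespace Vale.Agent.P211

open scoped Manifold ContDiff Topology
open Bundle Filter VectorField

set_option linter.unusedSectionVars false

noncomputable section

variable {E : Type*} [NormedAddCommGroup E] [NormedSpace ℝ E] [FiniteDimensional ℝ E]
  {M : Type*} [TopologicalSpace M] [ChartedSpace E M] [IsManifold 𝓘(ℝ, E) ∞ M]

theorem SF.mdiff (f : SF E M) (x : M) : MDifferentiableAt 𝓘(ℝ, E) 𝓘(ℝ) f x :=
  f.contMDiff.mdifferentiableAt (by simp)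

theorem VF.mdiff (X : VF E M) (x : M) :
    MDifferentiableAt 𝓘(ℝ, E) (𝓘(ℝ, E).prod 𝓘(ℝ, E)) (fun x => (⟨x, X x⟩ : TangentBundle 𝓘(ℝ, E) M)) x :=
  X.contMDiff.mdifferentiableAt (by simp)

theorem DVF_add_left (X Y : VF E M) (f : SF E M) : DVF (X + Y) f = DVF X f + DVF Y f := by
  ext x; simp only [DVF_apply, ContMDiffSection.coe_add, Pi.add_apply, map_add, ContMDiffMap.coe_add]

theorem DVF_smul_left (a : SF E M) (X : VF E M) (f : SF E M) : DVF (a • X) f = a * DVF X f := by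
  ext x; simp [DVF_apply, smulVF_apply]

theorem DVF_add (X : VF E M) (f h : SF E M) : DVF X (f + h) = DVF X f + DVF X h := by
  ext x
  simp only [DVF_apply, ContMDiffMap.coe_add, Pi.add_apply]
  rw [mvfderiv_add (f.mdiff x) (h.mdiff x)]
  rfl

theorem DVF_mul (X : VF E M) (f h : SF E M) : DVF X (f * h) = DVF X f * h + f * DVF X h := by
  ext x
  simp only [DVF_apply, ContMDiffMap.coe_add, Pi.add_apply, ContMDiffMap.coe_mul, Pi.mul_apply]
  rw [mvfderiv_mul (f.mdiff x) (h.mdiff x)]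
  simp only [add_apply, smul_apply, smul_eq_mul]
  ring

theorem DVF_const (X : VF E M) (c : ℝ) : DVF X (algebraMap ℝ (SF E M) c) = 0 := by
  ext x
  have : ((algebraMap ℝ (SF E M) c : SF E M) : M → ℝ) = fun _ => c := by
    ext y; simp only [Algebra.algebraMap_eq_smul_one, ContMDiffMap.coe_smul, ContMDiffMap.coe_one, Pi.smul_apply, Pi.one_apply, smul_eq_mul, mul_one]
  simp only [DVF_apply, this, mvfderiv_const]
  simp only [zero_apply, ContMDiffMap.coe_zero, Pi.zero_apply]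

section conn

variable (cov : CovariantDerivative 𝓘(ℝ, E) E (TangentSpace 𝓘(ℝ, E) : M → Type _))
  (hcov : cov.ContMDiffCovariantDerivative ∞)

theorem nabVF_apply (X Y : VF E M) (x : M) : nabVF cov hcov X Y x = cov Y x (X x) := rfl

theorem nabVF_add_left (X Y Z : VF E M) :
    nabVF cov hcov (X + Y) Z = nabVF cov hcov X Z + nabVF cov hcov Y Z := by
  ext x; simp only [nabVF_apply, ContMDiffSection.coe_add, Pi.add_apply, map_add]

theorem nabVF_smul_left (a : SF E M) (X Z : VF E M) :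
    nabVF cov hcov (a • X) Z = a • nabVF cov hcov X Z := by
  ext x; simp [nabVF_apply, smulVF_apply]

theorem nabVF_add (X Y Z : VF E M) :
    nabVF cov hcov X (Y + Z) = nabVF cov hcov X Y + nabVF cov hcov X Z := by
  ext x
  simp only [nabVF_apply, ContMDiffSection.coe_add, Pi.add_apply]
  rw [cov.isCovariantDerivativeOnUniv.add (Y.mdiff x) (Z.mdiff x)]
  rfl

theorem nabVF_smul (a : SF E M) (X Y : VF E M) :
    nabVF cov hcov X (a • Y) = a • nabVF cov hcov X Y + DVF X a • Y := by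
  ext x
  simp only [nabVF_apply, ContMDiffSection.coe_add, Pi.add_apply, smulVF_apply, DVF_apply]
  have := cov.isCovariantDerivativeOnUniv.leibniz (g := a) (Y.mdiff x) (a.mdiff x) (Set.mem_univ x)
  have h2 : ((a • Y : VF E M) : (x : M) → TangentSpace 𝓘(ℝ, E) x) = (a : M → ℝ) • (Y : (x : M) → TangentSpace 𝓘(ℝ, E) x) := by
    ext y; rfl
  rw [h2, this]
  simp

end conn

end

end Vale.Agent.P211
end
end

section

section

namespace Vale.Agent.P211

open scoped Manifold ContDiff Topology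
open Bundle Filter VectorField

set_option linter.unusedSectionVars false

noncomputable section

variable {E : Type*} [NormedAddCommGroup E] [NormedSpace ℝ E] [FiniteDimensional ℝ E]
  {M : Type*} [TopologicalSpace M] [ChartedSpace E M] [IsManifold 𝓘(ℝ, E) ∞ M] [T2Space M]

theorem VF.sum_apply {ι : Type*} (s : Finset ι) (X : ι → VF E M) (x : M) :
    (∑ i ∈ s, X i : VF E M) x = ∑ i ∈ s, X i x := by
  classical
  induction s using Finset.induction_on with
  | empty => simp only [Finset.sum_empty, ContMDiffSection.coe_zero, Pi.zero_apply]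
  | insert a s ha ih =>
    rw [Finset.sum_insert ha, Finset.sum_insert ha, ← ih]; rfl

theorem SF.sum_apply {ι : Type*} (s : Finset ι) (f : ι → SF E M) (x : M) :
    (∑ i ∈ s, f i : SF E M) x = ∑ i ∈ s, f i x := by
  classical
  induction s using Finset.induction_on with
  | empty => simp only [Finset.sum_empty, ContMDiffMap.coe_zero, Pi.zero_apply]
  | insert a s ha ih =>
    rw [Finset.sum_insert ha, Finset.sum_insert ha, ← ih]; rfl

/-- cut off a local section -/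
theorem cut_section {x : M} {U : Set M} (hU : U ∈ 𝓝 x) {σ : Π y : M, TangentSpace 𝓘(ℝ, E) y}
    (hσ : ContMDiffOn 𝓘(ℝ, E) (𝓘(ℝ, E).prod 𝓘(ℝ, E)) ∞
      (fun y => (⟨y, σ y⟩ : TangentBundle 𝓘(ℝ, E) M)) U) :
    ∃ X : VF E M, ∀ᶠ y in 𝓝 x, X y = σ y := by
  obtain ⟨χ, -, hχ⟩ := (SmoothBumpFunction.nhds_basis_tsupport (I := 𝓘(ℝ, E)) x).mem_iff.mp
    (interior_mem_nhds.mpr hU)
  have hs : ContMDiff 𝓘(ℝ, E) (𝓘(ℝ, E).prod 𝓘(ℝ, E)) ∞
      (fun y => (⟨y, χ y • σ y⟩ : TangentBundle 𝓘(ℝ, E) M)) := by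
    refine ContMDiffOn.smul_section_of_tsupport ?_ isOpen_interior hχ
      (hσ.mono interior_subset)
    exact χ.contMDiff.contMDiffOn
  refine ⟨⟨fun y => χ y • σ y, hs⟩, ?_⟩
  filter_upwards [χ.eventuallyEq_one] with y hy
  change χ y • σ y = σ y
  rw [hy]; simp

/-- cut off a local function -/
theorem cut_fun {x : M} {U : Set M} (hU : U ∈ 𝓝 x) {u : M → ℝ}
    (hu : ContMDiffOn 𝓘(ℝ, E) 𝓘(ℝ) ∞ u U) :
    ∃ f : SF E M, ∀ᶠ y in 𝓝 x, f y = u y := by
  obtain ⟨χ, -, hχ⟩ := (SmoothBumpFunction.nhds_basis_tsupport (I := 𝓘(ℝ, E)) x).mem_iff.mp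
    (interior_mem_nhds.mpr hU)
  have hs : ContMDiff 𝓘(ℝ, E) 𝓘(ℝ) ∞ (fun y => χ y * u y) := by
    refine contMDiff_of_tsupport fun y hy => ?_
    have : y ∈ interior U := hχ (tsupport_mul_subset_left hy)
    exact χ.contMDiffAt.mul ((hu y (interior_subset this)).contMDiffAt
      (mem_interior_iff_mem_nhds.mp this))
  refine ⟨⟨fun y => χ y * u y, hs⟩, ?_⟩
  filter_upwards [χ.eventuallyEq_one] with y hy
  change χ y * u y = u y
  rw [hy]; simp

/-- a bump function as an element of the ring of smooth functions, equal to one at `x` and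
vanishing outside a given neighbourhood -/
theorem exists_bump {x : M} {U : Set M} (hU : U ∈ 𝓝 x) :
    ∃ f : SF E M, f x = 1 ∧ ∀ y, y ∉ U → f y = 0 := by
  obtain ⟨χ, -, hχ⟩ := (SmoothBumpFunction.nhds_basis_tsupport (I := 𝓘(ℝ, E)) x).mem_iff.mp hU
  refine ⟨⟨χ, χ.contMDiff⟩, χ.eq_one, fun y hy => ?_⟩
  exact image_eq_zero_of_notMem_tsupport fun h => hy (hχ h)

/-- local frame of global vector fields -/
theorem exists_frame (x : M) : ∃ (S : Fin (Module.finrank ℝ E) → VF E M),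
    (∀ Z : VF E M, ∃ c : Fin (Module.finrank ℝ E) → SF E M,
      (∀ᶠ y in 𝓝 x, Z y = ∑ i, c i y • S i y) ∧ (Z x = 0 → ∀ i, c i x = 0)) ∧
    (∀ v : TangentSpace 𝓘(ℝ, E) x, ∃ a : Fin (Module.finrank ℝ E) → ℝ, v = ∑ i, a i • S i x) := by
  let e := trivializationAt E (TangentSpace 𝓘(ℝ, E) : M → Type _) x
  have hx : x ∈ e.baseSet := FiberBundle.mem_baseSet_trivializationAt' x
  have hN : e.baseSet ∈ 𝓝 x := e.open_baseSet.mem_nhds hx
  let b := Module.finBasis ℝ E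
  have h1 : ∀ i, ∃ X : VF E M, ∀ᶠ y in 𝓝 x, X y = e.localFrame b i y := fun i =>
    cut_section hN (e.contMDiffOn_localFrame_baseSet ∞ b i)
  choose S hS using h1
  have hSx : ∀ i, S i x = e.localFrame b i x := fun i => (hS i).self_of_nhds
  refine ⟨S, ?_, ?_⟩
  · intro Z
    have h2 : ∀ i, ∃ f : SF E M, ∀ᶠ y in 𝓝 x, f y = e.localFrameCoeff 𝓘(ℝ, E) b i y (Z y) :=
      fun i => cut_fun hN (contMDiffOn_baseSet_localFrameCoeff b Z.contMDiff.contMDiffOn i)
    choose c hc using h2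
    refine ⟨c, ?_, ?_⟩
    · filter_upwards [e.eventually_eq_localFrame_sum_coeff_smul (I := 𝓘(ℝ, E)) b (s := Z) hx,
        eventually_all.mpr hS, eventually_all.mpr hc] with y h1 h2 h3
      rw [h1]
      exact Finset.sum_congr rfl fun i _ => by rw [h2 i, h3 i]
    · intro hZ i
      rw [(hc i).self_of_nhds, hZ, map_zero]
  · intro v
    refine ⟨fun i => (e.basisAt b hx).repr v i, ?_⟩
    have := (e.basisAt b hx).sum_repr v
    conv_lhs => rw [← this]
    refine Finset.sum_congr rfl fun i _ => ?_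
    rw [hSx i, e.localFrame_apply_of_mem_baseSet b hx]

/-- extension of tangent vectors to global fields -/
theorem exists_ext (x : M) (v : TangentSpace 𝓘(ℝ, E) x) : ∃ X : VF E M, X x = v := by
  obtain ⟨S, -, h⟩ := exists_frame (E := E) x
  obtain ⟨a, ha⟩ := h v
  refine ⟨∑ i, a i • S i, ?_⟩
  rw [ha, VF.sum_apply]
  rfl

/-- linear maps are local -/
theorem lin_local (Φ : VF E M →ₗ[SF E M] SF E M) {x : M} {Z : VF E M}
    (h : ∀ᶠ y in 𝓝 x, Z y = 0) : Φ Z x = 0 := by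
  obtain ⟨f, hf1, hf0⟩ := exists_bump (E := E) h
  have : f • Z = 0 := by
    ext y
    rw [smulVF_apply]
    by_cases hy : Z y = 0
    · rw [hy]; simp only [smul_zero, ContMDiffSection.coe_zero, Pi.zero_apply]
    · rw [hf0 y hy]; simp only [zero_smul, ContMDiffSection.coe_zero, Pi.zero_apply]
  have h2 : Φ (f • Z) x = f x * Φ Z x := by rw [map_smul]; rfl
  rw [this, map_zero, hf1, one_mul] at h2
  exact h2.symm

/-- linear maps are pointwise -/
theorem lin_ptwise (Φ : VF E M →ₗ[SF E M] SF E M) {x : M} {Z : VF E M}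
    (h : Z x = 0) : Φ Z x = 0 := by
  obtain ⟨S, hS, -⟩ := exists_frame (E := E) x
  obtain ⟨c, hc, hc0⟩ := hS Z
  have h1 : Φ (Z - ∑ i, c i • S i) x = 0 := by
    apply lin_local
    filter_upwards [hc] with y hy
    have : (∑ i, c i • S i : VF E M) y = ∑ i, c i y • S i y := by
      rw [VF.sum_apply]; rfl
    rw [ContMDiffSection.coe_sub, Pi.sub_apply, this, hy, sub_self]
  rw [map_sub, map_sum] at h1
  have h2 : (∑ i, Φ (c i • S i) : SF E M) x = 0 := by
    rw [SF.sum_apply]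
    apply Finset.sum_eq_zero
    intro i _
    rw [map_smul]
    change c i x * Φ (S i) x = 0
    rw [hc0 h i, zero_mul]
  have h3 : (Φ Z - ∑ i, Φ (c i • S i) : SF E M) x = Φ Z x - (∑ i, Φ (c i • S i) : SF E M) x := rfl
  rw [h3, h2, sub_zero] at h1
  exact h1

end

end Vale.Agent.P211
end
end

section

section

namespace Vale.Agent.P211

open scoped Manifold ContDiff Topology
open Bundle Filter VectorField

set_option linter.unusedSectionVars false

noncomputable section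

variable {E : Type*} [NormedAddCommGroup E] [NormedSpace ℝ E] [FiniteDimensional ℝ E]
  {M : Type*} [TopologicalSpace M] [ChartedSpace E M] [IsManifold 𝓘(ℝ, E) ∞ M] [T2Space M]
  [RiemannianBundle (fun x : M => TangentSpace 𝓘(ℝ, E) x)]
  [IsContMDiffRiemannianBundle 𝓘(ℝ, E) ∞ E (fun x : M => TangentSpace 𝓘(ℝ, E) x)]

/-- torsion-free metric smooth connection (bridge form) -/
structure IsLC (cov : CovariantDerivative 𝓘(ℝ, E) E (TangentSpace 𝓘(ℝ, E) : M → Type _)) :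
    Prop where
  smooth : cov.ContMDiffCovariantDerivative ∞
  torsion : ∀ (X Y : VF E M) (x : M),
    cov Y x (X x) - cov X x (Y x) = mlieBracket 𝓘(ℝ, E) X Y x
  metric : ∀ (X Y Z : VF E M) (x : M),
    mvfderiv 𝓘(ℝ, E) (fun y => inner ℝ (Y y) (Z y)) x (X x)
      = inner ℝ (cov Y x (X x)) (Z x) + inner ℝ (Y x) (cov Z x (X x))

variable {cov : CovariantDerivative 𝓘(ℝ, E) E (TangentSpace 𝓘(ℝ, E) : M → Type _)}
  (hcov : IsLC cov)

theorem brk_coe (X Y : VF E M) :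
    ((nabVF cov hcov.smooth X Y - nabVF cov hcov.smooth Y X : VF E M) :
      (x : M) → TangentSpace 𝓘(ℝ, E) x) = mlieBracket 𝓘(ℝ, E) X Y := by
  ext x
  exact hcov.torsion X Y x

theorem jacobi_mlie (X Y Z : VF E M) (x : M) :
    mlieBracket 𝓘(ℝ, E) X (mlieBracket 𝓘(ℝ, E) Y Z) x =
      mlieBracket 𝓘(ℝ, E) (mlieBracket 𝓘(ℝ, E) X Y) Z x
      + mlieBracket 𝓘(ℝ, E) Y (mlieBracket 𝓘(ℝ, E) X Z) x := by
  have : IsManifold 𝓘(ℝ, E) (minSmoothness ℝ 3) M := by
    rw [minSmoothness_of_isRCLikeNormedField]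
    exact IsManifold.of_le (n := ∞) (by norm_cast)
  have h2 : ∀ X : VF E M, ContMDiffAt 𝓘(ℝ, E) (𝓘(ℝ, E).prod 𝓘(ℝ, E)) (minSmoothness ℝ 2)
      (fun y => (⟨y, X y⟩ : TangentBundle 𝓘(ℝ, E) M)) x := by
    intro X
    rw [minSmoothness_of_isRCLikeNormedField]
    exact (X.contMDiff x).of_le (by norm_cast)
  exact leibniz_identity_mlieBracket_apply (h2 X) (h2 Y) (h2 Z)

include hcov in
/-- The bracket acts on functions as a commutator. -/
theorem mlie_fun (X Y : VF E M) (f : SF E M) (x : M) :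
    mvfderiv 𝓘(ℝ, E) f x (mlieBracket 𝓘(ℝ, E) X Y x) = DVF X (DVF Y f) x - DVF Y (DVF X f) x := by
  -- reduce to the existence of a nonvanishing vector
  by_cases hE : ∀ v : TangentSpace 𝓘(ℝ, E) x, v = 0
  · have h1 : mlieBracket 𝓘(ℝ, E) X Y x = 0 := hE _
    have h2 : X x = 0 := hE _
    have h3 : Y x = 0 := hE _
    rw [DVF_apply, DVF_apply, h1, h2, h3]; simp
  push Not at hE
  obtain ⟨v, hv⟩ := hE
  obtain ⟨Z, hZ⟩ := exists_ext (E := E) x v
  have hsm : ∀ (f : SF E M) (W : VF E M), ((f • W : VF E M) : (x : M) → TangentSpace 𝓘(ℝ, E) x)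
      = (f : M → ℝ) • (W : (x : M) → TangentSpace 𝓘(ℝ, E) x) := fun f W => rfl
  -- bracket of smooth fields as smooth fields
  have key : ∀ (f : SF E M) (X Z : VF E M), mlieBracket 𝓘(ℝ, E) X (f • Z : VF E M)
      = ((DVF X f • Z + f • (nabVF cov hcov.smooth X Z - nabVF cov hcov.smooth Z X) : VF E M) :
        (x : M) → TangentSpace 𝓘(ℝ, E) x) := by
    intro f X Z
    ext y
    rw [hsm, mlieBracket_smul_right (f.mdiff y) (Z.mdiff y)]
    change _ = (DVF X f • Z : VF E M) y + (f • (nabVF cov hcov.smooth X Z - nabVF cov hcov.smooth Z X) : VF E M) y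
    rw [smulVF_apply, smulVF_apply, brk_coe hcov X Z, DVF_apply]
  have j1 := jacobi_mlie X Y (f • Z) x
  have j2 := jacobi_mlie X Y Z x
  rw [key f Y Z, key f X Z, ← brk_coe hcov X Y, key f _ Z] at j1
  rw [← brk_coe hcov Y Z, ← brk_coe hcov X Z, ← brk_coe hcov X Y] at j2
  have addr : ∀ (X A B : VF E M), mlieBracket 𝓘(ℝ, E) X (A + B : VF E M) x =
      mlieBracket 𝓘(ℝ, E) X A x + mlieBracket 𝓘(ℝ, E) X B x := by
    intro X A B
    exact mlieBracket_add_right (A.mdiff x) (B.mdiff x)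
  have smulr : ∀ (f : SF E M) (X Z : VF E M), mlieBracket 𝓘(ℝ, E) X (f • Z : VF E M) x =
      DVF X f x • Z x + f x • mlieBracket 𝓘(ℝ, E) X Z x := by
    intro f X Z
    rw [hsm, mlieBracket_smul_right (f.mdiff x) (Z.mdiff x), DVF_apply]
  rw [addr, addr, smulr, smulr, smulr, smulr, j2] at j1
  have c1 : ((DVF (nabVF cov hcov.smooth X Y - nabVF cov hcov.smooth Y X) f • Z
      + f • (nabVF cov hcov.smooth (nabVF cov hcov.smooth X Y - nabVF cov hcov.smooth Y X) Z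
        - nabVF cov hcov.smooth Z (nabVF cov hcov.smooth X Y - nabVF cov hcov.smooth Y X)) :
        VF E M) : (x : M) → TangentSpace 𝓘(ℝ, E) x) x
      = DVF (nabVF cov hcov.smooth X Y - nabVF cov hcov.smooth Y X) f x • Z x
      + f x • mlieBracket 𝓘(ℝ, E) (nabVF cov hcov.smooth X Y - nabVF cov hcov.smooth Y X : VF E M) Z x := by
    rw [← brk_coe hcov _ Z]; rfl
  rw [c1] at j1
  rw [brk_coe hcov X Z, brk_coe hcov Y Z] at j1
  have h3 : (DVF X (DVF Y f) x - DVF Y (DVF X f) x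
      - DVF (nabVF cov hcov.smooth X Y - nabVF cov hcov.smooth Y X) f x) • Z x = 0 := by
    rw [sub_smul, sub_smul]
    rw [smul_add] at j1
    have := sub_eq_zero.mpr j1
    rw [← this]
    abel
  rcases smul_eq_zero.mp h3 with h4 | h4
  · rw [sub_eq_zero] at h4
    rw [h4, DVF_apply, brk_coe hcov X Y]
  · exact absurd (hZ ▸ h4) hv

end

end Vale.Agent.P211
end
end

section

section

namespace Vale.Agent.P211

open scoped Manifold ContDiff Topology
open Bundle Filter VectorField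

set_option linter.unusedSectionVars false

noncomputable section

variable {E : Type*} [NormedAddCommGroup E] [NormedSpace ℝ E] [FiniteDimensional ℝ E]
  {M : Type*} [TopologicalSpace M] [ChartedSpace E M] [IsManifold 𝓘(ℝ, E) ∞ M] [T2Space M]
  [RiemannianBundle (fun x : M => TangentSpace 𝓘(ℝ, E) x)]
  [IsContMDiffRiemannianBundle 𝓘(ℝ, E) ∞ E (fun x : M => TangentSpace 𝓘(ℝ, E) x)]

variable {cov : CovariantDerivative 𝓘(ℝ, E) E (TangentSpace 𝓘(ℝ, E) : M → Type _)}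

theorem jacobi_vf (hcov : IsLC cov) (X Y Z : VF E M) :
    letI n := nabVF cov hcov.smooth
    (n X (n Y Z - n Z Y) - n (n Y Z - n Z Y) X)
    + (n Y (n Z X - n X Z) - n (n Z X - n X Z) Y)
    + (n Z (n X Y - n Y X) - n (n X Y - n Y X) Z) = 0 := by
  let n := nabVF cov hcov.smooth
  change (n X (n Y Z - n Z Y) - n (n Y Z - n Z Y) X)
    + (n Y (n Z X - n X Z) - n (n Z X - n X Z) Y)
    + (n Z (n X Y - n Y X) - n (n X Y - n Y X) Z) = 0
  ext x
  have e : ∀ A B : VF E M, (n A B - n B A : VF E M) x = mlieBracket 𝓘(ℝ, E) A B x := fun A B =>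
    congrFun (brk_coe hcov A B) x
  have e2 : ∀ A B C : VF E M, (n A (n B C - n C B) - n (n B C - n C B) A : VF E M) x
      = mlieBracket 𝓘(ℝ, E) A (mlieBracket 𝓘(ℝ, E) B C) x := by
    intro A B C
    rw [e A (n B C - n C B), brk_coe hcov B C]
  change (n X (n Y Z - n Z Y) - n (n Y Z - n Z Y) X : VF E M) x
    + (n Y (n Z X - n X Z) - n (n Z X - n X Z) Y : VF E M) x
    + (n Z (n X Y - n Y X) - n (n X Y - n Y X) Z : VF E M) x = 0
  rw [e2, e2, e2]
  rw [jacobi_mlie X Y Z x]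
  have s1 : mlieBracket 𝓘(ℝ, E) (mlieBracket 𝓘(ℝ, E) X Y) Z x
      = - mlieBracket 𝓘(ℝ, E) Z (mlieBracket 𝓘(ℝ, E) X Y) x := mlieBracket_swap_apply
  have s2 : mlieBracket 𝓘(ℝ, E) Y (mlieBracket 𝓘(ℝ, E) X Z) x
      = - mlieBracket 𝓘(ℝ, E) Y (mlieBracket 𝓘(ℝ, E) Z X) x := by
    rw [← brk_coe hcov X Z, ← brk_coe hcov Z X]
    have : (n X Z - n Z X : VF E M) = (-1 : SF E M) • (n Z X - n X Z) := by
      rw [neg_one_smul]; abel
    change mlieBracket 𝓘(ℝ, E) Y (n X Z - n Z X : VF E M) x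
      = - mlieBracket 𝓘(ℝ, E) Y (n Z X - n X Z : VF E M) x
    rw [this]
    have h3 : (((-1 : SF E M) • (n Z X - n X Z) : VF E M) : (x : M) → TangentSpace 𝓘(ℝ, E) x)
        = (-1 : ℝ) • ((n Z X - n X Z : VF E M) : (x : M) → TangentSpace 𝓘(ℝ, E) x) := by
      ext y
      simp only [neg_smul, one_smul, neg_sub, ContMDiffSection.coe_sub, Pi.sub_apply, Pi.smul_apply]
    rw [h3, mlieBracket_const_smul_right ((n Z X - n X Z : VF E M).mdiff x)]
    simp only [ContMDiffSection.coe_sub, neg_smul, one_smul]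
  rw [s1, s2]
  abel

/-- the formal calculus of a Riemannian manifold -/
def lcOf (hcov : IsLC cov) : LC (SF E M) (VF E M) where
  D := DVF
  D_add_left := DVF_add_left
  D_smul_left := DVF_smul_left
  D_add := DVF_add
  D_mul := DVF_mul
  D_const := DVF_const
  g := gVF
  g_symm X Y := by ext x; exact real_inner_comm (Y x) (X x)
  g_add_left X Y Z := by ext x; exact inner_add_left (𝕜 := ℝ) (X x) (Y x) (Z x)
  g_smul_left a X Y := by
    ext x
    change inner ℝ (a x • X x) (Y x) = a x * inner ℝ (X x) (Y x)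
    rw [inner_smul_left]; simp
  nab := nabVF cov hcov.smooth
  nab_add_left := nabVF_add_left cov hcov.smooth
  nab_smul_left := nabVF_smul_left cov hcov.smooth
  nab_add := nabVF_add cov hcov.smooth
  nab_smul := nabVF_smul cov hcov.smooth
  metric X Y Z := by ext x; exact hcov.metric X Y Z x
  comm X Y f := by
    ext x
    have := mlie_fun hcov X Y f x
    rw [← brk_coe hcov X Y] at this
    exact this
  jacobi := jacobi_vf hcov

end

end Vale.Agent.P211
end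
end

section

section

namespace Vale.Agent.P211

open scoped Manifold ContDiff Topology
open Bundle Filter VectorField

set_option linter.unusedSectionVars false

noncomputable section

/-- one-dimensional second derivative test -/
theorem second_deriv_test {g g1 : ℝ → ℝ} {c : ℝ} (h : ∀ᶠ t in 𝓝 0, HasDerivAt g (g1 t) t)
    (h1 : HasDerivAt g1 c 0) (hmin : IsLocalMin g 0) : g1 0 = 0 ∧ 0 ≤ c := by
  have h0 : g1 0 = 0 := hmin.hasDerivAt_eq_zero h.self_of_nhds
  refine ⟨h0, ?_⟩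
  by_contra hc
  push Not at hc
  have e1 : deriv g =ᶠ[𝓝 0] g1 := by
    filter_upwards [h] with t ht using ht.deriv
  have e2 : deriv (deriv g) 0 = c := by
    rw [e1.deriv_eq]; exact h1.deriv
  have hmax : IsLocalMax g 0 := isLocalMax_of_deriv_deriv_neg (by rw [e2]; exact hc)
    (by rw [e1.eq_of_nhds]; exact h0) h.self_of_nhds.continuousAt
  have e3 : g =ᶠ[𝓝 0] fun _ => g 0 := by
    filter_upwards [hmin, hmax] with t a b using le_antisymm b a
  have e4 : deriv g =ᶠ[𝓝 0] fun _ => (0 : ℝ) := by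
    have := e3.deriv
    filter_upwards [this] with t ht
    rw [ht]; simp
  have e5 : deriv (deriv g) 0 = 0 := by
    rw [e4.deriv_eq]; simp
  linarith

variable {E : Type*} [NormedAddCommGroup E] [NormedSpace ℝ E] [FiniteDimensional ℝ E]
  {M : Type*} [TopologicalSpace M] [ChartedSpace E M] [IsManifold 𝓘(ℝ, E) ∞ M] [T2Space M]

/-- evaluation at a point -/
def evM (x : M) : SF E M →ₐ[ℝ] ℝ where
  toFun f := f x
  map_one' := rfl
  map_mul' _ _ := rfl
  map_zero' := rfl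
  map_add' _ _ := rfl
  commutes' c := by simp [Algebra.algebraMap_eq_smul_one]

theorem DVF_local (p : M) (f h : SF E M) (hfh : ∀ᶠ q in 𝓝 p, f q = h q) (X : VF E M) :
    DVF X f p = DVF X h p := by
  have : (f : M → ℝ) =ᶠ[𝓝 p] h := hfh
  rw [DVF_apply, DVF_apply, mvfderiv, mvfderiv, this.mfderiv_eq, hfh.self_of_nhds]

/-- derivative along an integral curve -/
theorem hasDerivAt_curve {γ : ℝ → M} {t : ℝ} {X : VF E M}
    (h : HasMFDerivAt 𝓘(ℝ) 𝓘(ℝ, E) γ t ((1 : ℝ →L[ℝ] ℝ).smulRight (X (γ t)))) (f : SF E M) :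
    HasDerivAt (fun s => f (γ s)) (DVF X f (γ t)) t := by
  have h1 := (f.mdiff (γ t)).hasMFDerivAt.comp t h
  rw [hasMFDerivAt_iff_hasFDerivAt] at h1
  rw [hasDerivAt_iff_hasFDerivAt]
  have key : ∀ s : ℝ, (mfderiv 𝓘(ℝ, E) 𝓘(ℝ) f (γ t)) (s • X (γ t)) = s • (DVF X f (γ t) : ℝ) := by
    intro s
    rw [map_smul]
    rfl
  exact HasFDerivAt.congr_fderiv (f' := _) h1 (ContinuousLinearMap.ext key)

theorem min_testVF (p : M) (f : SF E M) (hf : IsLocalMin (fun q => f q) p) (X : VF E M) :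
    DVF X f p = 0 ∧ 0 ≤ DVF X (DVF X f) p := by
  have hX1 : ContMDiffAt 𝓘(ℝ, E) (𝓘(ℝ, E).prod 𝓘(ℝ, E)) 1
      (fun x => (⟨x, X x⟩ : TangentBundle 𝓘(ℝ, E) M)) p :=
    (X.contMDiff p).of_le (by norm_cast)
  have : IsManifold 𝓘(ℝ, E) 1 M := IsManifold.of_le (n := ∞) (by norm_cast)
  obtain ⟨γ, hγ0, hγ⟩ := exists_isMIntegralCurveAt_of_contMDiffAt_boundaryless (t₀ := 0) hX1
  have hcont : ContinuousAt γ 0 := hγ.continuousAt
  have h1 : ∀ᶠ t in 𝓝 (0 : ℝ), HasDerivAt (fun s => f (γ s)) (DVF X f (γ t)) t := by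
    filter_upwards [hγ] with t ht using hasDerivAt_curve ht f
  have h2 : HasDerivAt (fun s => DVF X f (γ s)) (DVF X (DVF X f) (γ 0)) 0 :=
    hasDerivAt_curve hγ.self_of_nhds (DVF X f)
  have h3 : IsLocalMin (fun s => f (γ s)) 0 := by
    have : Tendsto γ (𝓝 0) (𝓝 p) := by rw [← hγ0]; exact hcont
    filter_upwards [this.eventually hf] with s hs
    rw [hγ0]; exact hs
  have h4 := second_deriv_test h1 h2 h3
  rw [hγ0] at h4
  exact h4

end

end Vale.Agent.P211
end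
end

section

section

namespace Vale.Agent.P211

open scoped Manifold ContDiff Topology
open Bundle Filter VectorField

set_option linter.unusedSectionVars false

noncomputable section

variable {E : Type*} [NormedAddCommGroup E] [NormedSpace ℝ E] [FiniteDimensional ℝ E]
  {M : Type*} [TopologicalSpace M] [ChartedSpace E M] [IsManifold 𝓘(ℝ, E) ∞ M] [T2Space M]
  [RiemannianBundle (fun x : M => TangentSpace 𝓘(ℝ, E) x)]
  [IsContMDiffRiemannianBundle 𝓘(ℝ, E) ∞ E (fun x : M => TangentSpace 𝓘(ℝ, E) x)]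

theorem finrank_tangent (hE : Module.finrank ℝ E = 4) (p : M) :
    Module.finrank ℝ (TangentSpace 𝓘(ℝ, E) p) = 4 := hE

theorem parsevalVF (hE : Module.finrank ℝ E = 4) (p : M) (F : Fin 4 → VF E M)
    (hF : ∀ i j, gVF (F i) (F j) p = if i = j then 1 else 0) (Z : VF E M) :
    gVF Z Z p = ∑ i, (gVF Z (F i) p) ^ 2 := by
  have ho : Orthonormal ℝ (fun i => F i p) := by
    rw [orthonormal_iff_ite]
    intro i j
    exact hF i j
  have hcard : Fintype.card (Fin 4) = Module.finrank ℝ (TangentSpace 𝓘(ℝ, E) p) := by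
    rw [finrank_tangent hE]; simp
  have : FiniteDimensional ℝ (TangentSpace 𝓘(ℝ, E) p) :=
    inferInstanceAs (FiniteDimensional ℝ E)
  let b0 := basisOfOrthonormalOfCardEqFinrank ho hcard
  have hb0 : (b0 : Fin 4 → TangentSpace 𝓘(ℝ, E) p) = fun i => F i p :=
    coe_basisOfOrthonormalOfCardEqFinrank ho hcard
  let b : OrthonormalBasis (Fin 4) ℝ (TangentSpace 𝓘(ℝ, E) p) :=
    b0.toOrthonormalBasis (by rw [hb0]; exact ho)
  have hb : ∀ i, b i = F i p := by
    intro i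
    have := b0.coe_toOrthonormalBasis (by rw [hb0]; exact ho)
    rw [show (b : Fin 4 → TangentSpace 𝓘(ℝ, E) p) i = b0 i from congrFun this i, hb0]
  have h1 := b.sum_sq_norm_inner_right (Z p)
  have h2 : gVF Z Z p = ‖Z p‖ ^ 2 := by
    rw [gVF_apply]; exact real_inner_self_eq_norm_sq (Z p)
  rw [h2, ← h1]
  refine Finset.sum_congr rfl fun i _ => ?_
  rw [hb i, gVF_apply, Real.norm_eq_abs, sq_abs, real_inner_comm]

theorem extendVF (hE : Module.finrank ℝ E = 4) (p : M) (X Y : VF E M)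
    (hX : gVF X X p = 1) (hY : gVF Y Y p = 1) (hXY : gVF X Y p = 0) :
    ∃ F : Fin 4 → VF E M, (∀ i j, gVF (F i) (F j) p = if i = j then 1 else 0) ∧ F 0 = X ∧
      F 1 = Y := by
  have hcard : Module.finrank ℝ (TangentSpace 𝓘(ℝ, E) p) = Fintype.card (Fin 4) := by
    rw [finrank_tangent hE]; simp
  have : FiniteDimensional ℝ (TangentSpace 𝓘(ℝ, E) p) :=
    inferInstanceAs (FiniteDimensional ℝ E)
  rw [gVF_apply] at hX hY hXY
  let v : Fin 4 → TangentSpace 𝓘(ℝ, E) p := ![X p, Y p, 0, 0]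
  let s : Set (Fin 4) := {0, 1}
  have hv : Orthonormal ℝ (s.domRestrict v) := by
    rw [orthonormal_iff_ite]
    rintro ⟨i, hi⟩ ⟨j, hj⟩
    have hi' : i = 0 ∨ i = 1 := hi
    have hj' : j = 0 ∨ j = 1 := hj
    rcases hi' with rfl | rfl <;> rcases hj' with rfl | rfl
    · simpa [v, Set.domRestrict] using hX
    · simpa [v, Set.domRestrict] using hXY
    · simpa [v, Set.domRestrict] using (real_inner_comm (X p) (Y p)).trans hXY
    · simpa [v, Set.domRestrict] using hY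
  obtain ⟨b, hb⟩ := hv.exists_orthonormalBasis_extension_of_card_eq hcard
  have hb0 : b 0 = X p := hb 0 (by simp only [Fin.isValue, Set.mem_insert_iff, Set.mem_singleton_iff, zero_ne_one, or_false, s])
  have hb1 : b 1 = Y p := hb 1 (by simp only [Fin.isValue, Set.mem_insert_iff, one_ne_zero, Set.mem_singleton_iff, or_true, s])
  obtain ⟨Z2, hZ2⟩ := exists_ext (E := E) p (b 2)
  obtain ⟨Z3, hZ3⟩ := exists_ext (E := E) p (b 3)
  refine ⟨![X, Y, Z2, Z3], ?_, rfl, rfl⟩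
  have hF : ∀ i, (![X, Y, Z2, Z3] : Fin 4 → VF E M) i p = b i := by
    intro i
    fin_cases i
    · exact hb0.symm
    · exact hb1.symm
    · exact hZ2
    · exact hZ3
  intro i j
  rw [gVF_apply, hF i, hF j]
  exact orthonormal_iff_ite.mp b.orthonormal i j

theorem mfderiv_extChart_self (p : M) :
    (mfderiv 𝓘(ℝ, E) 𝓘(ℝ, E) (extChartAt 𝓘(ℝ, E) p) p : E →L[ℝ] E) =
      ContinuousLinearMap.id ℝ E := by
  have h1 : (mfderiv 𝓘(ℝ, E) 𝓘(ℝ, E) (extChartAt 𝓘(ℝ, E) p) p : E →L[ℝ] E)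
      = tangentCoordChange 𝓘(ℝ, E) p p p :=
    mfderiv_chartAt_eq_tangentCoordChange (mem_chart_source E p)
  rw [h1]
  ext v
  exact tangentCoordChange_self (mem_extChartAt_source p)

theorem jetsVF (p : M) (F : Fin 4 → VF E M)
    (hF : ∀ i j, gVF (F i) (F j) p = if i = j then 1 else 0) (c : Fin 4 → ℝ) :
    ∃ f : SF E M, f p = 0 ∧ ∀ i, DVF (F i) f p = c i := by
  let L0 : TangentSpace 𝓘(ℝ, E) p →ₗ[ℝ] ℝ := ∑ i, c i • (innerSL ℝ (F i p)).toLinearMap
  let L : E →L[ℝ] ℝ := LinearMap.toContinuousLinearMap (𝕜 := ℝ) (E := E) (F' := ℝ) L0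
  have hL : ∀ j, L (F j p) = c j := by
    intro j
    change L0 (F j p) = c j
    simp only [L0, LinearMap.sum_apply, LinearMap.smul_apply]
    have : ∀ i, (innerSL ℝ (F i p)).toLinearMap (F j p) = if i = j then 1 else 0 := fun i => hF i j
    simp only [this]
    simp
  have hU : (chartAt E p).source ∈ 𝓝 p := chart_source_mem_nhds E p
  have hsm : ContMDiffOn 𝓘(ℝ, E) 𝓘(ℝ) ∞
      (fun q => L (extChartAt 𝓘(ℝ, E) p q - extChartAt 𝓘(ℝ, E) p p)) (chartAt E p).source := by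
    have h1 : ContMDiffOn 𝓘(ℝ, E) 𝓘(ℝ, E) ∞ (extChartAt 𝓘(ℝ, E) p) (chartAt E p).source :=
      contMDiffOn_extChartAt
    have h2 : ContDiff ℝ ∞ (fun y : E => L (y - extChartAt 𝓘(ℝ, E) p p)) := by (clear hF hL hU h1; fun_prop)
    exact h2.contMDiff.comp_contMDiffOn h1
  obtain ⟨f, hf⟩ := cut_fun (E := E) hU hsm
  refine ⟨f, ?_, ?_⟩
  · rw [hf.self_of_nhds]; simp
  · intro i
    have e1 : (f : M → ℝ) =ᶠ[𝓝 p] fun q => L (extChartAt 𝓘(ℝ, E) p q - extChartAt 𝓘(ℝ, E) p p) := hf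
    rw [DVF_apply, mvfderiv, e1.mfderiv_eq]
    have hd : HasMFDerivAt 𝓘(ℝ, E) 𝓘(ℝ, E) (extChartAt 𝓘(ℝ, E) p) p
        (mfderiv 𝓘(ℝ, E) 𝓘(ℝ, E) (extChartAt 𝓘(ℝ, E) p) p) :=
      (mdifferentiableAt_extChartAt (mem_chart_source E p)).hasMFDerivAt
    have hd2 : HasFDerivAt (fun y : E => L (y - extChartAt 𝓘(ℝ, E) p p)) L
        (extChartAt 𝓘(ℝ, E) p p) := by
      exact L.hasFDerivAt.comp _ ((hasFDerivAt_id _).sub_const _)
    have hd3 := hd2.hasMFDerivAt.comp p hd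
    have e2 : mfderiv 𝓘(ℝ, E) 𝓘(ℝ) (fun q => L (extChartAt 𝓘(ℝ, E) p q - extChartAt 𝓘(ℝ, E) p p)) p
        = _ := hd3.mfderiv
    rw [e2]
    exact (congrArg (fun A : E →L[ℝ] E => L (A (F i p))) (mfderiv_extChart_self p)).trans (hL i)

end

end Vale.Agent.P211
end
end

section

section

namespace Vale.Agent.P211

open scoped Manifold ContDiff Topology
open Bundle Filter VectorField

set_option linter.unusedSectionVars false

noncomputable section

variable {E : Type*} [NormedAddCommGroup E] [NormedSpace ℝ E] [FiniteDimensional ℝ E]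
  {M : Type*} [TopologicalSpace M] [ChartedSpace E M] [IsManifold 𝓘(ℝ, E) ∞ M] [T2Space M]
  [RiemannianBundle (fun x : M => TangentSpace 𝓘(ℝ, E) x)]
  [IsContMDiffRiemannianBundle 𝓘(ℝ, E) ∞ E (fun x : M => TangentSpace 𝓘(ℝ, E) x)]

variable {cov : CovariantDerivative 𝓘(ℝ, E) E (TangentSpace 𝓘(ℝ, E) : M → Type _)}

theorem gVF_self_eq_zero {X : VF E M} {p : M} : gVF X X p = 0 ↔ X p = 0 := by
  rw [gVF_apply]; exact inner_self_eq_zero

theorem DVF_mul_apply (X : VF E M) (f h : SF E M) (p : M) :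
    DVF X (f * h) p = DVF X f p * h p + f p * DVF X h p := by
  rw [DVF_mul]; rfl

theorem metricVF (hcov : IsLC cov) (X Y Z : VF E M) (p : M) :
    DVF X (gVF Y Z) p = gVF (nabVF cov hcov.smooth X Y) Z p
      + gVF Y (nabVF cov hcov.smooth X Z) p := hcov.metric X Y Z p

theorem nab_smul_apply (hcov : IsLC cov) (X Y : VF E M) (f : SF E M) (p : M) :
    nabVF cov hcov.smooth X (f • Y) p = DVF X f p • Y p
      + f p • nabVF cov hcov.smooth X Y p := by
  rw [nabVF_smul, add_comm]; rfl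

theorem nab_sum_apply (hcov : IsLC cov) {ι : Type*} (s : Finset ι) (X : VF E M)
    (Y : ι → VF E M) (p : M) :
    nabVF cov hcov.smooth X (∑ i ∈ s, Y i) p = ∑ i ∈ s, nabVF cov hcov.smooth X (Y i) p := by
  rw [← VF.sum_apply]
  congr 1
  classical
  induction s using Finset.induction_on with
  | empty =>
    rw [Finset.sum_empty, Finset.sum_empty]
    exact (lcOf hcov).nab_zero X
  | insert a s ha ih =>
    rw [Finset.sum_insert ha, Finset.sum_insert ha, ← ih, nabVF_add]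

theorem exists_isqrt {p : M} (f : SF E M) (hf : f p = 1) :
    ∃ u : SF E M, u p = 1 ∧ ∀ᶠ q in 𝓝 p, u q * u q * f q = 1 := by
  have hU : {q | 0 < f q} ∈ 𝓝 p :=
    (f.contMDiff.continuous.continuousAt).eventually (lt_mem_nhds (by rw [hf]; norm_num))
  have hsm : ContMDiffOn 𝓘(ℝ, E) 𝓘(ℝ) ∞ (fun q => (Real.sqrt (f q))⁻¹) {q | 0 < f q} := by
    intro q hq
    have h1 : ContDiffAt ℝ ∞ (fun t : ℝ => (Real.sqrt t)⁻¹) (f q) :=
      (Real.contDiffAt_sqrt (ne_of_gt hq)).inv (by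
        have : 0 < Real.sqrt (f q) := Real.sqrt_pos.mpr hq
        exact ne_of_gt this)
    exact (h1.contMDiffAt.comp q (f.contMDiff q)).contMDiffWithinAt
  obtain ⟨u, hu⟩ := cut_fun (E := E) hU hsm
  refine ⟨u, ?_, ?_⟩
  · rw [hu.self_of_nhds, hf]; simp
  · filter_upwards [hu, hU] with q h1 h2
    have h2' : 0 < f q := h2
    rw [h1, ← mul_inv, Real.mul_self_sqrt h2'.le]
    exact inv_mul_cancel₀ (ne_of_gt h2')

theorem gs_step (hcov : IsLC cov) (p : M) (n : ℕ) (F : Fin n → VF E M) (G : VF E M)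
    (hF : ∀ᶠ q in 𝓝 p, ∀ i j, gVF (F i) (F j) q = if i = j then 1 else 0)
    (hnF : ∀ X i, nabVF cov hcov.smooth X (F i) p = 0)
    (hG : gVF G G p = 1) (hGF : ∀ i, gVF G (F i) p = 0)
    (hnG : ∀ X, nabVF cov hcov.smooth X G p = 0) :
    ∃ W : VF E M, (∀ᶠ q in 𝓝 p, gVF W W q = 1 ∧ ∀ i, gVF W (F i) q = 0) ∧ W p = G p ∧
      ∀ X, nabVF cov hcov.smooth X W p = 0 := by
  let W₀ : VF E M := G - ∑ i, gVF G (F i) • F i
  have hW₀p : W₀ p = G p := by
    change G p - (∑ i, gVF G (F i) • F i : VF E M) p = G p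
    rw [VF.sum_apply]
    have : ∀ i, (gVF G (F i) • F i : VF E M) p = 0 := by
      intro i
      rw [smulVF_apply, hGF i, zero_smul]
    simp only [this, Finset.sum_const_zero, sub_zero]
  have hD : ∀ X i, DVF X (gVF G (F i)) p = 0 := by
    intro X i
    rw [metricVF hcov, gVF_apply, gVF_apply, hnG, hnF, inner_zero_left, inner_zero_right, add_zero]
  have hnW₀ : ∀ X, nabVF cov hcov.smooth X W₀ p = 0 := by
    intro X
    have : nabVF cov hcov.smooth X W₀ p = nabVF cov hcov.smooth X G p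
        - nabVF cov hcov.smooth X (∑ i, gVF G (F i) • F i) p := by
      have h1 := (lcOf hcov).nab_sub X G (∑ i, gVF G (F i) • F i)
      exact congrArg (fun Z : VF E M => Z p) h1
    rw [this, hnG, nab_sum_apply hcov, zero_sub, neg_eq_zero]
    apply Finset.sum_eq_zero
    intro i _
    rw [nab_smul_apply hcov, hD, hGF, zero_smul, zero_smul, add_zero]
  have horth : ∀ᶠ q in 𝓝 p, ∀ i, gVF W₀ (F i) q = 0 := by
    filter_upwards [hF] with q hq i
    rw [gVF_apply]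
    change inner ℝ (G q - (∑ i, gVF G (F i) • F i : VF E M) q) (F i q) = 0
    rw [VF.sum_apply, inner_sub_left, sum_inner]
    have : ∀ j, inner ℝ ((gVF G (F j) • F j : VF E M) q) (F i q)
        = gVF G (F j) q * (if j = i then 1 else 0) := by
      intro j
      rw [smulVF_apply, inner_smul_left, ← hq j i]; rfl
    simp only [this]
    simp only [gVF_apply, mul_ite, mul_one, mul_zero, Finset.sum_ite_eq', Finset.mem_univ, ↓reduceIte, sub_self]
  have hW₀n : gVF W₀ W₀ p = 1 := by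
    rw [gVF_apply, hW₀p]; exact hG
  obtain ⟨u, hu1, hu⟩ := exists_isqrt (gVF W₀ W₀) hW₀n
  have hDu : ∀ X, DVF X u p = 0 := by
    intro X
    have h1 := DVF_local p (u * u * gVF W₀ W₀) 1 (by
      filter_upwards [hu] with q hq; exact hq) X
    have h2 : DVF X (1 : SF E M) p = 0 := by
      have := (lcOf hcov).D_const X 1
      rw [map_one] at this
      exact congrArg (fun f : SF E M => f p) this
    rw [h2, DVF_mul_apply, DVF_mul_apply, metricVF hcov, hW₀n] at h1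
    rw [gVF_apply, gVF_apply, hnW₀, inner_zero_left, inner_zero_right, hu1] at h1
    linarith
  refine ⟨u • W₀, ?_, ?_, ?_⟩
  · filter_upwards [hu, horth] with q h1 h2
    constructor
    · rw [gVF_apply, smulVF_apply, inner_smul_left, inner_smul_right]
      rw [← h1, gVF_apply]
      simp [mul_assoc]
    · intro i
      have := h2 i
      rw [gVF_apply] at this ⊢
      rw [smulVF_apply, inner_smul_left, this, mul_zero]
  · rw [smulVF_apply, hu1, one_smul, hW₀p]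
  · intro X
    rw [nab_smul_apply hcov, hDu, hnW₀, zero_smul, smul_zero, add_zero]

theorem gs (hcov : IsLC cov) (p : M) (n : ℕ) : ∀ (G : Fin n → VF E M),
    (∀ i j, gVF (G i) (G j) p = if i = j then 1 else 0) →
    (∀ X i, nabVF cov hcov.smooth X (G i) p = 0) →
    ∃ F : Fin n → VF E M, (∀ᶠ q in 𝓝 p, ∀ i j, gVF (F i) (F j) q = if i = j then 1 else 0) ∧
      (∀ i, F i p = G i p) ∧ ∀ X i, nabVF cov hcov.smooth X (F i) p = 0 := by
  induction n with
  | zero =>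
    intro G _ _
    exact ⟨G, Eventually.of_forall fun q i => i.elim0, fun i => i.elim0, fun X i => i.elim0⟩
  | succ n ih =>
    intro G hG hnG
    obtain ⟨F, hF, hFp, hnF⟩ := ih (fun i => G i.castSucc)
      (fun i j => by rw [hG]; simp) (fun X i => hnG X i.castSucc)
    obtain ⟨W, hW, hWp, hnW⟩ := gs_step hcov p n F (G (Fin.last n)) hF hnF
      (by rw [hG]; simp) (fun i => by
        rw [gVF_apply, hFp i, ← gVF_apply, hG]
        simp [Fin.ext_iff, ne_of_gt i.2]) (fun X => hnG X _)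
    refine ⟨Fin.snoc F W, ?_, ?_, ?_⟩
    · filter_upwards [hF, hW] with q h1 h2 i j
      refine Fin.lastCases ?_ (fun i => ?_) i
      · refine Fin.lastCases ?_ (fun j => ?_) j
        · rw [Fin.snoc_last, h2.1]; simp
        · rw [Fin.snoc_last, Fin.snoc_castSucc, h2.2 j]
          simp [Fin.ext_iff, ne_of_gt j.2]
      · refine Fin.lastCases ?_ (fun j => ?_) j
        · rw [Fin.snoc_last, Fin.snoc_castSucc, gVF_apply, real_inner_comm, ← gVF_apply, h2.2 i]
          simp [Fin.ext_iff, ne_of_lt i.2]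
        · rw [Fin.snoc_castSucc, Fin.snoc_castSucc, h1 i j]; simp
    · intro i
      refine Fin.lastCases ?_ (fun i => ?_) i
      · rw [Fin.snoc_last, hWp]
      · rw [Fin.snoc_castSucc, hFp i]
    · intro X i
      refine Fin.lastCases ?_ (fun i => ?_) i
      · rw [Fin.snoc_last, hnW]
      · rw [Fin.snoc_castSucc, hnF]

theorem expandVF (hE : Module.finrank ℝ E = 4) (p : M) (F : Fin 4 → VF E M)
    (hF : ∀ i j, gVF (F i) (F j) p = if i = j then 1 else 0) (Z : VF E M) :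
    Z p = ∑ i, gVF Z (F i) p • F i p := by
  have h := parsevalVF hE p F hF (Z - ∑ i, gVF Z (F i) • F i)
  have h0 : ∀ i, gVF (Z - ∑ i, gVF Z (F i) • F i) (F i) p = 0 := by
    intro i
    rw [gVF_apply]
    change inner ℝ (Z p - (∑ i, gVF Z (F i) • F i : VF E M) p) (F i p) = 0
    rw [VF.sum_apply, inner_sub_left, sum_inner]
    have : ∀ j, inner ℝ ((gVF Z (F j) • F j : VF E M) p) (F i p)
        = gVF Z (F j) p * (if j = i then 1 else 0) := by
      intro j
      rw [smulVF_apply, inner_smul_left, ← hF j i]; rfl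
    simp only [this]
    simp [gVF_apply]
  simp only [h0] at h
  have h1 : (Z - ∑ i, gVF Z (F i) • F i : VF E M) p = 0 := by
    rw [← gVF_self_eq_zero, h]; simp
  change Z p - (∑ i, gVF Z (F i) • F i : VF E M) p = 0 at h1
  rw [VF.sum_apply, sub_eq_zero] at h1
  exact h1

theorem syncVF (hcov : IsLC cov) (hE : Module.finrank ℝ E = 4) (p : M) (F₀ : Fin 4 → VF E M)
    (hF : ∀ i j, gVF (F₀ i) (F₀ j) p = if i = j then 1 else 0) :
    ∃ F : Fin 4 → VF E M, (∀ᶠ q in 𝓝 p, ∀ i j, gVF (F i) (F j) q = if i = j then 1 else 0) ∧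
      (∀ i, F i p = F₀ i p) ∧ ∀ X i, nabVF cov hcov.smooth X (F i) p = 0 := by
  have hj : ∀ i j, ∃ f : SF E M, f p = 0 ∧ ∀ k, DVF (F₀ k) f p =
      gVF (nabVF cov hcov.smooth (F₀ k) (F₀ i)) (F₀ j) p := fun i j =>
    jetsVF p F₀ hF _
  choose h hp hD using hj
  let G : Fin 4 → VF E M := fun i => F₀ i - ∑ j, h i j • F₀ j
  have hGp : ∀ i, G i p = F₀ i p := by
    intro i
    change F₀ i p - (∑ j, h i j • F₀ j : VF E M) p = F₀ i p
    rw [VF.sum_apply]
    have : ∀ j, (h i j • F₀ j : VF E M) p = 0 := by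
      intro j
      rw [smulVF_apply, hp, zero_smul]
    simp [this]
  have hDX : ∀ i j X, DVF X (h i j) p = gVF (nabVF cov hcov.smooth X (F₀ i)) (F₀ j) p := by
    intro i j X
    let Φ : VF E M →ₗ[SF E M] SF E M :=
      ⟨⟨fun X => DVF X (h i j) - gVF (nabVF cov hcov.smooth X (F₀ i)) (F₀ j), fun a b => by
        have e1 := (lcOf hcov).D_add_left a b (h i j)
        have e2 := (lcOf hcov).nab_add_left a b (F₀ i)
        have e3 := (lcOf hcov).g_add_left ((lcOf hcov).nab a (F₀ i)) ((lcOf hcov).nab b (F₀ i)) (F₀ j)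
        rw [← e2] at e3
        change (lcOf hcov).D (a + b) (h i j) - (lcOf hcov).g ((lcOf hcov).nab (a + b) (F₀ i)) (F₀ j)
          = ((lcOf hcov).D a (h i j) - (lcOf hcov).g ((lcOf hcov).nab a (F₀ i)) (F₀ j))
          + ((lcOf hcov).D b (h i j) - (lcOf hcov).g ((lcOf hcov).nab b (F₀ i)) (F₀ j))
        rw [e1, e3]; ring⟩, fun c a => by
        have e1 := (lcOf hcov).D_smul_left c a (h i j)
        have e2 := (lcOf hcov).nab_smul_left c a (F₀ i)
        have e3 := (lcOf hcov).g_smul_left c ((lcOf hcov).nab a (F₀ i)) (F₀ j)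
        rw [← e2] at e3
        change (lcOf hcov).D (c • a) (h i j) - (lcOf hcov).g ((lcOf hcov).nab (c • a) (F₀ i)) (F₀ j)
          = c • ((lcOf hcov).D a (h i j) - (lcOf hcov).g ((lcOf hcov).nab a (F₀ i)) (F₀ j))
        rw [e1, e3, smul_eq_mul]; ring⟩
    have hΦ : ∀ k, Φ (F₀ k) p = 0 := by
      intro k
      change DVF (F₀ k) (h i j) p - gVF (nabVF cov hcov.smooth (F₀ k) (F₀ i)) (F₀ j) p = 0
      rw [hD, sub_self]
    have h1 : Φ (X - ∑ k, gVF X (F₀ k) • F₀ k) p = 0 := by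
      apply lin_ptwise
      change X p - (∑ k, gVF X (F₀ k) • F₀ k : VF E M) p = 0
      rw [VF.sum_apply, sub_eq_zero]
      exact expandVF hE p F₀ hF X
    rw [map_sub, map_sum] at h1
    have h2 : (∑ k, Φ (gVF X (F₀ k) • F₀ k) : SF E M) p = 0 := by
      rw [SF.sum_apply]
      apply Finset.sum_eq_zero
      intro k _
      rw [map_smul]
      change gVF X (F₀ k) p * Φ (F₀ k) p = 0
      rw [hΦ, mul_zero]
    have h3 : Φ X p - (∑ k, Φ (gVF X (F₀ k) • F₀ k) : SF E M) p = 0 := h1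
    rw [h2, sub_zero] at h3
    change DVF X (h i j) p - gVF (nabVF cov hcov.smooth X (F₀ i)) (F₀ j) p = 0 at h3
    (clear hE hF hp hD G hGp Φ hΦ h1 h2; linarith)
  have hnG : ∀ X i, nabVF cov hcov.smooth X (G i) p = 0 := by
    intro X i
    have h1 : nabVF cov hcov.smooth X (G i) p = nabVF cov hcov.smooth X (F₀ i) p
        - nabVF cov hcov.smooth X (∑ j, h i j • F₀ j) p := by
      have h1 := (lcOf hcov).nab_sub X (F₀ i) (∑ j, h i j • F₀ j)
      exact congrArg (fun Z : VF E M => Z p) h1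
    rw [h1, nab_sum_apply hcov, sub_eq_zero]
    conv_lhs => rw [expandVF hE p F₀ hF (nabVF cov hcov.smooth X (F₀ i))]
    refine Finset.sum_congr rfl fun j _ => ?_
    rw [nab_smul_apply hcov, hp, zero_smul, add_zero, hDX]
  obtain ⟨F, h1, h2, h3⟩ := gs hcov p 4 G (fun i j => by
    rw [gVF_apply, hGp, hGp, ← gVF_apply, hF]) hnG
  exact ⟨F, h1, fun i => (h2 i).trans (hGp i), h3⟩

end

end Vale.Agent.P211
end
end

section

section

namespace Vale.Agent.P211

open scoped Manifold ContDiff Topology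
open Bundle Filter VectorField Set

set_option linter.unusedSectionVars false

noncomputable section

variable {E : Type*} [NormedAddCommGroup E] [NormedSpace ℝ E] [FiniteDimensional ℝ E]
  {M : Type*} [TopologicalSpace M] [ChartedSpace E M] [IsManifold 𝓘(ℝ, E) ∞ M] [T2Space M]

/-- straight path in a chart -/
def path (p : M) (v : E) (t : ℝ) : M :=
  (extChartAt 𝓘(ℝ, E) p).symm (extChartAt 𝓘(ℝ, E) p p + t • v)

/-- domain of the path -/
def pathDom (p : M) (v : E) : Set ℝ :=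
  {t | extChartAt 𝓘(ℝ, E) p p + t • v ∈ (extChartAt 𝓘(ℝ, E) p).target}

theorem isOpen_pathDom (p : M) (v : E) : IsOpen (pathDom p v) := by
  have h1 : IsOpen (extChartAt 𝓘(ℝ, E) p).target := isOpen_extChartAt_target p
  exact h1.preimage (by fun_prop)

theorem contMDiffOn_path (p : M) (v : E) :
    ContMDiffOn 𝓘(ℝ) 𝓘(ℝ, E) ∞ (path p v) (pathDom p v) := by
  have h1 : ContMDiffOn 𝓘(ℝ, E) 𝓘(ℝ, E) ∞ (extChartAt 𝓘(ℝ, E) p).symm
      (extChartAt 𝓘(ℝ, E) p).target := contMDiffOn_extChartAt_symm p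
  have h2 : ContDiff ℝ ∞ (fun t : ℝ => extChartAt 𝓘(ℝ, E) p p + t • v) := by fun_prop
  exact h1.comp h2.contMDiff.contMDiffOn fun t ht => ht

/-- velocity of the path -/
def pathVel (p : M) (v : E) (t : ℝ) : TangentSpace 𝓘(ℝ, E) (path p v t) :=
  mfderiv 𝓘(ℝ) 𝓘(ℝ, E) (path p v) t (1 : ℝ)

theorem contMDiffOn_pathVel (p : M) (v : E) :
    ContMDiffOn 𝓘(ℝ) (𝓘(ℝ, E).prod 𝓘(ℝ, E)) 0
      (fun t => (⟨path p v t, pathVel p v t⟩ : TangentBundle 𝓘(ℝ, E) M)) (pathDom p v) := by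
  have h1 := (contMDiffOn_path p v).contMDiffOn_tangentMapWithin (m := 0) (by norm_cast)
    (isOpen_pathDom p v).uniqueMDiffOn
  have h2 : ContMDiff 𝓘(ℝ) (𝓘(ℝ).prod 𝓘(ℝ)) 0
      (fun t : ℝ => (⟨t, (1 : ℝ)⟩ : TangentBundle 𝓘(ℝ) ℝ)) :=
    contMDiff_vectorSpace_iff_contDiff.mpr contDiff_const
  have h3 := h1.comp (h2.contMDiffOn (s := pathDom p v)) (fun t ht => ht)
  refine h3.congr fun t ht => ?_
  rw [Function.comp_apply, tangentMapWithin]
  simp only []
  rw [mfderivWithin_of_isOpen (isOpen_pathDom p v) ht]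
  rfl

/-- fields through the velocity are derivatives -/
theorem hasMFDerivAt_path (p : M) (v : E) {t : ℝ} (ht : t ∈ pathDom p v) (X : VF E M)
    (hX : X (path p v t) = pathVel p v t) :
    HasMFDerivAt 𝓘(ℝ) 𝓘(ℝ, E) (path p v) t ((1 : ℝ →L[ℝ] ℝ).smulRight (X (path p v t))) := by
  have h1 : MDifferentiableAt 𝓘(ℝ) 𝓘(ℝ, E) (path p v) t :=
    ((contMDiffOn_path p v).contMDiffAt ((isOpen_pathDom p v).mem_nhds ht)).mdifferentiableAt
      (by simp)
  have h2 := h1.hasMFDerivAt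
  have e : (1 : ℝ →L[ℝ] ℝ).smulRight (X (path p v t)) = mfderiv 𝓘(ℝ) 𝓘(ℝ, E) (path p v) t := by
    rw [hX]
    refine ContinuousLinearMap.ext_ring ?_
    change (1 : ℝ) • pathVel p v t = pathVel p v t
    rw [one_smul]
  rw [e]
  exact h2

section metric

variable [RiemannianBundle (fun x : M => TangentSpace 𝓘(ℝ, E) x)]
  [IsContMDiffRiemannianBundle 𝓘(ℝ, E) ∞ E (fun x : M => TangentSpace 𝓘(ℝ, E) x)]

theorem continuousOn_speed (p : M) (v : E) :
    ContinuousOn (fun t => inner ℝ (pathVel p v t) (pathVel p v t)) (pathDom p v) := by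
  have h := contMDiffOn_pathVel p v
  have h2 : ContMDiffOn 𝓘(ℝ) 𝓘(ℝ) 0 (fun t => inner ℝ (pathVel p v t) (pathVel p v t))
      (pathDom p v) := ContMDiffOn.inner_bundle h h
  exact h2.continuousOn

theorem gronwall_path (s : M → ℝ) (C : ℝ) (hs : ∀ p, 0 ≤ s p)
    (hbar : ∀ p, ∃ ρ κ : SF E M, (∀ᶠ q in 𝓝 p, |s q - ρ q| ≤ κ q) ∧ κ p = 0 ∧
      ∀ X, |DVF X ρ p| ≤ C * s p * Real.sqrt (gVF X X p))
    (p : M) (v : E) (hv : Icc (0 : ℝ) 1 ⊆ pathDom p v) (hp : s p = 0) :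
    s (path p v 1) = 0 := by
  have h0 : path p v 0 = p := by
    unfold path
    rw [zero_smul, add_zero]
    exact extChartAt_to_inv p
  have hcp : ContinuousOn (path p v) (pathDom p v) := (contMDiffOn_path p v).continuousOn
  obtain ⟨K, hK⟩ := isCompact_Icc.exists_bound_of_continuousOn
    ((continuousOn_speed p v).mono hv)
  have hder : ∀ t ∈ Icc (0 : ℝ) 1, ∃ c, HasDerivAt (fun τ => s (path p v τ)) c t ∧
      |c| ≤ C * s (path p v t) *
        Real.sqrt (inner ℝ (pathVel p v t) (pathVel p v t)) := by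
    intro t ht
    obtain ⟨X, hX⟩ := exists_ext (E := E) (path p v t) (pathVel p v t)
    obtain ⟨ρ, κ, h1, h2, h3⟩ := hbar (path p v t)
    have hm := hasMFDerivAt_path p v (hv ht) X hX
    have hκmin : IsLocalMin (fun q => κ q) (path p v t) := by
      filter_upwards [h1] with q hq
      rw [h2]; exact (abs_nonneg _).trans hq
    have hκ0 : DVF X κ (path p v t) = 0 := (min_testVF _ κ hκmin X).1
    have dρ := hasDerivAt_curve hm ρ
    have dκ := hasDerivAt_curve hm κ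
    rw [hκ0] at dκ
    have hs0 : s (path p v t) = ρ (path p v t) := by
      have := h1.self_of_nhds
      rw [h2] at this
      have := abs_nonpos_iff.mp this
      linarith only [this]
    have hct : Tendsto (path p v) (𝓝 t) (𝓝 (path p v t)) :=
      (hcp t (hv ht)).continuousAt ((isOpen_pathDom p v).mem_nhds (hv ht))
    refine ⟨DVF X ρ (path p v t), ?_, ?_⟩
    · rw [hasDerivAt_iff_isLittleO] at dρ dκ ⊢
      have e1 : (fun τ => s (path p v τ) - ρ (path p v τ)) =o[𝓝 t] fun τ => τ - t := by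
        refine (Asymptotics.IsBigO.of_bound 1 ?_).trans_isLittleO dκ
        filter_upwards [hct.eventually h1] with τ hτ
        rw [Real.norm_eq_abs, Real.norm_eq_abs, h2, smul_zero, sub_zero, sub_zero, one_mul]
        exact hτ.trans (le_abs_self _)
      have e2 := e1.add dρ
      refine e2.congr_left fun τ => ?_
      rw [hs0]; ring
    · have := h3 X
      rw [gVF_apply, hX] at this
      exact this
  choose! c hc using hder
  have hK0 : 0 ≤ K := (norm_nonneg _).trans (hK 0 (by simp only [mem_Icc, Std.le_refl, zero_le_one, and_self]))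
  have hend := eq_zero_of_abs_deriv_le_mul_abs_self_of_eq_zero_right (a := 0) (b := 1)
    (f := fun τ => s (path p v τ)) (f' := c) (K := |C| * Real.sqrt K)
    (fun t ht => (hc t ht).1.continuousAt.continuousWithinAt)
    (fun t ht => (hc t (Ico_subset_Icc_self ht)).1.hasDerivWithinAt)
    (by rw [h0]; exact hp)
    (fun t ht => by
      have ht' := Ico_subset_Icc_self ht
      have h1 := (hc t ht').2
      have h2 : Real.sqrt (inner ℝ (pathVel p v t) (pathVel p v t)) ≤ Real.sqrt K :=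
        Real.sqrt_le_sqrt ((le_abs_self _).trans (hK t ht'))
      have h3 : C * s (path p v t) ≤ |C| * s (path p v t) :=
        mul_le_mul_of_nonneg_right (le_abs_self C) (hs _)
      rw [Real.norm_eq_abs, Real.norm_eq_abs, abs_of_nonneg (hs _)]
      calc |c t| ≤ C * s (path p v t) * Real.sqrt (inner ℝ (pathVel p v t) (pathVel p v t)) := h1
        _ ≤ |C| * s (path p v t) * Real.sqrt (inner ℝ (pathVel p v t) (pathVel p v t)) :=
          mul_le_mul_of_nonneg_right h3 (Real.sqrt_nonneg _)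
        _ ≤ |C| * s (path p v t) * Real.sqrt K :=
          mul_le_mul_of_nonneg_left h2 (mul_nonneg (abs_nonneg _) (hs _))
        _ = |C| * Real.sqrt K * s (path p v t) := by ring)
  exact hend 1 (by simp only [mem_Icc, zero_le_one, Std.le_refl, and_self])

theorem gronwallVF [PreconnectedSpace M] (s : M → ℝ) (C : ℝ) (hs : ∀ p, 0 ≤ s p)
    (hbar : ∀ p, ∃ ρ κ : SF E M, (∀ᶠ q in 𝓝 p, |s q - ρ q| ≤ κ q) ∧ κ p = 0 ∧
      ∀ X, |DVF X ρ p| ≤ C * s p * Real.sqrt (gVF X X p))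
    (p q : M) (hp : s p = 0) : s q = 0 := by
  have hcont : Continuous s := by
    rw [continuous_iff_continuousAt]
    intro p
    obtain ⟨ρ, κ, h1, h2, -⟩ := hbar p
    have hs0 : s p = ρ p := by
      have := h1.self_of_nhds
      rw [h2] at this
      have := abs_nonpos_iff.mp this
      linarith only [this]
    have hκ : Tendsto (fun q => κ q) (𝓝 p) (𝓝 0) := by
      rw [← h2]; exact κ.contMDiff.continuous.continuousAt
    have hρ : Tendsto (fun q => ρ q) (𝓝 p) (𝓝 (ρ p)) := ρ.contMDiff.continuous.continuousAt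
    have h3 : Tendsto (fun q => s q - ρ q) (𝓝 p) (𝓝 0) := by
      refine squeeze_zero_norm' ?_ hκ
      filter_upwards [h1] with q hq using hq
    have h4 := h3.add hρ
    rw [zero_add, ← hs0] at h4
    have h5 : Tendsto s (𝓝 p) (𝓝 (s p)) := by simpa only [sub_add_cancel] using h4
    exact h5
  have hclosed : IsClosed {p | s p = 0} := isClosed_eq hcont continuous_const
  have hopen : IsOpen {p | s p = 0} := by
    rw [isOpen_iff_mem_nhds]
    intro p hp
    have ht : (extChartAt 𝓘(ℝ, E) p).target ∈ 𝓝 (extChartAt 𝓘(ℝ, E) p p) :=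
      extChartAt_target_mem_nhds p
    obtain ⟨r, hr, hball⟩ := Metric.mem_nhds_iff.mp ht
    have h1 : (extChartAt 𝓘(ℝ, E) p).source ∈ 𝓝 p := extChartAt_source_mem_nhds p
    have h2 : ∀ᶠ q in 𝓝 p, extChartAt 𝓘(ℝ, E) p q ∈ Metric.ball (extChartAt 𝓘(ℝ, E) p p) r :=
      (continuousAt_extChartAt p).eventually (Metric.ball_mem_nhds _ hr)
    filter_upwards [h1, h2] with q hq1 hq2
    have hend : path p (extChartAt 𝓘(ℝ, E) p q - extChartAt 𝓘(ℝ, E) p p) 1 = q := by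
      unfold path
      rw [one_smul, add_sub_cancel]
      exact (extChartAt 𝓘(ℝ, E) p).left_inv hq1
    have := gronwall_path s C hs hbar p
      (extChartAt 𝓘(ℝ, E) p q - extChartAt 𝓘(ℝ, E) p p) (fun t ht => by
        apply hball
        rw [Metric.mem_ball, dist_eq_norm, add_sub_cancel_left, norm_smul, Real.norm_eq_abs,
          abs_of_nonneg ht.1]
        rw [Metric.mem_ball, dist_eq_norm] at hq2
        have : t * ‖extChartAt 𝓘(ℝ, E) p q - extChartAt 𝓘(ℝ, E) p p‖ ≤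
            1 * ‖extChartAt 𝓘(ℝ, E) p q - extChartAt 𝓘(ℝ, E) p p‖ :=
          mul_le_mul_of_nonneg_right ht.2 (norm_nonneg _)
        linarith only [hq2, this]) hp
    rw [hend] at this
    exact this
  have huniv := IsClopen.eq_univ ⟨hclosed, hopen⟩ ⟨p, hp⟩
  have : q ∈ {p | s p = 0} := by rw [huniv]; trivial
  exact this

end metric

end

end Vale.Agent.P211
end
end

section

section

namespace Vale.Agent.P211

open scoped Manifold ContDiff Topology
open Bundle Filter VectorField Set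

set_option linter.unusedSectionVars false

noncomputable section

variable {E : Type*} [NormedAddCommGroup E] [NormedSpace ℝ E] [FiniteDimensional ℝ E]
  {M : Type*} [TopologicalSpace M] [ChartedSpace E M] [IsManifold 𝓘(ℝ, E) ∞ M] [T2Space M]
  [RiemannianBundle (fun x : M => TangentSpace 𝓘(ℝ, E) x)]
  [IsContMDiffRiemannianBundle 𝓘(ℝ, E) ∞ E (fun x : M => TangentSpace 𝓘(ℝ, E) x)]

variable {cov : CovariantDerivative 𝓘(ℝ, E) E (TangentSpace 𝓘(ℝ, E) : M → Type _)}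

/-- the geometry of a connected Riemannian four-manifold -/
def geomOf [PreconnectedSpace M] (hcov : IsLC cov) (hE : Module.finrank ℝ E = 4) :
    Geom M (SF E M) (VF E M) where
  toLC := lcOf hcov
  ev := evM
  ev_cont f := f.contMDiff.continuous
  D_local := fun p f h hfh X => DVF_local p f h hfh X
  min_test := fun p f hf X => min_testVF p f hf X
  g_nonneg := fun p X => real_inner_self_nonneg (F := TangentSpace 𝓘(ℝ, E) p) (x := X p)
  ptwise := fun p Φ X h => lin_ptwise Φ (gVF_self_eq_zero.mp h)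
  parseval := fun p F hF Z => parsevalVF hE p F hF Z
  extend := fun p X Y hX hY hXY => extendVF hE p X Y hX hY hXY
  jets := fun p F hF c => jetsVF p F hF c
  sync := fun p F₀ hF => by
    obtain ⟨F, h1, h2, h3⟩ := syncVF hcov hE p F₀ hF
    refine ⟨F, h1, fun i => ?_, fun X i => ?_⟩
    · refine gVF_self_eq_zero.mpr ?_
      change F i p - F₀ i p = 0
      rw [h2, sub_self]
    · exact gVF_self_eq_zero.mpr (h3 X i)
  gronwall := fun s C hs hbar p q hp => gronwallVF s C hs hbar p q hp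

end

end Vale.Agent.P211
end
end

section

section

namespace Vale.Agent.P211

open Topology Filter

namespace LC

variable {𝒪 V : Type*} [CommRing 𝒪] [Algebra ℝ 𝒪] [AddCommGroup V] [Module 𝒪 V] (G : LC 𝒪 V)

/-- the curvature-like tensor of constant curvature one -/
def Gt (X Y Z W : V) : 𝒪 := G.g Y Z * G.g X W - G.g X Z * G.g Y W

theorem isT4_Gt : IsT4 G.Gt := by
  constructor <;> intros <;>
    simp only [Gt, G.g_add_left, G.g_add_right, G.g_smul_left, G.g_smul_right] <;> ring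

theorem d1_Gt (U X Y Z W : V) : G.d1 G.Gt U X Y Z W = 0 := by
  simp only [d1, Gt, G.D_sub, G.D_mul, G.metric]; ring

/-- curvature minus `k` times the constant curvature tensor -/
def Rk (k : ℝ) (X Y Z W : V) : 𝒪 := G.Rm X Y Z W - algebraMap ℝ 𝒪 k * G.Gt X Y Z W

theorem isT4_Rk (k : ℝ) : IsT4 (G.Rk k) := by
  have h1 := G.isT4_Rm
  have h2 := G.isT4_Gt
  constructor <;> intros <;>
    simp only [Rk, h1.add1, h1.add2, h1.add3, h1.add4, h2.add1, h2.add2, h2.add3, h2.add4,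
      h1.smul1, h1.smul2, h1.smul3, h1.smul4, h2.smul1, h2.smul2, h2.smul3, h2.smul4] <;> ring

theorem d1_Rk (k : ℝ) (U X Y Z W : V) : G.d1 (G.Rk k) U X Y Z W = G.d1 G.Rm U X Y Z W := by
  have h := G.d1_Gt U X Y Z W
  simp only [d1] at h ⊢
  simp only [Rk, G.D_sub, G.D_mul, G.D_const]
  linear_combination (-algebraMap ℝ 𝒪 k) * h

theorem d2_Rk (k : ℝ) (S U X Y Z W : V) :
    G.d2 (G.Rk k) S U X Y Z W = G.d2 G.Rm S U X Y Z W := by
  simp only [d2, d1_Rk]

theorem Gt_anti12 (X Y Z W : V) : G.Gt X Y Z W = - G.Gt Y X Z W := by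
  simp only [Gt]; ring

theorem Gt_anti34 (X Y Z W : V) : G.Gt X Y Z W = - G.Gt X Y W Z := by
  simp only [Gt]; ring

theorem Gt_pair (X Y Z W : V) : G.Gt X Y Z W = G.Gt Z W X Y := by
  simp only [Gt]
  rw [G.g_symm Y Z, G.g_symm X W, G.g_symm X Z, G.g_symm Y W]; ring

theorem Rk_anti12 (k : ℝ) (X Y Z W : V) : G.Rk k X Y Z W = - G.Rk k Y X Z W := by
  simp only [Rk]; rw [G.Gt_anti12 X Y, G.Rm_anti12 X Y]; ring

theorem Rk_anti34 (k : ℝ) (X Y Z W : V) : G.Rk k X Y Z W = - G.Rk k X Y W Z := by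
  simp only [Rk]; rw [G.Gt_anti34 X Y Z W, G.Rm_anti34 X Y Z W]; ring

theorem Rk_pair (k : ℝ) (X Y Z W : V) : G.Rk k X Y Z W = G.Rk k Z W X Y := by
  simp only [Rk]; rw [G.Gt_pair X Y, G.Rm_pair X Y]

end LC

namespace Geom

variable {M 𝒪 V : Type*} [TopologicalSpace M] [CommRing 𝒪] [Algebra ℝ 𝒪]
    [AddCommGroup V] [Module 𝒪 V] (G : Geom M 𝒪 V)

/-- two fields agree at a point -/
def Eqv (p : M) (X X' : V) : Prop := G.ev p (G.g (X - X') (X - X')) = 0

theorem Eqv.lin {p : M} {X X' : V} (h : G.Eqv p X X') (Φ : V →ₗ[𝒪] 𝒪) :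
    G.ev p (Φ X) = G.ev p (Φ X') := by
  have := G.ptwise p Φ _ h
  rw [map_sub, map_sub] at this
  exact sub_eq_zero.mp this

theorem Eqv.refl (p : M) (X : V) : G.Eqv p X X := by
  have := G.g_smul_left 0 (X - X) (X - X)
  simp only [Eqv]
  rw [sub_self] at this ⊢
  have h0 : G.g (0 : V) 0 = 0 := by simpa using this
  rw [h0, map_zero]

theorem eqv_of_coeff {p : M} {F : Fin 4 → V} (hF : G.ON p F) {X X' : V}
    (h : ∀ i, G.ev p (G.g X (F i)) = G.ev p (G.g X' (F i))) : G.Eqv p X X' := by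
  simp only [Eqv]
  rw [G.parseval p F hF]
  apply Finset.sum_eq_zero
  intro i _
  rw [G.g_sub_left, map_sub, h i]; ring

section congr
variable {T : V → V → V → V → 𝒪} (h : IsT4 T) {p : M}
include h

theorem congr1 {X X' : V} (e : G.Eqv p X X') (Y Z W : V) :
    G.ev p (T X Y Z W) = G.ev p (T X' Y Z W) :=
  e.lin G ⟨⟨fun X => T X Y Z W, fun a b => h.add1 a b Y Z W⟩, fun a b => h.smul1 a b Y Z W⟩

theorem congr2 {Y Y' : V} (e : G.Eqv p Y Y') (X Z W : V) :
    G.ev p (T X Y Z W) = G.ev p (T X Y' Z W) :=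
  e.lin G ⟨⟨fun Y => T X Y Z W, fun a b => h.add2 X a b Z W⟩, fun a b => h.smul2 a X b Z W⟩

theorem congr3 {Z Z' : V} (e : G.Eqv p Z Z') (X Y W : V) :
    G.ev p (T X Y Z W) = G.ev p (T X Y Z' W) :=
  e.lin G ⟨⟨fun Z => T X Y Z W, fun a b => h.add3 X Y a b W⟩, fun a b => h.smul3 a X Y b W⟩

theorem congr4 {W W' : V} (e : G.Eqv p W W') (X Y Z : V) :
    G.ev p (T X Y Z W) = G.ev p (T X Y Z W') :=
  e.lin G ⟨⟨fun W => T X Y Z W, fun a b => h.add4 X Y Z a b⟩, fun a b => h.smul4 a X Y Z b⟩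

theorem congrAll {X X' Y Y' Z Z' W W' : V} (e1 : G.Eqv p X X') (e2 : G.Eqv p Y Y')
    (e3 : G.Eqv p Z Z') (e4 : G.Eqv p W W') :
    G.ev p (T X Y Z W) = G.ev p (T X' Y' Z' W') := by
  rw [G.congr1 h e1, G.congr2 h e2, G.congr3 h e3, G.congr4 h e4]

end congr

section congr5
variable {T : V → V → V → V → V → 𝒪} (h : IsT5 T) {p : M}
include h

theorem congr5All {U U' X X' Y Y' Z Z' W W' : V} (e0 : G.Eqv p U U') (e1 : G.Eqv p X X')
    (e2 : G.Eqv p Y Y') (e3 : G.Eqv p Z Z') (e4 : G.Eqv p W W') :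
    G.ev p (T U X Y Z W) = G.ev p (T U' X' Y' Z' W') := by
  have s0 : G.ev p (T U X Y Z W) = G.ev p (T U' X Y Z W) :=
    e0.lin G ⟨⟨fun U => T U X Y Z W, fun a b => h.add0 a b X Y Z W⟩,
      fun a b => h.smul0 a b X Y Z W⟩
  have s1 : G.ev p (T U' X Y Z W) = G.ev p (T U' X' Y Z W) :=
    e1.lin G ⟨⟨fun X => T U' X Y Z W, fun a b => h.add1 U' a b Y Z W⟩,
      fun a b => h.smul1 a U' b Y Z W⟩
  have s2 : G.ev p (T U' X' Y Z W) = G.ev p (T U' X' Y' Z W) :=
    e2.lin G ⟨⟨fun Y => T U' X' Y Z W, fun a b => h.add2 U' X' a b Z W⟩,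
      fun a b => h.smul2 a U' X' b Z W⟩
  have s3 : G.ev p (T U' X' Y' Z W) = G.ev p (T U' X' Y' Z' W) :=
    e3.lin G ⟨⟨fun Z => T U' X' Y' Z W, fun a b => h.add3 U' X' Y' a b W⟩,
      fun a b => h.smul3 a U' X' Y' b W⟩
  have s4 : G.ev p (T U' X' Y' Z' W) = G.ev p (T U' X' Y' Z' W') :=
    e4.lin G ⟨⟨fun W => T U' X' Y' Z' W, fun a b => h.add4 U' X' Y' Z' a b⟩,
      fun a b => h.smul4 a U' X' Y' Z' b⟩
  rw [s0, s1, s2, s3, s4]

end congr5

section congr6
variable {T : V → V → V → V → V → V → 𝒪} (h : IsT6 T) {p : M}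
include h

theorem congr6All (S U : V) {X X' Y Y' Z Z' W W' : V} (e1 : G.Eqv p X X')
    (e2 : G.Eqv p Y Y') (e3 : G.Eqv p Z Z') (e4 : G.Eqv p W W') :
    G.ev p (T S U X Y Z W) = G.ev p (T S U X' Y' Z' W') := by
  have s1 : G.ev p (T S U X Y Z W) = G.ev p (T S U X' Y Z W) :=
    e1.lin G ⟨⟨fun X => T S U X Y Z W, fun a b => h.add1 S U a b Y Z W⟩,
      fun a b => h.smul1 a S U b Y Z W⟩
  have s2 : G.ev p (T S U X' Y Z W) = G.ev p (T S U X' Y' Z W) :=
    e2.lin G ⟨⟨fun Y => T S U X' Y Z W, fun a b => h.add2 S U X' a b Z W⟩,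
      fun a b => h.smul2 a S U X' b Z W⟩
  have s3 : G.ev p (T S U X' Y' Z W) = G.ev p (T S U X' Y' Z' W) :=
    e3.lin G ⟨⟨fun Z => T S U X' Y' Z W, fun a b => h.add3 S U X' Y' a b W⟩,
      fun a b => h.smul3 a S U X' Y' b W⟩
  have s4 : G.ev p (T S U X' Y' Z' W) = G.ev p (T S U X' Y' Z' W') :=
    e4.lin G ⟨⟨fun W => T S U X' Y' Z' W, fun a b => h.add4 S U X' Y' Z' a b⟩,
      fun a b => h.smul4 a S U X' Y' Z' b⟩
  rw [s1, s2, s3, s4]

end congr6

/-- sectional curvature bounded below by `k` -/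
def SecGe (k : ℝ) : Prop :=
  ∀ (p : M) (X Y : V), k * (G.ev p (G.g X X) * G.ev p (G.g Y Y) - (G.ev p (G.g X Y)) ^ 2)
    ≤ G.ev p (G.Rm X Y Y X)

variable {G}

theorem SecGe.Rk_nonneg {k : ℝ} (h : G.SecGe k) (p : M) (X Y : V) :
    0 ≤ G.ev p (G.Rk k X Y Y X) := by
  have := h p X Y
  have e3 : G.ev p (algebraMap ℝ 𝒪 k) = k := by simp
  simp only [LC.Rk, LC.Gt, map_sub, map_mul, e3]
  rw [G.g_symm Y X]
  linarith only [this]

theorem lin_zero {a b : ℝ} (h : ∀ t : ℝ, 0 ≤ 2 * a * t + b * t ^ 2) : a = 0 := by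
  have hb := h 1
  have hb' := h (-1)
  have hb0 : 0 ≤ b := by linarith only [hb', hb]
  have := h (-a / (b + 1))
  have hb1 : 0 < b + 1 := by linarith only [hb, hb']
  have e : 2 * a * (-a / (b + 1)) + b * (-a / (b + 1)) ^ 2
      = - (a ^ 2 * (b + 2)) / (b + 1) ^ 2 := by
    field_simp; ring
  rw [e] at this
  have h2 : a ^ 2 * (b + 2) ≤ 0 := by
    by_contra hcon
    push Not at hcon
    have : - (a ^ 2 * (b + 2)) / (b + 1) ^ 2 < 0 := by
      apply div_neg_of_neg_of_pos <;> [linarith only [hcon]; positivity]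
    (clear hb1 e; linarith)
  have h3 : a ^ 2 = 0 := by nlinarith only [hb, hb', h2]
  exact pow_eq_zero_iff (two_ne_zero) |>.mp h3

/-- criticality of a minimal plane, first slot -/
theorem crit1 {k : ℝ} (h : G.SecGe k) {p : M} {A B : V} (h0 : G.ev p (G.Rk k A B B A) = 0)
    (Z : V) : G.ev p (G.Rk k Z B B A) = 0 := by
  have hT := G.isT4_Rk k
  apply lin_zero (b := G.ev p (G.Rk k Z B B Z))
  intro t
  have := h.Rk_nonneg p (A + algebraMap ℝ 𝒪 t • Z) B
  rw [hT.add1, hT.add4, hT.add4, hT.smul1, hT.smul1, hT.smul4, hT.smul4] at this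
  have e : G.Rk k A B B Z = G.Rk k Z B B A := by
    rw [G.Rk_pair k A B B Z, G.Rk_anti12 k B Z, G.Rk_anti34 k Z B A B]; ring
  rw [e] at this
  simp only [map_add, map_mul, AlgHom.commutes, Algebra.algebraMap_self, RingHom.id_apply,
    h0] at this
  nlinarith only [this]

theorem crit4 {k : ℝ} (h : G.SecGe k) {p : M} {A B : V} (h0 : G.ev p (G.Rk k A B B A) = 0)
    (Z : V) : G.ev p (G.Rk k A B B Z) = 0 := by
  have e : G.Rk k A B B Z = G.Rk k Z B B A := by
    rw [G.Rk_pair k A B B Z, G.Rk_anti12 k B Z, G.Rk_anti34 k Z B A B]; ring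
  rw [e]; exact crit1 h h0 Z

theorem crit2 {k : ℝ} (h : G.SecGe k) {p : M} {A B : V} (h0 : G.ev p (G.Rk k A B B A) = 0)
    (Z : V) : G.ev p (G.Rk k A Z B A) = 0 := by
  have h0' : G.ev p (G.Rk k B A A B) = 0 := by
    rw [← h0]; congr 1
    rw [G.Rk_anti12 k B A, G.Rk_anti34 k A B A B]; ring
  have := crit4 h h0' Z
  have e : G.Rk k A Z B A = G.Rk k B A A Z := by
    rw [G.Rk_pair k A Z B A]
  rw [e]; exact this

theorem crit3 {k : ℝ} (h : G.SecGe k) {p : M} {A B : V} (h0 : G.ev p (G.Rk k A B B A) = 0)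
    (Z : V) : G.ev p (G.Rk k A B Z A) = 0 := by
  have := crit2 h h0 Z
  rw [← this]; congr 1
  rw [G.Rk_pair k A B Z A, G.Rk_anti12 k Z A, G.Rk_anti34 k A Z A B]; ring

end Geom

end Vale.Agent.P211
end
end

section

section

namespace Vale.Agent.P211

open Topology Filter

namespace Geom

variable {M 𝒪 V : Type*} [TopologicalSpace M] [CommRing 𝒪] [Algebra ℝ 𝒪]
    [AddCommGroup V] [Module 𝒪 V] (G : Geom M 𝒪 V)

/-- curvature components in a frame -/
def rr (p : M) (F : Fin 4 → V) (i j k l : Fin 4) : ℝ := G.ev p (G.Rm (F i) (F j) (F k) (F l))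

/-- components of the covariant derivative of the curvature -/
def dd (p : M) (F : Fin 4 → V) (m i j k l : Fin 4) : ℝ :=
  G.ev p (G.d1 G.Rm (F m) (F i) (F j) (F k) (F l))

/-- components of the second covariant derivative of the curvature -/
def ss (p : M) (F : Fin 4 → V) (n m i j k l : Fin 4) : ℝ :=
  G.ev p (G.d2 G.Rm (F n) (F m) (F i) (F j) (F k) (F l))

variable {G}

theorem eqv_nabla {p : M} {F : Fin 4 → V} (hS : G.Sync p F) {a b : 𝒪} (ha : G.ev p a = 0)
    (hb : G.ev p b = 0) (U : V) (i j l : Fin 4) :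
    G.Eqv p (G.nab U (F i + a • F j + b • F l))
      (algebraMap ℝ 𝒪 (G.ev p (G.D U a)) • F j + algebraMap ℝ 𝒪 (G.ev p (G.D U b)) • F l) := by
  apply G.eqv_of_coeff hS.at
  intro n
  simp only [G.nab_add, G.nab_smul, G.g_add_left, G.g_smul_left, map_add, map_mul, ha, hb,
    G.sync_coeff hS, AlgHom.commutes, Algebra.algebraMap_self, RingHom.id_apply]
  ring

theorem eqv_val {p : M} {F : Fin 4 → V} (hS : G.Sync p F) {a b : 𝒪} (ha : G.ev p a = 0)
    (hb : G.ev p b = 0) (i j l : Fin 4) :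
    G.Eqv p (F i + a • F j + b • F l) (F i) := by
  apply G.eqv_of_coeff hS.at
  intro n
  simp only [G.g_add_left, G.g_smul_left, map_add, map_mul, ha, hb]
  ring

theorem eqv_nabla_self {p : M} {F : Fin 4 → V} (hS : G.Sync p F) (U : V) (i : Fin 4) :
    G.Eqv p (G.nab U (F i)) 0 := by
  apply G.eqv_of_coeff hS.at
  intro n
  rw [G.sync_coeff hS]
  have := G.g_smul_left 0 0 (F n)
  have h0 : G.g (0 : V) (F n) = 0 := by simpa using this
  rw [h0, map_zero]

/-- second variation at a minimal plane, single direction. -/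
theorem sv_dir {k : ℝ} (hK : G.SecGe k) {p : M} {F : Fin 4 → V}
    (hS : G.Sync p F) (hmin : G.ev p (G.Rk k (F 0) (F 1) (F 1) (F 0)) = 0)
    {a b c d : 𝒪} (ha : G.ev p a = 0) (hb : G.ev p b = 0) (hc : G.ev p c = 0)
    (hd : G.ev p d = 0) (m : Fin 4) :
    G.ev p (G.D (F m) (G.D (F m) (G.Rk k (F 0 + a • F 2 + b • F 3) (F 1 + c • F 2 + d • F 3)
      (F 1 + c • F 2 + d • F 3) (F 0 + a • F 2 + b • F 3)))) =
    G.ss p F m m 0 1 1 0
      + 4 * (G.ev p (G.D (F m) a) * G.dd p F m 2 1 1 0 + G.ev p (G.D (F m) b) * G.dd p F m 3 1 1 0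
        + G.ev p (G.D (F m) c) * G.dd p F m 0 2 1 0 + G.ev p (G.D (F m) d) * G.dd p F m 0 3 1 0)
      + 2 * G.ev p (G.Rk k
          (algebraMap ℝ 𝒪 (G.ev p (G.D (F m) a)) • F 2 + algebraMap ℝ 𝒪 (G.ev p (G.D (F m) b)) • F 3)
          (F 1) (F 1)
          (algebraMap ℝ 𝒪 (G.ev p (G.D (F m) a)) • F 2 + algebraMap ℝ 𝒪 (G.ev p (G.D (F m) b)) • F 3))
      + 2 * G.ev p (G.Rk k (F 0)
          (algebraMap ℝ 𝒪 (G.ev p (G.D (F m) c)) • F 2 + algebraMap ℝ 𝒪 (G.ev p (G.D (F m) d)) • F 3)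
          (algebraMap ℝ 𝒪 (G.ev p (G.D (F m) c)) • F 2 + algebraMap ℝ 𝒪 (G.ev p (G.D (F m) d)) • F 3)
          (F 0))
      + 4 * G.ev p (G.Rk k
          (algebraMap ℝ 𝒪 (G.ev p (G.D (F m) a)) • F 2 + algebraMap ℝ 𝒪 (G.ev p (G.D (F m) b)) • F 3)
          (algebraMap ℝ 𝒪 (G.ev p (G.D (F m) c)) • F 2 + algebraMap ℝ 𝒪 (G.ev p (G.D (F m) d)) • F 3)
          (F 1) (F 0))
      + 4 * G.ev p (G.Rk k
          (algebraMap ℝ 𝒪 (G.ev p (G.D (F m) a)) • F 2 + algebraMap ℝ 𝒪 (G.ev p (G.D (F m) b)) • F 3)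
          (F 1)
          (algebraMap ℝ 𝒪 (G.ev p (G.D (F m) c)) • F 2 + algebraMap ℝ 𝒪 (G.ev p (G.D (F m) d)) • F 3)
          (F 0)) := by
  set X := F 0 + a • F 2 + b • F 3 with hX
  set Y := F 1 + c • F 2 + d • F 3 with hY
  have hT := G.isT4_Rk k
  have hR := G.isT4_Rm
  have h5 := G.isT5_d1 hR
  have h6 := G.isT6_d2 hR
  have eX : G.Eqv p X (F 0) := eqv_val hS ha hb 0 2 3
  have eY : G.Eqv p Y (F 1) := eqv_val hS hc hd 1 2 3
  have nX := eqv_nabla hS ha hb (F m) 0 2 3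
  have nY := eqv_nabla hS hc hd (F m) 1 2 3
  rw [← hX] at nX
  rw [← hY] at nY
  set ξ := algebraMap ℝ 𝒪 (G.ev p (G.D (F m) a)) • F 2
    + algebraMap ℝ 𝒪 (G.ev p (G.D (F m) b)) • F 3 with hξ
  set η := algebraMap ℝ 𝒪 (G.ev p (G.D (F m) c)) • F 2
    + algebraMap ℝ 𝒪 (G.ev p (G.D (F m) d)) • F 3 with hη
  have e2 : (2 : 𝒪) = algebraMap ℝ 𝒪 2 := (map_ofNat (algebraMap ℝ 𝒪) 2).symm
  rw [G.DD_expand]
  simp only [G.d1_Rk, G.d2_Rk, map_add, map_mul, map_ofNat]
  have z0 : G.Eqv p (G.nab (F m) (F m)) 0 := eqv_nabla_self hS (F m) m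
  have er := fun X => Eqv.refl G p X
  rw [G.congr6All h6 _ _ eX eY eY eX]
  rw [G.congr5All h5 z0 eX eY eY eX]
  rw [G.congr5All h5 (er (F m)) nX eY eY eX, G.congr5All h5 (er (F m)) eX nY eY eX,
    G.congr5All h5 (er (F m)) eX eY nY eX, G.congr5All h5 (er (F m)) eX eY eY nX]
  rw [G.congrAll hT (er _) eY eY eX, G.congrAll hT eX (er _) eY eX,
    G.congrAll hT eX eY (er _) eX, G.congrAll hT eX eY eY (er _)]
  rw [crit1 hK hmin, crit2 hK hmin, crit3 hK hmin, crit4 hK hmin]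
  rw [G.congrAll hT nX nY eY eX, G.congrAll hT nX eY nY eX, G.congrAll hT nX eY eY nX,
    G.congrAll hT eX nY nY eX, G.congrAll hT eX nY eY nX, G.congrAll hT eX eY nY nX]
  have hz : G.d1 G.Rm 0 (F 0) (F 1) (F 1) (F 0) = 0 := by
    have := h5.smul0 0 0 (F 0) (F 1) (F 1) (F 0)
    simpa using this
  rw [hz, map_zero]
  -- symmetries
  have q1 : G.Rk k (F 0) (F 1) η ξ = G.Rk k ξ η (F 1) (F 0) := by
    rw [G.Rk_pair k (F 0), G.Rk_anti12 k η, G.Rk_anti34 k ξ η]; ring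
  have q2 : G.Rk k (F 0) η (F 1) ξ = G.Rk k ξ (F 1) η (F 0) := by
    rw [G.Rk_pair k (F 0), G.Rk_anti12 k (F 1), G.Rk_anti34 k ξ (F 1)]; ring
  rw [q1, q2]
  have p1 : G.d1 G.Rm (F m) (F 0) (F 1) (F 1) ξ = G.d1 G.Rm (F m) ξ (F 1) (F 1) (F 0) := by
    rw [G.d1Rm_pair _ (F 0), G.d1Rm_anti12 _ (F 1), G.d1Rm_anti34 _ ξ (F 1)]; ring
  have p2 : G.d1 G.Rm (F m) (F 0) (F 1) η (F 0) = G.d1 G.Rm (F m) (F 0) η (F 1) (F 0) := by
    rw [G.d1Rm_pair _ (F 0), G.d1Rm_anti12 _ η, G.d1Rm_anti34 _ (F 0) η]; ring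
  rw [p1, p2]
  have l1 : G.ev p (G.d1 G.Rm (F m) ξ (F 1) (F 1) (F 0)) =
      G.ev p (G.D (F m) a) * G.dd p F m 2 1 1 0 + G.ev p (G.D (F m) b) * G.dd p F m 3 1 1 0 := by
    rw [hξ, h5.add1, h5.smul1, h5.smul1, map_add, map_mul, map_mul, AlgHom.commutes,
      AlgHom.commutes]
    simp only [Algebra.algebraMap_self, RingHom.id_apply, dd]
  have l2 : G.ev p (G.d1 G.Rm (F m) (F 0) η (F 1) (F 0)) =
      G.ev p (G.D (F m) c) * G.dd p F m 0 2 1 0 + G.ev p (G.D (F m) d) * G.dd p F m 0 3 1 0 := by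
    rw [hη, h5.add2, h5.smul2, h5.smul2, map_add, map_mul, map_mul, AlgHom.commutes,
      AlgHom.commutes]
    simp only [Algebra.algebraMap_self, RingHom.id_apply, dd]
  rw [l1, l2]
  simp only [ss]
  ring

/-- components of `Rk` in an orthonormal frame -/
theorem Rk_comp (k : ℝ) {p : M} {F : Fin 4 → V} (hF : G.ON p F) (i j l n : Fin 4) :
    G.ev p (G.Rk k (F i) (F j) (F l) (F n)) = G.rr p F i j l n
      - k * ((if j = l then 1 else 0) * (if i = n then 1 else 0)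
        - (if i = l then 1 else 0) * (if j = n then 1 else 0)) := by
  simp only [LC.Rk, LC.Gt, map_sub, map_mul, hF _ _, AlgHom.commutes, Algebra.algebraMap_self,
    RingHom.id_apply, rr]

/-- The second variation inequality at a minimal plane. -/
theorem second_variation {k : ℝ} (hK : G.SecGe k) {p : M} {F : Fin 4 → V}
    (hS : G.Sync p F) (hmin : G.rr p F 0 1 1 0 = k) (α β γ δ : Fin 4 → ℝ) :
    0 ≤ ∑ m, (G.ss p F m m 0 1 1 0
      + 4 * (α m * G.dd p F m 2 1 1 0 + β m * G.dd p F m 3 1 1 0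
        + γ m * G.dd p F m 0 2 1 0 + δ m * G.dd p F m 0 3 1 0)
      + 2 * (α m ^ 2 * G.rr p F 2 1 1 2 + 2 * (α m * β m) * G.rr p F 2 1 1 3
        + β m ^ 2 * G.rr p F 3 1 1 3 + γ m ^ 2 * G.rr p F 0 2 2 0
        + 2 * (γ m * δ m) * G.rr p F 0 2 3 0 + δ m ^ 2 * G.rr p F 0 3 3 0
        + 2 * (α m * δ m - β m * γ m) * G.rr p F 2 3 1 0
        + 2 * (α m * γ m * G.rr p F 2 1 2 0 + α m * δ m * G.rr p F 2 1 3 0
          + β m * γ m * G.rr p F 3 1 2 0 + β m * δ m * G.rr p F 3 1 3 0)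
        - k * (α m ^ 2 + β m ^ 2 + γ m ^ 2 + δ m ^ 2))) := by
  have hON := hS.at
  have hT := G.isT4_Rk k
  have hmin' : G.ev p (G.Rk k (F 0) (F 1) (F 1) (F 0)) = 0 := by
    rw [Rk_comp k hON, hmin]; simp
  obtain ⟨a, ha, ha'⟩ := G.jets p F hON α
  obtain ⟨b, hb, hb'⟩ := G.jets p F hON β
  obtain ⟨c, hc, hc'⟩ := G.jets p F hON γ
  obtain ⟨d, hd, hd'⟩ := G.jets p F hON δ
  set X := F 0 + a • F 2 + b • F 3 with hX
  set Y := F 1 + c • F 2 + d • F 3 with hY
  have eX : G.Eqv p X (F 0) := eqv_val hS ha hb 0 2 3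
  have eY : G.Eqv p Y (F 1) := eqv_val hS hc hd 1 2 3
  have hlm : IsLocalMin (fun q => G.ev q (G.Rk k X Y Y X)) p := by
    apply Filter.Eventually.of_forall
    intro q
    change G.ev p (G.Rk k X Y Y X) ≤ G.ev q (G.Rk k X Y Y X)
    rw [G.congrAll hT eX eY eY eX, hmin']
    exact hK.Rk_nonneg q X Y
  have hsum : 0 ≤ ∑ m, G.ev p (G.D (F m) (G.D (F m) (G.Rk k X Y Y X))) :=
    Finset.sum_nonneg fun m _ => (G.min_test p _ hlm (F m)).2
  refine hsum.trans_eq ?_
  apply Finset.sum_congr rfl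
  intro m _
  rw [hX, hY, sv_dir hK hS hmin' ha hb hc hd m]
  simp only [ha', hb', hc', hd', hT.add1, hT.add2, hT.add3, hT.add4, hT.smul1, hT.smul2,
    hT.smul3, hT.smul4, map_add, map_mul, AlgHom.commutes, Algebra.algebraMap_self,
    RingHom.id_apply, Rk_comp k hON]
  have s1 : G.rr p F 3 1 1 2 = G.rr p F 2 1 1 3 := by
    simp only [rr]
    rw [G.Rm_pair (F 3), G.Rm_anti12 (F 1), G.Rm_anti34 (F 2) (F 1) (F 3)]; simp
  have s2 : G.rr p F 0 3 2 0 = G.rr p F 0 2 3 0 := by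
    simp only [rr]
    rw [G.Rm_pair (F 0) (F 3), G.Rm_anti12 (F 2), G.Rm_anti34 (F 0) (F 2) (F 0)]; simp
  have s3 : G.rr p F 3 2 1 0 = - G.rr p F 2 3 1 0 := by
    simp only [rr]
    rw [G.Rm_anti12 (F 3)]; simp only [Fin.isValue, map_neg]
  have s4 : G.rr p F 2 2 1 0 = 0 := by
    have : G.rr p F 2 2 1 0 = - G.rr p F 2 2 1 0 := by
      simp only [rr]; conv_lhs => rw [G.Rm_anti12 (F 2)]
      simp
    linarith only [this]
  have s5 : G.rr p F 3 3 1 0 = 0 := by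
    have : G.rr p F 3 3 1 0 = - G.rr p F 3 3 1 0 := by
      simp only [rr]; conv_lhs => rw [G.Rm_anti12 (F 3)]
      simp only [Fin.isValue, map_neg]
    linarith only [this]
  rw [s1, s2, s3, s4, s5]
  simp only [Fin.isValue, ↓reduceIte, mul_one, Fin.reduceEq, mul_zero, sub_zero, sub_self, zero_add, mul_neg, add_zero, one_ne_zero]
  ring

end Geom

end Vale.Agent.P211
end
end

section

section

namespace Vale.Agent.P211

open Topology Filter

namespace Geom

variable {M 𝒪 V : Type*} [TopologicalSpace M] [CommRing 𝒪] [Algebra ℝ 𝒪]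
    [AddCommGroup V] [Module 𝒪 V] (G : Geom M 𝒪 V)

/-- traces of second derivatives of the frame -/
def Th (p : M) (F : Fin 4 → V) (i n : Fin 4) : ℝ :=
  ∑ m, G.ev p (G.g (G.nab (F m) (G.nab (F m) (F i))) (F n))

variable {G}

theorem D_eventually_zero {p : M} {f : 𝒪} (h : ∀ᶠ q in 𝓝 p, G.ev q f = 0) (U : V) :
    ∀ᶠ q in 𝓝 p, G.ev q (G.D U f) = 0 := by
  filter_upwards [h.eventually_nhds] with q hq
  rw [G.D_local q f 0 (by filter_upwards [hq] with x hx; rw [hx, map_zero]) U, G.D_zero, map_zero]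

theorem second_deriv_frame {p : M} {F : Fin 4 → V} (hS : G.Sync p F) (U : V) (i n : Fin 4) :
    G.ev p (G.g (G.nab U (G.nab U (F i))) (F n)) =
      - G.ev p (G.g (G.nab U (G.nab U (F n))) (F i)) := by
  have h1 : ∀ᶠ q in 𝓝 p, G.ev q (G.g (F i) (F n) - algebraMap ℝ 𝒪 (if i = n then 1 else 0)) = 0 := by
    filter_upwards [hS.on] with q hq
    rw [map_sub, hq i n]; simp
  have h2 := (D_eventually_zero (D_eventually_zero h1 U) U).self_of_nhds
  rw [G.D_sub, G.D_const, sub_zero, G.metric, G.D_add, G.metric, G.metric] at h2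
  have z : G.ev p (G.g (G.nab U (F i)) (G.nab U (F n))) = 0 := G.sync_coeff hS U _ i
  rw [G.g_symm (F i) (G.nab U (G.nab U (F n)))] at h2
  simp only [map_add, z] at h2
  linarith only [h2]

theorem Th_anti {p : M} {F : Fin 4 → V} (hS : G.Sync p F) (i n : Fin 4) :
    G.Th p F i n = - G.Th p F n i := by
  simp only [Th]
  rw [← Finset.sum_neg_distrib]
  exact Finset.sum_congr rfl fun m _ => second_deriv_frame hS (F m) i n

/-- first derivative of curvature components along a synchronous frame -/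
theorem D_comp {p : M} {F : Fin 4 → V} (hS : G.Sync p F) (U : V) (i j k l : Fin 4) :
    G.ev p (G.D U (G.Rm (F i) (F j) (F k) (F l))) =
      G.ev p (G.d1 G.Rm U (F i) (F j) (F k) (F l)) := by
  have hT := G.isT4_Rm
  have er := fun X => Eqv.refl G p X
  have z : ∀ i, G.Eqv p (G.nab U (F i)) 0 := eqv_nabla_self hS U
  rw [G.D_expand]
  simp only [map_add]
  rw [G.congrAll hT (z i) (er _) (er _) (er _), G.congrAll hT (er _) (z j) (er _) (er _),
    G.congrAll hT (er _) (er _) (z k) (er _), G.congrAll hT (er _) (er _) (er _) (z l)]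
  have z1 : ∀ Y Z W, G.Rm 0 Y Z W = 0 := fun Y Z W => by
    have := hT.smul1 0 0 Y Z W; simpa using this
  have z2 : ∀ X Z W, G.Rm X 0 Z W = 0 := fun X Z W => by
    have := hT.smul2 0 X 0 Z W; simpa using this
  have z3 : ∀ X Y W, G.Rm X Y 0 W = 0 := fun X Y W => by
    have := hT.smul3 0 X Y 0 W; simpa using this
  have z4 : ∀ X Y Z, G.Rm X Y Z 0 = 0 := fun X Y Z => by
    have := hT.smul4 0 X Y Z 0; simpa using this
  simp only [z1, z2, z3, z4, map_zero, add_zero]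

theorem DD_comp {p : M} {F : Fin 4 → V} (hS : G.Sync p F) (m i j k l : Fin 4) :
    G.ev p (G.D (F m) (G.D (F m) (G.Rm (F i) (F j) (F k) (F l)))) =
      G.ss p F m m i j k l
      + ∑ n, (G.ev p (G.g (G.nab (F m) (G.nab (F m) (F i))) (F n)) * G.rr p F n j k l
        + G.ev p (G.g (G.nab (F m) (G.nab (F m) (F j))) (F n)) * G.rr p F i n k l
        + G.ev p (G.g (G.nab (F m) (G.nab (F m) (F k))) (F n)) * G.rr p F i j n l
        + G.ev p (G.g (G.nab (F m) (G.nab (F m) (F l))) (F n)) * G.rr p F i j k n) := by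
  have hT := G.isT4_Rm
  have h5 := G.isT5_d1 hT
  have er := fun X => Eqv.refl G p X
  have z : ∀ i, G.Eqv p (G.nab (F m) (F i)) 0 := eqv_nabla_self hS (F m)
  have z1 : ∀ Y Z W, G.Rm 0 Y Z W = 0 := fun Y Z W => by
    have := hT.smul1 0 0 Y Z W; simpa using this
  have z2 : ∀ X Z W, G.Rm X 0 Z W = 0 := fun X Z W => by
    have := hT.smul2 0 X 0 Z W; simpa only [smul_zero, zero_mul] using this
  have z3 : ∀ X Y W, G.Rm X Y 0 W = 0 := fun X Y W => by
    have := hT.smul3 0 X Y 0 W; simpa using this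
  have w0 : ∀ X Y Z W, G.d1 G.Rm 0 X Y Z W = 0 := fun X Y Z W => by
    have := h5.smul0 0 0 X Y Z W; simpa using this
  have w1 : ∀ U Y Z W, G.d1 G.Rm U 0 Y Z W = 0 := fun U Y Z W => by
    have := h5.smul1 0 U 0 Y Z W; simpa using this
  have w2 : ∀ U X Z W, G.d1 G.Rm U X 0 Z W = 0 := fun U X Z W => by
    have := h5.smul2 0 U X 0 Z W; simpa using this
  have w3 : ∀ U X Y W, G.d1 G.Rm U X Y 0 W = 0 := fun U X Y W => by
    have := h5.smul3 0 U X Y 0 W; simpa using this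
  have w4 : ∀ U X Y Z, G.d1 G.Rm U X Y Z 0 = 0 := fun U X Y Z => by
    have := h5.smul4 0 U X Y Z 0; simpa using this
  rw [G.DD_expand]
  simp only [map_add, map_mul, map_ofNat]
  rw [G.congr5All h5 (z m) (er _) (er _) (er _) (er _),
    G.congr5All h5 (er (F m)) (z i) (er _) (er _) (er _),
    G.congr5All h5 (er (F m)) (er (F i)) (z j) (er _) (er _),
    G.congr5All h5 (er (F m)) (er (F i)) (er (F j)) (z k) (er _),
    G.congr5All h5 (er (F m)) (er (F i)) (er (F j)) (er (F k)) (z l),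
    G.congrAll hT (z i) (z j) (er _) (er _), G.congrAll hT (z i) (er (F j)) (z k) (er _),
    G.congrAll hT (z i) (er (F j)) (er (F k)) (z l), G.congrAll hT (er (F i)) (z j) (z k) (er _),
    G.congrAll hT (er (F i)) (z j) (er (F k)) (z l), G.congrAll hT (er (F i)) (er (F j)) (z k) (z l)]
  simp only [z1, z2, z3, w0, w1, w2, w3, w4, map_zero, add_zero, mul_zero]
  rw [G.exp1 hT hS.at (G.nab (F m) (G.nab (F m) (F i))),
    G.exp2 hT hS.at _ (G.nab (F m) (G.nab (F m) (F j))),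
    G.exp3 hT hS.at _ _ (G.nab (F m) (G.nab (F m) (F k))),
    G.exp4 hT hS.at _ _ _ (G.nab (F m) (G.nab (F m) (F l)))]
  simp only [ss, rr, Finset.sum_add_distrib]

/-- rough Laplacian of curvature components -/
theorem Lap_comp {p : M} {F : Fin 4 → V} (hS : G.Sync p F) (i j k l : Fin 4) :
    ∑ m, G.ev p (G.D (F m) (G.D (F m) (G.Rm (F i) (F j) (F k) (F l)))) =
      ∑ m, G.ss p F m m i j k l
      + ∑ n, (G.Th p F i n * G.rr p F n j k l + G.Th p F j n * G.rr p F i n k l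
        + G.Th p F k n * G.rr p F i j n l + G.Th p F l n * G.rr p F i j k n) := by
  simp only [DD_comp hS, Finset.sum_add_distrib]
  congr 1
  simp only [Th, Finset.sum_mul]
  congr 1
  · congr 1
    · congr 1
      · exact Finset.sum_comm
      · exact Finset.sum_comm
    · exact Finset.sum_comm
  · exact Finset.sum_comm

end Geom

end Vale.Agent.P211
end
end

section

section

namespace Vale.Agent.P211

/-- Arrays with four indices in `Fin 4`. -/
abbrev Arr4 := Fin 4 → Fin 4 → Fin 4 → Fin 4 → ℝ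

/-- Algebraic curvature tensor symmetries. Convention: `r i j k l = g(R(e_i,e_j)e_k, e_l)`. -/
structure IsAlgCurv (r : Arr4) : Prop where
  anti12 : ∀ i j k l, r i j k l = - r j i k l
  anti34 : ∀ i j k l, r i j k l = - r i j l k
  pair : ∀ i j k l, r i j k l = r k l i j
  bianchi : ∀ i j k l, r i j k l + r j k i l + r k i j l = 0

/-- The Ricci identity commutator term. -/
def ricciComm (r : Arr4) (n m i j k l : Fin 4) : ℝ :=
  - ∑ a, (r n m i a * r a j k l + r n m j a * r i a k l + r n m k a * r i j a l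
      + r n m l a * r i j k a)

/-- Pointwise second-order data of an Einstein metric in an orthonormal basis. -/
structure EinsteinJet (lam : ℝ) (r : Arr4) (d : Fin 4 → Arr4) (s : Fin 4 → Fin 4 → Arr4) :
    Prop where
  hr : IsAlgCurv r
  hrt : ∀ j k, ∑ i, r i j k i = if j = k then lam else 0
  hd : ∀ m, IsAlgCurv (d m)
  hdt : ∀ m j k, ∑ i, d m i j k i = 0
  hdb : ∀ m i j k l, d m i j k l + d i j m k l + d j m i k l = 0
  hs : ∀ n m, IsAlgCurv (s n m)
  hst : ∀ n m j k, ∑ i, s n m i j k i = 0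
  hsb : ∀ n m i j k l, s n m i j k l + s n i j m k l + s n j m i k l = 0
  hsc : ∀ n m i j k l, s n m i j k l - s m n i j k l = ricciComm r n m i j k l

/-- divergence-freeness of a family of trace-free curvature arrays satisfying Bianchi. -/
lemma div_free {d : Fin 4 → Arr4} (hd : ∀ m, IsAlgCurv (d m)) (hdt : ∀ m j k, ∑ i, d m i j k i = 0)
    (hdb : ∀ m i j k l, d m i j k l + d i j m k l + d j m i k l = 0) (j k l : Fin 4) :
    ∑ m, d m m j k l = 0 ∧ ∑ m, d m j m k l = 0 := by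
  have h1 : ∀ m, d m j m k l = d k m l j m - d l m k j m := by
    intro m
    have hb := hdb m k l j m
    have h3 : d m j m k l = d m k l j m := (hd m).pair _ _ _ _
    have h4 : d k l m j m = - d k m l j m := (hd k).anti12 _ _ _ _
    linarith only [hb, h3, h4]
  have h2 : ∑ m, d m j m k l = 0 := by
    rw [Finset.sum_congr rfl (fun m _ => h1 m), Finset.sum_sub_distrib, hdt k l j, hdt l k j,
      sub_zero]
  refine ⟨?_, h2⟩
  rw [Finset.sum_congr rfl (fun m _ => (hd m).anti12 m j k l), Finset.sum_neg_distrib, h2, neg_zero]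

namespace EinsteinJet

variable {lam : ℝ} {r : Arr4} {d : Fin 4 → Arr4} {s : Fin 4 → Fin 4 → Arr4}

/-- The Laplacian of the curvature tensor is quadratic in the curvature. -/
lemma lap (h : EinsteinJet lam r d s) (i j k l : Fin 4) :
    ∑ m, s m m i j k l = - ∑ m, (ricciComm r m i j m k l + ricciComm r m j m i k l) := by
  have e1 : ∀ m, s m m i j k l =
      -(s i m j m k l + ricciComm r m i j m k l) - (s j m m i k l + ricciComm r m j m i k l) := by
    intro m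
    have hb := h.hsb m m i j k l
    have hc1 := h.hsc m i j m k l
    have hc2 := h.hsc m j m i k l
    linarith only [hb, hc1, hc2]
  have d1 : ∑ m, s i m j m k l = 0 :=
    (div_free (h.hs i) (h.hst i) (h.hsb i) j k l).2
  have d2 : ∑ m, s j m m i k l = 0 :=
    (div_free (h.hs j) (h.hst j) (h.hsb j) i k l).1
  rw [Finset.sum_congr rfl (fun m _ => e1 m)]
  simp only [Finset.sum_sub_distrib, Finset.sum_neg_distrib, Finset.sum_add_distrib, d1, d2]
  ring

end EinsteinJet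

lemma IsAlgCurv.self12 {r : Arr4} (h : IsAlgCurv r) (i k l : Fin 4) : r i i k l = 0 := by
  have := h.anti12 i i k l; linarith only [this]

lemma IsAlgCurv.self34 {r : Arr4} (h : IsAlgCurv r) (i j k : Fin 4) : r i j k k = 0 := by
  have := h.anti34 i j k k; linarith only [this]

lemma ext_lt {r r' : Arr4} (h12 : ∀ i j k l, r i j k l = - r j i k l)
    (h34 : ∀ i j k l, r i j k l = - r i j l k) (h12' : ∀ i j k l, r' i j k l = - r' j i k l)
    (h34' : ∀ i j k l, r' i j k l = - r' i j l k)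
    (H : ∀ i j k l, i < j → k < l → r i j k l = r' i j k l) : r = r' := by
  have H1 : ∀ i j k l, i < j → r i j k l = r' i j k l := by
    intro i j k l hij
    rcases lt_trichotomy k l with hkl | hkl | hkl
    · exact H i j k l hij hkl
    · subst hkl
      have h1 := h34 i j k k
      have h2 := h34' i j k k
      linarith only [h1, h2]
    · rw [h34, h34', H i j l k hij hkl]
  funext i j k l
  rcases lt_trichotomy i j with hij | hij | hij
  · exact H1 i j k l hij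
  · subst hij
    have h1 := h12 i i k l
    have h2 := h12' i i k l
    linarith only [h1, h2]
  · rw [h12, h12', H1 j i k l hij]

/-- skew 4x4 array from its upper entries `01 02 03 12 13 23` -/
def sk {α : Type*} [Zero α] [Neg α] (a b c d e f : α) : Fin 4 → Fin 4 → α :=
  ![![0, a, b, c], ![-a, 0, d, e], ![-b, -d, 0, f], ![-c, -e, -f, 0]]

lemma sk_anti {α : Type*} [AddGroup α] (a b c d e f : α) (i j : Fin 4) :
    sk a b c d e f i j = - sk a b c d e f j i := by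
  fin_cases i <;> fin_cases j <;> simp [sk]

/-- The Einstein algebraic curvature array with blocks `P` (`= (A+C)/2`) and `S` (`= (A-C)/2`). -/
def einArr (P S : Fin 3 → Fin 3 → ℝ) : Arr4 :=
  sk (sk (-P 0 0) (-P 0 1) (-P 0 2) (-S 0 2) (S 0 1) (-S 0 0))
    (sk (-P 0 1) (-P 1 1) (-P 1 2) (-S 1 2) (S 1 1) (-S 0 1))
    (sk (-P 0 2) (-P 1 2) (-P 2 2) (-S 2 2) (S 1 2) (-S 0 2))
    (sk (-S 0 2) (-S 1 2) (-S 2 2) (-P 2 2) (P 1 2) (-P 0 2))
    (sk (S 0 1) (S 1 1) (S 1 2) (P 1 2) (-P 1 1) (P 0 1))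
    (sk (-S 0 0) (-S 0 1) (-S 0 2) (-P 0 2) (P 0 1) (-P 0 0))

/-- the `P` block of an array -/
def Pm (r : Arr4) : Fin 3 → Fin 3 → ℝ :=
  ![![r 0 1 1 0, r 0 1 2 0, r 0 1 3 0], ![r 0 2 1 0, r 0 2 2 0, r 0 2 3 0],
    ![r 0 3 1 0, r 0 3 2 0, r 0 3 3 0]]

/-- the `S` block of an array -/
def Sm (r : Arr4) : Fin 3 → Fin 3 → ℝ :=
  ![![r 0 1 3 2, r 0 1 1 3, r 0 1 2 1], ![r 0 2 3 2, r 0 2 1 3, r 0 2 2 1],
    ![r 0 3 3 2, r 0 3 1 3, r 0 3 2 1]]

lemma einArr_anti12 (P S : Fin 3 → Fin 3 → ℝ) (i j k l : Fin 4) :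
    einArr P S i j k l = - einArr P S j i k l := by
  have := sk_anti (sk (-P 0 0) (-P 0 1) (-P 0 2) (-S 0 2) (S 0 1) (-S 0 0))
    (sk (-P 0 1) (-P 1 1) (-P 1 2) (-S 1 2) (S 1 1) (-S 0 1))
    (sk (-P 0 2) (-P 1 2) (-P 2 2) (-S 2 2) (S 1 2) (-S 0 2))
    (sk (-S 0 2) (-S 1 2) (-S 2 2) (-P 2 2) (P 1 2) (-P 0 2))
    (sk (S 0 1) (S 1 1) (S 1 2) (P 1 2) (-P 1 1) (P 0 1))
    (sk (-S 0 0) (-S 0 1) (-S 0 2) (-P 0 2) (P 0 1) (-P 0 0)) i j
  exact congrFun (congrFun this k) l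

lemma sk_sk_anti (a b c d e f : Fin 4 → Fin 4 → ℝ) (ha : ∀ k l, a k l = - a l k)
    (hb : ∀ k l, b k l = - b l k) (hc : ∀ k l, c k l = - c l k) (hd : ∀ k l, d k l = - d l k)
    (he : ∀ k l, e k l = - e l k) (hf : ∀ k l, f k l = - f l k) (i j k l : Fin 4) :
    sk a b c d e f i j k l = - sk a b c d e f i j l k := by
  have ha' := ha k l
  have hb' := hb k l
  have hc' := hc k l
  have hd' := hd k l
  have he' := he k l
  have hf' := hf k l
  fin_cases i <;> fin_cases j <;> simp [sk] <;> linarith only [ha', hb', c, k, l, hc', a, d, hd', e, he', b, f, hf']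

lemma einArr_anti34 (P S : Fin 3 → Fin 3 → ℝ) (i j k l : Fin 4) :
    einArr P S i j k l = - einArr P S i j l k := by
  apply sk_sk_anti <;> exact fun k l => sk_anti _ _ _ _ _ _ k l

private lemma fin4_lt : ∀ i j : Fin 4, i < j → (i = 0 ∧ j = 1) ∨ (i = 0 ∧ j = 2) ∨ (i = 0 ∧ j = 3) ∨
    (i = 1 ∧ j = 2) ∨ (i = 1 ∧ j = 3) ∨ (i = 2 ∧ j = 3) := by decide

set_option maxHeartbeats 2000000 in
/-- Every Einstein-type algebraic curvature array is of the form `einArr`. -/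
lemma eq_einArr {r : Arr4} {c : ℝ} (h : IsAlgCurv r)
    (ht : ∀ j k, ∑ i, r i j k i = if j = k then c else 0) :
    r = einArr (Pm r) (Sm r) ∧ (∀ a b, Pm r a b = Pm r b a) ∧ (∀ a b, Sm r a b = Sm r b a) ∧
      Pm r 0 0 + Pm r 1 1 + Pm r 2 2 = c ∧ Sm r 0 0 + Sm r 1 1 + Sm r 2 2 = 0 := by
  have x1001 : r 1 0 0 1 = -r 0 1 0 1 := h.anti12 1 0 0 1
  have x2002 : r 2 0 0 2 = -r 0 2 0 2 := h.anti12 2 0 0 2
  have x3003 : r 3 0 0 3 = -r 0 3 0 3 := h.anti12 3 0 0 3
  have x2012 : r 2 0 1 2 = -r 0 2 1 2 := h.anti12 2 0 1 2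
  have x3013 : r 3 0 1 3 = -r 0 3 1 3 := h.anti12 3 0 1 3
  have x1021 : r 1 0 2 1 = r 0 1 1 2 := by rw [h.anti12 1 0 2 1, h.anti34 0 1 2 1, neg_neg]
  have x3023 : r 3 0 2 3 = -r 0 3 2 3 := h.anti12 3 0 2 3
  have x1031 : r 1 0 3 1 = r 0 1 1 3 := by rw [h.anti12 1 0 3 1, h.anti34 0 1 3 1, neg_neg]
  have x2032 : r 2 0 3 2 = r 0 2 2 3 := by rw [h.anti12 2 0 3 2, h.anti34 0 2 3 2, neg_neg]
  have x2102 : r 2 1 0 2 = -r 0 2 1 2 := by rw [h.anti12 2 1 0 2, h.pair 1 2 0 2]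
  have x3103 : r 3 1 0 3 = -r 0 3 1 3 := by rw [h.anti12 3 1 0 3, h.pair 1 3 0 3]
  have x0110 : r 0 1 1 0 = -r 0 1 0 1 := h.anti34 0 1 1 0
  have x2112 : r 2 1 1 2 = -r 1 2 1 2 := h.anti12 2 1 1 2
  have x3113 : r 3 1 1 3 = -r 1 3 1 3 := h.anti12 3 1 1 3
  have x0120 : r 0 1 2 0 = -r 0 1 0 2 := h.anti34 0 1 2 0
  have x3123 : r 3 1 2 3 = -r 1 3 2 3 := h.anti12 3 1 2 3
  have x0130 : r 0 1 3 0 = -r 0 1 0 3 := h.anti34 0 1 3 0
  have x2132 : r 2 1 3 2 = r 1 2 2 3 := by rw [h.anti12 2 1 3 2, h.anti34 1 2 3 2, neg_neg]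
  have x1201 : r 1 2 0 1 = r 0 1 1 2 := h.pair 1 2 0 1
  have x3203 : r 3 2 0 3 = -r 0 3 2 3 := by rw [h.anti12 3 2 0 3, h.pair 2 3 0 3]
  have x0210 : r 0 2 1 0 = -r 0 1 0 2 := by rw [h.anti34 0 2 1 0, h.pair 0 2 0 1]
  have x3213 : r 3 2 1 3 = -r 1 3 2 3 := by rw [h.anti12 3 2 1 3, h.pair 2 3 1 3]
  have x0220 : r 0 2 2 0 = -r 0 2 0 2 := h.anti34 0 2 2 0
  have x1221 : r 1 2 2 1 = -r 1 2 1 2 := h.anti34 1 2 2 1
  have x3223 : r 3 2 2 3 = -r 2 3 2 3 := h.anti12 3 2 2 3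
  have x0230 : r 0 2 3 0 = -r 0 2 0 3 := h.anti34 0 2 3 0
  have x1231 : r 1 2 3 1 = -r 1 2 1 3 := h.anti34 1 2 3 1
  have x1301 : r 1 3 0 1 = r 0 1 1 3 := h.pair 1 3 0 1
  have x2302 : r 2 3 0 2 = r 0 2 2 3 := h.pair 2 3 0 2
  have x0310 : r 0 3 1 0 = -r 0 1 0 3 := by rw [h.anti34 0 3 1 0, h.pair 0 3 0 1]
  have x2312 : r 2 3 1 2 = r 1 2 2 3 := h.pair 2 3 1 2
  have x0320 : r 0 3 2 0 = -r 0 2 0 3 := by rw [h.anti34 0 3 2 0, h.pair 0 3 0 2]
  have x1321 : r 1 3 2 1 = -r 1 2 1 3 := by rw [h.anti34 1 3 2 1, h.pair 1 3 1 2]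
  have x0330 : r 0 3 3 0 = -r 0 3 0 3 := h.anti34 0 3 3 0
  have x1331 : r 1 3 3 1 = -r 1 3 1 3 := h.anti34 1 3 3 1
  have x2332 : r 2 3 3 2 = -r 2 3 2 3 := h.anti34 2 3 3 2
  have x0132 : r 0 1 3 2 = -r 0 1 2 3 := h.anti34 0 1 3 2
  have x0121 : r 0 1 2 1 = -r 0 1 1 2 := h.anti34 0 1 2 1
  have x0232 : r 0 2 3 2 = -r 0 2 2 3 := h.anti34 0 2 3 2
  have x0221 : r 0 2 2 1 = -r 0 2 1 2 := h.anti34 0 2 2 1
  have x0332 : r 0 3 3 2 = -r 0 3 2 3 := h.anti34 0 3 3 2
  have x0321 : r 0 3 2 1 = -r 0 3 1 2 := h.anti34 0 3 2 1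
  have x0201 : r 0 2 0 1 = r 0 1 0 2 := h.pair 0 2 0 1
  have x0301 : r 0 3 0 1 = r 0 1 0 3 := h.pair 0 3 0 1
  have x0302 : r 0 3 0 2 = r 0 2 0 3 := h.pair 0 3 0 2
  have x1202 : r 1 2 0 2 = r 0 2 1 2 := h.pair 1 2 0 2
  have x1203 : r 1 2 0 3 = r 0 3 1 2 := h.pair 1 2 0 3
  have x1302 : r 1 3 0 2 = r 0 2 1 3 := h.pair 1 3 0 2
  have x1303 : r 1 3 0 3 = r 0 3 1 3 := h.pair 1 3 0 3
  have x1312 : r 1 3 1 2 = r 1 2 1 3 := h.pair 1 3 1 2
  have x2301 : r 2 3 0 1 = r 0 1 2 3 := h.pair 2 3 0 1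
  have x2303 : r 2 3 0 3 = r 0 3 2 3 := h.pair 2 3 0 3
  have x2313 : r 2 3 1 3 = r 1 3 2 3 := h.pair 2 3 1 3
  have b0 : r 0 1 2 3 + r 1 2 0 3 + r 2 0 1 3 = 0 := h.bianchi 0 1 2 3
  have x2013 : r 2 0 1 3 = -r 0 2 1 3 := h.anti12 2 0 1 3
  have t00 : -r 0 1 0 1 + -r 0 2 0 2 + -r 0 3 0 3 = c := by
    have := (ht 0 0).trans (if_pos rfl)
    simp only [Fin.sum_univ_four, h.self12, h.self34] at this
    norm_num at this
    linarith only [this, x1001, x2002, x3003]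
  have t01 : -r 0 2 1 2 + -r 0 3 1 3 = 0 := by
    have := (ht 0 1).trans (if_neg (by decide))
    simp only [Fin.sum_univ_four, h.self12, h.self34] at this
    norm_num at this
    linarith only [this, x2012, x3013]
  have t02 : r 0 1 1 2 + -r 0 3 2 3 = 0 := by
    have := (ht 0 2).trans (if_neg (by decide))
    simp only [Fin.sum_univ_four, h.self12, h.self34] at this
    norm_num at this
    linarith only [this, x1021, x3023]
  have t03 : r 0 1 1 3 + r 0 2 2 3 = 0 := by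
    have := (ht 0 3).trans (if_neg (by decide))
    simp only [Fin.sum_univ_four, h.self12, h.self34] at this
    norm_num at this
    linarith only [this, x1031, x2032]
  have t10 : -r 0 2 1 2 + -r 0 3 1 3 = 0 := by
    have := (ht 1 0).trans (if_neg (by decide))
    simp only [Fin.sum_univ_four, h.self12, h.self34] at this
    norm_num at this
    linarith only [this, x2102, x3103]
  have t11 : -r 0 1 0 1 + -r 1 2 1 2 + -r 1 3 1 3 = c := by
    have := (ht 1 1).trans (if_pos rfl)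
    simp only [Fin.sum_univ_four, h.self12, h.self34] at this
    norm_num at this
    linarith only [this, x0110, x2112, x3113]
  have t12 : -r 0 1 0 2 + -r 1 3 2 3 = 0 := by
    have := (ht 1 2).trans (if_neg (by decide))
    simp only [Fin.sum_univ_four, h.self12, h.self34] at this
    norm_num at this
    linarith only [this, x0120, x3123]
  have t13 : -r 0 1 0 3 + r 1 2 2 3 = 0 := by
    have := (ht 1 3).trans (if_neg (by decide))
    simp only [Fin.sum_univ_four, h.self12, h.self34] at this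
    norm_num at this
    linarith only [this, x0130, x2132]
  have t20 : r 0 1 1 2 + -r 0 3 2 3 = 0 := by
    have := (ht 2 0).trans (if_neg (by decide))
    simp only [Fin.sum_univ_four, h.self12, h.self34] at this
    norm_num at this
    linarith only [this, x1201, x3203]
  have t21 : -r 0 1 0 2 + -r 1 3 2 3 = 0 := by
    have := (ht 2 1).trans (if_neg (by decide))
    simp only [Fin.sum_univ_four, h.self12, h.self34] at this
    norm_num at this
    linarith only [this, x0210, x3213]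
  have t22 : -r 0 2 0 2 + -r 1 2 1 2 + -r 2 3 2 3 = c := by
    have := (ht 2 2).trans (if_pos rfl)
    simp only [Fin.sum_univ_four, h.self12, h.self34] at this
    norm_num at this
    linarith only [this, x0220, x1221, x3223]
  have t23 : -r 0 2 0 3 + -r 1 2 1 3 = 0 := by
    have := (ht 2 3).trans (if_neg (by decide))
    simp only [Fin.sum_univ_four, h.self12, h.self34] at this
    norm_num at this
    linarith only [this, x0230, x1231]
  have t30 : r 0 1 1 3 + r 0 2 2 3 = 0 := by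
    have := (ht 3 0).trans (if_neg (by decide))
    simp only [Fin.sum_univ_four, h.self12, h.self34] at this
    norm_num at this
    linarith only [this, x1301, x2302]
  have t31 : -r 0 1 0 3 + r 1 2 2 3 = 0 := by
    have := (ht 3 1).trans (if_neg (by decide))
    simp only [Fin.sum_univ_four, h.self12, h.self34] at this
    norm_num at this
    linarith only [this, x0310, x2312]
  have t32 : -r 0 2 0 3 + -r 1 2 1 3 = 0 := by
    have := (ht 3 2).trans (if_neg (by decide))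
    simp only [Fin.sum_univ_four, h.self12, h.self34] at this
    norm_num at this
    linarith only [this, x0320, x1321]
  have t33 : -r 0 3 0 3 + -r 1 3 1 3 + -r 2 3 2 3 = c := by
    have := (ht 3 3).trans (if_pos rfl)
    simp only [Fin.sum_univ_four, h.self12, h.self34] at this
    norm_num at this
    linarith only [this, x0330, x1331, x2332]
  have e0101 : r 0 1 0 1 = -r 0 1 1 0 := by linarith only [x0110]
  have e0102 : r 0 1 0 2 = -r 0 1 2 0 := by linarith only [x0120]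
  have e0103 : r 0 1 0 3 = -r 0 1 3 0 := by linarith only [x0130]
  have e0112 : r 0 1 1 2 = -r 0 1 2 1 := by linarith only [x0121]
  have e0113 : r 0 1 1 3 = r 0 1 1 3 := rfl
  have e0123 : r 0 1 2 3 = -r 0 1 3 2 := by linarith only [x0132]
  have e0201 : r 0 2 0 1 = -r 0 1 2 0 := by linarith only [x0201, x0120]
  have e0202 : r 0 2 0 2 = -r 0 2 2 0 := by linarith only [x0220]
  have e0203 : r 0 2 0 3 = -r 0 2 3 0 := by linarith only [x0230]
  have e0212 : r 0 2 1 2 = -r 0 2 2 1 := by linarith only [x0221]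
  have e0213 : r 0 2 1 3 = r 0 2 1 3 := rfl
  have e0223 : r 0 2 2 3 = -r 0 1 1 3 := by linarith only [t03]
  have e0301 : r 0 3 0 1 = -r 0 1 3 0 := by linarith only [x0301, x0130]
  have e0302 : r 0 3 0 2 = -r 0 2 3 0 := by linarith only [x0302, x0230]
  have e0303 : r 0 3 0 3 = -r 0 3 3 0 := by linarith only [x0330]
  have e0312 : r 0 3 1 2 = -r 0 3 2 1 := by linarith only [x0321]
  have e0313 : r 0 3 1 3 = r 0 2 2 1 := by linarith only [t01, x0221]
  have e0323 : r 0 3 2 3 = -r 0 1 2 1 := by linarith only [t02, x0121]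
  have e1201 : r 1 2 0 1 = -r 0 1 2 1 := by linarith only [x1201, x0121]
  have e1202 : r 1 2 0 2 = -r 0 2 2 1 := by linarith only [x1202, x0221]
  have e1203 : r 1 2 0 3 = -r 0 3 2 1 := by linarith only [x1203, x0321]
  have e1212 : r 1 2 1 2 = -r 0 3 3 0 := by linarith only [t00, t11, t22, t33, x0330]
  have e1213 : r 1 2 1 3 = r 0 2 3 0 := by linarith only [t23, x0230]
  have e1223 : r 1 2 2 3 = -r 0 1 3 0 := by linarith only [t13, x0130]
  have e1301 : r 1 3 0 1 = r 0 1 1 3 := by linarith only [x1301]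
  have e1302 : r 1 3 0 2 = r 0 2 1 3 := by linarith only [x1302]
  have e1303 : r 1 3 0 3 = r 0 2 2 1 := by linarith only [x1303, e0313]
  have e1312 : r 1 3 1 2 = r 0 2 3 0 := by linarith only [x1312, e1213]
  have e1313 : r 1 3 1 3 = -r 0 2 2 0 := by linarith only [t00, t11, t22, t33, x0220]
  have e1323 : r 1 3 2 3 = r 0 1 2 0 := by linarith only [t12, x0120]
  have e2301 : r 2 3 0 1 = -r 0 1 3 2 := by linarith only [x2301, x0132]
  have e2302 : r 2 3 0 2 = -r 0 1 1 3 := by linarith only [x2302, e0223]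
  have e2303 : r 2 3 0 3 = -r 0 1 2 1 := by linarith only [x2303, e0323]
  have e2312 : r 2 3 1 2 = -r 0 1 3 0 := by linarith only [x2312, e1223]
  have e2313 : r 2 3 1 3 = r 0 1 2 0 := by linarith only [x2313, e1323]
  have e2323 : r 2 3 2 3 = -r 0 1 1 0 := by linarith only [t00, t11, t22, t33, x0110]
  refine ⟨ext_lt h.anti12 h.anti34 (einArr_anti12 _ _) (einArr_anti34 _ _) ?_, ?_, ?_, ?_, ?_⟩
  · intro i j k l hij hkl
    rcases fin4_lt i j hij with ⟨rfl, rfl⟩ | ⟨rfl, rfl⟩ | ⟨rfl, rfl⟩ | ⟨rfl, rfl⟩ | ⟨rfl, rfl⟩ | ⟨rfl, rfl⟩ <;>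
      rcases fin4_lt k l hkl with
        ⟨rfl, rfl⟩ | ⟨rfl, rfl⟩ | ⟨rfl, rfl⟩ | ⟨rfl, rfl⟩ | ⟨rfl, rfl⟩ | ⟨rfl, rfl⟩
    · exact e0101
    · exact e0102
    · exact e0103
    · exact e0112
    · exact e0113
    · exact e0123
    · exact e0201
    · exact e0202
    · exact e0203
    · exact e0212
    · exact e0213
    · exact e0223
    · exact e0301
    · exact e0302
    · exact e0303
    · exact e0312
    · exact e0313
    · exact e0323
    · exact e1201
    · exact e1202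
    · exact e1203
    · exact e1212
    · exact e1213
    · exact e1223
    · exact e1301
    · exact e1302
    · exact e1303
    · exact e1312
    · exact e1313
    · exact e1323
    · exact e2301
    · exact e2302
    · exact e2303
    · exact e2312
    · exact e2313
    · exact e2323
  · intro a b
    fin_cases a <;> fin_cases b <;> simp [Pm] <;> linarith only [x0120, x0210, x0130, x0310, x0230, x0320]
  · intro a b
    fin_cases a <;> fin_cases b <;> simp [Sm] <;> linarith only [x0232, e0223, x0332, e0323, e0313]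
  · simp [Pm]; linarith only [x0110, x0220, x0330, t00]
  · simp only [Sm, Fin.isValue, Matrix.cons_val', Matrix.cons_val_zero, Matrix.cons_val_fin_one, Matrix.cons_val_one, Matrix.cons_val]; linarith only [x0132, x0321, b0, x1203, x2013]

end Vale.Agent.P211
end
end

section

section

namespace Vale.Agent.P211

/-- The Laplacian of the curvature, as an explicit quadratic expression. -/
def lapArr (r : Arr4) (i j k l : Fin 4) : ℝ :=
  - ∑ m, (ricciComm r m i j m k l + ricciComm r m j m i k l)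

section
variable (P S : Fin 3 → Fin 3 → ℝ) (hP1 : P 0 1 = 0) (hP2 : P 0 2 = 0)
    (hS1 : S 0 1 = 0) (hS2 : S 0 2 = 0) (hS : S 0 0 + S 1 1 + S 2 2 = 0)
include hP1 hP2 hS1 hS2 hS

lemma lapArr_P00 :
    lapArr (einArr P S) 0 1 1 0 = 2 * (P 0 0 + P 1 1 + P 2 2) * P 0 0 - 2 * (P 0 0 ^ 2 + S 0 0 ^ 2)
      - 4 * (P 1 1 * P 2 2 - P 1 2 ^ 2 + S 1 1 * S 2 2 - S 1 2 ^ 2) := by
  have hS' : S 2 2 = - S 0 0 - S 1 1 := by linarith only [hS]
  simp only [lapArr, ricciComm, Fin.sum_univ_four]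
  simp only [einArr, sk, Matrix.cons_val, hP1, hP2, hS1, hS2]
  simp only [Matrix.neg_cons, Matrix.neg_empty, Matrix.cons_val, Pi.neg_apply, Pi.zero_apply, neg_zero, mul_zero,
    zero_mul, add_zero, zero_add, neg_neg]
  try rw [hS']
  ring

lemma lapArr_S00 :
    lapArr (einArr P S) 0 1 3 2 = 2 * (P 0 0 + P 1 1 + P 2 2) * S 0 0 - 4 * P 0 0 * S 0 0
      - 4 * (P 1 1 * S 2 2 + P 2 2 * S 1 1 - 2 * P 1 2 * S 1 2) := by
  have hS' : S 2 2 = - S 0 0 - S 1 1 := by linarith only [hS]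
  simp only [lapArr, ricciComm, Fin.sum_univ_four]
  simp only [einArr, sk, Matrix.cons_val, hP1, hP2, hS1, hS2]
  simp only [Matrix.neg_cons, Matrix.neg_empty, Matrix.cons_val, Pi.neg_apply, Pi.zero_apply, neg_zero, mul_zero,
    zero_mul, add_zero, zero_add, neg_neg]
  try rw [hS']
  ring

lemma lapArr_P11 :
    lapArr (einArr P S) 0 2 2 0 = 2 * (P 0 0 + P 1 1 + P 2 2) * P 1 1 - 2 * (P 1 1 ^ 2 + S 1 1 ^ 2)
      - 2 * (P 1 2 ^ 2 + S 1 2 ^ 2) - 4 * (P 0 0 * P 2 2 + S 0 0 * S 2 2) := by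
  have hS' : S 2 2 = - S 0 0 - S 1 1 := by linarith only [hS]
  simp only [lapArr, ricciComm, Fin.sum_univ_four]
  simp only [einArr, sk, Matrix.cons_val, hP1, hP2, hS1, hS2]
  simp only [Matrix.neg_cons, Matrix.neg_empty, Matrix.cons_val, Pi.neg_apply, Pi.zero_apply, neg_zero, mul_zero,
    zero_mul, add_zero, zero_add, neg_neg]
  try rw [hS']
  ring

lemma lapArr_S11 :
    lapArr (einArr P S) 0 2 1 3 = 2 * (P 0 0 + P 1 1 + P 2 2) * S 1 1 - 4 * P 1 1 * S 1 1 - 4 * P 1 2 * S 1 2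
      - 4 * (P 0 0 * S 2 2 + S 0 0 * P 2 2) := by
  have hS' : S 2 2 = - S 0 0 - S 1 1 := by linarith only [hS]
  simp only [lapArr, ricciComm, Fin.sum_univ_four]
  simp only [einArr, sk, Matrix.cons_val, hP1, hP2, hS1, hS2]
  simp only [Matrix.neg_cons, Matrix.neg_empty, Matrix.cons_val, Pi.neg_apply, Pi.zero_apply, neg_zero, mul_zero,
    zero_mul, add_zero, zero_add, neg_neg]
  try rw [hS']
  ring

lemma lapArr_P22 :
    lapArr (einArr P S) 0 3 3 0 = 2 * (P 0 0 + P 1 1 + P 2 2) * P 2 2 - 2 * (P 2 2 ^ 2 + S 2 2 ^ 2)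
      - 2 * (P 1 2 ^ 2 + S 1 2 ^ 2) - 4 * (P 0 0 * P 1 1 + S 0 0 * S 1 1) := by
  have hS' : S 2 2 = - S 0 0 - S 1 1 := by linarith only [hS]
  simp only [lapArr, ricciComm, Fin.sum_univ_four]
  simp only [einArr, sk, Matrix.cons_val, hP1, hP2, hS1, hS2]
  simp only [Matrix.neg_cons, Matrix.neg_empty, Matrix.cons_val, Pi.neg_apply, Pi.zero_apply, neg_zero, mul_zero,
    zero_mul, add_zero, zero_add, neg_neg]
  try rw [hS']
  ring

lemma lapArr_S22 :
    lapArr (einArr P S) 0 3 2 1 = 2 * (P 0 0 + P 1 1 + P 2 2) * S 2 2 - 4 * P 2 2 * S 2 2 - 4 * P 1 2 * S 1 2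
      - 4 * (P 0 0 * S 1 1 + S 0 0 * P 1 1) := by
  have hS' : S 2 2 = - S 0 0 - S 1 1 := by linarith only [hS]
  simp only [lapArr, ricciComm, Fin.sum_univ_four]
  simp only [einArr, sk, Matrix.cons_val, hP1, hP2, hS1, hS2]
  simp only [Matrix.neg_cons, Matrix.neg_empty, Matrix.cons_val, Pi.neg_apply, Pi.zero_apply, neg_zero, mul_zero,
    zero_mul, add_zero, zero_add, neg_neg]
  try rw [hS']
  ring

lemma lapArr_P12 :
    lapArr (einArr P S) 0 2 3 0 = 2 * (P 0 0 + P 1 1 + P 2 2) * P 1 2 - 2 * (P 1 2 * (P 1 1 + P 2 2) + S 1 2 * (S 1 1 + S 2 2))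
      + 4 * (P 0 0 * P 1 2 + S 0 0 * S 1 2) := by
  have hS' : S 2 2 = - S 0 0 - S 1 1 := by linarith only [hS]
  simp only [lapArr, ricciComm, Fin.sum_univ_four]
  simp only [einArr, sk, Matrix.cons_val, hP1, hP2, hS1, hS2]
  simp only [Matrix.neg_cons, Matrix.neg_empty, Matrix.cons_val, Pi.neg_apply, Pi.zero_apply, neg_zero, mul_zero,
    zero_mul, add_zero, zero_add, neg_neg]
  try rw [hS']
  ring

lemma lapArr_S12 :
    lapArr (einArr P S) 0 2 2 1 = 2 * (P 0 0 + P 1 1 + P 2 2) * S 1 2 - 2 * (P 1 2 * (S 1 1 + S 2 2) + S 1 2 * (P 1 1 + P 2 2))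
      + 4 * (P 0 0 * S 1 2 + S 0 0 * P 1 2) := by
  have hS' : S 2 2 = - S 0 0 - S 1 1 := by linarith only [hS]
  simp only [lapArr, ricciComm, Fin.sum_univ_four]
  simp only [einArr, sk, Matrix.cons_val, hP1, hP2, hS1, hS2]
  simp only [Matrix.neg_cons, Matrix.neg_empty, Matrix.cons_val, Pi.neg_apply, Pi.zero_apply, neg_zero, mul_zero,
    zero_mul, add_zero, zero_add, neg_neg]
  try rw [hS']
  ring

end

end Vale.Agent.P211
end
end

section

section

namespace Vale.Agent.P211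

/-- evaluation of an array on vectors -/
def rf (r : Arr4) (X Y Z W : Fin 4 → ℝ) : ℝ :=
  ∑ i, ∑ j, ∑ k, ∑ l, r i j k l * X i * Y j * Z k * W l

/-- `e0 ∧ ea` components of `X ∧ Y` -/
def wE (X Y : Fin 4 → ℝ) : Fin 3 → ℝ :=
  ![X 0 * Y 1 - X 1 * Y 0, X 0 * Y 2 - X 2 * Y 0, X 0 * Y 3 - X 3 * Y 0]

/-- dual components of `X ∧ Y` -/
def wF (X Y : Fin 4 → ℝ) : Fin 3 → ℝ :=
  ![X 2 * Y 3 - X 3 * Y 2, X 3 * Y 1 - X 1 * Y 3, X 1 * Y 2 - X 2 * Y 1]

/-- quadratic form with upper entries -/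
def qf (A : Fin 3 → Fin 3 → ℝ) (u v : Fin 3 → ℝ) : ℝ :=
  A 0 0 * u 0 * v 0 + A 1 1 * u 1 * v 1 + A 2 2 * u 2 * v 2
    + A 0 1 * (u 0 * v 1 + u 1 * v 0) + A 0 2 * (u 0 * v 2 + u 2 * v 0)
    + A 1 2 * (u 1 * v 2 + u 2 * v 1)

lemma rf_einArr (P S : Fin 3 → Fin 3 → ℝ)
    (X Y Z W : Fin 4 → ℝ) :
    rf (einArr P S) X Y W Z = qf P (wE X Y) (wE Z W) + qf P (wF X Y) (wF Z W)
      + qf S (wE X Y) (wF Z W) + qf S (wF X Y) (wE Z W) := by
  simp only [rf, Fin.sum_univ_four]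
  simp only [einArr, sk, qf, wE, wF, Matrix.cons_val]
  simp only [Matrix.neg_cons, Matrix.neg_empty, Matrix.cons_val, Pi.neg_apply, Pi.zero_apply, neg_zero, mul_zero,
    zero_mul, add_zero, zero_add, neg_neg]
  ring

/-- `e_0 ∧ e_1` is a minimal plane with curvature `k` for the curvature array `r`. -/
structure MinPlane (k : ℝ) (r : Arr4) : Prop where
  eq : r 0 1 1 0 = k
  ge : ∀ X Y : Fin 4 → ℝ,
    k * ((∑ i, X i ^ 2) * (∑ i, Y i ^ 2) - (∑ i, X i * Y i) ^ 2) ≤ rf r X Y Y X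

/-- a one-variable criticality lemma -/
lemma lin_zero {a b : ℝ} (h : ∀ t : ℝ, 0 ≤ a * t + b * t ^ 2) : a = 0 := by
  by_contra ha
  have h1 := h (-(a / (2 * (|b| + 1))))
  have hb : 0 < |b| + 1 := by positivity
  have hb2 : b ≤ |b| := le_abs_self b
  have ha2 : 0 < a ^ 2 := by positivity
  have e : a * -(a / (2 * (|b| + 1))) + b * (-(a / (2 * (|b| + 1)))) ^ 2
      = - (a ^ 2 * (2 * (|b| + 1) - b)) / (4 * (|b| + 1) ^ 2) := by
    field_simp
    ring
  rw [e] at h1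
  have : - (a ^ 2 * (2 * (|b| + 1) - b)) / (4 * (|b| + 1) ^ 2) < 0 := by
    apply div_neg_of_neg_of_pos
    · have : 0 < 2 * (|b| + 1) - b := by linarith only [hb, hb2]
      nlinarith only [hb, hb2, ha2]
    · positivity
  linarith only [h1, this]

lemma nonneg_of_sq {n v w a b c : ℝ} (hn : n ^ 2 = v ^ 2 + w ^ 2)
    (h : 0 ≤ n ^ 2 * (a * v ^ 2 + 2 * b * v * w + c * w ^ 2)) :
    0 ≤ a * v ^ 2 + 2 * b * v * w + c * w ^ 2 := by
  rcases eq_or_lt_of_le (sq_nonneg n) with h0 | h0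
  · rw [← h0] at hn
    have hv : v = 0 := by nlinarith only [hn]
    have hw : w = 0 := by nlinarith only [hn]
    simp [hv, hw]
  · exact nonneg_of_mul_nonneg_right h h0

/-- The block form of the curvature array at a minimal plane. -/
structure BlockForm (lam k : ℝ) (r : Arr4) (P S : Fin 3 → Fin 3 → ℝ) : Prop where
  eq : r = einArr P S
  P00 : P 0 0 = k
  P01 : P 0 1 = 0
  P02 : P 0 2 = 0
  S01 : S 0 1 = 0
  S02 : S 0 2 = 0
  trP : P 0 0 + P 1 1 + P 2 2 = lam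
  trS : S 0 0 + S 1 1 + S 2 2 = 0
  psdA : ∀ v w : ℝ, 0 ≤ (P 1 1 + S 1 1 - (k + S 0 0)) * v ^ 2 + 2 * (P 1 2 + S 1 2) * v * w
    + (P 2 2 + S 2 2 - (k + S 0 0)) * w ^ 2
  psdC : ∀ v w : ℝ, 0 ≤ (P 1 1 - S 1 1 - (k - S 0 0)) * v ^ 2 + 2 * (P 1 2 - S 1 2) * v * w
    + (P 2 2 - S 2 2 - (k - S 0 0)) * w ^ 2

lemma blockForm {lam k : ℝ} {r : Arr4} (h : IsAlgCurv r)
    (ht : ∀ j k, ∑ i, r i j k i = if j = k then lam else 0) (hm : MinPlane k r) :
    BlockForm lam k r (Pm r) (Sm r) := by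
  obtain ⟨h1, h2, h3, h4, h5⟩ := eq_einArr h ht
  set P := Pm r with hP
  set S := Sm r with hS
  have hk : P 0 0 = k := by rw [← hm.eq, h1]; simp only [Fin.isValue, einArr, sk, neg_neg, Matrix.neg_cons, neg_zero, Matrix.neg_empty, Matrix.cons_val', Matrix.cons_val_one, Matrix.cons_val_zero, Matrix.cons_val_fin_one, Pi.zero_apply]
  have hge : ∀ X Y : Fin 4 → ℝ,
      k * ((∑ i, X i ^ 2) * (∑ i, Y i ^ 2) - (∑ i, X i * Y i) ^ 2) ≤
        qf P (wE X Y) (wE X Y) + qf P (wF X Y) (wF X Y) + 2 * qf S (wE X Y) (wF X Y) := by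
    intro X Y
    have := hm.ge X Y
    rw [h1, rf_einArr] at this
    have e : qf S (wF X Y) (wE X Y) = qf S (wE X Y) (wF X Y) := by simp only [qf, Fin.isValue]; ring
    rw [e] at this
    linarith only [this]
  have c1 : P 0 1 = 0 := by
    have : 2 * P 0 1 = 0 := by
      apply lin_zero (b := P 1 1 - k)
      intro t
      have := hge ![1, 0, 0, 0] ![0, 1, t, 0]
      simp only [Fin.sum_univ_four, Fin.isValue, Matrix.cons_val_zero, one_pow, Matrix.cons_val_one, ne_eq, OfNat.ofNat_ne_zero, not_false_eq_true, zero_pow, add_zero, Matrix.cons_val, zero_add, one_mul, mul_zero, mul_one, zero_mul, sub_zero, qf, wE, sub_self, wF] at this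
      nlinarith only [hk, this]
    linarith only [P, this]
  have c2 : P 0 2 = 0 := by
    have : 2 * P 0 2 = 0 := by
      apply lin_zero (b := P 2 2 - k)
      intro t
      have := hge ![1, 0, 0, 0] ![0, 1, 0, t]
      simp only [Fin.sum_univ_four, Fin.isValue, Matrix.cons_val_zero, one_pow, Matrix.cons_val_one, ne_eq, OfNat.ofNat_ne_zero, not_false_eq_true, zero_pow, add_zero, Matrix.cons_val, zero_add, one_mul, mul_zero, mul_one, zero_mul, sub_zero, qf, wE, sub_self, wF] at this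
      nlinarith only [hk, this]
    linarith only [P, this]
  have c3 : S 0 1 = 0 := by
    have : 2 * S 0 1 = 0 := by
      apply lin_zero (b := P 1 1 - k)
      intro t
      have := hge ![1, 0, 0, t] ![0, 1, 0, 0]
      simp only [Fin.sum_univ_four, Fin.isValue, Matrix.cons_val_zero, one_pow, Matrix.cons_val_one, ne_eq, OfNat.ofNat_ne_zero, not_false_eq_true, zero_pow, add_zero, Matrix.cons_val, zero_add, mul_one, mul_zero, sub_zero, qf, wE, sub_self, wF, zero_mul, one_mul] at this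
      nlinarith only [hk, this]
    linarith only [S, this]
  have c4 : S 0 2 = 0 := by
    have : 2 * S 0 2 = 0 := by
      apply lin_zero (b := P 2 2 - k)
      intro t
      have := hge ![1, 0, -t, 0] ![0, 1, 0, 0]
      simp only [Fin.sum_univ_four, Fin.isValue, Matrix.cons_val_zero, one_pow, Matrix.cons_val_one, ne_eq, OfNat.ofNat_ne_zero, not_false_eq_true, zero_pow, add_zero, Matrix.cons_val, even_two, Even.neg_pow, zero_add, mul_one, mul_zero, sub_zero, qf, wE, sub_self, wF, sub_neg_eq_add, zero_mul, one_mul] at this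
      linarith only [this, hk]
    linarith only [this]
  refine ⟨h1, hk, c1, c2, c3, c4, h4, h5, ?_, ?_⟩
  · intro v w
    obtain ⟨n, hn⟩ : ∃ n : ℝ, n ^ 2 = v ^ 2 + w ^ 2 :=
      ⟨√(v ^ 2 + w ^ 2), Real.sq_sqrt (by (clear * -; positivity))⟩
    have := hge ![n, 0, -w, v] ![0, n, v, w]
    simp only [Fin.sum_univ_four, qf, wE, wF, c1, c2, c3, c4, hk, Matrix.cons_val_zero,
      Matrix.cons_val_one, Matrix.cons_val] at this
    apply nonneg_of_sq hn
    linarith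
  · intro v w
    obtain ⟨n, hn⟩ : ∃ n : ℝ, n ^ 2 = v ^ 2 + w ^ 2 :=
      ⟨√(v ^ 2 + w ^ 2), Real.sq_sqrt (by (clear * -; positivity))⟩
    have := hge ![n, 0, w, -v] ![0, n, v, w]
    simp only [Fin.sum_univ_four, qf, wE, wF, c1, c2, c3, c4, hk, Matrix.cons_val_zero,
      Matrix.cons_val_one, Matrix.cons_val] at this
    apply nonneg_of_sq hn
    linarith

/-- Consequences of positivity of a symmetric 2x2 form. -/
lemma psd_facts {a b c : ℝ} (h : ∀ v w : ℝ, 0 ≤ a * v ^ 2 + 2 * b * v * w + c * w ^ 2) :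
    0 ≤ a ∧ 0 ≤ c ∧ 0 ≤ a * c - b ^ 2 := by
  have ha : 0 ≤ a := by simpa only [one_pow, mul_one, mul_zero, add_zero, ne_eq, OfNat.ofNat_ne_zero, not_false_eq_true,     zero_pow] using h 1 0
  have hc : 0 ≤ c := by simpa only [ne_eq, OfNat.ofNat_ne_zero, not_false_eq_true, zero_pow, mul_zero, mul_one, add_zero, one_pow,     zero_add] using h 0 1
  refine ⟨ha, hc, ?_⟩
  rcases eq_or_lt_of_le ha with h0 | h0
  · have : 2 * b = 0 := by
      apply lin_zero (b := c)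
      intro t
      have := h 1 t
      rw [← h0] at this
      nlinarith only [this]
    have hb : b = 0 := by linarith only [this]
    rw [← h0, hb]; simp
  · have := h (-b) a
    have e : a * (-b) ^ 2 + 2 * b * (-b) * a + c * a ^ 2 = a * (a * c - b ^ 2) := by ring
    rw [e] at this
    exact nonneg_of_mul_nonneg_right this h0

end Vale.Agent.P211
end
end

section

section

namespace Vale.Agent.P211

/-- self-dual divergence equations for a row `(u, v, w)` -/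
structure SDRow (u v w : Fin 4 → ℝ) : Prop where
  e0 : u 1 + v 2 + w 3 = 0
  e1 : u 0 + v 3 - w 2 = 0
  e2 : v 0 - u 3 + w 1 = 0
  e3 : w 0 + u 2 - v 1 = 0

/-- anti-self-dual divergence equations for a row `(u, v, w)` -/
structure ASDRow (u v w : Fin 4 → ℝ) : Prop where
  e0 : u 1 + v 2 + w 3 = 0
  e1 : u 0 - v 3 + w 2 = 0
  e2 : v 0 + u 3 - w 1 = 0
  e3 : w 0 - u 2 + v 1 = 0

lemma rows {d : Fin 4 → Arr4} (hd : ∀ m, IsAlgCurv (d m)) (hdt : ∀ m j k, ∑ i, d m i j k i = 0)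
    (hdb : ∀ m i j k l, d m i j k l + d i j m k l + d j m i k l = 0)
    {P S : Fin 4 → Fin 3 → Fin 3 → ℝ} (hPS : ∀ m, d m = einArr (P m) (S m)) :
    (SDRow (fun m => P m 0 0 + S m 0 0) (fun m => P m 0 1 + S m 0 1)
        (fun m => P m 0 2 + S m 0 2) ∧
      SDRow (fun m => P m 0 1 + S m 0 1) (fun m => P m 1 1 + S m 1 1)
        (fun m => P m 1 2 + S m 1 2) ∧
      SDRow (fun m => P m 0 2 + S m 0 2) (fun m => P m 1 2 + S m 1 2)
        (fun m => P m 2 2 + S m 2 2)) ∧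
    (ASDRow (fun m => P m 0 0 - S m 0 0) (fun m => P m 0 1 - S m 0 1)
        (fun m => P m 0 2 - S m 0 2) ∧
      ASDRow (fun m => P m 0 1 - S m 0 1) (fun m => P m 1 1 - S m 1 1)
        (fun m => P m 1 2 - S m 1 2) ∧
      ASDRow (fun m => P m 0 2 - S m 0 2) (fun m => P m 1 2 - S m 1 2)
        (fun m => P m 2 2 - S m 2 2)) := by
  have h := fun j k l => (div_free hd hdt hdb j k l).1
  simp only [hPS] at h
  have ha1 := h 0 1 0
  have ha2 := h 0 2 0
  have ha3 := h 0 3 0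
  have hb1 := h 0 3 2
  have hb2 := h 0 1 3
  have hb3 := h 0 2 1
  have hc1 := h 1 1 0
  have hc2 := h 1 2 0
  have hc3 := h 1 3 0
  have hd1 := h 1 3 2
  have hd2 := h 1 1 3
  have hd3 := h 1 2 1
  have he1 := h 2 1 0
  have he2 := h 2 2 0
  have he3 := h 2 3 0
  have hf1 := h 2 3 2
  have hf2 := h 2 1 3
  have hf3 := h 2 2 1
  have hg1 := h 3 1 0
  have hg2 := h 3 2 0
  have hg3 := h 3 3 0
  have hh1 := h 3 3 2
  have hh2 := h 3 1 3
  have hh3 := h 3 2 1
  clear h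
  simp only [Fin.sum_univ_four, einArr, sk, Matrix.cons_val] at ha1 ha2 ha3 hb1 hb2 hb3 hc1 hc2 hc3 hd1 hd2 hd3 he1 he2 he3 hf1 hf2 hf3 hg1 hg2 hg3 hh1 hh2 hh3
  simp only [Matrix.neg_cons, Matrix.neg_empty, Matrix.cons_val, Pi.neg_apply, Pi.zero_apply, neg_zero,
    add_zero, zero_add, neg_neg] at ha1 ha2 ha3 hb1 hb2 hb3 hc1 hc2 hc3 hd1 hd2 hd3 he1 he2 he3 hf1 hf2 hf3 hg1 hg2 hg3 hh1 hh2 hh3
  refine ⟨⟨⟨?_, ?_, ?_, ?_⟩, ⟨?_, ?_, ?_, ?_⟩, ⟨?_, ?_, ?_, ?_⟩⟩,
    ⟨⟨?_, ?_, ?_, ?_⟩, ⟨?_, ?_, ?_, ?_⟩, ⟨?_, ?_, ?_, ?_⟩⟩⟩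
  · linarith only [ha1, hb1]
  · linarith only [hc1, hd1]
  · linarith only [he1, hf1]
  · linarith only [hg1, hh1]
  · linarith only [ha2, hb2]
  · linarith only [hc2, hd2]
  · linarith only [he2, hf2]
  · linarith only [hg2, hh2]
  · linarith only [ha3, hb3]
  · linarith only [hc3, hd3]
  · linarith only [he3, hf3]
  · linarith only [hg3, hh3]
  · linarith only [ha1, hb1]
  · linarith only [hc1, hd1]
  · linarith only [he1, hf1]
  · linarith only [hg1, hh1]
  · linarith only [ha2, hb2]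
  · linarith only [hc2, hd2]
  · linarith only [he2, hf2]
  · linarith only [hg2, hh2]
  · linarith only [ha3, hb3]
  · linarith only [hc3, hd3]
  · linarith only [he3, hf3]
  · linarith only [hg3, hh3]

end Vale.Agent.P211
end
end

section

section

namespace Vale.Agent.P211

/-- inner product of arrays -/
def ip (r r' : Arr4) : ℝ := ∑ i, ∑ j, ∑ k, ∑ l, r i j k l * r' i j k l

lemma ip_einArr (P S P' S' : Fin 3 → Fin 3 → ℝ) :
    ip (einArr P S) (einArr P' S') =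
      8 * (P 0 0 * P' 0 0 + P 1 1 * P' 1 1 + P 2 2 * P' 2 2 +
        2 * (P 0 1 * P' 0 1 + P 0 2 * P' 0 2 + P 1 2 * P' 1 2) +
        (S 0 0 * S' 0 0 + S 1 1 * S' 1 1 + S 2 2 * S' 2 2 +
        2 * (S 0 1 * S' 0 1 + S 0 2 * S' 0 2 + S 1 2 * S' 1 2))) := by
  simp only [ip, Fin.sum_univ_four]
  simp only [einArr, sk, Matrix.cons_val]
  simp only [Matrix.neg_cons, Matrix.neg_empty, Matrix.cons_val, Pi.neg_apply, Pi.zero_apply, neg_zero, mul_zero,
    zero_mul, add_zero, zero_add, neg_neg]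
  ring

end Vale.Agent.P211
end
end

section

section

namespace Vale.Agent.P211

/-- The second variation inequality at a minimal plane, as a statement about arrays. -/
def SecVar (k : ℝ) (r : Arr4) (d : Fin 4 → Arr4) (s : Fin 4 → Fin 4 → Arr4) : Prop :=
  ∀ α β γ δ : Fin 4 → ℝ,
  0 ≤ ∑ m, (s m m 0 1 1 0
      + 4 * (α m * d m 2 1 1 0 + β m * d m 3 1 1 0 + γ m * d m 0 2 1 0 + δ m * d m 0 3 1 0)
      + 2 * (α m ^ 2 * r 2 1 1 2 + 2 * (α m * β m) * r 2 1 1 3
        + β m ^ 2 * r 3 1 1 3 + γ m ^ 2 * r 0 2 2 0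
        + 2 * (γ m * δ m) * r 0 2 3 0 + δ m ^ 2 * r 0 3 3 0
        + 2 * (α m * δ m - β m * γ m) * r 2 3 1 0
        + 2 * (α m * γ m * r 2 1 2 0 + α m * δ m * r 2 1 3 0
          + β m * γ m * r 3 1 2 0 + β m * δ m * r 3 1 3 0)
        - k * (α m ^ 2 + β m ^ 2 + γ m ^ 2 + δ m ^ 2)))

/-- determinant of the positive block of `A` -/
def detA (k : ℝ) (P S : Fin 3 → Fin 3 → ℝ) : ℝ :=
  (P 1 1 + S 1 1 - (k + S 0 0)) * (P 2 2 + S 2 2 - (k + S 0 0)) - (P 1 2 + S 1 2) ^ 2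

/-- determinant of the positive block of `C` -/
def detC (k : ℝ) (P S : Fin 3 → Fin 3 → ℝ) : ℝ :=
  (P 1 1 - S 1 1 - (k - S 0 0)) * (P 2 2 - S 2 2 - (k - S 0 0)) - (P 1 2 - S 1 2) ^ 2

/-- the block quadratic form of `A` -/
def qA (k : ℝ) (P S : Fin 3 → Fin 3 → ℝ) (v w : ℝ) : ℝ :=
  (P 1 1 + S 1 1 - (k + S 0 0)) * v ^ 2 + 2 * (P 1 2 + S 1 2) * v * w
    + (P 2 2 + S 2 2 - (k + S 0 0)) * w ^ 2

/-- the block quadratic form of `C` -/
def qC (k : ℝ) (P S : Fin 3 → Fin 3 → ℝ) (v w : ℝ) : ℝ :=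
  (P 1 1 - S 1 1 - (k - S 0 0)) * v ^ 2 + 2 * (P 1 2 - S 1 2) * v * w
    + (P 2 2 - S 2 2 - (k - S 0 0)) * w ^ 2

lemma lapP00 {lam k : ℝ} {r : Arr4} {P S : Fin 3 → Fin 3 → ℝ} (h : BlockForm lam k r P S) :
    2 * lapArr r 0 1 1 0 = 12 * (k ^ 2 + S 0 0 ^ 2) - 4 * lam * k - 4 * (detA k P S + detC k P S) := by
  rw [h.eq, lapArr_P00 P S h.P01 h.P02 h.S01 h.S02 h.trS]
  have e1 : P 2 2 = lam - k - P 1 1 := by linarith only [h.trP, h.P00]
  have e2 : S 2 2 = - S 0 0 - S 1 1 := by linarith only [lam, k, r, P, S, h, h.trS]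
  simp only [detA, detC, e1, e2, h.P00]
  ring

lemma lapC00 {lam k : ℝ} {r : Arr4} {P S : Fin 3 → Fin 3 → ℝ} (h : BlockForm lam k r P S) :
    lapArr r 0 1 1 0 - lapArr r 0 1 3 2 =
      6 * (k - S 0 0) ^ 2 - 2 * lam * (k - S 0 0) - 4 * detC k P S := by
  rw [h.eq, lapArr_P00 P S h.P01 h.P02 h.S01 h.S02 h.trS,
    lapArr_S00 P S h.P01 h.P02 h.S01 h.S02 h.trS]
  have e1 : P 2 2 = lam - k - P 1 1 := by linarith only [h.trP, h.P00]
  have e2 : S 2 2 = - S 0 0 - S 1 1 := by linarith only [lam, k, r, P, S, h, h.trS]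
  simp only [detC, e1, e2, h.P00]
  ring

/-- The key inequality (star). -/
lemma star {lam k : ℝ} {r : Arr4} {d : Fin 4 → Arr4} {s : Fin 4 → Fin 4 → Arr4}
    {P S : Fin 3 → Fin 3 → ℝ} {P' S' : Fin 4 → Fin 3 → Fin 3 → ℝ}
    (hJ : EinsteinJet lam r d s) (h : BlockForm lam k r P S)
    (hd : ∀ m, d m = einArr (P' m) (S' m)) (hV : SecVar k r d s) (a b u v : Fin 4 → ℝ) :
    0 ≤ 12 * (k ^ 2 + S 0 0 ^ 2) - 4 * lam * k - 4 * (detA k P S + detC k P S)
      + ∑ m, (4 * (a m * (P' m 0 1 + S' m 0 1) + b m * (P' m 0 2 + S' m 0 2)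
        + u m * (P' m 0 1 - S' m 0 1) + v m * (P' m 0 2 - S' m 0 2))
        + 2 * (qA k P S (a m) (b m) + qC k P S (u m) (v m))) := by
  have h1 := hV (fun m => (v m - b m) / 2) (fun m => (a m - u m) / 2)
    (fun m => (a m + u m) / 2) (fun m => (b m + v m) / 2)
  have h2 : ∑ m, s m m 0 1 1 0 = lapArr r 0 1 1 0 := hJ.lap 0 1 1 0
  rw [← lapP00 h, ← h2, Finset.mul_sum, ← Finset.sum_add_distrib]
  have h3 : ∀ m, 2 * s m m 0 1 1 0 + (4 * (a m * (P' m 0 1 + S' m 0 1) + b m * (P' m 0 2 + S' m 0 2)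
        + u m * (P' m 0 1 - S' m 0 1) + v m * (P' m 0 2 - S' m 0 2))
        + 2 * (qA k P S (a m) (b m) + qC k P S (u m) (v m))) = 2 * (s m m 0 1 1 0
      + 4 * ((v m - b m) / 2 * d m 2 1 1 0 + (a m - u m) / 2 * d m 3 1 1 0
        + (a m + u m) / 2 * d m 0 2 1 0 + (b m + v m) / 2 * d m 0 3 1 0)
      + 2 * (((v m - b m) / 2) ^ 2 * r 2 1 1 2
        + 2 * ((v m - b m) / 2 * ((a m - u m) / 2)) * r 2 1 1 3
        + ((a m - u m) / 2) ^ 2 * r 3 1 1 3 + ((a m + u m) / 2) ^ 2 * r 0 2 2 0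
        + 2 * ((a m + u m) / 2 * ((b m + v m) / 2)) * r 0 2 3 0
        + ((b m + v m) / 2) ^ 2 * r 0 3 3 0
        + 2 * ((v m - b m) / 2 * ((b m + v m) / 2) - (a m - u m) / 2 * ((a m + u m) / 2))
          * r 2 3 1 0
        + 2 * ((v m - b m) / 2 * ((a m + u m) / 2) * r 2 1 2 0
          + (v m - b m) / 2 * ((b m + v m) / 2) * r 2 1 3 0
          + (a m - u m) / 2 * ((a m + u m) / 2) * r 3 1 2 0
          + (a m - u m) / 2 * ((b m + v m) / 2) * r 3 1 3 0)
        - k * (((v m - b m) / 2) ^ 2 + ((a m - u m) / 2) ^ 2 + ((a m + u m) / 2) ^ 2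
          + ((b m + v m) / 2) ^ 2))) := by
    intro m
    rw [h.eq, hd m]
    have e1 : P 2 2 = lam - k - P 1 1 := by linarith only [h.trP, h.P00]
    have e2 : S 2 2 = - S 0 0 - S 1 1 := by linarith only [h.trS]
    simp only [Fin.isValue, qA, e1, e2, qC, einArr, sk, neg_neg, Matrix.neg_cons, neg_zero, Matrix.neg_empty, Matrix.cons_val', Matrix.cons_val_one, Matrix.cons_val_zero, Matrix.cons_val_fin_one, Pi.zero_apply, Matrix.cons_val, mul_neg, h.P00, h.P01, h.P02, h.S02, h.S01, neg_sub, sub_neg_eq_add, neg_add_rev]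
    ring
  rw [Finset.sum_congr rfl (fun m _ => h3 m), ← Finset.mul_sum]
  (clear * - h1; positivity)

end Vale.Agent.P211
end
end

section

section

namespace Vale.Agent.P211

variable {lam k : ℝ} {r : Arr4} {d : Fin 4 → Arr4} {s : Fin 4 → Fin 4 → Arr4}

lemma EinsteinJet.block (hJ : EinsteinJet lam r d s) (hm : MinPlane k r) :
    BlockForm lam k r (Pm r) (Sm r) := blockForm hJ.hr hJ.hrt hm

lemma EinsteinJet.dEin (hJ : EinsteinJet lam r d s) (m : Fin 4) :
    d m = einArr (Pm (d m)) (Sm (d m)) :=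
  (eq_einArr (c := 0) (hJ.hd m) (by intro j k; rw [hJ.hdt]; simp)).1

lemma Sm00 (r : Arr4) : Sm r 0 0 = r 0 1 3 2 := by simp [Sm]

lemma Pm00 (r : Arr4) : Pm r 0 0 = r 0 1 1 0 := by simp [Pm]

section block
variable {P S : Fin 3 → Fin 3 → ℝ}

lemma BlockForm.factsA (h : BlockForm lam k r P S) :
    0 ≤ P 1 1 + S 1 1 - (k + S 0 0) ∧ 0 ≤ P 2 2 + S 2 2 - (k + S 0 0) ∧ 0 ≤ detA k P S :=
  psd_facts h.psdA

lemma BlockForm.factsC (h : BlockForm lam k r P S) :
    0 ≤ P 1 1 - S 1 1 - (k - S 0 0) ∧ 0 ≤ P 2 2 - S 2 2 - (k - S 0 0) ∧ 0 ≤ detC k P S :=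
  psd_facts h.psdC

lemma BlockForm.trA (h : BlockForm lam k r P S) :
    (P 1 1 + S 1 1 - (k + S 0 0)) + (P 2 2 + S 2 2 - (k + S 0 0)) = lam - 3 * (k + S 0 0) := by
  linarith only [h.trP, h.trS, h.P00]

lemma BlockForm.trC (h : BlockForm lam k r P S) :
    (P 1 1 - S 1 1 - (k - S 0 0)) + (P 2 2 - S 2 2 - (k - S 0 0)) = lam - 3 * (k - S 0 0) := by
  linarith only [h.trP, h.trS, h.P00]

end block

/-- `|ρ| ≤ λ/3 - k` at a minimal plane. -/
theorem abs_rho_le (hJ : EinsteinJet lam r d s) (hm : MinPlane k r) :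
    |r 0 1 3 2| ≤ lam / 3 - k := by
  have h := hJ.block hm
  obtain ⟨a1, a2, -⟩ := h.factsA
  obtain ⟨c1, c2, -⟩ := h.factsC
  have hA := h.trA
  have hC := h.trC
  rw [Sm00] at *
  rw [abs_le]
  constructor <;> linarith only [a1, a2, hA, c1, c2, hC]

/-- Step (1): `3 ρ² ≥ k (λ - 3k)`. -/
theorem step_one (hJ : EinsteinJet lam r d s) (hm : MinPlane k r) (hV : SecVar k r d s) :
    k * (lam - 3 * k) ≤ 3 * (r 0 1 3 2) ^ 2 := by
  have h := hJ.block hm
  obtain ⟨-, -, a3⟩ := h.factsA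
  obtain ⟨-, -, c3⟩ := h.factsC
  have := star hJ h hJ.dEin hV 0 0 0 0
  simp only [Fin.isValue, Pi.zero_apply, zero_mul, add_zero, mul_zero, qA, ne_eq, OfNat.ofNat_ne_zero, not_false_eq_true, zero_pow, qC, Finset.sum_const_zero, sub_nonneg] at this
  rw [← Sm00 r]
  linarith only [this, c3, a3]

/-- At a point with `k = 0` and `ρ = 0` both blocks are degenerate. -/
theorem step_four (hJ : EinsteinJet lam r d s) (hm : MinPlane 0 r) (hV : SecVar 0 r d s)
    (hρ : r 0 1 3 2 = 0) : detA 0 (Pm r) (Sm r) = 0 ∧ detC 0 (Pm r) (Sm r) = 0 := by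
  have h := hJ.block hm
  obtain ⟨-, -, a3⟩ := h.factsA
  obtain ⟨-, -, c3⟩ := h.factsC
  have := star hJ h hJ.dEin hV 0 0 0 0
  simp only [ne_eq, OfNat.ofNat_ne_zero, not_false_eq_true, zero_pow, Fin.isValue, Sm00, hρ, add_zero, mul_zero, sub_self, zero_sub, Pi.zero_apply, zero_mul, qA, sub_zero, qC, Finset.sum_const_zero, Left.nonneg_neg_iff] at this
  constructor <;> linarith only [a3, c3, this]

lemma two_sq (a b : ℝ) : (a + b) ^ 2 ≤ 2 * a ^ 2 + 2 * b ^ 2 := by linarith only [sq_nonneg (a - b)]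

lemma SDRow.norm {u v w : Fin 4 → ℝ} (h : SDRow u v w) :
    ∑ m, u m ^ 2 ≤ 2 * ∑ m, (v m ^ 2 + w m ^ 2) := by
  simp only [Fin.sum_univ_four]
  have h0 : u 0 = - v 3 + w 2 := by linarith [h.e1]
  have h1 : u 1 = - v 2 + - w 3 := by linarith only [u, v, w, h, h.e0]
  have h2 : u 2 = v 1 + - w 0 := by linarith [h.e3]
  have h3 : u 3 = v 0 + w 1 := by linarith only [u, v, w, h, h.e2]
  rw [h0, h1, h2, h3]
  linarith only [two_sq (v 0) (w 1), two_sq (v 1) (- w 0), two_sq (- v 2) (- w 3), two_sq (- v 3) (w 2)]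

/-- The gradient bound in the case `k = 0`. -/
theorem step_grad (hlam : 0 < lam) (hJ : EinsteinJet lam r d s) (hm : MinPlane 0 r)
    (hV : SecVar 0 r d s) (hd0 : ∀ m, d m 0 1 1 0 = 0) :
    ∑ m, (d m 0 1 3 2) ^ 2 ≤ 24 * lam * (r 0 1 3 2) ^ 2 := by
  have h := hJ.block hm
  obtain ⟨a1, a2, a3⟩ := h.factsA
  obtain ⟨-, -, c3⟩ := h.factsC
  have hA := h.trA
  have hb := abs_rho_le hJ hm
  have hrows := (rows hJ.hd hJ.hdt hJ.hdb hJ.dEin).1.1
  have hn := hrows.norm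
  set P := Pm r
  set S := Sm r
  set A1 : Fin 4 → ℝ := fun m => Pm (d m) 0 1 + Sm (d m) 0 1 with hA1
  set A2 : Fin 4 → ℝ := fun m => Pm (d m) 0 2 + Sm (d m) 0 2 with hA2
  have hst := star hJ h hJ.dEin hV (fun m => -(A1 m / (2 * lam))) (fun m => -(A2 m / (2 * lam))) 0 0
  have hρ : S 0 0 = r 0 1 3 2 := Sm00 r
  have hρ2 : -(lam / 3) ≤ S 0 0 := by
    rw [hρ]; have := (abs_le.mp hb).1; linarith only [this]
  have key : ∀ m, 4 * (-(A1 m / (2 * lam)) * (Pm (d m) 0 1 + Sm (d m) 0 1)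
      + -(A2 m / (2 * lam)) * (Pm (d m) 0 2 + Sm (d m) 0 2)
      + (0 : Fin 4 → ℝ) m * (Pm (d m) 0 1 - Sm (d m) 0 1)
      + (0 : Fin 4 → ℝ) m * (Pm (d m) 0 2 - Sm (d m) 0 2))
      + 2 * (qA 0 P S (-(A1 m / (2 * lam))) (-(A2 m / (2 * lam)))
        + qC 0 P S ((0 : Fin 4 → ℝ) m) ((0 : Fin 4 → ℝ) m)) ≤
      - (1 / lam) * (A1 m ^ 2 + A2 m ^ 2) := by
    intro m
    have hq : qA 0 P S (-(A1 m / (2 * lam))) (-(A2 m / (2 * lam))) ≤
        (2 * lam) * ((A1 m / (2 * lam)) ^ 2 + (A2 m / (2 * lam)) ^ 2) := by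
      have h1 : ∀ x y : ℝ, qA 0 P S x y ≤ (2 * lam) * (x ^ 2 + y ^ 2) := by
        intro x y
        have hp := h.psdA (-y) x
        simp only [qA]
        linarith only [mul_nonneg (sq_nonneg (y : ℝ)) (sub_nonneg.2 hρ2), mul_eq_zero_of_left (sub_eq_zero.2 hA) (0 - (0 - y ^ 2)), mul_nonneg (sq_nonneg (x : ℝ)) (sub_nonneg.2 hρ2), mul_eq_zero_of_left (sub_eq_zero.2 hA) (0 - (0 - x ^ 2)), hp]
      have := h1 (-(A1 m / (2 * lam))) (-(A2 m / (2 * lam)))
      simpa only [ge_iff_le, even_two, Even.neg_pow] using this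
    have e1 : Pm (d m) 0 1 + Sm (d m) 0 1 = A1 m := rfl
    have e2 : Pm (d m) 0 2 + Sm (d m) 0 2 = A2 m := rfl
    rw [e1, e2]
    have e3 : qC 0 P S ((0 : Fin 4 → ℝ) m) ((0 : Fin 4 → ℝ) m) = 0 := by simp [qC]
    rw [e3]
    simp only [Pi.zero_apply, zero_mul, add_zero]
    have e4 : -(1 / lam) * (A1 m ^ 2 + A2 m ^ 2) =
        4 * (-(A1 m / (2 * lam)) * A1 m + -(A2 m / (2 * lam)) * A2 m)
        + 2 * ((2 * lam) * ((A1 m / (2 * lam)) ^ 2 + (A2 m / (2 * lam)) ^ 2)) := by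
      field_simp
      ring
    rw [e4]
    linarith only [hq]
  have hsum := Finset.sum_le_sum (fun m (_ : m ∈ Finset.univ) => key m)
  rw [← Finset.mul_sum] at hsum
  have hfin : 0 ≤ 12 * S 0 0 ^ 2 - (1 / lam) * ∑ m, (A1 m ^ 2 + A2 m ^ 2) := by
    simp only [mul_zero, zero_pow two_ne_zero, zero_add] at hst
    linarith only [a3, c3, hsum, hst]
  have hb2 : ∑ m, (A1 m ^ 2 + A2 m ^ 2) ≤ 12 * lam * S 0 0 ^ 2 := by
    have : (1 / lam) * ∑ m, (A1 m ^ 2 + A2 m ^ 2) ≤ 12 * S 0 0 ^ 2 := by linarith only [a3, c3, hst, hsum]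
    rw [one_div, inv_mul_le_iff₀ hlam] at this
    linarith only [this]
  have hd1 : ∀ m, d m 0 1 3 2 = Pm (d m) 0 0 + Sm (d m) 0 0 := by
    intro m; rw [Pm00, Sm00, hd0 m, zero_add]
  rw [Finset.sum_congr rfl (fun m _ => by rw [hd1 m])]
  rw [← hρ]
  linarith only [hn, hb2]

/-- Step (2): at a maximum of `y` the anti-self-dual part is trivial. -/
theorem step_two (hlam : 0 < lam) (hk : 0 ≤ k) (hJ : EinsteinJet lam r d s) (hm : MinPlane k r)
    (hρ : r 0 1 3 2 < 0) (hC : 0 ≤ ∑ m, (s m m 0 1 1 0 - s m m 0 1 3 2)) :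
    r 0 1 3 2 = -(lam / 3 - k) := by
  have h := hJ.block hm
  obtain ⟨-, -, c3⟩ := h.factsC
  have hb := (abs_le.mp (abs_rho_le hJ hm)).1
  rw [Finset.sum_sub_distrib, hJ.lap, hJ.lap] at hC
  have e := lapC00 h
  simp only [lapArr] at e
  rw [e, Sm00 r] at hC
  have hc : 0 < k - r 0 1 3 2 := by linarith only [hk, hρ]
  have h1 : 0 ≤ 3 * (k - r 0 1 3 2) - lam := by
    by_contra hcon
    push_neg at hcon
    linarith only [mul_pos (sub_pos.2 hρ) (sub_pos.2 hcon), mul_nonneg (sub_nonneg.2 hk) (le_of_lt (sub_pos.2 hcon)), c3, hC]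
  linarith only [hb, h1]

/-- If `ρ = -(λ/3 - k)` then the anti-self-dual block is scalar. -/
theorem scalarC (hJ : EinsteinJet lam r d s) (hm : MinPlane k r)
    (hρ : r 0 1 3 2 = -(lam / 3 - k)) :
    Pm r 1 1 - Sm r 1 1 = lam / 3 ∧ Pm r 2 2 - Sm r 2 2 = lam / 3 ∧ Pm r 1 2 - Sm r 1 2 = 0 := by
  have h := hJ.block hm
  obtain ⟨c1, c2, c3⟩ := h.factsC
  have hC := h.trC
  rw [Sm00 r, hρ] at hC c1 c2
  simp only [detC, Sm00 r, hρ] at c3
  have e1 : Pm r 1 1 - Sm r 1 1 - (k - -(lam / 3 - k)) = 0 := by linarith only [c1, c2, hC]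
  have e2 : Pm r 2 2 - Sm r 2 2 - (k - -(lam / 3 - k)) = 0 := by linarith only [c1, c2, hC]
  rw [e1, e2] at c3
  refine ⟨by linarith only [c1, c2, hC], by linarith only [c1, c2, hC], ?_⟩
  nlinarith only [c3]

/-- Step (3a): at a point with trivial anti-self-dual part. -/
theorem step_three_a (hJ : EinsteinJet lam r d s) (hm : MinPlane k r) (hV : SecVar k r d s)
    (hρ : r 0 1 3 2 = -(lam / 3 - k)) :
    4 * detA k (Pm r) (Sm r) ≤ 24 * (k - lam / 6) * (k - lam / 3) := by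
  have h := hJ.block hm
  have hsc := scalarC hJ hm hρ
  have := star hJ h hJ.dEin hV 0 0 0 0
  obtain ⟨s1, s2, s3⟩ := hsc
  have e : detC k (Pm r) (Sm r) = 0 := by
    simp only [detC, Sm00 r, hρ, s1, s2, s3]
    ring
  simp only [Fin.isValue, Sm00, hρ, neg_sub, e, add_zero, Pi.zero_apply, zero_mul, mul_zero, qA, ne_eq, OfNat.ofNat_ne_zero, not_false_eq_true, zero_pow, qC, sub_sub_cancel, Finset.sum_const_zero, sub_nonneg] at this
  linarith only [this]

end Vale.Agent.P211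
end
end

section

section

namespace Vale.Agent.P211

variable {lam k : ℝ} {r : Arr4} {d : Fin 4 → Arr4} {s : Fin 4 → Fin 4 → Arr4}

/-- The Laplacian array. -/
def lapS (s : Fin 4 → Fin 4 → Arr4) : Arr4 := fun i j k l => ∑ m, s m m i j k l

lemma isAlgCurv_lapS (hJ : EinsteinJet lam r d s) : IsAlgCurv (lapS s) where
  anti12 i j k l := by
    simp only [lapS]
    rw [Finset.sum_congr rfl (fun m _ => (hJ.hs m m).anti12 i j k l), Finset.sum_neg_distrib]
  anti34 i j k l := by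
    simp only [lapS]
    rw [Finset.sum_congr rfl (fun m _ => (hJ.hs m m).anti34 i j k l), Finset.sum_neg_distrib]
  pair i j k l := by
    simp only [lapS]
    exact Finset.sum_congr rfl (fun m _ => (hJ.hs m m).pair i j k l)
  bianchi i j k l := by
    simp only [lapS]
    rw [← Finset.sum_add_distrib, ← Finset.sum_add_distrib]
    exact Finset.sum_eq_zero (fun m _ => (hJ.hs m m).bianchi i j k l)

lemma lapS_ein (hJ : EinsteinJet lam r d s) : lapS s = einArr (Pm (lapS s)) (Sm (lapS s)) :=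
  (eq_einArr (c := 0) (isAlgCurv_lapS hJ) (by
    intro j k
    simp only [lapS]
    rw [Finset.sum_comm]
    simp [hJ.hst])).1

lemma lapS_eq (hJ : EinsteinJet lam r d s) (i j k l : Fin 4) :
    lapS s i j k l = lapArr r i j k l := hJ.lap i j k l

lemma ip_sum_left (f : Fin 4 → Arr4) (r : Arr4) :
    ip (fun i j k l => ∑ m, f m i j k l) r = ∑ m, ip (f m) r := by
  have a : ∀ i j k, ∑ l, ∑ m, f m i j k l * r i j k l = ∑ m, ∑ l, f m i j k l * r i j k l :=
    fun _ _ _ => Finset.sum_comm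
  have b : ∀ i j, ∑ k, ∑ l, ∑ m, f m i j k l * r i j k l
      = ∑ m, ∑ k, ∑ l, f m i j k l * r i j k l := by
    intro i j
    rw [Finset.sum_congr rfl (fun k _ => a i j k)]
    exact Finset.sum_comm
  have c : ∀ i, ∑ j, ∑ k, ∑ l, ∑ m, f m i j k l * r i j k l
      = ∑ m, ∑ j, ∑ k, ∑ l, f m i j k l * r i j k l := by
    intro i
    rw [Finset.sum_congr rfl (fun j _ => b i j)]
    exact Finset.sum_comm
  simp only [ip, Finset.sum_mul]
  rw [Finset.sum_congr rfl (fun i _ => c i)]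
  exact Finset.sum_comm

/-- inner product of the Laplacian with a block-form curvature array -/
lemma ip_lap_block {P S : Fin 3 → Fin 3 → ℝ} (hJ : EinsteinJet lam r d s)
    (h : BlockForm lam k r P S) :
    ip (lapS s) r = 8 * (lapArr r 0 1 1 0 * P 0 0 + lapArr r 0 2 2 0 * P 1 1
      + lapArr r 0 3 3 0 * P 2 2 + 2 * (lapArr r 0 2 3 0 * P 1 2)
      + (lapArr r 0 1 3 2 * S 0 0 + lapArr r 0 2 1 3 * S 1 1
      + lapArr r 0 3 2 1 * S 2 2 + 2 * (lapArr r 0 2 2 1 * S 1 2))) := by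
  have e1 := lapS_ein hJ
  have e2 : ip (lapS s) r = ip (einArr (Pm (lapS s)) (Sm (lapS s))) (einArr P S) := by
    rw [← e1, ← h.eq]
  rw [e2, ip_einArr, h.P01, h.P02, h.S01, h.S02]
  simp only [Pm, Sm, Matrix.cons_val_zero, Matrix.cons_val_one, Matrix.cons_val,
    lapS_eq hJ]
  ring

/-- purely algebraic final contradiction of step (3c) -/
lemma final_ineq {lam x m ρ2 : ℝ} (hlam : 0 < lam) (hx : lam < 3 * x) (hm0 : 0 ≤ m)
    (hm1 : 4 * m ≤ 6 * x ^ 2 - 2 * lam * x) (hρ : 6 * x * ρ2 ≤ m * (6 * x ^ 2 - 2 * lam * x - 4 * m))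
    (hN : 0 ≤ 24 * ρ2 + 4 * (12 * lam * x ^ 2 - 4 * lam * m - 36 * x ^ 3 + 18 * x * m)) :
    False := by
  have hxpos : 0 < x := by linarith only [lam, x, hlam, hx]
  have h1 : 0 ≤ x * (24 * ρ2 + 4 * (12 * lam * x ^ 2 - 4 * lam * m - 36 * x ^ 3 + 18 * x * m)) :=
    mul_nonneg hxpos.le hN
  have h2 : 0 ≤ m * (24 * x ^ 2 - 6 * lam * x) - 4 * m ^ 2 - 12 * x ^ 3 * (3 * x - lam) := by
    linarith only [h1, hρ]
  set δ := x * (3 * x - lam) / 2 - m with hδ
  have hδ0 : 0 ≤ δ := by rw [hδ]; nlinarith only [hm1]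
  have hm : m = x * (3 * x - lam) / 2 - δ := by rw [hδ]; ring
  have h3 : m * (24 * x ^ 2 - 6 * lam * x) - 4 * m ^ 2 - 12 * x ^ 3 * (3 * x - lam) =
      -(x ^ 2 * (3 * x - lam) * (3 * x + 2 * lam) + δ * (12 * x ^ 2 - 2 * lam * x)
        + 4 * δ ^ 2) := by
    rw [hm]; ring
  have h4 : 0 < x ^ 2 * (3 * x - lam) * (3 * x + 2 * lam) := by
    have : 0 < 3 * x - lam := by linarith only [hx]
    positivity
  have h5 : 0 ≤ δ * (12 * x ^ 2 - 2 * lam * x) := by
    apply mul_nonneg hδ0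
    nlinarith only [hm0, hm1]
  nlinarith only [hρ, h1, h3, h4, h5]

lemma ip_lap_diag {P S : Fin 3 → Fin 3 → ℝ} (hJ : EinsteinJet lam r d s)
    (h : BlockForm lam k r P S) (f00 : S 0 0 = -(lam / 3 - k)) (p12 : P 1 2 = 0)
    (q12 : S 1 2 = 0) (s1 : P 1 1 - S 1 1 = lam / 3) (s2 : P 2 2 - S 2 2 = lam / 3) :
    ip (lapS s) r = 4 * (2 * lam * ((k + S 0 0) ^ 2 + (P 1 1 + S 1 1) ^ 2 + (P 2 2 + S 2 2) ^ 2)
      - 2 * ((k + S 0 0) ^ 3 + (P 1 1 + S 1 1) ^ 3 + (P 2 2 + S 2 2) ^ 3)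
      - 12 * (k + S 0 0) * (P 1 1 + S 1 1) * (P 2 2 + S 2 2)) := by
  rw [ip_lap_block hJ h, h.eq, lapArr_P00 P S h.P01 h.P02 h.S01 h.S02 h.trS,
      lapArr_P11 P S h.P01 h.P02 h.S01 h.S02 h.trS,
      lapArr_P22 P S h.P01 h.P02 h.S01 h.S02 h.trS,
      lapArr_S00 P S h.P01 h.P02 h.S01 h.S02 h.trS,
      lapArr_S11 P S h.P01 h.P02 h.S01 h.S02 h.trS,
      lapArr_S22 P S h.P01 h.P02 h.S01 h.S02 h.trS, p12, q12, h.trP]
  have t1 := h.trP
  have t2 := h.trS
  have k0 := h.P00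
  have e1 : S 1 1 = P 1 1 - lam / 3 := by linarith only [s1]
  have e2 : S 2 2 = lam - k - P 1 1 - lam / 3 := by linarith only [f00, s1, t2]
  have e3 : P 2 2 = lam - k - P 1 1 := by linarith only [f00, s1, s2, t2]
  rw [e1, e2, e3, f00, k0]
  ring

set_option maxHeartbeats 1000000 in
/-- Step (3c): contradiction at a minimum of `|R|²` when `k < λ/6` and the anti-self-dual part is
trivial. -/
theorem step_three_b (hlam : 0 < lam) (hk : k < lam / 6) (hJ : EinsteinJet lam r d s)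
    (hm : MinPlane k r) (hV : SecVar k r d s) (hρ : r 0 1 3 2 = -(lam / 3 - k))
    (hA : r 0 2 3 0 + r 0 2 2 1 = 0) (hd0 : ∀ m, d m 0 1 1 0 = 0)
    (hdC : ∀ m a b, Pm (d m) a b = Sm (d m) a b)
    (hN1 : ∀ m, ip (d m) r = 0) (hN2 : 0 ≤ ∑ m, (ip (d m) (d m) + ip (s m m) r)) : False := by
  have h := hJ.block hm
  have hsc := scalarC hJ hm hρ
  have h3a := step_three_a hJ hm hV hρ
  obtain ⟨s1, s2, s3⟩ := hsc
  obtain ⟨a1, a2, a3⟩ := h.factsA
  have hst := star hJ h hJ.dEin hV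
  have hrows := (rows hJ.hd hJ.hdt hJ.hdb hJ.dEin).1
  have hlap := ip_lap_block hJ h
  have e00 : Pm r 0 0 = k := h.P00
  have f00 : Sm r 0 0 = -(lam / 3 - k) := by rw [Sm00, hρ]
  have hA' : Pm r 1 2 + Sm r 1 2 = 0 := by simpa only [Pm, Fin.isValue, Matrix.cons_val', Matrix.cons_val, Matrix.cons_val_fin_one, Matrix.cons_val_one,     Matrix.cons_val_zero, Sm] using hA
  have p12 : Pm r 1 2 = 0 := by linarith only [hA', s3]
  have q12 : Sm r 1 2 = 0 := by linarith only [hA', s3]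
  set P := Pm r with hP
  set S := Sm r with hS
  -- abbreviations
  obtain ⟨A1, hA1⟩ : ∃ A1, A1 = P 1 1 + S 1 1 := ⟨_, rfl⟩
  obtain ⟨A2, hA2⟩ : ∃ A2, A2 = P 2 2 + S 2 2 := ⟨_, rfl⟩
  have P11 : P 1 1 = (A1 + lam / 3) / 2 := by linarith only [hA1, s1]
  have S11 : S 1 1 = (A1 - lam / 3) / 2 := by linarith only [hA1, s1]
  have P22 : P 2 2 = (A2 + lam / 3) / 2 := by linarith only [hA2, s2]
  have S22 : S 2 2 = (A2 - lam / 3) / 2 := by linarith only [hA2, s2]
  obtain ⟨x, hx⟩ : ∃ x, x = 2 * (lam / 3 - k) := ⟨_, rfl⟩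
  have hk' : k = lam / 3 - x / 2 := by linarith only [hx]
  have hxl : lam < 3 * x := by linarith only [hx, hk]
  obtain ⟨μ, hμ⟩ : ∃ μ, μ = A1 - (k + S 0 0) := ⟨_, rfl⟩
  obtain ⟨ν, hν⟩ : ∃ ν, ν = A2 - (k + S 0 0) := ⟨_, rfl⟩
  have hsum : μ + ν = 3 * x := by
    have := h.trA
    rw [hμ, hν, hA1, hA2, hx]
    rw [f00] at this ⊢
    linarith only [this]
  have hdet : detA k P S = μ * ν := by
    simp only [detA, p12, q12, hμ, hν, hA1, hA2]
    ring
  have hμ0 : 0 ≤ μ := by rw [hμ, hA1]; linarith only [a1]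
  have hν0 : 0 ≤ ν := by rw [hν, hA2]; linarith only [a2]
  have hm0 : 0 ≤ μ * ν := mul_nonneg hμ0 hν0
  have hm1 : 4 * (μ * ν) ≤ 6 * x ^ 2 - 2 * lam * x := by
    rw [← hdet]
    have e : 24 * (k - lam / 6) * (k - lam / 3) = 6 * x ^ 2 - 2 * lam * x := by
      rw [hk']; ring
    linarith only [h3a, e]
  -- eigenvalues are distinct
  have hne : A1 - A2 ≠ 0 := by
    have e : A1 - A2 = μ - ν := by rw [hμ, hν]; ring
    rw [e]
    intro h0
    have h1 : (μ - ν) ^ 2 = 0 := by rw [h0]; simp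
    have h2 : (μ - ν) ^ 2 = 9 * x ^ 2 - 4 * (μ * ν) := by
      have : (μ - ν) ^ 2 = (μ + ν) ^ 2 - 4 * (μ * ν) := by ring
      rw [this, hsum]; ring
    have hx0 : 0 < x := by linarith only [hlam, hxl]
    linarith only [mul_pos (sub_pos.2 (mul_pos hlam hx0)) (sub_pos.2 (mul_pos hlam hx0)), mul_nonneg (sub_nonneg.2 hm1) (le_of_lt (sub_pos.2 (mul_pos hlam hx0))), mul_eq_zero_of_left (sub_eq_zero.2 h2) (lam * x - (0)), mul_eq_zero_of_left (sub_eq_zero.2 h1) (lam * x - (0)), mul_nonneg (sq_nonneg (x : ℝ)) (le_of_lt (sub_pos.2 (mul_pos hlam hx0)))]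
  -- derivative blocks
  have dP00 : ∀ m, Pm (d m) 0 0 = 0 := fun m => by rw [Pm00]; exact hd0 m
  have dtr : ∀ m, Pm (d m) 0 0 + Pm (d m) 1 1 + Pm (d m) 2 2 = 0 := fun m =>
    (eq_einArr (c := 0) (hJ.hd m) (by intro j k; rw [hJ.hdt]; simp)).2.2.2.1
  have dP22 : ∀ m, Pm (d m) 2 2 = - Pm (d m) 1 1 := fun m => by
    have := dtr m; rw [dP00 m] at this; linarith only [this]
  have dP11 : ∀ m, Pm (d m) 1 1 = 0 := by
    intro m
    have h1 := hN1 m
    rw [hJ.dEin m, h.eq, ip_einArr] at h1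
    simp only [← hdC m, dP00 m, dP22 m, h.P01, h.P02, h.S01, h.S02, p12, q12] at h1
    have h2 : Pm (d m) 1 1 * (A1 - A2) = 0 := by
      rw [hA1, hA2]
      linarith only [h1]
    exact (mul_eq_zero.mp h2).resolve_right hne
  -- the three vectors
  obtain ⟨v, hv⟩ : ∃ v : Fin 4 → ℝ, v = fun m => Pm (d m) 0 1 := ⟨_, rfl⟩
  obtain ⟨w, hw⟩ : ∃ w : Fin 4 → ℝ, w = fun m => Pm (d m) 0 2 := ⟨_, rfl⟩
  obtain ⟨z, hz⟩ : ∃ z : Fin 4 → ℝ, z = fun m => Pm (d m) 1 2 := ⟨_, rfl⟩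
  have hv' : ∀ m, Pm (d m) 0 1 = v m := fun m => by rw [hv]
  have hw' : ∀ m, Pm (d m) 0 2 = w m := fun m => by rw [hw]
  have hz' : ∀ m, Pm (d m) 1 2 = z m := fun m => by rw [hz]
  simp only [← hdC, dP00, dP11, dP22, hv', hw', hz'] at hrows
  obtain ⟨r0, r1, r2⟩ := hrows
  have nvw : ∑ m, w m ^ 2 = ∑ m, v m ^ 2 := by
    have b0 := r0.e0
    have b1 := r0.e1
    have b2 := r0.e2
    have b3 := r0.e3
    simp only [add_zero] at b0 b1 b2 b3
    simp only [Fin.sum_univ_four]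
    have c0 : v 2 = - w 3 := by linarith only [b0]
    have c1 : v 3 = w 2 := by linarith only [b1]
    have c2 : v 0 = - w 1 := by linarith only [b2]
    have c3 : v 1 = w 0 := by linarith only [b3]
    rw [c0, c1, c2, c3]; ring
  have nvz : ∑ m, z m ^ 2 = ∑ m, v m ^ 2 := by
    have b0 := r1.e0
    have b1 := r1.e1
    have b2 := r1.e2
    have b3 := r1.e3
    simp only [add_zero] at b0 b1 b2 b3
    simp only [Fin.sum_univ_four]
    have c0 : v 1 = - z 3 := by linarith only [b0]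
    have c1 : v 0 = z 2 := by linarith only [b1]
    have c2 : v 3 = z 1 := by linarith only [b2]
    have c3 : v 2 = - z 0 := by linarith only [b3]
    rw [c0, c1, c2, c3]; ring
  obtain ⟨ρ2, hρ2⟩ : ∃ ρ2, ρ2 = 4 * ∑ m, v m ^ 2 := ⟨_, rfl⟩
  have hρ0 : 0 ≤ ρ2 := by rw [hρ2]; (clear * -; positivity)
  -- star with scaled test vectors
  have hs : ∀ t : ℝ, 0 ≤ 6 * x ^ 2 - 2 * lam * x - 4 * (μ * ν)
      + ρ2 * (3 * x) * (-4 * t + 2 * t ^ 2 * (μ * ν)) := by
    intro t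
    have h1 := hst (fun m => -(t * ν * (2 * v m))) (fun m => -(t * μ * (2 * w m))) 0 0
    have e : detC k P S = 0 := by
      simp only [detC, s1, f00, s2, s3]
      ring
    rw [hdet, e, f00] at h1
    have h2 : ∀ m : Fin 4, 4 * (-(t * ν * (2 * v m)) * (Pm (d m) 0 1 + Sm (d m) 0 1)
        + -(t * μ * (2 * w m)) * (Pm (d m) 0 2 + Sm (d m) 0 2)
        + (0 : Fin 4 → ℝ) m * (Pm (d m) 0 1 - Sm (d m) 0 1)
        + (0 : Fin 4 → ℝ) m * (Pm (d m) 0 2 - Sm (d m) 0 2))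
        + 2 * (qA k P S (-(t * ν * (2 * v m))) (-(t * μ * (2 * w m)))
          + qC k P S ((0 : Fin 4 → ℝ) m) ((0 : Fin 4 → ℝ) m)) =
        4 * v m ^ 2 * (-4 * t * ν + 2 * t ^ 2 * ν * (μ * ν))
        + 4 * w m ^ 2 * (-4 * t * μ + 2 * t ^ 2 * μ * (μ * ν)) := by
      intro m
      have q1 : P 1 1 + S 1 1 - (k + S 0 0) = μ := by rw [hμ, hA1]
      have q2 : P 2 2 + S 2 2 - (k + S 0 0) = ν := by rw [hν, hA2]
      simp only [← hdC m, hv', hw', Pi.zero_apply, qA, qC, q1, q2, p12, q12]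
      ring
    rw [Finset.sum_congr rfl (fun m _ => h2 m), Finset.sum_add_distrib, ← Finset.sum_mul,
      ← Finset.sum_mul, ← Finset.mul_sum, ← Finset.mul_sum, nvw, ← hρ2] at h1
    have e3 : 12 * (k ^ 2 + (-(lam / 3 - k)) ^ 2) - 4 * lam * k = 6 * x ^ 2 - 2 * lam * x := by
      rw [hk']; ring
    have e4 : ρ2 * (3 * x) * (-4 * t + 2 * t ^ 2 * (μ * ν)) =
        ρ2 * (-4 * t * ν + 2 * t ^ 2 * ν * (μ * ν))
        + ρ2 * (-4 * t * μ + 2 * t ^ 2 * μ * (μ * ν)) := by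
      rw [← hsum]; ring
    rw [e4]
    linarith only [h1, e3]
  have hxpos : 0 < x := by linarith only [hlam, hxl]
  have hρm : 6 * x * ρ2 ≤ μ * ν * (6 * x ^ 2 - 2 * lam * x - 4 * (μ * ν)) := by
    rcases eq_or_lt_of_le hm0 with h0 | h0
    · rw [← h0] at hs ⊢
      have h1 : ρ2 = 0 := by
        by_contra hne'
        have hpos : 0 < ρ2 := lt_of_le_of_ne hρ0 (Ne.symm hne')
        have hE : 0 ≤ 6 * x ^ 2 - 2 * lam * x := by
          nlinarith only [mul_pos hxpos (sub_pos.mpr hxl)]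
        have := hs ((6 * x ^ 2 - 2 * lam * x + 1) / (12 * x * ρ2))
        have e : ρ2 * (3 * x) * (-4 * ((6 * x ^ 2 - 2 * lam * x + 1) / (12 * x * ρ2))
            + 2 * ((6 * x ^ 2 - 2 * lam * x + 1) / (12 * x * ρ2)) ^ 2 * 0) =
            -(6 * x ^ 2 - 2 * lam * x + 1) := by
          field_simp
          ring
        rw [e] at this
        linarith only [this]
      rw [h1]; simp
    · have := hs (1 / (μ * ν))
      have e : ρ2 * (3 * x) * (-4 * (1 / (μ * ν)) + 2 * (1 / (μ * ν)) ^ 2 * (μ * ν)) =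
          -(6 * x * ρ2) / (μ * ν) := by
        field_simp
        ring
      rw [e] at this
      have h2 : 6 * x * ρ2 / (μ * ν) ≤ 6 * x ^ 2 - 2 * lam * x - 4 * (μ * ν) := by
        rw [neg_div] at this
        linarith only [this]
      rw [div_le_iff₀ h0] at h2
      linarith only [h2]
  have hN : 0 ≤ 24 * ρ2 + 4 * (12 * lam * x ^ 2 - 4 * lam * (μ * ν) - 36 * x ^ 3
      + 18 * x * (μ * ν)) := by
    rw [Finset.sum_add_distrib] at hN2
    have e1 : ∑ m, ip (d m) (d m) = 24 * ρ2 := by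
      have e0 : ∀ m, ip (d m) (d m) = 32 * (v m ^ 2 + w m ^ 2 + z m ^ 2) := by
        intro m
        rw [hJ.dEin m, ip_einArr]
        simp only [← hdC m, dP00 m, dP11 m, dP22 m, hv', hw', hz']
        ring
      rw [Finset.sum_congr rfl (fun m _ => e0 m), ← Finset.mul_sum, Finset.sum_add_distrib,
        Finset.sum_add_distrib, nvw, nvz, hρ2]
      ring
    have e2 : ∑ m, ip (s m m) r = ip (lapS s) r := (ip_sum_left (fun m => s m m) r).symm
    rw [e1, e2, ip_lap_diag hJ h f00 p12 q12 s1 s2] at hN2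
    have e3 : P 1 1 + S 1 1 = μ + (k + S 0 0) := by rw [hμ, hA1]; ring
    have e4 : P 2 2 + S 2 2 = 3 * x - μ + (k + S 0 0) := by rw [← hsum, hν, hA2]; ring
    have e5 : ν = 3 * x - μ := by linarith only [hsum]
    rw [e3, e4, f00, hk'] at hN2
    rw [e5]
    refine hN2.trans_eq ?_
    ring
  exact final_ineq hlam hxl hm0 hm1 hρm hN

end Vale.Agent.P211
end
end

section

section

namespace Vale.Agent.P211

/-- the determinant of a 4-tuple of vectors, Laplace expansion along two rows -/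
def dt (f : Fin 4 → Fin 4 → ℝ) : ℝ :=
  wE (f 0) (f 1) 0 * wF (f 2) (f 3) 0 + wE (f 0) (f 1) 1 * wF (f 2) (f 3) 1
    + wE (f 0) (f 1) 2 * wF (f 2) (f 3) 2
    + (wF (f 0) (f 1) 0 * wE (f 2) (f 3) 0 + wF (f 0) (f 1) 1 * wE (f 2) (f 3) 1
    + wF (f 0) (f 1) 2 * wE (f 2) (f 3) 2)

lemma dt_eq_det (f : Fin 4 → Fin 4 → ℝ) : dt f = (Matrix.of f).det := by
  simp only [dt, wE, Fin.isValue, Matrix.cons_val_zero, wF, Matrix.cons_val_one, Matrix.cons_val, Matrix.det_succ_row_zero, Nat.succ_eq_add_one, Nat.reduceAdd, Matrix.of_apply, Matrix.submatrix_apply, Fin.succ_zero_eq_one, Fin.succAbove, Matrix.submatrix_submatrix, Function.comp_apply, Fin.succ_one_eq_two, Matrix.det_unique, Fin.default_eq_zero, Fin.reduceSucc, Fin.castSucc_zero, Fin.sum_univ_succ, Fin.coe_ofNat_eq_mod, Nat.zero_mod, pow_zero, one_mul, lt_self_iff_false, ↓reduceIte, Fin.castSucc_one, Finset.univ_unique, Fin.val_succ, Fin.val_eq_zero, zero_add, pow_one, Fin.castSucc_succ,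 neg_mul, Fin.succ_pos, Finset.sum_neg_distrib, Finset.sum_singleton, not_lt_zero, Fin.reduceCastSucc, even_two, Even.neg_pow, one_pow, Fin.reduceLT, Fin.lt_one_iff, Fin.reduceEq]
  ring

lemma dt_sq {f : Fin 4 → Fin 4 → ℝ}
    (hf : ∀ i j, ∑ a, f i a * f j a = if i = j then 1 else 0) : dt f ^ 2 = 1 := by
  have h1 : Matrix.of f * (Matrix.of f).transpose = 1 := by
    ext i j
    rw [Matrix.mul_apply, Matrix.one_apply]
    simpa only [Matrix.of_apply, Matrix.transpose_apply] using hf i j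
  have h2 : (Matrix.of f).det * (Matrix.of f).det = 1 := by
    conv_lhs => rhs; rw [← Matrix.det_transpose]
    rw [← Matrix.det_mul, h1, Matrix.det_one]
  rw [dt_eq_det, sq, h2]

/-- squared norm in three dimensions -/
def n3 (u : Fin 3 → ℝ) : ℝ := u 0 ^ 2 + u 1 ^ 2 + u 2 ^ 2

lemma wedge_norm (X Y : Fin 4 → ℝ) :
    n3 (wE X Y) + n3 (wF X Y) = (∑ a, X a * X a) * (∑ a, Y a * Y a) - (∑ a, X a * Y a) ^ 2 := by
  simp only [n3, wE, Fin.isValue, Matrix.cons_val_zero, Matrix.cons_val_one, Matrix.cons_val, wF, Fin.sum_univ_four]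
  ring

lemma wedge_self (X Y : Fin 4 → ℝ) :
    wE X Y 0 * wF X Y 0 + wE X Y 1 * wF X Y 1 + wE X Y 2 * wF X Y 2 = 0 := by
  simp only [wE, Fin.isValue, Matrix.cons_val_zero, wF, Matrix.cons_val_one, Matrix.cons_val]
  ring

/-- complementary minors of an orthogonal matrix -/
lemma compl_minors {f : Fin 4 → Fin 4 → ℝ}
    (hf : ∀ i j, ∑ a, f i a * f j a = if i = j then 1 else 0) (a : Fin 3) :
    wE (f 2) (f 3) a = dt f * wF (f 0) (f 1) a ∧ wF (f 2) (f 3) a = dt f * wE (f 0) (f 1) a := by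
  have h1 : n3 (wE (f 0) (f 1)) + n3 (wF (f 0) (f 1)) = 1 := by
    rw [wedge_norm, hf 0 0, hf 1 1, hf 0 1]; simp
  have h2 : n3 (wE (f 2) (f 3)) + n3 (wF (f 2) (f 3)) = 1 := by
    rw [wedge_norm, hf 2 2, hf 3 3, hf 2 3]; simp
  have h3 := dt_sq hf
  have h4 : (wE (f 2) (f 3) 0 - dt f * wF (f 0) (f 1) 0) ^ 2
      + (wE (f 2) (f 3) 1 - dt f * wF (f 0) (f 1) 1) ^ 2
      + (wE (f 2) (f 3) 2 - dt f * wF (f 0) (f 1) 2) ^ 2
      + (wF (f 2) (f 3) 0 - dt f * wE (f 0) (f 1) 0) ^ 2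
      + (wF (f 2) (f 3) 1 - dt f * wE (f 0) (f 1) 1) ^ 2
      + (wF (f 2) (f 3) 2 - dt f * wE (f 0) (f 1) 2) ^ 2 = 0 := by
    have e : dt f = wE (f 0) (f 1) 0 * wF (f 2) (f 3) 0 + wE (f 0) (f 1) 1 * wF (f 2) (f 3) 1
      + wE (f 0) (f 1) 2 * wF (f 2) (f 3) 2
      + (wF (f 0) (f 1) 0 * wE (f 2) (f 3) 0 + wF (f 0) (f 1) 1 * wE (f 2) (f 3) 1
      + wF (f 0) (f 1) 2 * wE (f 2) (f 3) 2) := rfl
    simp only [n3] at h1 h2
    linear_combination h2 + dt f ^ 2 * h1 + 2 * dt f * e - h3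
  have s0 := sq_nonneg (wE (f 2) (f 3) 0 - dt f * wF (f 0) (f 1) 0)
  have s1 := sq_nonneg (wE (f 2) (f 3) 1 - dt f * wF (f 0) (f 1) 1)
  have s2 := sq_nonneg (wE (f 2) (f 3) 2 - dt f * wF (f 0) (f 1) 2)
  have s3 := sq_nonneg (wF (f 2) (f 3) 0 - dt f * wE (f 0) (f 1) 0)
  have s4 := sq_nonneg (wF (f 2) (f 3) 1 - dt f * wE (f 0) (f 1) 1)
  have s5 := sq_nonneg (wF (f 2) (f 3) 2 - dt f * wE (f 0) (f 1) 2)
  have z0 : wE (f 2) (f 3) 0 - dt f * wF (f 0) (f 1) 0 = 0 := pow_eq_zero_iff two_ne_zero |>.mp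
    (by linarith only [h4, s0, s1, s2, s3, s4, s5])
  have z1 : wE (f 2) (f 3) 1 - dt f * wF (f 0) (f 1) 1 = 0 := pow_eq_zero_iff two_ne_zero |>.mp
    (by linarith only [h4, s0, s1, s2, s3, s4, s5])
  have z2 : wE (f 2) (f 3) 2 - dt f * wF (f 0) (f 1) 2 = 0 := pow_eq_zero_iff two_ne_zero |>.mp
    (by linarith only [h4, s0, s1, s2, s3, s4, s5])
  have z3 : wF (f 2) (f 3) 0 - dt f * wE (f 0) (f 1) 0 = 0 := pow_eq_zero_iff two_ne_zero |>.mp
    (by linarith only [h4, s0, s1, s2, s3, s4, s5])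
  have z4 : wF (f 2) (f 3) 1 - dt f * wE (f 0) (f 1) 1 = 0 := pow_eq_zero_iff two_ne_zero |>.mp
    (by linarith only [h4, s0, s1, s2, s3, s4, s5])
  have z5 : wF (f 2) (f 3) 2 - dt f * wE (f 0) (f 1) 2 = 0 := pow_eq_zero_iff two_ne_zero |>.mp
    (by linarith only [h4, s0, s1, s2, s3, s4, s5])
  fin_cases a
  · exact ⟨sub_eq_zero.mp z0, sub_eq_zero.mp z3⟩
  · exact ⟨sub_eq_zero.mp z1, sub_eq_zero.mp z4⟩
  · exact ⟨sub_eq_zero.mp z2, sub_eq_zero.mp z5⟩

/-- Comparison of an arbitrary orthonormal frame with a minimal-plane frame. -/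
theorem compare {lam k : ℝ} {r : Arr4} (h : IsAlgCurv r)
    (ht : ∀ j k, ∑ i, r i j k i = if j = k then lam else 0) (hm : MinPlane k r)
    {f : Fin 4 → Fin 4 → ℝ} (hf : ∀ i j, ∑ a, f i a * f j a = if i = j then 1 else 0) :
    |dt f * rf r (f 0) (f 1) (f 3) (f 2) - r 0 1 3 2| ≤ rf r (f 0) (f 1) (f 1) (f 0) - k := by
  obtain ⟨hr, k0, c1, c2, c3, c4, t1, t2, pA, pC⟩ := blockForm h ht hm
  set P := Pm r
  set S := Sm r
  have hρ : r 0 1 3 2 = S 0 0 := by rw [hr]; simp only [einArr, sk, Fin.isValue, neg_neg, Matrix.neg_cons, neg_zero, Matrix.neg_empty, Matrix.cons_val', Matrix.cons_val_one, Matrix.cons_val_zero, Matrix.cons_val_fin_one, Matrix.cons_val, Pi.zero_apply]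
  have h1 : n3 (wE (f 0) (f 1)) + n3 (wF (f 0) (f 1)) = 1 := by
    rw [wedge_norm, hf 0 0, hf 1 1, hf 0 1]; simp
  simp only [n3] at h1
  have h2 := wedge_self (f 0) (f 1)
  have h3 := dt_sq hf
  have m0 := compl_minors hf 0
  have m1 := compl_minors hf 1
  have m2 := compl_minors hf 2
  rw [hr, rf_einArr, rf_einArr]
  rw [show einArr P S 0 1 3 2 = S 0 0 by simp only [einArr, sk, Fin.isValue, neg_neg, Matrix.neg_cons, neg_zero, Matrix.neg_empty, Matrix.cons_val', Matrix.cons_val_one, Matrix.cons_val_zero, Matrix.cons_val_fin_one, Matrix.cons_val, Pi.zero_apply]]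
  simp only [qf, m0.1, m0.2, m1.1, m1.2, m2.1, m2.2, c1, c2, c3, c4, k0]
  set D := dt f
  generalize wE (f 0) (f 1) 0 = E0 at *
  generalize wE (f 0) (f 1) 1 = E1 at *
  generalize wE (f 0) (f 1) 2 = E2 at *
  generalize wF (f 0) (f 1) 0 = F0 at *
  generalize wF (f 0) (f 1) 1 = F1 at *
  generalize wF (f 0) (f 1) 2 = F2 at *
  have a := pA (E1 + F1) (E2 + F2)
  have c := pC (E1 - F1) (E2 - F2)
  have hA : (P 1 1 + S 1 1 - (k + S 0 0)) * (E1 + F1) ^ 2
      + 2 * (P 1 2 + S 1 2) * (E1 + F1) * (E2 + F2)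
      + (P 2 2 + S 2 2 - (k + S 0 0)) * (E2 + F2) ^ 2 =
      (k + S 0 0) * (E0 + F0) ^ 2 + (P 1 1 + S 1 1) * (E1 + F1) ^ 2
      + 2 * (P 1 2 + S 1 2) * (E1 + F1) * (E2 + F2)
      + (P 2 2 + S 2 2) * (E2 + F2) ^ 2 - (k + S 0 0) := by
    linear_combination (-(k + S 0 0)) * h1 - 2 * (k + S 0 0) * h2
  have hC : (P 1 1 - S 1 1 - (k - S 0 0)) * (E1 - F1) ^ 2
      + 2 * (P 1 2 - S 1 2) * (E1 - F1) * (E2 - F2)
      + (P 2 2 - S 2 2 - (k - S 0 0)) * (E2 - F2) ^ 2 =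
      (k - S 0 0) * (E0 - F0) ^ 2 + (P 1 1 - S 1 1) * (E1 - F1) ^ 2
      + 2 * (P 1 2 - S 1 2) * (E1 - F1) * (E2 - F2)
      + (P 2 2 - S 2 2) * (E2 - F2) ^ 2 - (k - S 0 0) := by
    linear_combination (-(k - S 0 0)) * h1 + 2 * (k - S 0 0) * h2
  rw [hA] at a
  rw [hC] at c
  have e3 : D * (k * E0 * (D * F0) + P 1 1 * E1 * (D * F1) + P 2 2 * E2 * (D * F2)
      + 0 * (E0 * (D * F1) + E1 * (D * F0)) + 0 * (E0 * (D * F2) + E2 * (D * F0))
      + P 1 2 * (E1 * (D * F2) + E2 * (D * F1)) +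
      (k * F0 * (D * E0) + P 1 1 * F1 * (D * E1) + P 2 2 * F2 * (D * E2)
        + 0 * (F0 * (D * E1) + F1 * (D * E0)) + 0 * (F0 * (D * E2) + F2 * (D * E0))
        + P 1 2 * (F1 * (D * E2) + F2 * (D * E1))) +
      (S 0 0 * E0 * (D * E0) + S 1 1 * E1 * (D * E1) + S 2 2 * E2 * (D * E2)
        + 0 * (E0 * (D * E1) + E1 * (D * E0)) + 0 * (E0 * (D * E2) + E2 * (D * E0))
        + S 1 2 * (E1 * (D * E2) + E2 * (D * E1))) +
      (S 0 0 * F0 * (D * F0) + S 1 1 * F1 * (D * F1) + S 2 2 * F2 * (D * F2)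
        + 0 * (F0 * (D * F1) + F1 * (D * F0)) + 0 * (F0 * (D * F2) + F2 * (D * F0))
        + S 1 2 * (F1 * (D * F2) + F2 * (D * F1)))) =
      2 * (k * E0 * F0 + P 1 1 * E1 * F1 + P 2 2 * E2 * F2 + P 1 2 * (E1 * F2 + E2 * F1))
      + (S 0 0 * E0 ^ 2 + S 1 1 * E1 ^ 2 + S 2 2 * E2 ^ 2 + 2 * S 1 2 * E1 * E2)
      + (S 0 0 * F0 ^ 2 + S 1 1 * F1 ^ 2 + S 2 2 * F2 ^ 2 + 2 * S 1 2 * F1 * F2) := by
    linear_combination (2 * (k * E0 * F0 + P 1 1 * E1 * F1 + P 2 2 * E2 * F2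
      + P 1 2 * (E1 * F2 + E2 * F1))
      + (S 0 0 * E0 ^ 2 + S 1 1 * E1 ^ 2 + S 2 2 * E2 ^ 2 + 2 * S 1 2 * E1 * E2)
      + (S 0 0 * F0 ^ 2 + S 1 1 * F1 ^ 2 + S 2 2 * F2 ^ 2 + 2 * S 1 2 * F1 * F2)) * h3
  rw [e3, abs_le]
  constructor
  · linarith only [a]
  · linarith only [c]

end Vale.Agent.P211
end
end

section

section

namespace Vale.Agent.P211

variable {lam k : ℝ} {r : Arr4} {d : Fin 4 → Arr4} {s : Fin 4 → Fin 4 → Arr4}

/-- the cubic expression of a block -/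
def cub (lam a x y b : ℝ) : ℝ :=
  2 * lam * (a ^ 2 + x ^ 2 + y ^ 2 + 2 * b ^ 2)
    - 2 * (a ^ 3 + x ^ 3 + y ^ 3 + 3 * b ^ 2 * (x + y)) - 12 * a * (x * y - b ^ 2)

lemma ip_lap_gen {P S : Fin 3 → Fin 3 → ℝ} (hJ : EinsteinJet lam r d s)
    (h : BlockForm lam k r P S) :
    ip (lapS s) r = 4 * (cub lam (k + S 0 0) (P 1 1 + S 1 1) (P 2 2 + S 2 2) (P 1 2 + S 1 2)
      + cub lam (k - S 0 0) (P 1 1 - S 1 1) (P 2 2 - S 2 2) (P 1 2 - S 1 2)) := by
  rw [ip_lap_block hJ h, h.eq, lapArr_P00 P S h.P01 h.P02 h.S01 h.S02 h.trS,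
      lapArr_P11 P S h.P01 h.P02 h.S01 h.S02 h.trS,
      lapArr_P22 P S h.P01 h.P02 h.S01 h.S02 h.trS,
      lapArr_S00 P S h.P01 h.P02 h.S01 h.S02 h.trS,
      lapArr_S11 P S h.P01 h.P02 h.S01 h.S02 h.trS,
      lapArr_S22 P S h.P01 h.P02 h.S01 h.S02 h.trS,
      lapArr_P12 P S h.P01 h.P02 h.S01 h.S02 h.trS,
      lapArr_S12 P S h.P01 h.P02 h.S01 h.S02 h.trS, h.trP, h.P00]
  simp only [cub]
  have t1 := h.trP
  have t2 := h.trS
  have k0 := h.P00
  have e1 : S 2 2 = - S 0 0 - S 1 1 := by linarith only [t2]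
  have e3 : P 2 2 = lam - k - P 1 1 := by linarith only [lam, k, P, t1, k0]
  rw [e1, e3]
  ring

lemma ip_self_gen {P S : Fin 3 → Fin 3 → ℝ} (h : BlockForm lam k r P S) :
    ip r r = 4 * (((k + S 0 0) ^ 2 + (P 1 1 + S 1 1) ^ 2 + (P 2 2 + S 2 2) ^ 2
      + 2 * (P 1 2 + S 1 2) ^ 2) + ((k - S 0 0) ^ 2 + (P 1 1 - S 1 1) ^ 2 + (P 2 2 - S 2 2) ^ 2
      + 2 * (P 1 2 - S 1 2) ^ 2)) := by
  rw [h.eq, ip_einArr, h.P00, h.P01, h.P02, h.S01, h.S02]
  ring

lemma cub_deg {lam x y b : ℝ} (h1 : x + y = lam) (h2 : x * y - b ^ 2 = 0) :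
    cub lam 0 x y b = 0 := by
  have e : b ^ 2 = x * y := by linarith only [h2]
  simp only [cub, e]
  rw [← h1]; ring

lemma cub_scalar (lam : ℝ) : cub lam (lam / 3) (lam / 3) (lam / 3) 0 = 0 := by
  simp only [cub]; ring

/-- The three possible curvature types at a point. -/
inductive CurvType (lam k : ℝ) (r : Arr4) : Prop
  | product (hk : k = 0) (h : r 0 1 3 2 = 0) (hA : detA 0 (Pm r) (Sm r) = 0)
      (hC : detC 0 (Pm r) (Sm r) = 0)
  | kaehler (hk : k = lam / 6) (h : r 0 1 3 2 = -(lam / 6)) (hA : detA (lam / 6) (Pm r) (Sm r) = 0)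
  | round (hk : k = lam / 3)

/-- value of `|R|²` in the three cases -/
noncomputable def typeVal (lam k : ℝ) : ℝ :=
  if k = 0 then 8 * lam ^ 2 else if k = lam / 6 then 16 * lam ^ 2 / 3 else 8 * lam ^ 2 / 3

lemma type_facts (hlam : 0 < lam) (hJ : EinsteinJet lam r d s) (hm : MinPlane k r)
    (ht : CurvType lam k r) : ip (lapS s) r = 0 ∧ ip r r = typeVal lam k := by
  have h := hJ.block hm
  have hg := ip_lap_gen hJ h
  have hs := ip_self_gen h
  have trA := h.trA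
  have trC := h.trC
  rcases ht with ⟨hk, hρ, hA, hC⟩ | ⟨hk, hρ, hA⟩ | hk
  · subst hk
    have f00 : Sm r 0 0 = 0 := by rw [Sm00, hρ]
    rw [f00] at hg hs trA trC
    simp only [detA, detC, f00, add_zero, sub_zero] at hA hC
    have a1 : Pm r 1 1 + Sm r 1 1 + (Pm r 2 2 + Sm r 2 2) = lam := by linarith only [trA]
    have a2 : Pm r 1 1 - Sm r 1 1 + (Pm r 2 2 - Sm r 2 2) = lam := by linarith only [trC]
    constructor
    · rw [hg, add_zero, sub_zero, cub_deg a1 hA, cub_deg a2 hC]; simp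
    · rw [hs]
      simp only [typeVal, if_true]
      have b1 : (Pm r 1 2 + Sm r 1 2) ^ 2 = (Pm r 1 1 + Sm r 1 1) * (Pm r 2 2 + Sm r 2 2) := by
        linarith only [hA]
      have b2 : (Pm r 1 2 - Sm r 1 2) ^ 2 = (Pm r 1 1 - Sm r 1 1) * (Pm r 2 2 - Sm r 2 2) := by
        linarith only [hC]
      rw [b1, b2]
      have c1 := congrArg (fun t => t ^ 2) a1
      have c2 := congrArg (fun t => t ^ 2) a2
      linarith only [c1, c2]
  · subst hk
    have f00 : Sm r 0 0 = -(lam / 6) := by rw [Sm00, hρ]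
    have hρ' : r 0 1 3 2 = -(lam / 3 - lam / 6) := by rw [hρ]; ring
    obtain ⟨s1, s2, s3⟩ := scalarC hJ hm hρ'
    simp only [detA, f00, add_neg_cancel, sub_zero] at hA
    rw [f00] at hg hs trA trC
    rw [s1, s2, s3] at hg hs
    have e1 : lam / 6 + -(lam / 6) = 0 := by ring
    have e2 : lam / 6 - -(lam / 6) = lam / 3 := by ring
    rw [e1, e2] at hg hs
    have a1 : Pm r 1 1 + Sm r 1 1 + (Pm r 2 2 + Sm r 2 2) = lam := by linarith only [trA]
    constructor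
    · rw [hg, cub_deg a1 hA, cub_scalar]; simp
    · rw [hs]
      have n1 : lam / 6 ≠ 0 := by positivity
      simp only [typeVal, n1, if_true, if_false]
      have b1 : (Pm r 1 2 + Sm r 1 2) ^ 2 = (Pm r 1 1 + Sm r 1 1) * (Pm r 2 2 + Sm r 2 2) := by
        linarith only [hA]
      rw [b1]
      have c1 := congrArg (fun t => t ^ 2) a1
      linarith only [c1]
  · subst hk
    have hb := abs_rho_le hJ hm
    have hρ : r 0 1 3 2 = 0 := by
      have : |r 0 1 3 2| ≤ 0 := by simpa only [Fin.isValue, abs_nonpos_iff, sub_self] using hb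
      exact abs_nonpos_iff.mp this
    have f00 : Sm r 0 0 = 0 := by rw [Sm00, hρ]
    have hρ' : r 0 1 3 2 = -(lam / 3 - lam / 3) := by rw [hρ]; ring
    obtain ⟨s1, s2, s3⟩ := scalarC hJ hm hρ'
    obtain ⟨a1, a2, a3⟩ := h.factsA
    rw [f00] at hg hs trA trC a1 a2
    simp only [detA, f00] at a3
    have u1 : Pm r 1 1 + Sm r 1 1 = lam / 3 := by linarith only [trA, a1, a2]
    have u2 : Pm r 2 2 + Sm r 2 2 = lam / 3 := by linarith only [trA, a1, a2]
    have u3 : Pm r 1 2 + Sm r 1 2 = 0 := by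
      rw [u1, u2] at a3
      have : (Pm r 1 2 + Sm r 1 2) ^ 2 ≤ 0 := by linarith only [a3]
      exact pow_eq_zero_iff two_ne_zero |>.mp (le_antisymm this (sq_nonneg _))
    rw [s1, s2, s3, u1, u2, u3] at hg hs
    simp only [add_zero, sub_zero] at hg hs
    constructor
    · rw [hg, cub_scalar]; simp
    · rw [hs]
      have n1 : lam / 3 ≠ 0 := by positivity
      have n2 : lam / 3 ≠ lam / 6 := by
        intro h; linarith only [hlam, h]
      simp only [typeVal, n1, n2, if_false]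
      ring

/-- Final step: the curvature is parallel. -/
theorem step_five (hlam : 0 < lam) (hJ : EinsteinJet lam r d s) (hm : MinPlane k r)
    (ht : CurvType lam k r) (hN : ∑ m, (ip (d m) (d m) + ip (s m m) r) = 0) : ∀ m, d m = 0 := by
  have h1 := (type_facts hlam hJ hm ht).1
  have e2 : ∑ m, ip (s m m) r = ip (lapS s) r := (ip_sum_left (fun m => s m m) r).symm
  rw [Finset.sum_add_distrib, e2, h1, add_zero] at hN
  have hnn : ∀ q : Arr4, 0 ≤ ip q q := by
    intro q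
    simp only [ip]
    refine Finset.sum_nonneg fun i _ => Finset.sum_nonneg fun j _ => Finset.sum_nonneg fun k _ =>
      Finset.sum_nonneg fun l _ => mul_self_nonneg _
  intro m
  have h2 : ip (d m) (d m) = 0 :=
    (Finset.sum_eq_zero_iff_of_nonneg (fun m _ => hnn (d m))).mp hN m (Finset.mem_univ _)
  funext i j k l
  simp only [ip] at h2
  have g1 := (Finset.sum_eq_zero_iff_of_nonneg (fun i _ => Finset.sum_nonneg fun j _ =>
    Finset.sum_nonneg fun k _ => Finset.sum_nonneg fun l _ => mul_self_nonneg (d m i j k l))).mp h2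
    i (Finset.mem_univ _)
  have g2 := (Finset.sum_eq_zero_iff_of_nonneg (fun j _ =>
    Finset.sum_nonneg fun k _ => Finset.sum_nonneg fun l _ => mul_self_nonneg (d m i j k l))).mp g1
    j (Finset.mem_univ _)
  have g3 := (Finset.sum_eq_zero_iff_of_nonneg (fun k _ =>
    Finset.sum_nonneg fun l _ => mul_self_nonneg (d m i j k l))).mp g2 k (Finset.mem_univ _)
  have g4 := (Finset.sum_eq_zero_iff_of_nonneg (fun l _ => mul_self_nonneg (d m i j k l))).mp g3
    l (Finset.mem_univ _)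
  simpa using mul_self_eq_zero.mp g4

end Vale.Agent.P211
end
end

section

section

namespace Vale.Agent.P211

variable {lam k : ℝ} {r : Arr4} {d : Fin 4 → Arr4} {s : Fin 4 → Fin 4 → Arr4}

/-- array in a new frame with coefficient rows `O i` -/
def rotArr (r : Arr4) (O : Fin 4 → Fin 4 → ℝ) : Arr4 := fun i j k l => rf r (O i) (O j) (O k) (O l)

lemma exists_angle (b δ : ℝ) : ∃ c s : ℝ, c ^ 2 + s ^ 2 = 1 ∧ (c ^ 2 - s ^ 2) * b = c * s * δ := by
  obtain ⟨φ, hφ⟩ : ∃ φ : ℝ, Real.cos φ * b = Real.sin φ * (δ / 2) := by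
    refine ⟨Complex.arg (⟨δ / 2, b⟩ : ℂ), ?_⟩
    set z : ℂ := ⟨δ / 2, b⟩ with hz
    have h1 : ‖z‖ * Real.cos (Complex.arg z) = δ / 2 := by
      rw [Complex.norm_mul_cos_arg]
    have h2 : ‖z‖ * Real.sin (Complex.arg z) = b := by
      rw [Complex.norm_mul_sin_arg]
    rw [← h1, ← h2]; ring
  refine ⟨Real.cos (φ / 2), Real.sin (φ / 2), Real.cos_sq_add_sin_sq _, ?_⟩
  have h1 : Real.cos φ = Real.cos (φ / 2) ^ 2 - Real.sin (φ / 2) ^ 2 := by
    rw [← Real.cos_two_mul']; ring_nf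
  have h2 : Real.sin φ = 2 * Real.sin (φ / 2) * Real.cos (φ / 2) := by
    rw [← Real.sin_two_mul]; ring_nf
  rw [← h1, hφ, h2]; ring

/-- rotation in the plane `e_2, e_3` -/
def rot23 (c s : ℝ) : Fin 4 → Fin 4 → ℝ :=
  ![![1, 0, 0, 0], ![0, 1, 0, 0], ![0, 0, c, s], ![0, 0, -s, c]]

lemma rot23_orth {c s : ℝ} (h : c ^ 2 + s ^ 2 = 1) (i j : Fin 4) :
    ∑ a, rot23 c s i a * rot23 c s j a = if i = j then 1 else 0 := by
  fin_cases i <;> fin_cases j <;> simp [rot23, Fin.sum_univ_four] <;> linarith only [h, c, s]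

/-- One can rotate `e_2, e_3` so that the self-dual block becomes diagonal. -/
theorem diag_rot (h : IsAlgCurv r)
    (ht : ∀ j k, ∑ i, r i j k i = if j = k then lam else 0) : ∃ c s : ℝ, c ^ 2 + s ^ 2 = 1 ∧
      rotArr r (rot23 c s) 0 2 3 0 + rotArr r (rot23 c s) 0 2 2 1 = 0 ∧
      rotArr r (rot23 c s) 0 1 3 2 = r 0 1 3 2 ∧ rotArr r (rot23 c s) 0 1 1 0 = r 0 1 1 0 := by
  obtain ⟨h1, -, -, -, -⟩ := eq_einArr h ht
  set P := Pm r
  set S := Sm r
  obtain ⟨c, s, hcs, hb⟩ := exists_angle (P 1 2 + S 1 2) (P 1 1 + S 1 1 - (P 2 2 + S 2 2))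
  refine ⟨c, s, hcs, ?_, ?_, ?_⟩
  · simp only [rotArr]
    rw [h1, rf_einArr, rf_einArr]
    simp only [qf, Fin.isValue, wE, rot23, Matrix.cons_val', Matrix.cons_val_zero, Matrix.cons_val_fin_one, Matrix.cons_val_one, Matrix.cons_val, mul_zero, sub_self, one_mul, sub_zero, mul_neg, zero_add, zero_mul, neg_zero, add_zero, wF, zero_sub]
    linarith only [hb]
  · simp only [rotArr]
    rw [h1, rf_einArr]
    simp only [qf, Fin.isValue, wE, rot23, Matrix.cons_val', Matrix.cons_val_zero, Matrix.cons_val_fin_one, Matrix.cons_val_one, mul_one, mul_zero, sub_zero, Matrix.cons_val, sub_self, mul_neg, zero_mul, neg_zero, add_zero, wF, sub_neg_eq_add, zero_add, einArr, sk, neg_neg, Matrix.neg_cons, Matrix.neg_empty, Pi.zero_apply]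
    linear_combination (S 0 0) * hcs
  · simp only [rotArr]
    rw [h1, rf_einArr]
    simp only [qf, Fin.isValue, wE, rot23, Matrix.cons_val', Matrix.cons_val_zero, Matrix.cons_val_fin_one, Matrix.cons_val_one, mul_one, mul_zero, sub_zero, Matrix.cons_val, sub_self, add_zero, wF, einArr, sk, neg_neg, Matrix.neg_cons, neg_zero, Matrix.neg_empty, Pi.zero_apply]

lemma wedge_ip (X Y Z W : Fin 4 → ℝ) :
    wE X Y 0 * wE Z W 0 + wE X Y 1 * wE Z W 1 + wE X Y 2 * wE Z W 2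
      + (wF X Y 0 * wF Z W 0 + wF X Y 1 * wF Z W 1 + wF X Y 2 * wF Z W 2) =
    (∑ a, X a * Z a) * (∑ a, Y a * W a) - (∑ a, X a * W a) * (∑ a, Y a * Z a) := by
  simp only [wE, Fin.isValue, Matrix.cons_val_zero, Matrix.cons_val_one, Matrix.cons_val, wF, Fin.sum_univ_four]
  ring

lemma wedge_star (X Y W : Fin 4 → ℝ) :
    wE X Y 0 * wF X W 0 + wE X Y 1 * wF X W 1 + wE X Y 2 * wF X W 2
      + (wF X Y 0 * wE X W 0 + wF X Y 1 * wE X W 1 + wF X Y 2 * wE X W 2) = 0 := by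
  simp only [wE, Fin.isValue, Matrix.cons_val_zero, wF, Matrix.cons_val_one, Matrix.cons_val]
  ring

/-- core computation: if `C = (λ/3) I` then the two curvature components differ by a Gram
determinant. -/
lemma core_scalar {P S : Fin 3 → Fin 3 → ℝ} {c D : ℝ} (hD : D = 1)
    (h00 : P 0 0 - S 0 0 = c) (h11 : P 1 1 - S 1 1 = c) (h22 : P 2 2 - S 2 2 = c)
    (h01 : P 0 1 - S 0 1 = 0) (h02 : P 0 2 - S 0 2 = 0) (h12 : P 1 2 - S 1 2 = 0)
    {X Y W U V : Fin 4 → ℝ} (hE : ∀ a, wE U V a = D * wF X W a) (hF : ∀ a, wF U V a = D * wE X W a) :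
    rf (einArr P S) X Y W X - rf (einArr P S) X Y V U =
      c * ((∑ a, X a * X a) * (∑ a, Y a * W a) - (∑ a, X a * W a) * (∑ a, Y a * X a)) := by
  rw [rf_einArr, rf_einArr, ← wedge_ip]
  have hs := wedge_star X Y W
  simp only [qf, hE, hF, hD]
  generalize wE X Y 0 = a0 at *
  generalize wE X Y 1 = a1 at *
  generalize wE X Y 2 = a2 at *
  generalize wF X Y 0 = b0 at *
  generalize wF X Y 1 = b1 at *
  generalize wF X Y 2 = b2 at *
  generalize wE X W 0 = p0 at *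
  generalize wE X W 1 = p1 at *
  generalize wE X W 2 = p2 at *
  generalize wF X W 0 = q0 at *
  generalize wF X W 1 = q1 at *
  generalize wF X W 2 = q2 at *
  have e00 : P 0 0 = c + S 0 0 := by linarith only [h00]
  have e11 : P 1 1 = c + S 1 1 := by linarith only [h11]
  have e22 : P 2 2 = c + S 2 2 := by linarith only [h22]
  have e01 : P 0 1 = S 0 1 := by linarith only [h01]
  have e02 : P 0 2 = S 0 2 := by linarith only [h02]
  have e12 : P 1 2 = S 1 2 := by linarith only [h12]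
  rw [e00, e11, e22, e01, e02, e12]
  linear_combination (-c) * hs

lemma dt_perm1 (f : Fin 4 → Fin 4 → ℝ) : dt ![f 0, f 2, f 3, f 1] = dt f := by
  simp only [dt, wE, Fin.isValue, Matrix.cons_val', Matrix.cons_val_fin_one, Matrix.cons_val_zero, Matrix.cons_val_one, wF, Matrix.cons_val]; ring

lemma dt_perm2 (f : Fin 4 → Fin 4 → ℝ) : dt ![f 0, f 3, f 1, f 2] = dt f := by
  simp only [dt, wE, Fin.isValue, Matrix.cons_val', Matrix.cons_val_fin_one, Matrix.cons_val_zero, Matrix.cons_val_one, wF, Matrix.cons_val]; ring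

/-- If the anti-self-dual block is scalar in the frame `e`, it is scalar in every frame with the
same orientation. -/
theorem scalar_rot (hJr : IsAlgCurv r)
    (ht : ∀ j k, ∑ i, r i j k i = if j = k then lam else 0) (hm : MinPlane k r)
    (hρ : r 0 1 3 2 = -(lam / 3 - k))
    {f : Fin 4 → Fin 4 → ℝ} (hf : ∀ i j, ∑ a, f i a * f j a = if i = j then 1 else 0)
    (hdt : dt f = 1) (a b : Fin 3) :
    Pm (rotArr r f) a b - Sm (rotArr r f) a b = if a = b then lam / 3 else 0 := by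
  obtain ⟨hr, k0, c1, c2, c3, c4, t1, t2, pA, pC⟩ := blockForm hJr ht hm
  have hC1 := (psd_facts pC).1
  have hC2 := (psd_facts pC).2.1
  have hC3 := (psd_facts pC).2.2
  have S00 : Sm r 0 0 = -(lam / 3 - k) := by rw [Sm00 r, hρ]
  rw [S00] at hC1 hC2 hC3 t2
  set P := Pm r
  set S := Sm r
  have h00 : P 0 0 - S 0 0 = lam / 3 := by rw [k0, S00]; ring
  have h11 : P 1 1 - S 1 1 = lam / 3 := by linarith only [k0, t1, t2, hC1, hC2]
  have h22 : P 2 2 - S 2 2 = lam / 3 := by linarith only [k0, t1, t2, hC1, hC2]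
  have h12 : P 1 2 - S 1 2 = 0 := by
    have e1 : P 1 1 - S 1 1 - (k - -(lam / 3 - k)) = 0 := by linarith only [k0, t1, t2, hC1, hC2]
    rw [e1] at hC3
    nlinarith only [hC3]
  have h01 : P 0 1 - S 0 1 = 0 := by linarith only [c1, c3]
  have h02 : P 0 2 - S 0 2 = 0 := by linarith only [c2, c4]
  -- complementary minors for the three even permutations
  have m1 := compl_minors hf
  have hf2 : ∀ i j, ∑ a, (![f 0, f 2, f 3, f 1] : Fin 4 → Fin 4 → ℝ) i a
      * (![f 0, f 2, f 3, f 1] : Fin 4 → Fin 4 → ℝ) j a = if i = j then 1 else 0 := by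
    intro i j
    fin_cases i <;> fin_cases j <;> simp [hf]
  have hf3 : ∀ i j, ∑ a, (![f 0, f 3, f 1, f 2] : Fin 4 → Fin 4 → ℝ) i a
      * (![f 0, f 3, f 1, f 2] : Fin 4 → Fin 4 → ℝ) j a = if i = j then 1 else 0 := by
    intro i j
    fin_cases i <;> fin_cases j <;> simp [hf]
  have m2 := compl_minors hf2
  have m3 := compl_minors hf3
  rw [dt_perm1] at m2
  rw [dt_perm2] at m3
  simp only [Matrix.cons_val_zero, Matrix.cons_val_one, Matrix.cons_val] at m2 m3
  have key1 : ∀ Y, rf r (f 0) Y (f 1) (f 0) - rf r (f 0) Y (f 3) (f 2) =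
      lam / 3 * ((∑ a, f 0 a * f 0 a) * (∑ a, Y a * f 1 a)
        - (∑ a, f 0 a * f 1 a) * (∑ a, Y a * f 0 a)) := fun Y => by
    rw [hr]
    exact core_scalar hdt h00 h11 h22 h01 h02 h12 (fun a => (m1 a).1) (fun a => (m1 a).2)
  have key2 : ∀ Y, rf r (f 0) Y (f 2) (f 0) - rf r (f 0) Y (f 1) (f 3) =
      lam / 3 * ((∑ a, f 0 a * f 0 a) * (∑ a, Y a * f 2 a)
        - (∑ a, f 0 a * f 2 a) * (∑ a, Y a * f 0 a)) := fun Y => by
    rw [hr]
    exact core_scalar hdt h00 h11 h22 h01 h02 h12 (fun a => (m2 a).1) (fun a => (m2 a).2)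
  have key3 : ∀ Y, rf r (f 0) Y (f 3) (f 0) - rf r (f 0) Y (f 2) (f 1) =
      lam / 3 * ((∑ a, f 0 a * f 0 a) * (∑ a, Y a * f 3 a)
        - (∑ a, f 0 a * f 3 a) * (∑ a, Y a * f 0 a)) := fun Y => by
    rw [hr]
    exact core_scalar hdt h00 h11 h22 h01 h02 h12 (fun a => (m3 a).1) (fun a => (m3 a).2)
  simp only [hf] at key1 key2 key3
  have g1 := fun i => key1 (f i)
  have g2 := fun i => key2 (f i)
  have g3 := fun i => key3 (f i)
  simp only [hf] at g1 g2 g3
  fin_cases a <;> fin_cases b <;>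
    simp only [Pm, Sm, rotArr, Matrix.cons_val_zero, Matrix.cons_val_one, Matrix.cons_val,
      Fin.zero_eta, Fin.mk_one, Fin.reduceFinMk, Fin.isValue, g1, g2, g3] <;> simp

end Vale.Agent.P211
end
end

section

section

namespace Vale.Agent.P211

open Topology Filter

namespace LC

variable {𝒪 V : Type*} [CommRing 𝒪] [Algebra ℝ 𝒪] [AddCommGroup V] [Module 𝒪 V] (G : LC 𝒪 V)

theorem d2Rm_bianchi1 (S U X Y Z W : V) :
    G.d2 G.Rm S U X Y Z W + G.d2 G.Rm S U Y Z X W + G.d2 G.Rm S U Z X Y W = 0 := by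
  simp only [d2]
  have h0 := congrArg (G.D S) (G.d1Rm_bianchi1 U X Y Z W)
  rw [G.D_add, G.D_add, G.D_zero] at h0
  have h1 := G.d1Rm_bianchi1 (G.nab S U) X Y Z W
  have h2 := G.d1Rm_bianchi1 U (G.nab S X) Y Z W
  have h3 := G.d1Rm_bianchi1 U X (G.nab S Y) Z W
  have h4 := G.d1Rm_bianchi1 U X Y (G.nab S Z) W
  have h5 := G.d1Rm_bianchi1 U X Y Z (G.nab S W)
  linear_combination h0 - h1 - h2 - h3 - h4 - h5

end LC

namespace Geom

variable {M 𝒪 V : Type*} [TopologicalSpace M] [CommRing 𝒪] [Algebra ℝ 𝒪]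
    [AddCommGroup V] [Module 𝒪 V] {G : Geom M 𝒪 V}

theorem algCurv_rr (p : M) (F : Fin 4 → V) : IsAlgCurv (G.rr p F) where
  anti12 i j k l := by simp only [rr]; rw [G.Rm_anti12]; simp only [map_neg]
  anti34 i j k l := by simp only [rr]; rw [G.Rm_anti34]; simp only [map_neg]
  pair i j k l := by simp only [rr]; rw [G.Rm_pair]
  bianchi i j k l := by simp only [rr]; rw [← map_add, ← map_add, G.Rm_bianchi, map_zero]

theorem algCurv_dd (p : M) (F : Fin 4 → V) (m : Fin 4) : IsAlgCurv (G.dd p F m) where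
  anti12 i j k l := by simp only [dd]; rw [G.d1Rm_anti12]; simp only [map_neg]
  anti34 i j k l := by simp only [dd]; rw [G.d1Rm_anti34]; simp only [map_neg]
  pair i j k l := by simp only [dd]; rw [G.d1Rm_pair]
  bianchi i j k l := by simp only [dd]; rw [← map_add, ← map_add, G.d1Rm_bianchi1, map_zero]

theorem algCurv_ss (p : M) (F : Fin 4 → V) (n m : Fin 4) : IsAlgCurv (G.ss p F n m) where
  anti12 i j k l := by simp only [ss]; rw [G.d2Rm_anti12]; simp only [map_neg]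
  anti34 i j k l := by simp only [ss]; rw [G.d2Rm_anti34]; simp only [map_neg]
  pair i j k l := by simp only [ss]; rw [G.d2Rm_pair]
  bianchi i j k l := by simp only [ss]; rw [← map_add, ← map_add, G.d2Rm_bianchi1, map_zero]

theorem einsteinJet {lam : ℝ} (hE : G.Einstein lam) {p : M} {F : Fin 4 → V} (h : G.Sync p F) :
    EinsteinJet lam (G.rr p F) (G.dd p F) (G.ss p F) where
  hr := algCurv_rr p F
  hrt j k := by
    have hp : G.ON p F := h.at
    have := hE p F hp (F j) (F k)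
    rw [hp j k] at this
    simp only [rr]
    rw [this]
    split_ifs <;> simp
  hd := algCurv_dd p F
  hdt m j k := G.trace_d1 hE h.on _ _ _
  hdb m i j k l := by
    simp only [dd]; rw [← map_add, ← map_add, G.d1Rm_bianchi2, map_zero]
  hs := algCurv_ss p F
  hst n m j k := G.trace_d2 hE h _ _ _ _
  hsb n m i j k l := by
    simp only [ss]; rw [← map_add, ← map_add, G.d2Rm_bianchi2, map_zero]
  hsc n m i j k l := by
    have h1 := congrArg (G.ev p) (G.ricci_identity G.isT4_Rm (F n) (F m) (F i) (F j) (F k) (F l))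
    simp only [map_sub, map_neg] at h1
    simp only [ss, ricciComm]
    rw [h1, G.exp1 G.isT4_Rm h.at (G.R (F n) (F m) (F i)),
      G.exp2 G.isT4_Rm h.at _ (G.R (F n) (F m) (F j)),
      G.exp3 G.isT4_Rm h.at _ _ (G.R (F n) (F m) (F k)),
      G.exp4 G.isT4_Rm h.at _ _ _ (G.R (F n) (F m) (F l))]
    simp only [rr, LC.Rm, Finset.sum_add_distrib]
    ring

theorem secVar {k : ℝ} (hK : G.SecGe k) {p : M} {F : Fin 4 → V}
    (hS : G.Sync p F) (hmin : G.rr p F 0 1 1 0 = k) :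
    SecVar k (G.rr p F) (G.dd p F) (G.ss p F) := by
  intro α β γ δ
  exact second_variation hK hS hmin α β γ δ

/-- nested form of the evaluation of an array -/
theorem rf_nest (r : Arr4) (X Y Z W : Fin 4 → ℝ) :
    rf r X Y Z W = ∑ a, X a * ∑ b, Y b * ∑ c, Z c * ∑ d, W d * r a b c d := by
  simp only [rf, Finset.mul_sum]
  refine Finset.sum_congr rfl fun a _ => Finset.sum_congr rfl fun b _ =>
    Finset.sum_congr rfl fun c _ => Finset.sum_congr rfl fun d _ => ?_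
  ring

/-- coefficients of fields in a frame -/
def cf (G : Geom M 𝒪 V) (p : M) (F : Fin 4 → V) (X : V) (a : Fin 4) : ℝ := G.ev p (G.g X (F a))

theorem Rm_rf {p : M} {F : Fin 4 → V} (hF : G.ON p F) (X Y Z W : V) :
    G.ev p (G.Rm X Y Z W) = rf (G.rr p F) (G.cf p F X) (G.cf p F Y) (G.cf p F Z) (G.cf p F W) := by
  rw [rf_nest, G.exp1 G.isT4_Rm hF]
  refine Finset.sum_congr rfl fun a _ => ?_
  simp only [cf]
  rw [G.exp2 G.isT4_Rm hF]
  congr 1
  refine Finset.sum_congr rfl fun b _ => ?_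
  rw [G.exp3 G.isT4_Rm hF]
  congr 1
  refine Finset.sum_congr rfl fun c _ => ?_
  rw [G.exp4 G.isT4_Rm hF]
  rfl

theorem g_cf {p : M} {F : Fin 4 → V} (hF : G.ON p F) (X Y : V) :
    G.ev p (G.g X Y) = ∑ a, G.cf p F X a * G.cf p F Y a := by
  have := G.expand hF ⟨⟨fun Z => G.g Z Y, fun a b => G.g_add_left a b Y⟩,
    fun a b => G.g_smul_left a b Y⟩ X
  change G.ev p (G.g X Y) = _ at this
  rw [this]
  refine Finset.sum_congr rfl fun a _ => ?_
  simp only [cf]
  rw [G.g_symm Y]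
  rfl

theorem cf_orth {p : M} {F F' : Fin 4 → V} (hF : G.ON p F) (hF' : G.ON p F') (i j : Fin 4) :
    ∑ a, G.cf p F (F' i) a * G.cf p F (F' j) a = if i = j then 1 else 0 := by
  rw [← g_cf hF, hF' i j]

theorem rr_rot {p : M} {F F' : Fin 4 → V} (hF : G.ON p F) :
    G.rr p F' = rotArr (G.rr p F) (fun i => G.cf p F (F' i)) := by
  funext i j k l
  exact Rm_rf hF _ _ _ _

/-- constant combinations of a frame -/
noncomputable def comb (F : Fin 4 → V) (x : Fin 4 → ℝ) : V := ∑ a, algebraMap ℝ 𝒪 (x a) • F a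

theorem cf_comb {p : M} {F : Fin 4 → V} (hF : G.ON p F) (x : Fin 4 → ℝ) :
    G.cf p F (comb (𝒪 := 𝒪) F x) = x := by
  funext b
  simp only [cf, comb, Fin.sum_univ_four, G.g_add_left, G.g_smul_left, map_add, map_mul, hF _ b,
    AlgHom.commutes, Algebra.algebraMap_self, RingHom.id_apply]
  fin_cases b <;> simp

theorem minPlane_of {k : ℝ} (hK : G.SecGe k) {p : M} {F : Fin 4 → V} (hF : G.ON p F)
    (hmin : G.rr p F 0 1 1 0 = k) : MinPlane k (G.rr p F) where
  eq := hmin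
  ge X Y := by
    have h := hK p (comb (𝒪 := 𝒪) F X) (comb (𝒪 := 𝒪) F Y)
    rw [Rm_rf hF, g_cf hF, g_cf hF, g_cf hF] at h
    simp only [cf_comb hF] at h
    convert h using 2
    simp only [sq]

theorem sec_ge_frame {k : ℝ} (hK : G.SecGe k) {p : M} {F : Fin 4 → V} (hF : G.ON p F) :
    k ≤ G.rr p F 0 1 1 0 := by
  have h := hK p (F 0) (F 1)
  rw [hF 0 0, hF 1 1, hF 0 1] at h
  simpa only [rr, Fin.isValue, ge_iff_le, ↓reduceIte, mul_one, zero_ne_one, ne_eq, OfNat.ofNat_ne_zero,     not_false_eq_true, zero_pow, sub_zero] using h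

theorem eqv_of_sync {p : M} {F F₀ : Fin 4 → V}
    (h : ∀ i, G.ev p (G.g (F i - F₀ i) (F i - F₀ i)) = 0) : G.rr p F = G.rr p F₀ := by
  funext i j k l
  exact G.congrAll G.isT4_Rm (h i) (h j) (h k) (h l)

theorem exists_sync {p : M} {F₀ : Fin 4 → V} (h : G.ON p F₀) :
    ∃ F, G.Sync p F ∧ G.rr p F = G.rr p F₀ := by
  obtain ⟨F, h1, h2, h3⟩ := G.sync p F₀ h
  exact ⟨F, ⟨h1, h3⟩, eqv_of_sync h2⟩

/-- criticality of the curvature of a minimal plane -/
theorem dd_crit {k : ℝ} (hK : G.SecGe k) {p : M} {F : Fin 4 → V}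
    (hS : G.Sync p F) (hmin : G.rr p F 0 1 1 0 = k) (m : Fin 4) : G.dd p F m 0 1 1 0 = 0 := by
  have hlm : IsLocalMin (fun q => G.ev q (G.Rm (F 0) (F 1) (F 1) (F 0))) p := by
    filter_upwards [hS.on] with q hq
    have := sec_ge_frame hK hq
    simp only [rr] at this hmin
    rw [hmin]; exact this
  have := (G.min_test p _ hlm (F m)).1
  rw [D_comp hS] at this
  exact this

/-- comparison of an arbitrary frame with a minimal frame at the same point -/
theorem frame_compare {lam k : ℝ} (hE : G.Einstein lam) (hK : G.SecGe k) {q : M}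
    {e F : Fin 4 → V} (he : G.ON q e) (hF : G.ON q F) (hmin : G.rr q e 0 1 1 0 = k) :
    |dt (fun i => G.cf q e (F i)) * G.rr q F 0 1 3 2 - G.rr q e 0 1 3 2| ≤
      G.rr q F 0 1 1 0 - k := by
  have h1 : ∀ j k, ∑ i, G.rr q e i j k i = if j = k then lam else 0 := by
    intro j l
    have := hE q e he (e j) (e l)
    rw [he j l] at this
    simp only [rr]
    rw [this]
    split_ifs <;> simp
  have h2 := compare (algCurv_rr q e) h1 (minPlane_of hK he hmin) (cf_orth he hF)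
  have h3 : ∀ i j l n, rf (G.rr q e) (G.cf q e (F i)) (G.cf q e (F j)) (G.cf q e (F l))
      (G.cf q e (F n)) = G.rr q F i j l n := fun i j l n => (Rm_rf he _ _ _ _).symm
  rw [h3, h3] at h2
  exact h2

theorem frame_compare_abs {lam k : ℝ} (hE : G.Einstein lam) (hK : G.SecGe k) {q : M}
    {e F : Fin 4 → V} (he : G.ON q e) (hF : G.ON q F) (hmin : G.rr q e 0 1 1 0 = k) :
    |(|G.rr q F 0 1 3 2| - |G.rr q e 0 1 3 2|)| ≤ G.rr q F 0 1 1 0 - k := by
  have h1 := frame_compare hE hK he hF hmin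
  have h2 := dt_sq (cf_orth he hF)
  have h3 : |dt (fun i => G.cf q e (F i)) * G.rr q F 0 1 3 2| = |G.rr q F 0 1 3 2| := by
    rw [abs_mul]
    have : |dt (fun i => G.cf q e (F i))| = 1 := by
      rw [← sq_abs] at h2
      have h4 := abs_nonneg (dt (fun i => G.cf q e (F i)))
      nlinarith only [h2, h4]
    rw [this, one_mul]
  rw [← h3]
  exact (abs_abs_sub_abs_le _ _).trans h1

end Geom

end Vale.Agent.P211
end
end

section

section

namespace Vale.Agent.P211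

open Topology Filter

section arrays

lemma orth_sum {O : Fin 4 → Fin 4 → ℝ}
    (hO : ∀ i j, ∑ a, O i a * O j a = if i = j then 1 else 0) (x y : Fin 4 → ℝ) :
    ∑ i, (∑ a, O i a * x a) * (∑ b, O i b * y b) = ∑ a, x a * y a := by
  have h1 : Matrix.of O * (Matrix.of O).transpose = 1 := by
    ext i j
    rw [Matrix.mul_apply, Matrix.one_apply]
    simpa only [Matrix.of_apply, Matrix.transpose_apply] using hO i j
  have h2 : (Matrix.of O).transpose * Matrix.of O = 1 := mul_eq_one_comm.mp h1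
  have h3 : ∀ a b, ∑ i, O i a * O i b = if a = b then 1 else 0 := by
    intro a b
    have := congrFun (congrFun h2 a) b
    rw [Matrix.mul_apply, Matrix.one_apply] at this
    simpa only [Matrix.transpose_apply, Matrix.of_apply] using this
  have h4 : ∀ i, (∑ a, O i a * x a) * (∑ b, O i b * y b) =
      ∑ a, ∑ b, (O i a * O i b) * (x a * y b) := by
    intro i
    rw [Finset.sum_mul_sum]
    refine Finset.sum_congr rfl fun a _ => Finset.sum_congr rfl fun b _ => by ring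
  rw [Finset.sum_congr rfl fun i _ => h4 i, Finset.sum_comm]
  refine Finset.sum_congr rfl fun a _ => ?_
  rw [Finset.sum_comm]
  have h5 : ∀ b, ∑ i, (O i a * O i b) * (x a * y b) = (if a = b then 1 else 0) * (x a * y b) := by
    intro b
    rw [← Finset.sum_mul, h3]
  rw [Finset.sum_congr rfl fun b _ => h5 b]
  simp

/-- bring the first index to the innermost position -/
lemma sum_in4 (f : Fin 4 → Fin 4 → Fin 4 → Fin 4 → ℝ) :
    ∑ i, ∑ j, ∑ k, ∑ l, f i j k l = ∑ j, ∑ k, ∑ l, ∑ i, f i j k l := by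
  rw [Finset.sum_comm]
  refine Finset.sum_congr rfl fun j _ => ?_
  rw [Finset.sum_comm]
  refine Finset.sum_congr rfl fun k _ => ?_
  rw [Finset.sum_comm]

lemma sum_in3 (f : Fin 4 → Fin 4 → Fin 4 → ℝ) :
    ∑ i, ∑ j, ∑ k, f i j k = ∑ j, ∑ k, ∑ i, f i j k := by
  rw [Finset.sum_comm]
  refine Finset.sum_congr rfl fun j _ => ?_
  rw [Finset.sum_comm]

lemma ip_rot {O : Fin 4 → Fin 4 → ℝ}
    (hO : ∀ i j, ∑ a, O i a * O j a = if i = j then 1 else 0) (r : Arr4) :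
    ip (rotArr r O) (rotArr r O) = ip r r := by
  simp only [ip, rotArr, Geom.rf_nest]
  rw [sum_in4]
  have e1 : ∀ j k l : Fin 4, ∑ i, (∑ a, O i a * ∑ b, O j b * ∑ c, O k c * ∑ d, O l d * r a b c d)
      * (∑ a, O i a * ∑ b, O j b * ∑ c, O k c * ∑ d, O l d * r a b c d) =
      ∑ a, (∑ b, O j b * ∑ c, O k c * ∑ d, O l d * r a b c d) *
        (∑ b, O j b * ∑ c, O k c * ∑ d, O l d * r a b c d) := fun j k l => orth_sum hO _ _
  simp only [e1]
  rw [← sum_in4]
  refine Finset.sum_congr rfl fun a _ => ?_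
  rw [sum_in3]
  have e2 : ∀ k l : Fin 4, ∑ j, (∑ b, O j b * ∑ c, O k c * ∑ d, O l d * r a b c d) *
        (∑ b, O j b * ∑ c, O k c * ∑ d, O l d * r a b c d) =
      ∑ b, (∑ c, O k c * ∑ d, O l d * r a b c d) * (∑ c, O k c * ∑ d, O l d * r a b c d) :=
    fun k l => orth_sum hO _ _
  simp only [e2]
  rw [← sum_in3]
  refine Finset.sum_congr rfl fun b _ => ?_
  rw [Finset.sum_comm]
  have e3 : ∀ l : Fin 4, ∑ k, (∑ c, O k c * ∑ d, O l d * r a b c d) *
      (∑ c, O k c * ∑ d, O l d * r a b c d) =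
      ∑ c, (∑ d, O l d * r a b c d) * (∑ d, O l d * r a b c d) := fun l => orth_sum hO _ _
  simp only [e3]
  rw [Finset.sum_comm]
  refine Finset.sum_congr rfl fun c _ => ?_
  exact orth_sum hO _ _

lemma anti_sum {θ : Fin 4 → Fin 4 → ℝ} (hθ : ∀ i n, θ i n = - θ n i) (x : Fin 4 → ℝ) :
    ∑ i, (∑ n, θ i n * x n) * x i = 0 := by
  have h : ∑ i, (∑ n, θ i n * x n) * x i = - ∑ i, (∑ n, θ i n * x n) * x i := by
    conv_lhs => simp only [Finset.sum_mul]
    rw [Finset.sum_comm, ← Finset.sum_neg_distrib]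
    refine Finset.sum_congr rfl fun i _ => ?_
    rw [Finset.sum_mul, ← Finset.sum_neg_distrib]
    refine Finset.sum_congr rfl fun n _ => ?_
    rw [hθ n i]; ring
  linarith only [h]

/-- infinitesimal rotations do not change the norm -/
lemma ip_anti {θ : Fin 4 → Fin 4 → ℝ} (hθ : ∀ i n, θ i n = - θ n i) (r : Arr4) :
    ip (fun i j k l => ∑ n, (θ i n * r n j k l + θ j n * r i n k l + θ k n * r i j n l
      + θ l n * r i j k n)) r = 0 := by
  simp only [ip, Finset.sum_add_distrib, add_mul]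
  have z1 : ∑ i, ∑ j, ∑ k, ∑ l, (∑ n, θ i n * r n j k l) * r i j k l = 0 := by
    rw [sum_in4]
    exact Finset.sum_eq_zero fun j _ => Finset.sum_eq_zero fun k _ => Finset.sum_eq_zero fun l _ =>
      anti_sum hθ (fun n => r n j k l)
  have z2 : ∑ i, ∑ j, ∑ k, ∑ l, (∑ n, θ j n * r i n k l) * r i j k l = 0 := by
    refine Finset.sum_eq_zero fun i _ => ?_
    rw [sum_in3]
    exact Finset.sum_eq_zero fun k _ => Finset.sum_eq_zero fun l _ =>
      anti_sum hθ (fun n => r i n k l)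
  have z3 : ∑ i, ∑ j, ∑ k, ∑ l, (∑ n, θ k n * r i j n l) * r i j k l = 0 := by
    refine Finset.sum_eq_zero fun i _ => Finset.sum_eq_zero fun j _ => ?_
    rw [Finset.sum_comm]
    exact Finset.sum_eq_zero fun l _ => anti_sum hθ (fun n => r i j n l)
  have z4 : ∑ i, ∑ j, ∑ k, ∑ l, (∑ n, θ l n * r i j k n) * r i j k l = 0 :=
    Finset.sum_eq_zero fun i _ => Finset.sum_eq_zero fun j _ => Finset.sum_eq_zero fun k _ =>
      anti_sum hθ (fun n => r i j k n)
  rw [z1, z2, z3, z4]; simp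

end arrays

namespace Geom

variable {M 𝒪 V : Type*} [TopologicalSpace M] [CommRing 𝒪] [Algebra ℝ 𝒪]
    [AddCommGroup V] [Module 𝒪 V] {G : Geom M 𝒪 V}

theorem D_sum (X : V) (f : Fin 4 → 𝒪) : G.D X (∑ i, f i) = ∑ i, G.D X (f i) := by
  simp only [Fin.sum_univ_four, G.D_add]

/-- squared norm of the curvature in a frame, as a function -/
def NF (G : Geom M 𝒪 V) (F : Fin 4 → V) : 𝒪 :=
  ∑ i, ∑ j, ∑ k, ∑ l, G.Rm (F i) (F j) (F k) (F l) * G.Rm (F i) (F j) (F k) (F l)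

theorem ev_NF (p : M) (F : Fin 4 → V) : G.ev p (G.NF F) = ip (G.rr p F) (G.rr p F) := by
  simp only [NF, ip, rr, map_sum, map_mul]

theorem NF_frame {p : M} {F F' : Fin 4 → V} (hF : G.ON p F) (hF' : G.ON p F') :
    G.ev p (G.NF F') = G.ev p (G.NF F) := by
  rw [ev_NF, ev_NF, rr_rot (F' := F') hF, ip_rot (cf_orth hF hF')]

theorem D_NF {p : M} {F : Fin 4 → V} (hS : G.Sync p F) (X : V) :
    G.ev p (G.D X (G.NF F)) =
      2 * ∑ i, ∑ j, ∑ k, ∑ l, G.ev p (G.d1 G.Rm X (F i) (F j) (F k) (F l)) * G.rr p F i j k l := by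
  simp only [NF, D_sum, G.D_mul, map_sum, map_add, map_mul, D_comp hS, Finset.mul_sum]
  refine Finset.sum_congr rfl fun i _ => Finset.sum_congr rfl fun j _ =>
    Finset.sum_congr rfl fun k _ => Finset.sum_congr rfl fun l _ => ?_
  simp only [rr]; ring

theorem DD_NF {p : M} {F : Fin 4 → V} (hS : G.Sync p F) (m : Fin 4) :
    G.ev p (G.D (F m) (G.D (F m) (G.NF F))) =
      2 * (ip (G.dd p F m) (G.dd p F m) + ip (G.ss p F m m) (G.rr p F)) := by
  have h0 := ip_anti (θ := fun i n => G.ev p (G.g (G.nab (F m) (G.nab (F m) (F i))) (F n)))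
    (fun i n => second_deriv_frame hS (F m) i n) (G.rr p F)
  have h1 : G.ev p (G.D (F m) (G.D (F m) (G.NF F))) =
      ∑ i, ∑ j, ∑ k, ∑ l, (2 * (G.dd p F m i j k l * G.dd p F m i j k l)
        + 2 * (G.ev p (G.D (F m) (G.D (F m) (G.Rm (F i) (F j) (F k) (F l))))
          * G.rr p F i j k l)) := by
    simp only [NF, D_sum, G.D_mul, G.D_add, map_sum, map_add, map_mul]
    refine Finset.sum_congr rfl fun i _ => Finset.sum_congr rfl fun j _ =>
      Finset.sum_congr rfl fun k _ => Finset.sum_congr rfl fun l _ => ?_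
    rw [D_comp hS]
    simp only [rr, dd]; ring
  rw [h1]
  simp only [DD_comp hS]
  simp only [ip] at h0 ⊢
  have h2 : ∀ i j k l, (2 * (G.dd p F m i j k l * G.dd p F m i j k l)
        + 2 * ((G.ss p F m m i j k l
      + ∑ n, (G.ev p (G.g (G.nab (F m) (G.nab (F m) (F i))) (F n)) * G.rr p F n j k l
        + G.ev p (G.g (G.nab (F m) (G.nab (F m) (F j))) (F n)) * G.rr p F i n k l
        + G.ev p (G.g (G.nab (F m) (G.nab (F m) (F k))) (F n)) * G.rr p F i j n l
        + G.ev p (G.g (G.nab (F m) (G.nab (F m) (F l))) (F n)) * G.rr p F i j k n))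
          * G.rr p F i j k l)) =
      2 * (G.dd p F m i j k l * G.dd p F m i j k l)
      + 2 * (G.ss p F m m i j k l * G.rr p F i j k l)
      + 2 * ((∑ n, (G.ev p (G.g (G.nab (F m) (G.nab (F m) (F i))) (F n)) * G.rr p F n j k l
        + G.ev p (G.g (G.nab (F m) (G.nab (F m) (F j))) (F n)) * G.rr p F i n k l
        + G.ev p (G.g (G.nab (F m) (G.nab (F m) (F k))) (F n)) * G.rr p F i j n l
        + G.ev p (G.g (G.nab (F m) (G.nab (F m) (F l))) (F n)) * G.rr p F i j k n))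
          * G.rr p F i j k l) := by
    intro i j k l; ring
  simp only [h2]
  simp only [Finset.sum_add_distrib, ← Finset.mul_sum] at h0 ⊢
  rw [h0]; ring

end Geom

end Vale.Agent.P211
end
end

section

section

namespace Vale.Agent.P211

open Topology Filter

namespace Geom

variable {M 𝒪 V : Type*} [TopologicalSpace M] [CommRing 𝒪] [Algebra ℝ 𝒪]
    [AddCommGroup V] [Module 𝒪 V] {G : Geom M 𝒪 V}

/-- the value `k` of the sectional curvature is attained at every point -/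
def MinAt (G : Geom M 𝒪 V) (k : ℝ) : Prop :=
  ∀ p, ∃ F : Fin 4 → V, G.ON p F ∧ G.rr p F 0 1 1 0 = k

/-- the absolute value of the twisting component of a minimal frame -/
noncomputable def sg {k : ℝ} (hA : G.MinAt k) (p : M) : ℝ :=
  |G.rr p (Classical.choose (hA p)) 0 1 3 2|

variable {lam k : ℝ}

theorem sg_nonneg (hA : G.MinAt k) (p : M) : 0 ≤ sg hA p := abs_nonneg _

theorem sg_near (hE : G.Einstein lam) (hK : G.SecGe k) (hA : G.MinAt k) {q : M} {F : Fin 4 → V}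
    (hF : G.ON q F) : |(|G.rr q F 0 1 3 2| - sg hA q)| ≤ G.rr q F 0 1 1 0 - k :=
  frame_compare_abs hE hK (Classical.choose_spec (hA q)).1 hF (Classical.choose_spec (hA q)).2

theorem sg_eq (hE : G.Einstein lam) (hK : G.SecGe k) (hA : G.MinAt k) {q : M} {F : Fin 4 → V}
    (hF : G.ON q F) (hmin : G.rr q F 0 1 1 0 = k) : |G.rr q F 0 1 3 2| = sg hA q := by
  have := sg_near hE hK hA hF
  rw [hmin, sub_self] at this
  exact sub_eq_zero.mp (abs_nonpos_iff.mp this)

theorem cont_rr (F : Fin 4 → V) (i j l n : Fin 4) : Continuous fun q => G.rr q F i j l n :=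
  G.ev_cont _

theorem exists_min_sync (hA : G.MinAt k) (p : M) :
    ∃ F, G.Sync p F ∧ G.rr p F 0 1 1 0 = k := by
  obtain ⟨F₀, h1, h2⟩ := hA p
  obtain ⟨F, h3, h4⟩ := exists_sync h1
  exact ⟨F, h3, by rw [h4, h2]⟩

theorem sg_cont (hE : G.Einstein lam) (hK : G.SecGe k) (hA : G.MinAt k) : Continuous (sg hA) := by
  rw [continuous_iff_continuousAt]
  intro p
  obtain ⟨F, hS, hmin⟩ := exists_min_sync hA p
  have hp : G.ON p F := hS.at
  have h0 := sg_eq hE hK hA hp hmin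
  have hb : ∀ᶠ q in 𝓝 p, |sg hA q - sg hA p| ≤
      (G.rr q F 0 1 1 0 - k) + |(|G.rr q F 0 1 3 2| - sg hA p)| := by
    filter_upwards [hS.on] with q hq
    have h1 := sg_near hE hK hA hq
    have h2 : sg hA q - sg hA p = -(|G.rr q F 0 1 3 2| - sg hA q)
        + (|G.rr q F 0 1 3 2| - sg hA p) := by ring
    rw [h2]
    refine (abs_add_le _ _).trans ?_
    rw [abs_neg]
    linarith only [h1]
  have ht : Tendsto (fun q => (G.rr q F 0 1 1 0 - k) + |(|G.rr q F 0 1 3 2| - sg hA p)|) (𝓝 p)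
      (𝓝 0) := by
    have hc : Continuous fun q => (G.rr q F 0 1 1 0 - k) + |(|G.rr q F 0 1 3 2| - sg hA p)| := by
      have h1 := cont_rr (G := G) F 0 1 1 0
      have h2 := cont_rr (G := G) F 0 1 3 2
      fun_prop
    have := hc.tendsto p
    simpa only [Fin.isValue, hmin, sub_self, h0, abs_zero, add_zero] using this
  rw [ContinuousAt, tendsto_iff_norm_sub_tendsto_zero]
  exact squeeze_zero' (Eventually.of_forall fun q => norm_nonneg _) hb ht

theorem sg_le (hE : G.Einstein lam) (hK : G.SecGe k) (hA : G.MinAt k) (p : M) :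
    sg hA p ≤ lam / 3 - k := by
  obtain ⟨F, hS, hmin⟩ := exists_min_sync hA p
  rw [← sg_eq hE hK hA hS.at hmin]
  exact abs_rho_le (einsteinJet hE hS) (minPlane_of hK hS.at hmin)

/-- a minimal frame with negative twisting -/
theorem exists_neg_sync (hE : G.Einstein lam) (hK : G.SecGe k) (hA : G.MinAt k) (p : M) :
    ∃ F, G.Sync p F ∧ G.rr p F 0 1 1 0 = k ∧ G.rr p F 0 1 3 2 = - sg hA p := by
  obtain ⟨F, hS, hmin⟩ := exists_min_sync hA p
  have h0 := sg_eq hE hK hA hS.at hmin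
  rcases abs_choice (G.rr p F 0 1 3 2) with h | h
  · have hon : G.ON p ![F 0, F 1, F 3, F 2] := by
      intro i j
      have hp : G.ON p F := hS.at
      fin_cases i <;> fin_cases j <;> simp [hp _ _]
    obtain ⟨F', hS', hF'⟩ := exists_sync hon
    refine ⟨F', hS', ?_, ?_⟩
    · rw [hF', ← hmin]; simp [rr]
    · rw [hF', ← h0, h]
      have := (algCurv_rr (G := G) p F).anti34 0 1 2 3
      simp only [rr] at this ⊢
      simpa using this
  · exact ⟨F, hS, hmin, by rw [← h0, h]; ring⟩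

theorem normD_le {p : M} {F : Fin 4 → V} (hS : G.Sync p F) (X : V)
    {c : ℝ} (hc : ∑ m, (G.dd p F m 0 1 3 2) ^ 2 ≤ c ^ 2) (hc0 : 0 ≤ c) :
    |G.ev p (G.D X (G.Rm (F 0) (F 1) (F 3) (F 2)))| ≤ c * Real.sqrt (G.ev p (G.g X X)) := by
  have hp : G.ON p F := hS.at
  rw [D_comp hS, G.exp5_0 (G.isT5_d1 G.isT4_Rm) hp]
  have h1 : (∑ i, G.ev p (G.g X (F i)) * G.dd p F i 0 1 3 2) ^ 2 ≤
      (∑ i, (G.ev p (G.g X (F i))) ^ 2) * ∑ m, (G.dd p F m 0 1 3 2) ^ 2 :=
    Finset.sum_mul_sq_le_sq_mul_sq _ _ _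
  rw [← G.parseval p F hp X] at h1
  have h2 := G.g_nonneg p X
  apply abs_le_of_sq_le_sq _ (by (clear * - hc0; positivity))
  rw [mul_pow, Real.sq_sqrt h2]
  change (∑ i, G.ev p (G.g X (F i)) * G.dd p F i 0 1 3 2) ^ 2 ≤ _
  linarith only [mul_nonneg (sub_nonneg.2 hc) (sub_nonneg.2 h2), h1]

/-- Dichotomy in the case `k = 0`. -/
theorem dichotomy (hlam : 0 < lam) (hE : G.Einstein lam) (hK : G.SecGe 0) (hA : G.MinAt 0)
    {p : M} (hp : sg hA p = 0) (q : M) : sg hA q = 0 := by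
  have h := G.gronwall (fun x => (sg hA x) ^ 2) (2 * Real.sqrt (24 * lam))
    (fun x => sq_nonneg _) ?_ p q (by simp [hp])
  · exact pow_eq_zero_iff two_ne_zero |>.mp h
  intro x
  obtain ⟨F, hS, hmin⟩ := exists_min_sync hA x
  have hx : G.ON x F := hS.at
  have hJ := einsteinJet hE hS
  have h0 := sg_eq hE hK hA hx hmin
  have hgrad := step_grad hlam hJ (minPlane_of hK hx hmin) (secVar hK hS hmin)
    (dd_crit hK hS hmin)
  refine ⟨G.Rm (F 0) (F 1) (F 3) (F 2) * G.Rm (F 0) (F 1) (F 3) (F 2),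
    G.Rm (F 0) (F 1) (F 1) (F 0) * (algebraMap ℝ 𝒪 (2 * (lam / 3)) + G.Rm (F 0) (F 1) (F 1) (F 0)),
    ?_, ?_, ?_⟩
  · filter_upwards [hS.on] with y hy
    have h1 := sg_near hE hK hA hy
    have h2 := sg_le hE hK hA y
    have h3 := sg_nonneg hA y
    simp only [rr, sub_zero] at h1 h2
    simp only [map_mul, map_add, AlgHom.commutes, Algebra.algebraMap_self, RingHom.id_apply]
    set a := G.ev y (G.Rm (F 0) (F 1) (F 3) (F 2))
    set b := G.ev y (G.Rm (F 0) (F 1) (F 1) (F 0))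
    have hb : 0 ≤ b := (abs_nonneg _).trans h1
    have h4 : sg hA y ^ 2 - a * a = (sg hA y - |a|) * (sg hA y + |a|) := by
      have : a * a = |a| * |a| := (abs_mul_abs_self a).symm
      rw [this]; ring
    rw [h4, abs_mul, abs_sub_comm]
    have h5 : |(sg hA y + |a|)| = sg hA y + |a| := abs_of_nonneg (by (clear * - hA h3; positivity))
    rw [h5]
    have h6 : |a| ≤ sg hA y + b := by linarith only [(abs_le.mp h1).2]
    exact mul_le_mul h1 (by linarith only [h2, h6]) (by (clear * - hA h3; positivity)) hb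
  · simp only [rr] at hmin
    rw [map_mul, hmin, zero_mul]
  · intro X
    have hn := normD_le hS X (c := Real.sqrt (24 * lam) * |G.rr x F 0 1 3 2|) (by
      rw [mul_pow, Real.sq_sqrt (by positivity), sq_abs]; exact hgrad) (by (clear * - hlam; positivity))
    rw [G.D_mul, map_add, map_mul, map_mul]
    rw [← h0]
    simp only [rr] at hn ⊢
    set a := G.ev x (G.Rm (F 0) (F 1) (F 3) (F 2))
    set b := G.ev x (G.D X (G.Rm (F 0) (F 1) (F 3) (F 2)))
    have e : b * a + a * b = 2 * (a * b) := by ring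
    rw [e, abs_mul, abs_mul, abs_two]
    have := mul_le_mul_of_nonneg_left hn (abs_nonneg a)
    nlinarith only [this]

end Geom

end Vale.Agent.P211
end
end

section

section

namespace Vale.Agent.P211

open Topology Filter

namespace Geom

variable {M 𝒪 V : Type*} [TopologicalSpace M] [CommRing 𝒪] [Algebra ℝ 𝒪]
    [AddCommGroup V] [Module 𝒪 V] {G : Geom M 𝒪 V}

variable {lam k : ℝ}

theorem Th_self {p : M} {F : Fin 4 → V} (hS : G.Sync p F) (i : Fin 4) : G.Th p F i i = 0 := by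
  have := Th_anti hS i i
  linarith only [this]

/-- Laplacian of the difference at a minimal frame -/
theorem lap_diff (hE : G.Einstein lam) (hK : G.SecGe k) {p : M} {F : Fin 4 → V}
    (hS : G.Sync p F) (hmin : G.rr p F 0 1 1 0 = k) :
    ∑ m, G.ev p (G.D (F m) (G.D (F m) (G.Rm (F 0) (F 1) (F 1) (F 0)
      - G.Rm (F 0) (F 1) (F 3) (F 2)))) =
    ∑ m, (G.ss p F m m 0 1 1 0 - G.ss p F m m 0 1 3 2) := by
  have hb := (einsteinJet hE hS).block (minPlane_of hK hS.at hmin)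
  have h1 := Lap_comp hS 0 1 1 0
  have h2 := Lap_comp hS 0 1 3 2
  have z0 := Th_self hS 0
  have z1 := Th_self hS 1
  have z2 := Th_self hS 2
  have z3 := Th_self hS 3
  have p01 := hb.P01
  have p02 := hb.P02
  have s01 := hb.S01
  have s02 := hb.S02
  have e1 : ∑ n, (G.Th p F 0 n * G.rr p F n 1 1 0 + G.Th p F 1 n * G.rr p F 0 n 1 0
        + G.Th p F 1 n * G.rr p F 0 1 n 0 + G.Th p F 0 n * G.rr p F 0 1 1 n) = 0 := by
    rw [hb.eq]
    generalize Pm (G.rr p F) = P at *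
    generalize Sm (G.rr p F) = S at *
    simp only [Fin.isValue, einArr, sk, p01, neg_zero, p02, neg_neg, s02, s01, Matrix.neg_cons, Matrix.neg_empty, Matrix.cons_val', Matrix.cons_val_one, Matrix.cons_val_zero, Matrix.cons_val_fin_one, Pi.zero_apply, Fin.sum_univ_four, z0, zero_mul, mul_zero, add_zero, z1, Matrix.cons_val]
  have e2 : ∑ n, (G.Th p F 0 n * G.rr p F n 1 3 2 + G.Th p F 1 n * G.rr p F 0 n 3 2
        + G.Th p F 3 n * G.rr p F 0 1 n 2 + G.Th p F 2 n * G.rr p F 0 1 3 n) = 0 := by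
    rw [hb.eq]
    generalize Pm (G.rr p F) = P at *
    generalize Sm (G.rr p F) = S at *
    simp only [Fin.isValue, einArr, sk, p01, neg_zero, p02, neg_neg, s02, s01, Matrix.neg_cons, Matrix.neg_empty, Matrix.cons_val', Matrix.cons_val_one, Matrix.cons_val_zero, Matrix.cons_val_fin_one, Matrix.cons_val, Pi.zero_apply, Fin.sum_univ_four, z0, zero_mul, mul_zero, add_zero, z1, z2, z3]
  rw [e1, add_zero] at h1
  rw [e2, add_zero] at h2
  rw [Finset.sum_sub_distrib, ← h1, ← h2, ← Finset.sum_sub_distrib]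
  refine Finset.sum_congr rfl fun m _ => ?_
  rw [G.D_sub, G.D_sub, map_sub]

/-- Step (2), global form. -/
theorem sg_const [CompactSpace M] (hlam : 0 < lam) (hk : 0 ≤ k)
    (hE : G.Einstein lam) (hK : G.SecGe k) (hA : G.MinAt k) (hpos : ∀ p, 0 < sg hA p) (q : M) :
    sg hA q = lam / 3 - k := by
  have : Nonempty M := ⟨q⟩
  obtain ⟨p, -, hp⟩ := (isCompact_univ (X := M)).exists_isMinOn Set.univ_nonempty
    (sg_cont hE hK hA).continuousOn
  have hp' : ∀ x, sg hA p ≤ sg hA x := fun x => hp (Set.mem_univ x)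
  obtain ⟨F, hS, hmin, hρ⟩ := exists_neg_sync hE hK hA p
  have hneg : G.rr p F 0 1 3 2 < 0 := by rw [hρ]; linarith [hpos p]
  have hJ := einsteinJet hE hS
  have hm := minPlane_of hK hS.at hmin
  have hev : ∀ᶠ x in 𝓝 p, G.rr x F 0 1 3 2 < 0 :=
    (cont_rr (G := G) F 0 1 3 2).continuousAt.eventually_lt continuousAt_const hneg
  have hlm : IsLocalMin (fun x => G.ev x (G.Rm (F 0) (F 1) (F 1) (F 0)
      - G.Rm (F 0) (F 1) (F 3) (F 2))) p := by
    filter_upwards [hS.on, hev] with x hx hx2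
    have h1 := sg_near hE hK hA hx
    rw [abs_of_neg hx2] at h1
    have h2 := (abs_le.mp h1).1
    have h3 := hp' x
    change G.ev p _ ≤ G.ev x _
    rw [map_sub, map_sub]
    simp only [rr] at h1 h2 hmin hρ
    rw [hmin, hρ]
    linarith only [h2, h3]
  have hC : 0 ≤ ∑ m, (G.ss p F m m 0 1 1 0 - G.ss p F m m 0 1 3 2) := by
    rw [← lap_diff hE hK hS hmin]
    exact Finset.sum_nonneg fun m _ => (G.min_test p _ hlm (F m)).2
  have h2 := step_two hlam hk hJ hm hneg hC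
  have h3 : sg hA p = lam / 3 - k := by linarith only [hρ, h2]
  have h4 := sg_le hE hK hA q
  have h5 := hp' q
  linarith only [hρ, h2, h4, h5]

/-- Step (3), first part. -/
theorem sg_full_cases (hE : G.Einstein lam) (hK : G.SecGe k) (hA : G.MinAt k)
    {p : M} (hp : sg hA p = lam / 3 - k) :
    k < lam / 6 ∨ (k = lam / 6 ∧ ∀ F, G.Sync p F → G.rr p F 0 1 1 0 = k →
      G.rr p F 0 1 3 2 = -(lam / 3 - k) → detA (lam / 6) (Pm (G.rr p F)) (Sm (G.rr p F)) = 0) ∨
    k = lam / 3 := by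
  obtain ⟨F, hS, hmin, hρ⟩ := exists_neg_sync hE hK hA p
  rw [hp] at hρ
  have hJ := einsteinJet hE hS
  have hm := minPlane_of hK hS.at hmin
  have h3 := step_three_a hJ hm (secVar hK hS hmin) hρ
  have hdA := (hJ.block hm).factsA.2.2
  have h0 := sg_nonneg hA p
  rw [hp] at h0
  have hprod : 0 ≤ (k - lam / 6) * (k - lam / 3) := by linarith only [hdA, h3]
  rcases lt_trichotomy k (lam / 6) with h | h | h
  · exact Or.inl h
  · right; left
    refine ⟨h, ?_⟩
    intro F' hS' hmin' hρ'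
    have hJ' := einsteinJet hE hS'
    have hm' := minPlane_of hK hS'.at hmin'
    have h3' := step_three_a hJ' hm' (secVar hK hS' hmin') hρ'
    have hdA' := (hJ'.block hm').factsA.2.2
    rw [← h]
    have e : 24 * (k - lam / 6) * (k - lam / 3) = 0 := by rw [h]; ring
    linarith only [h3', hdA', e]
  · right; right
    have h1 : 0 ≤ k - lam / 3 := by
      by_contra hcon
      push Not at hcon
      linarith only [mul_pos (sub_pos.2 h) (sub_pos.2 hcon), hdA, h3]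
    linarith only [h0, h1]

/-- near a point with a minimal frame of full negative twisting, the anti-self-dual block is
scalar. -/
theorem near_scalar (hk3 : k < lam / 3) (hE : G.Einstein lam) (hK : G.SecGe k) (hA : G.MinAt k)
    (hfull : ∀ q, sg hA q = lam / 3 - k) {p : M} {F : Fin 4 → V} (hS : G.Sync p F)
    (hmin : G.rr p F 0 1 1 0 = k) (hρ : G.rr p F 0 1 3 2 = -(lam / 3 - k)) :
    ∀ᶠ q in 𝓝 p, ∀ a b : Fin 3, Pm (G.rr q F) a b - Sm (G.rr q F) a b =
      if a = b then lam / 3 else 0 := by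
  have hev1 : ∀ᶠ x in 𝓝 p, G.rr x F 0 1 3 2 < 0 :=
    (cont_rr (G := G) F 0 1 3 2).continuousAt.eventually_lt continuousAt_const (by
      rw [hρ]; linarith only [hk3])
  have hev2 : ∀ᶠ x in 𝓝 p, G.rr x F 0 1 1 0 < lam / 3 :=
    (cont_rr (G := G) F 0 1 1 0).continuousAt.eventually_lt continuousAt_const (by
      rw [hmin]; linarith only [hk3])
  filter_upwards [hS.on, hev1, hev2] with q hq h1 h2
  obtain ⟨e, he, hemin, heρ⟩ := exists_neg_sync hE hK hA q
  have hec : G.ON q e := he.at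
  rw [hfull q] at heρ
  have hcmp := frame_compare hE hK hec hq hemin
  have hsq := dt_sq (cf_orth hec hq)
  have hdt : dt (fun i => G.cf q e (F i)) = 1 := by
    have : (dt (fun i => G.cf q e (F i)) - 1) * (dt (fun i => G.cf q e (F i)) + 1) = 0 := by
      linear_combination hsq
    rcases mul_eq_zero.mp this with h | h
    · linarith only [h]
    · exfalso
      have h3 : dt (fun i => G.cf q e (F i)) = -1 := by linarith only [h]
      rw [h3, heρ] at hcmp
      have := (abs_le.mp hcmp).2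
      linarith only [h1, h2, this]
  have ht : ∀ j k, ∑ i, G.rr q e i j k i = if j = k then lam else 0 := (einsteinJet hE he).hrt
  intro a b
  have := scalar_rot (algCurv_rr q e) ht (minPlane_of hK hec hemin) heρ (cf_orth hec hq) hdt a b
  rw [← rr_rot hec] at this
  exact this

theorem dd_scalar (hk3 : k < lam / 3) (hE : G.Einstein lam) (hK : G.SecGe k) (hA : G.MinAt k)
    (hfull : ∀ q, sg hA q = lam / 3 - k) {p : M} {F : Fin 4 → V} (hS : G.Sync p F)
    (hmin : G.rr p F 0 1 1 0 = k) (hρ : G.rr p F 0 1 3 2 = -(lam / 3 - k)) (m : Fin 4)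
    (a b : Fin 3) : Pm (G.dd p F m) a b = Sm (G.dd p F m) a b := by
  have hev := near_scalar hk3 hE hK hA hfull hS hmin hρ
  have key : ∀ i j l n i' j' l' n' : Fin 4, (∃ c : ℝ, ∀ᶠ q in 𝓝 p,
      G.rr q F i j l n - G.rr q F i' j' l' n' = c) →
      G.dd p F m i j l n = G.dd p F m i' j' l' n' := by
    rintro i j l n i' j' l' n' ⟨c, hc⟩
    have h1 := G.D_local p (G.Rm (F i) (F j) (F l) (F n) - G.Rm (F i') (F j') (F l') (F n'))
      (algebraMap ℝ 𝒪 c) (by
        filter_upwards [hc] with q hq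
        rw [map_sub]
        simp only [rr] at hq
        rw [hq]; simp) (F m)
    rw [G.D_const, map_zero, G.D_sub, map_sub, D_comp hS, D_comp hS] at h1
    simp only [dd]
    linarith only [h1]
  have hab : ∃ c : ℝ, ∀ᶠ q in 𝓝 p, Pm (G.rr q F) a b - Sm (G.rr q F) a b = c :=
    ⟨_, by filter_upwards [hev] with q hq; exact hq a b⟩
  fin_cases a <;> fin_cases b <;>
    simp only [Pm, Sm, Matrix.cons_val_zero, Matrix.cons_val_one, Matrix.cons_val,
      Fin.zero_eta, Fin.mk_one, Fin.reduceFinMk, Fin.isValue] at hab ⊢ <;>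
    exact key _ _ _ _ _ _ _ _ hab

end Geom

end Vale.Agent.P211
end
end

section

section

namespace Vale.Agent.P211

open Topology Filter

namespace Geom

variable {M 𝒪 V : Type*} [TopologicalSpace M] [CommRing 𝒪] [Algebra ℝ 𝒪]
    [AddCommGroup V] [Module 𝒪 V] {G : Geom M 𝒪 V}

variable {lam k : ℝ}

/-- the squared norm of the curvature -/
noncomputable def NN (hA : G.MinAt k) (p : M) : ℝ := G.ev p (G.NF (Classical.choose (hA p)))

theorem NN_eq (hA : G.MinAt k) {p : M} {F : Fin 4 → V} (hF : G.ON p F) :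
    G.ev p (G.NF F) = NN hA p :=
  NF_frame (Classical.choose_spec (hA p)).1 hF

theorem NN_cont (hA : G.MinAt k) : Continuous (NN hA) := by
  rw [continuous_iff_continuousAt]
  intro p
  obtain ⟨F, hS, hmin⟩ := exists_min_sync hA p
  have h1 : (fun q => G.ev q (G.NF F)) =ᶠ[𝓝 p] NN hA := by
    filter_upwards [hS.on] with q hq
    exact NN_eq hA hq
  exact (G.ev_cont (G.NF F)).continuousAt.congr h1

/-- rotate a minimal frame to diagonalise the self-dual block -/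
theorem exists_diag_sync (hE : G.Einstein lam) (hK : G.SecGe k) (hA : G.MinAt k) (p : M) :
    ∃ F, G.Sync p F ∧ G.rr p F 0 1 1 0 = k ∧ G.rr p F 0 1 3 2 = - sg hA p ∧
      G.rr p F 0 2 3 0 + G.rr p F 0 2 2 1 = 0 := by
  obtain ⟨F, hS, hmin, hρ⟩ := exists_neg_sync hE hK hA p
  have hF : G.ON p F := hS.at
  have ht : ∀ j k, ∑ i, G.rr p F i j k i = if j = k then lam else 0 := (einsteinJet hE hS).hrt
  obtain ⟨c, s, hcs, h1, h2, h3⟩ := diag_rot (algCurv_rr p F) ht
  have hcf : ∀ i, G.cf p F (comb (𝒪 := 𝒪) F (rot23 c s i)) = rot23 c s i := fun i => cf_comb hF _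
  have hon : G.ON p (fun i => comb (𝒪 := 𝒪) F (rot23 c s i)) := by
    intro i j
    rw [g_cf hF, hcf, hcf, rot23_orth hcs]
  have hr : G.rr p (fun i => comb (𝒪 := 𝒪) F (rot23 c s i)) = rotArr (G.rr p F) (rot23 c s) := by
    rw [rr_rot hF]
    congr 1
    funext i
    exact hcf i
  obtain ⟨F', hS', hF'⟩ := exists_sync hon
  rw [hr] at hF'
  refine ⟨F', hS', ?_, ?_, ?_⟩
  · rw [hF', h3, hmin]
  · rw [hF', h2, hρ]
  · rw [hF']; exact h1

/-- Step (3), final part: `k < λ/6` is impossible when the anti-self-dual part is trivial. -/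
theorem not_small [CompactSpace M] [Nonempty M] (hlam : 0 < lam) (hk : k < lam / 6)
    (hE : G.Einstein lam) (hK : G.SecGe k) (hA : G.MinAt k)
    (hfull : ∀ q, sg hA q = lam / 3 - k) : False := by
  obtain ⟨p, -, hp⟩ := (isCompact_univ (X := M)).exists_isMinOn Set.univ_nonempty
    (NN_cont hA).continuousOn
  have hp' : ∀ x, NN hA p ≤ NN hA x := fun x => hp (Set.mem_univ x)
  obtain ⟨F, hS, hmin, hρ, hdiag⟩ := exists_diag_sync hE hK hA p
  rw [hfull p] at hρ
  have hF : G.ON p F := hS.at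
  have hlm : IsLocalMin (fun x => G.ev x (G.NF F)) p := by
    filter_upwards [hS.on] with x hx
    rw [NN_eq hA hx, NN_eq hA hF]
    exact hp' x
  have hmt := G.min_test p _ hlm
  refine step_three_b hlam hk (einsteinJet hE hS) (minPlane_of hK hF hmin) (secVar hK hS hmin) hρ
    hdiag (dd_crit hK hS hmin)
    (fun m a b => dd_scalar (by linarith only [hlam, hk]) hE hK hA hfull hS hmin hρ m a b) ?_ ?_
  · intro m
    have h1 := (hmt (F m)).1
    rw [D_NF hS] at h1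
    have : ip (G.dd p F m) (G.rr p F) = ∑ i, ∑ j, ∑ k, ∑ l,
      G.ev p (G.d1 G.Rm (F m) (F i) (F j) (F k) (F l)) * G.rr p F i j k l := rfl
    rw [this]
    linarith only [h1]
  · refine Finset.sum_nonneg fun m _ => ?_
    have h1 := (hmt (F m)).2
    rw [DD_NF hS] at h1
    linarith only [h1]

/-- the three curvature types -/
theorem types [CompactSpace M] (hlam : 0 < lam) (hk : 0 ≤ k)
    (hE : G.Einstein lam) (hK : G.SecGe k) (hA : G.MinAt k) (p : M) :
    ∃ F, G.Sync p F ∧ G.rr p F 0 1 1 0 = k ∧ CurvType lam k (G.rr p F) := by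
  have : Nonempty M := ⟨p⟩
  obtain ⟨F, hS, hmin, hρ⟩ := exists_neg_sync hE hK hA p
  have hm := minPlane_of hK hS.at hmin
  refine ⟨F, hS, hmin, ?_⟩
  by_cases hz : k = 0 ∧ ∃ q, sg hA q = 0
  · obtain ⟨hk0, q, hq⟩ := hz
    subst hk0
    have h0 := dichotomy hlam hE hK hA hq p
    rw [h0, neg_zero] at hρ
    have h4 := step_four (einsteinJet hE hS) hm (secVar hK hS hmin) hρ
    exact CurvType.product rfl hρ h4.1 h4.2
  · by_cases h3 : k = lam / 3
    · exact CurvType.round h3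
    have hle := sg_le hE hK hA p
    have h0 := sg_nonneg hA p
    have hk3 : k < lam / 3 := lt_of_le_of_ne (by linarith only [hle, h0]) h3
    have hpos : ∀ q, 0 < sg hA q := by
      intro q
      rcases eq_or_lt_of_le hk with hk0 | hk0
      · rcases eq_or_lt_of_le (sg_nonneg hA q) with h | h
        · exact absurd ⟨hk0.symm, q, h.symm⟩ hz
        · exact h
      · obtain ⟨F', hS', hmin'⟩ := exists_min_sync hA q
        have h1 := step_one (einsteinJet hE hS') (minPlane_of hK hS'.at hmin') (secVar hK hS' hmin')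
        have h2 := sg_eq hE hK hA hS'.at hmin'
        rw [← sq_abs, h2] at h1
        have h5 : 0 < k * (lam - 3 * k) := mul_pos hk0 (by linarith only [hk3])
        rcases eq_or_lt_of_le (sg_nonneg hA q) with h | h
        · rw [← h] at h1; linarith only [h1, h5]
        · exact h
    have hfull := sg_const hlam hk hE hK hA hpos
    rcases sg_full_cases hE hK hA (hfull p) with h | ⟨h, h'⟩ | h
    · exact (not_small hlam h hE hK hA hfull).elim
    · rw [hfull p] at hρ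
      refine CurvType.kaehler h ?_ (h' F hS hmin hρ)
      rw [hρ, h]; ring
    · exact absurd h h3

theorem NN_val [CompactSpace M] (hlam : 0 < lam) (hk : 0 ≤ k)
    (hE : G.Einstein lam) (hK : G.SecGe k) (hA : G.MinAt k) (p : M) :
    NN hA p = typeVal lam k := by
  obtain ⟨F, hS, hmin, ht⟩ := types hlam hk hE hK hA p
  rw [← NN_eq hA hS.at, ev_NF]
  exact (type_facts hlam (einsteinJet hE hS) (minPlane_of hK hS.at hmin) ht).2

/-- MAIN THEOREM, abstract form: if the minimum of the sectional curvature of a compact Einstein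
geometry with positive Einstein constant is the same number `k ≥ 0` at every point, then
`k ∈ {0, λ/6, λ/3}` and the curvature tensor is parallel. -/
theorem main [CompactSpace M] [Nonempty M] (hlam : 0 < lam) (hk : 0 ≤ k)
    (hE : G.Einstein lam) (hK : G.SecGe k) (hA : G.MinAt k) :
    (k = 0 ∨ k = lam / 6 ∨ k = lam / 3) ∧
    ∀ (p : M) (U X Y Z W : V), G.ev p (G.d1 G.Rm U X Y Z W) = 0 := by
  constructor
  · obtain ⟨F, -, -, ht⟩ := types hlam hk hE hK hA (Classical.arbitrary M)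
    rcases ht with ⟨h, -, -, -⟩ | ⟨h, -, -⟩ | h
    · exact Or.inl h
    · exact Or.inr (Or.inl h)
    · exact Or.inr (Or.inr h)
  intro p U X Y Z W
  obtain ⟨F, hS, hmin, ht⟩ := types hlam hk hE hK hA p
  have hF : G.ON p F := hS.at
  have hconst : ∀ᶠ q in 𝓝 p, G.ev q (G.NF F) = G.ev q (algebraMap ℝ 𝒪 (typeVal lam k)) := by
    filter_upwards [hS.on] with q hq
    rw [NN_eq hA hq, NN_val hlam hk hE hK hA q]; simp
  have hD : ∀ m, G.ev p (G.D (F m) (G.D (F m) (G.NF F))) = 0 := by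
    intro m
    have h1 : ∀ᶠ q in 𝓝 p, G.ev q (G.D (F m) (G.NF F)) = G.ev q 0 := by
      filter_upwards [hconst.eventually_nhds] with q hq
      rw [G.D_local q _ _ hq, G.D_const]
    rw [G.D_local p _ _ h1, G.D_zero, map_zero]
  have hN : ∑ m, (ip (G.dd p F m) (G.dd p F m) + ip (G.ss p F m m) (G.rr p F)) = 0 := by
    refine Finset.sum_eq_zero fun m _ => ?_
    have := hD m
    rw [DD_NF hS] at this
    linarith only [this]
  have h5 := step_five hlam (einsteinJet hE hS) (minPlane_of hK hF hmin) ht hN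
  have hT := G.isT5_d1 G.isT4_Rm
  rw [G.exp5_0 hT hF]
  refine Finset.sum_eq_zero fun m _ => ?_
  rw [G.exp5_1 hT hF, Finset.sum_eq_zero, mul_zero]
  intro i _
  rw [G.exp5_2 hT hF, Finset.sum_eq_zero, mul_zero]
  intro j _
  rw [G.exp5_3 hT hF, Finset.sum_eq_zero, mul_zero]
  intro l _
  rw [G.exp5_4 hT hF, Finset.sum_eq_zero, mul_zero]
  intro n _
  have : G.ev p (G.d1 G.Rm (F m) (F i) (F j) (F l) (F n)) = G.dd p F m i j l n := rfl
  rw [this, h5 m]
  simp

end Geom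

end Vale.Agent.P211
end
end

section

section

namespace Vale.Agent.P211

open Topology Filter

section arrays

variable {lam k : ℝ} {r : Arr4}

/-- area components of `X ∧ Y` in a new frame given by coefficient rows -/
def arO (O : Fin 4 → Fin 4 → ℝ) (X Y : Fin 4 → ℝ) (i j : Fin 4) : ℝ :=
  (∑ a, X a * O i a) * (∑ a, Y a * O j a) - (∑ a, X a * O j a) * (∑ a, Y a * O i a)

lemma exists_cs {x y : ℝ} (h : x ^ 2 + y ^ 2 = 1) : ∃ a : ℝ, Real.cos a = x ∧ Real.sin a = y := by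
  refine ⟨Complex.arg (⟨x, y⟩ : ℂ), ?_, ?_⟩
  · set z : ℂ := ⟨x, y⟩ with hz
    have hn : ‖z‖ = 1 := by
      rw [Complex.norm_def, Complex.normSq_mk]
      rw [show x * x + y * y = 1 by nlinarith only [h]]
      simp
    have h1 : ‖z‖ * Real.cos (Complex.arg z) = x := by rw [Complex.norm_mul_cos_arg]
    rw [hn, one_mul] at h1
    exact h1
  · set z : ℂ := ⟨x, y⟩ with hz
    have hn : ‖z‖ = 1 := by
      rw [Complex.norm_def, Complex.normSq_mk]
      rw [show x * x + y * y = 1 by nlinarith only [h]]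
      simp
    have h1 : ‖z‖ * Real.sin (Complex.arg z) = y := by rw [Complex.norm_mul_sin_arg]
    rw [hn, one_mul] at h1
    exact h1

/-- a degenerate positive semidefinite block of trace `λ` is `λ` times a projection -/
lemma exists_proj {p q b : ℝ} (hlam : 0 < lam) (hp : 0 ≤ p) (hq : 0 ≤ q) (ht : p + q = lam)
    (hd : p * q - b ^ 2 = 0) :
    ∃ a : ℝ, p = lam * Real.cos a ^ 2 ∧ q = lam * Real.sin a ^ 2 ∧
      b = lam * (Real.cos a * Real.sin a) := by
  have hb : b ^ 2 = p * q := by linarith only [hd]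
  have h1 : Real.sqrt (p / lam) ^ 2 = p / lam := Real.sq_sqrt (by positivity)
  have h2 : Real.sqrt (q / lam) ^ 2 = q / lam := Real.sq_sqrt (by positivity)
  have hsum : p / lam + q / lam = 1 := by
    rw [← add_div, ht]; exact div_self hlam.ne'
  have hprod : Real.sqrt (p / lam) * Real.sqrt (q / lam) = |b| / lam := by
    rw [← Real.sqrt_mul (by positivity)]
    have : p / lam * (q / lam) = (|b| / lam) ^ 2 := by
      rw [div_pow, sq_abs, hb]; (clear * - hlam; field_simp)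
    rw [this, Real.sqrt_sq (by (clear * - hlam; positivity))]
  rcases le_total 0 b with h | h
  · obtain ⟨a, ha, hb'⟩ := exists_cs (x := Real.sqrt (p / lam)) (y := Real.sqrt (q / lam))
      (by rw [h1, h2, hsum])
    refine ⟨a, ?_, ?_, ?_⟩
    · rw [ha, h1]; (clear * - hlam; field_simp)
    · rw [hb', h2]; field_simp
    · rw [ha, hb', hprod, abs_of_nonneg h]; field_simp
  · obtain ⟨a, ha, hb'⟩ := exists_cs (x := Real.sqrt (p / lam)) (y := - Real.sqrt (q / lam))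
      (by rw [neg_sq, h1, h2, hsum])
    refine ⟨a, ?_, ?_, ?_⟩
    · rw [ha, h1]; field_simp
    · rw [hb', neg_sq, h2]; field_simp
    · rw [ha, hb', mul_neg, hprod, abs_of_nonpos h]; field_simp

lemma wedge_norm' (X Y : Fin 4 → ℝ) :
    (∑ a, X a * X a) * (∑ a, Y a * Y a) - (∑ a, X a * Y a) ^ 2 =
      (wE X Y 0 - wF X Y 0) ^ 2 + (wE X Y 1 - wF X Y 1) ^ 2 + (wE X Y 2 - wF X Y 2) ^ 2 := by
  simp only [Fin.sum_univ_four, Fin.isValue, wE, Matrix.cons_val_zero, wF, Matrix.cons_val_one, Matrix.cons_val]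
  ring

theorem sec_round {P S : Fin 3 → Fin 3 → ℝ} (h : BlockForm lam (lam / 3) r P S)
    (X Y : Fin 4 → ℝ) :
    rf r X Y Y X = lam / 3 * ((∑ a, X a * X a) * (∑ a, Y a * Y a) - (∑ a, X a * Y a) ^ 2) := by
  obtain ⟨a1, a2, a3⟩ := h.factsA
  obtain ⟨c1, c2, c3⟩ := h.factsC
  have trA := h.trA
  have trC := h.trC
  have tS := h.trS
  have s0 : S 0 0 = 0 := by linarith only [a1, a2, c1, c2, trA, trC]
  rw [s0] at a1 a2 c1 c2 trA trC
  have u1 : P 1 1 + S 1 1 - lam / 3 = 0 := by linarith only [a1, a2, trA]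
  have u2 : P 2 2 + S 2 2 - lam / 3 = 0 := by linarith only [a1, a2, trA]
  have v1 : P 1 1 - S 1 1 - lam / 3 = 0 := by linarith only [c1, c2, trC]
  have v2 : P 2 2 - S 2 2 - lam / 3 = 0 := by linarith only [c1, c2, trC]
  simp only [detA, detC, s0, add_zero, sub_zero] at a3 c3
  rw [u1, u2] at a3
  rw [v1, v2] at c3
  have w1 : P 1 2 + S 1 2 = 0 := by
    have : (P 1 2 + S 1 2) ^ 2 ≤ 0 := by linarith only [a3]
    exact pow_eq_zero_iff two_ne_zero |>.mp (le_antisymm this (sq_nonneg _))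
  have w2 : P 1 2 - S 1 2 = 0 := by
    have : (P 1 2 - S 1 2) ^ 2 ≤ 0 := by linarith only [c3]
    exact pow_eq_zero_iff two_ne_zero |>.mp (le_antisymm this (sq_nonneg _))
  have p1 : P 1 1 = lam / 3 := by linarith only [a1, a2, c1, c2, trA, trC]
  have p2 : P 2 2 = lam / 3 := by linarith only [a1, a2, c1, c2, trA, trC]
  have q1 : S 1 1 = 0 := by linarith only [a1, a2, c1, c2, trA, trC]
  have q2 : S 2 2 = 0 := by linarith only [a1, a2, c1, c2, trA, trC]
  have r1 : P 1 2 = 0 := by linarith only [w1, w2]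
  have r2 : S 1 2 = 0 := by linarith only [w1, w2]
  rw [wedge_norm', h.eq, rf_einArr]
  have hw := wedge_self X Y
  simp only [qf, p1, p2, q1, q2, r1, r2, h.P00, h.P01, h.P02, h.S01, h.S02, s0]
  linear_combination (2 * lam / 3) * hw

/-- rows of the frame in the second case -/
noncomputable def rowK (a : ℝ) : Fin 4 → Fin 4 → ℝ :=
  ![![1, 0, 0, 0], ![0, 0, Real.cos a, Real.sin a], ![0, 1, 0, 0],
    ![0, 0, Real.sin a, - Real.cos a]]

lemma rowK_orth (a : ℝ) (i j : Fin 4) :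
    ∑ b, rowK a i b * rowK a j b = if i = j then 1 else 0 := by
  have h := Real.cos_sq_add_sin_sq a
  fin_cases i <;> fin_cases j <;> simp [rowK, Fin.sum_univ_four] <;> linarith only [h, a]

/-- rows of the frame in the third case -/
noncomputable def rowP (s d : ℝ) : Fin 4 → Fin 4 → ℝ :=
  ![![Real.cos d, Real.sin d, 0, 0], ![0, 0, Real.cos s, Real.sin s],
    ![- Real.sin d, Real.cos d, 0, 0], ![0, 0, Real.sin s, - Real.cos s]]

lemma rowP_orth (s d : ℝ) (i j : Fin 4) :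
    ∑ b, rowP s d i b * rowP s d j b = if i = j then 1 else 0 := by
  have h := Real.cos_sq_add_sin_sq d
  have h' := Real.cos_sq_add_sin_sq s
  fin_cases i <;> fin_cases j <;> simp [rowP, Fin.sum_univ_four] <;> linarith only [h, d, s, h']

theorem sec_kaehler {P S : Fin 3 → Fin 3 → ℝ} (hlam : 0 < lam)
    (h : BlockForm lam (lam / 6) r P S) (h00 : S 0 0 = -(lam / 6)) (hA : detA (lam / 6) P S = 0) :
    ∃ a : ℝ, ∀ X Y : Fin 4 → ℝ, rf r X Y Y X = lam / 6 *
      ((∑ a, X a * X a) * (∑ a, Y a * Y a) - (∑ a, X a * Y a) ^ 2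
        + 3 * (arO (rowK a) X Y 0 1 + arO (rowK a) X Y 2 3) ^ 2) := by
  obtain ⟨a1, a2, -⟩ := h.factsA
  obtain ⟨c1, c2, c3⟩ := h.factsC
  have trA := h.trA
  have trC := h.trC
  rw [h00] at a1 a2 c1 c2 trA trC
  simp only [detA, detC, h00] at hA c3
  have v1 : P 1 1 - S 1 1 - (lam / 6 - -(lam / 6)) = 0 := by linarith only [c1, c2, trC]
  have v2 : P 2 2 - S 2 2 - (lam / 6 - -(lam / 6)) = 0 := by linarith only [c1, c2, trC]
  rw [v1, v2] at c3
  have w2 : P 1 2 - S 1 2 = 0 := by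
    have : (P 1 2 - S 1 2) ^ 2 ≤ 0 := by linarith only [c3]
    exact pow_eq_zero_iff two_ne_zero |>.mp (le_antisymm this (sq_nonneg _))
  obtain ⟨a, e1, e2, e3⟩ := exists_proj (lam := lam) (p := P 1 1 + S 1 1) (q := P 2 2 + S 2 2)
    (b := P 1 2 + S 1 2) hlam (by linarith only [a1]) (by linarith only [a2]) (by linarith only [trA]) (by
      have : lam / 6 + -(lam / 6) = 0 := by ring
      rw [this, sub_zero, sub_zero] at hA
      exact hA)
  refine ⟨a, ?_⟩
  intro X Y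
  have p1 : P 1 1 = lam / 6 + lam / 2 * Real.cos a ^ 2 := by linarith only [c1, c2, trC, e1]
  have q1 : S 1 1 = -(lam / 6) + lam / 2 * Real.cos a ^ 2 := by linarith only [c1, c2, trC, e1]
  have p2 : P 2 2 = lam / 6 + lam / 2 * Real.sin a ^ 2 := by linarith only [c1, c2, trC, e2]
  have q2 : S 2 2 = -(lam / 6) + lam / 2 * Real.sin a ^ 2 := by linarith only [c1, c2, trC, e2]
  have p3 : P 1 2 = lam / 2 * (Real.cos a * Real.sin a) := by linarith only [w2, e3]
  have q3 : S 1 2 = lam / 2 * (Real.cos a * Real.sin a) := by linarith only [w2, e3]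
  have ear : arO (rowK a) X Y 0 1 + arO (rowK a) X Y 2 3 =
      Real.cos a * (wE X Y 1 + wF X Y 1) + Real.sin a * (wE X Y 2 + wF X Y 2) := by
    simp only [arO, rowK, Fin.isValue, Matrix.cons_val', Matrix.cons_val_fin_one, Matrix.cons_val_zero, Fin.sum_univ_four, mul_one, Matrix.cons_val_one, mul_zero, add_zero, Matrix.cons_val, zero_add, mul_neg, wE, wF]
    ring
  rw [ear, wedge_norm', h.eq, rf_einArr]
  simp only [qf, p1, p2, q1, q2, p3, q3, h.P00, h.P01, h.P02, h.S01, h.S02, h00]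
  ring

theorem sec_product {P S : Fin 3 → Fin 3 → ℝ} (hlam : 0 < lam)
    (h : BlockForm lam 0 r P S) (h00 : S 0 0 = 0) (hA : detA 0 P S = 0) (hC : detC 0 P S = 0) :
    ∃ s d : ℝ, ∀ X Y : Fin 4 → ℝ, rf r X Y Y X = lam *
      ((arO (rowP s d) X Y 0 1) ^ 2 + (arO (rowP s d) X Y 2 3) ^ 2) := by
  obtain ⟨a1, a2, -⟩ := h.factsA
  obtain ⟨c1, c2, -⟩ := h.factsC
  have trA := h.trA
  have trC := h.trC
  rw [h00] at a1 a2 c1 c2 trA trC
  simp only [detA, detC, h00, add_zero, sub_zero] at hA hC a1 a2 c1 c2 trA trC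
  obtain ⟨a, e1, e2, e3⟩ := exists_proj (lam := lam) (p := P 1 1 + S 1 1) (q := P 2 2 + S 2 2)
    (b := P 1 2 + S 1 2) hlam (by linarith only [P, S, a1]) (by linarith only [P, S, a2]) (by linarith only [trA]) hA
  obtain ⟨b, f1, f2, f3⟩ := exists_proj (lam := lam) (p := P 1 1 - S 1 1) (q := P 2 2 - S 2 2)
    (b := P 1 2 - S 1 2) hlam (by linarith only [P, S, c1]) (by linarith only [P, S, c2]) (by linarith only [trC]) hC
  refine ⟨(a + b) / 2, (a - b) / 2, ?_⟩
  set s := (a + b) / 2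
  set d := (a - b) / 2
  have ha : a = s + d := by simp only [s, d]; ring
  have hb : b = s - d := by simp only [s, d]; ring
  intro X Y
  have p1 : P 1 1 = lam / 2 * (Real.cos a ^ 2 + Real.cos b ^ 2) := by linarith only [e1, f1]
  have q1 : S 1 1 = lam / 2 * (Real.cos a ^ 2 - Real.cos b ^ 2) := by linarith only [e1, f1]
  have p2 : P 2 2 = lam / 2 * (Real.sin a ^ 2 + Real.sin b ^ 2) := by linarith only [e2, f2]
  have q2 : S 2 2 = lam / 2 * (Real.sin a ^ 2 - Real.sin b ^ 2) := by linarith only [e2, f2]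
  have p3 : P 1 2 = lam / 2 * (Real.cos a * Real.sin a + Real.cos b * Real.sin b) := by linarith only [e3, f3]
  have q3 : S 1 2 = lam / 2 * (Real.cos a * Real.sin a - Real.cos b * Real.sin b) := by linarith only [e3, f3]
  have ear : arO (rowP s d) X Y 0 1 = 2⁻¹ * (Real.cos a * (wE X Y 1 + wF X Y 1)
      + Real.sin a * (wE X Y 2 + wF X Y 2) + (Real.cos b * (wE X Y 1 - wF X Y 1)
      + Real.sin b * (wE X Y 2 - wF X Y 2))) := by
    rw [ha, hb, Real.cos_add, Real.cos_sub, Real.sin_add, Real.sin_sub]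
    simp only [arO, rowP, Fin.isValue, Matrix.cons_val', Matrix.cons_val_fin_one, Matrix.cons_val_zero, Fin.sum_univ_four, Matrix.cons_val_one, Matrix.cons_val, mul_zero, add_zero, zero_add, wE, wF]
    ring
  have ear2 : arO (rowP s d) X Y 2 3 = 2⁻¹ * (Real.cos a * (wE X Y 1 + wF X Y 1)
      + Real.sin a * (wE X Y 2 + wF X Y 2) - (Real.cos b * (wE X Y 1 - wF X Y 1)
      + Real.sin b * (wE X Y 2 - wF X Y 2))) := by
    rw [ha, hb, Real.cos_add, Real.cos_sub, Real.sin_add, Real.sin_sub]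
    simp only [arO, rowP, Fin.isValue, Matrix.cons_val', Matrix.cons_val_fin_one, Matrix.cons_val, Matrix.cons_val_one, Matrix.cons_val_zero, Fin.sum_univ_four, mul_neg, mul_zero, add_zero, zero_add, wE, wF]
    ring
  rw [ear, ear2, h.eq, rf_einArr]
  simp only [qf, p1, p2, q1, q2, p3, q3, h.P00, h.P01, h.P02, h.S01, h.S02, h00]
  ring

end arrays

namespace Geom

variable {M 𝒪 V : Type*} [TopologicalSpace M] [CommRing 𝒪] [Algebra ℝ 𝒪]
    [AddCommGroup V] [Module 𝒪 V] {G : Geom M 𝒪 V}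

variable {lam k : ℝ}

/-- area components of `X ∧ Y` in a frame at a point -/
def ar (G : Geom M 𝒪 V) (p : M) (F : Fin 4 → V) (X Y : V) (i j : Fin 4) : ℝ :=
  G.ev p (G.g X (F i)) * G.ev p (G.g Y (F j)) - G.ev p (G.g X (F j)) * G.ev p (G.g Y (F i))

theorem comb_on {p : M} {F : Fin 4 → V} (hF : G.ON p F) {O : Fin 4 → Fin 4 → ℝ}
    (hO : ∀ i j, ∑ a, O i a * O j a = if i = j then 1 else 0) :
    G.ON p (fun i => comb (𝒪 := 𝒪) F (O i)) := by
  intro i j
  rw [g_cf hF, cf_comb hF, cf_comb hF, hO]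

theorem ar_comb {p : M} {F : Fin 4 → V} (hF : G.ON p F) (O : Fin 4 → Fin 4 → ℝ) (X Y : V)
    (i j : Fin 4) : G.ar p (fun i => comb (𝒪 := 𝒪) F (O i)) X Y i j =
      arO O (G.cf p F X) (G.cf p F Y) i j := by
  simp only [ar, arO, g_cf hF, cf_comb hF]

/-- The curvature tensor in the three cases. -/
theorem curv_types [CompactSpace M] [Nonempty M] (hlam : 0 < lam) (hk : 0 ≤ k)
    (hE : G.Einstein lam) (hK : G.SecGe k) (hA : G.MinAt k) :
    (k = lam / 3 ∧ ∀ p X Y, G.ev p (G.Rm X Y Y X) = lam / 3 *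
      (G.ev p (G.g X X) * G.ev p (G.g Y Y) - G.ev p (G.g X Y) ^ 2)) ∨
    (k = lam / 6 ∧ ∀ p, ∃ F : Fin 4 → V, G.ON p F ∧ ∀ X Y, G.ev p (G.Rm X Y Y X) = lam / 6 *
      (G.ev p (G.g X X) * G.ev p (G.g Y Y) - G.ev p (G.g X Y) ^ 2
        + 3 * (G.ar p F X Y 0 1 + G.ar p F X Y 2 3) ^ 2)) ∨
    (k = 0 ∧ ∀ p, ∃ F : Fin 4 → V, G.ON p F ∧ ∀ X Y, G.ev p (G.Rm X Y Y X) = lam *
      (G.ar p F X Y 0 1 ^ 2 + G.ar p F X Y 2 3 ^ 2)) := by
  have hT := types hlam hk hE hK hA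
  by_cases h3 : k = lam / 3
  · left
    refine ⟨h3, ?_⟩
    intro p X Y
    obtain ⟨F, hS, hmin, -⟩ := hT p
    have hF : G.ON p F := hS.at
    have hb := (einsteinJet hE hS).block (minPlane_of hK hF hmin)
    rw [h3] at hb
    rw [Rm_rf hF, sec_round hb, g_cf hF, g_cf hF, g_cf hF]
  · right
    by_cases h0 : k = 0
    · right
      refine ⟨h0, ?_⟩
      intro p
      obtain ⟨F, hS, hmin, ht⟩ := hT p
      have hF : G.ON p F := hS.at
      have hb := (einsteinJet hE hS).block (minPlane_of hK hF hmin)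
      rw [h0] at hb
      rcases ht with ⟨-, hρ, hdA, hdC⟩ | ⟨hk', -, -⟩ | hk'
      · obtain ⟨s, d, hsd⟩ := sec_product hlam hb (by rw [Sm00, hρ]) hdA hdC
        refine ⟨fun i => comb (𝒪 := 𝒪) F (rowP s d i), comb_on hF (rowP_orth s d), ?_⟩
        intro X Y
        rw [Rm_rf hF, hsd, ar_comb hF, ar_comb hF]
      · exfalso; linarith only [hlam, h0, hk']
      · exact absurd hk' h3
    · left
      have hk6 : k = lam / 6 ∧ ∀ p, ∃ F : Fin 4 → V, G.Sync p F ∧ G.rr p F 0 1 1 0 = k ∧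
          G.rr p F 0 1 3 2 = -(lam / 6) ∧
          detA (lam / 6) (Pm (G.rr p F)) (Sm (G.rr p F)) = 0 := by
        have hk6 : k = lam / 6 := by
          obtain ⟨F, hS, hmin, ht⟩ := hT (Classical.arbitrary M)
          rcases ht with ⟨hk', -, -, -⟩ | ⟨hk', -, -⟩ | hk'
          · exact absurd hk' h0
          · exact hk'
          · exact absurd hk' h3
        refine ⟨hk6, ?_⟩
        intro p
        obtain ⟨F, hS, hmin, ht⟩ := hT p
        rcases ht with ⟨hk', -, -, -⟩ | ⟨-, hρ, hdA⟩ | hk'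
        · exact absurd hk' h0
        · exact ⟨F, hS, hmin, hρ, hdA⟩
        · exact absurd hk' h3
      refine ⟨hk6.1, ?_⟩
      intro p
      obtain ⟨F, hS, hmin, hρ, hdA⟩ := hk6.2 p
      have hF : G.ON p F := hS.at
      have hb := (einsteinJet hE hS).block (minPlane_of hK hF hmin)
      rw [hk6.1] at hb
      obtain ⟨a, ha⟩ := sec_kaehler hlam hb (by rw [Sm00, hρ]) hdA
      refine ⟨fun i => comb (𝒪 := 𝒪) F (rowK a i), comb_on hF (rowK_orth a), ?_⟩
      intro X Y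
      rw [Rm_rf hF, ha, ar_comb hF, ar_comb hF, g_cf hF, g_cf hF, g_cf hF]

end Geom

end Vale.Agent.P211
end
end

section

section

namespace Vale.Agent.P211

open scoped Manifold ContDiff Topology
open Bundle Filter VectorField

set_option linter.unusedSectionVars false

variable {E : Type*} [NormedAddCommGroup E] [NormedSpace ℝ E] [FiniteDimensional ℝ E]
  {M : Type*} [TopologicalSpace M] [ChartedSpace E M] [IsManifold 𝓘(ℝ, E) ∞ M] [T2Space M]
  [RiemannianBundle (fun x : M => TangentSpace 𝓘(ℝ, E) x)]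
  [IsContMDiffRiemannianBundle 𝓘(ℝ, E) ∞ E (fun x : M => TangentSpace 𝓘(ℝ, E) x)]

variable {cov : CovariantDerivative 𝓘(ℝ, E) E (TangentSpace 𝓘(ℝ, E) : M → Type _)}

/-- bundle a smooth field -/
def mkVF (X : (p : M) → TangentSpace 𝓘(ℝ, E) p) (h : St.Smooth X) : VF E M := ⟨X, h⟩

theorem isLC_of (h : St.IsLeviCivita cov) : IsLC cov where
  smooth := h.1
  torsion X Y p := congrFun (h.2.1 X Y X.contMDiff Y.contMDiff) p
  metric X Y Z p := h.2.2 X Y Z X.contMDiff Y.contMDiff Z.contMDiff p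

theorem riem_eq (h : IsLC cov) (X Y Z W : VF E M) :
    St.Riem cov X Y Z W = ((lcOf h).Rm X Y Z W : SF E M) := by
  funext p
  have e : mlieBracket 𝓘(ℝ, E) X Y =
    ((nabVF cov h.smooth X Y - nabVF cov h.smooth Y X : VF E M) : (x : M) → TangentSpace 𝓘(ℝ, E) x)
      := (brk_coe h X Y).symm
  unfold St.Riem
  rw [e]
  rfl

theorem dRiem_eq (h : IsLC cov) (U X Y Z W : VF E M) (p : M) :
    St.dRiem cov U X Y Z W p = (lcOf h).d1 (lcOf h).Rm U X Y Z W p := by
  have e : ∀ A B : VF E M, St.nab cov A B = ((lcOf h).nab A B : VF E M) := fun A B => rfl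
  unfold St.dRiem
  rw [e, e, e, e, riem_eq h, riem_eq h, riem_eq h, riem_eq h, riem_eq h]
  rfl

section main

variable [PreconnectedSpace M] (h : IsLC cov) (hE : Module.finrank ℝ E = 4)

theorem einstein_of {lam : ℝ} (hEin : St.IsEinstein cov lam) : (geomOf h hE).Einstein lam := by
  intro p F hF Y Z
  have := hEin p (fun i => F i) (fun i j => ⟨(F i).contMDiff, hF i j⟩) Y Z Y.contMDiff Z.contMDiff
  simp only [riem_eq h] at this
  exact this

theorem secGe_of {k : ℝ} (hmin : St.MinSec cov k) : (geomOf h hE).SecGe k := by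
  intro p X Y
  have := (hmin p).1 X Y X.contMDiff Y.contMDiff
  rw [riem_eq h] at this
  have e : ((geomOf h hE).ev p ((geomOf h hE).g X Y)) ^ 2 = St.ip X Y p * St.ip Y X p := by
    rw [sq]
    have : St.ip Y X p = St.ip X Y p := real_inner_comm (X p) (Y p)
    rw [this]; rfl
  rw [e]
  exact this

theorem minAt_of {k : ℝ} (hmin : St.MinSec cov k) : (geomOf h hE).MinAt k := by
  intro p
  obtain ⟨F, hF, h4⟩ := (hmin p).2
  refine ⟨fun i => mkVF (F i) (hF i i).1, fun i j => (hF i j).2, ?_⟩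
  have e := congrFun (riem_eq h (mkVF (F 0) (hF 0 0).1) (mkVF (F 1) (hF 1 1).1)
    (mkVF (F 1) (hF 1 1).1) (mkVF (F 0) (hF 0 0).1)) p
  rw [← h4]
  exact e.symm

end main

theorem final (hE : Module.finrank ℝ E = 4) [CompactSpace M] [ConnectedSpace M]
    (cov : St.Conn E M) (hcov : St.IsLeviCivita cov) (lam k : ℝ) (hlam : 0 < lam) (hk : 0 ≤ k)
    (hEin : St.IsEinstein cov lam) (hmin : St.MinSec cov k) :
    (∀ U X Y Z W, St.Smooth U → St.Smooth X → St.Smooth Y → St.Smooth Z → St.Smooth W →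
      ∀ p, St.dRiem cov U X Y Z W p = 0) ∧
    ((k = lam / 3 ∧ ∀ p X Y, St.Smooth X → St.Smooth Y →
        St.Riem cov X Y Y X p = lam / 3 * St.dot X Y X Y p) ∨
      (k = lam / 6 ∧ ∀ p, ∃ F, St.Ortho F p ∧ ∀ X Y, St.Smooth X → St.Smooth Y →
        St.Riem cov X Y Y X p = lam / 6 * (St.dot X Y X Y p
          + 3 * (St.dot X Y (F 0) (F 1) p + St.dot X Y (F 2) (F 3) p) ^ 2)) ∨
      (k = 0 ∧ ∀ p, ∃ F, St.Ortho F p ∧ ∀ X Y, St.Smooth X → St.Smooth Y →
        St.Riem cov X Y Y X p =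
          lam * (St.dot X Y (F 0) (F 1) p ^ 2 + St.dot X Y (F 2) (F 3) p ^ 2))) := by
  have h := isLC_of hcov
  have e1 := einstein_of h hE hEin
  have e2 := secGe_of h hE hmin
  have e3 := minAt_of h hE hmin
  have hd : ∀ (X Y : VF E M) (p : M), St.dot X Y X Y p = (geomOf h hE).ev p ((geomOf h hE).g X X) *
      (geomOf h hE).ev p ((geomOf h hE).g Y Y) - (geomOf h hE).ev p ((geomOf h hE).g X Y) ^ 2 := by
    intro X Y p
    have : St.ip (Y : (p : M) → TangentSpace 𝓘(ℝ, E) p) X p = St.ip X Y p :=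
      real_inner_comm (X p) (Y p)
    unfold St.dot
    rw [this, ← sq]; rfl
  refine ⟨fun U X Y Z W hU hX hY hZ hW p => ?_, ?_⟩
  · exact (dRiem_eq h (mkVF U hU) (mkVF X hX) (mkVF Y hY) (mkVF Z hZ) (mkVF W hW) p).trans
      ((Geom.main hlam hk e1 e2 e3).2 p (mkVF U hU) (mkVF X hX) (mkVF Y hY) (mkVF Z hZ)
        (mkVF W hW))
  · rcases Geom.curv_types hlam hk e1 e2 e3 with ⟨h1, h2⟩ | ⟨h1, h2⟩ | ⟨h1, h2⟩
    · refine Or.inl ⟨h1, fun p X Y hX hY => ?_⟩
      have := h2 p (mkVF X hX) (mkVF Y hY)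
      rw [← hd] at this
      exact (congrFun (riem_eq h (mkVF X hX) (mkVF Y hY) (mkVF Y hY) (mkVF X hX)) p).trans this
    · refine Or.inr (Or.inl ⟨h1, fun p => ?_⟩)
      obtain ⟨F, hF, h3⟩ := h2 p
      refine ⟨fun i => F i, fun i j => ⟨(F i).contMDiff, hF i j⟩, fun X Y hX hY => ?_⟩
      have := h3 (mkVF X hX) (mkVF Y hY)
      rw [← hd] at this
      exact (congrFun (riem_eq h (mkVF X hX) (mkVF Y hY) (mkVF Y hY) (mkVF X hX)) p).trans this
    · refine Or.inr (Or.inr ⟨h1, fun p => ?_⟩)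
      obtain ⟨F, hF, h3⟩ := h2 p
      refine ⟨fun i => F i, fun i j => ⟨(F i).contMDiff, hF i j⟩, fun X Y hX hY => ?_⟩
      have := h3 (mkVF X hX) (mkVF Y hY)
      exact (congrFun (riem_eq h (mkVF X hX) (mkVF Y hY) (mkVF Y hY) (mkVF X hX)) p).trans this

end Vale.Agent.P211
end
end
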