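import Vale.Agent.P211.MathlibUsed2
import Vale.Agent.P211.Bdl.B1

set_option linter.all false

-- Defs
section

/-! P211, S4: definitions for the theorem on the self-dual Weyl curvature. -/

namespace Vale.Agent.P211.S4

open Topology Filter MeasureTheory Set
open scoped ContDiff

/-- The formal Riemannian calculus together with gradients, divergences, gluing and
composition with smooth functions of one variable. -/
structure Geo2 (M 𝒪 V : Type*) [TopologicalSpace M] [CommRing 𝒪] [Algebra ℝ 𝒪]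
    [AddCommGroup V] [Module 𝒪 V] extends Geom M 𝒪 V where
  frame : ∀ p : M, ∃ F : Fin 4 → V, ∀ i j, ev p (g (F i) (F j)) = if i = j then 1 else 0
  grad : 𝒪 → V
  grad_spec : ∀ f X, g (grad f) X = D X f
  dv : V → 𝒪
  dv_spec : ∀ (X : V) (p : M) (F : Fin 4 → V),
    (∀ i j, ev p (g (F i) (F j)) = if i = j then 1 else 0) →
      ev p (dv X) = ∑ i, ev p (g (nab (F i) X) (F i))
  glue : ∀ h : M → ℝ, (∀ p, ∃ ρ : 𝒪, ∀ᶠ q in 𝓝 p, h q = ev q ρ) → ∃ f : 𝒪, ∀ q, ev q f = h q
  ev_ext : ∀ f h : 𝒪, (∀ q, ev q f = ev q h) → f = h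
  comp : ∀ (f : 𝒪) (γ : ℝ → ℝ), (∀ q, ContDiffAt ℝ ∞ γ (ev q f)) →
    ∃ h : 𝒪, ∀ q, ev q h = γ (ev q f) ∧ ∀ X, ev q (D X h) = deriv γ (ev q f) * ev q (D X f)

variable {M 𝒪 V : Type*} [TopologicalSpace M] [CommRing 𝒪] [Algebra ℝ 𝒪]
    [AddCommGroup V] [Module 𝒪 V]

/-- An orientation: a four-form of absolute value one on orthonormal frames. -/
structure Orient (G : Geo2 M 𝒪 V) (om : V → V → V → V → 𝒪) : Prop where
  t4 : IsT4 om
  a12 : ∀ X Y Z W, om X Y Z W = - om Y X Z W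
  a23 : ∀ X Y Z W, om X Y Z W = - om X Z Y W
  a34 : ∀ X Y Z W, om X Y Z W = - om X Y W Z
  unit : ∀ (p : M) (F : Fin 4 → V), G.ON p F → G.ev p (om (F 0) (F 1) (F 2) (F 3)) ^ 2 = 1

/-- positively oriented orthonormal frames -/
def Pos (G : Geo2 M 𝒪 V) (om : V → V → V → V → 𝒪) (p : M) (F : Fin 4 → V) : Prop :=
  G.ON p F ∧ G.ev p (om (F 0) (F 1) (F 2) (F 3)) = 1

/-- the self-dual block of a curvature array -/
def Ab (r : Arr4) (i j : Fin 3) : ℝ := Pm r i j + Sm r i j

/-- squared norm of the self-dual block -/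
def nA (r : Arr4) : ℝ := ∑ i, ∑ j, Ab r i j ^ 2

/-- Laplacian -/
def Geo2.lap (G : Geo2 M 𝒪 V) (f : 𝒪) : 𝒪 := G.dv (G.grad f)

/-- polynomial replacing `sin(√(6s))/√(6s)` -/
noncomputable def qq (s : ℝ) : ℝ := 1 - s + 3 / 10 * s ^ 2 - 3 / 70 * s ^ 3
/-- its derivative -/
noncomputable def qd1 (s : ℝ) : ℝ := -1 + 3 / 5 * s - 9 / 70 * s ^ 2
/-- lower bound of `Δφ - 3` as a function of `φ` -/
noncomputable def ww (s : ℝ) : ℝ := 1 + 2 * s * qd1 s / qq s

/-- `φ` behaves like half the square of the distance from `p` as long as it is smaller than `T`: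
first order data. -/
structure Rad0 (G : Geo2 M 𝒪 V) (p : M) (T : ℝ) (φ : 𝒪) : Prop where
  nonneg : ∀ q, 0 ≤ G.ev q φ
  zero : ∀ q, G.ev q φ = 0 ↔ q = p
  eik : ∀ q, G.ev q φ < T → G.ev q (G.g (G.grad φ) (G.grad φ)) = 2 * G.ev q φ
  nondeg : ∀ X, G.ev p (G.g (G.nab X (G.grad φ)) X) = 0 → G.ev p (G.g X X) = 0

/-- `φ` behaves like half the square of the distance from `p` as long as it is smaller than `T`:
bounds of the Laplacian and volume of small balls. -/
structure Radial [MeasurableSpace M] (G : Geo2 M 𝒪 V) (μ : Measure M) (p : M) (T : ℝ) (φ : 𝒪) :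
    Prop where
  nonneg : ∀ q, 0 ≤ G.ev q φ
  zero : ∀ q, G.ev q φ = 0 ↔ q = p
  eik : ∀ q, G.ev q φ < T → G.ev q (G.g (G.grad φ) (G.grad φ)) = 2 * G.ev q φ
  lapU : ∀ q, G.ev q φ < T → G.ev q (G.lap φ) ≤ 4
  lapL : ∀ q, G.ev q φ < T → 3 + ww (G.ev q φ) ≤ G.ev q (G.lap φ)
  asym : Tendsto (fun t : ℝ => μ.real {q | G.ev q φ < t} / t ^ 2) (𝓝[>] 0)
    (𝓝 (2 * Real.pi ^ 2))

/-- the divergence theorem -/
def DivThm [MeasurableSpace M] (G : Geo2 M 𝒪 V) (μ : Measure M) : Prop :=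
  ∀ X : V, ∫ q, G.ev q (G.dv X) ∂μ = 0

/-- a test function `P` with first and second derivative `P1`, `P2`; `P s / s` is used as a radial
function vanishing to second order at `s = 3/2`. -/
structure TestFn (P P1 P2 : ℝ → ℝ) : Prop where
  smooth : ContDiff ℝ ∞ P
  d1 : ∀ s, HasDerivAt P (P1 s) s
  d2 : ∀ s, HasDerivAt P1 (P2 s) s
  zero : P 0 = 1
  end0 : P (3 / 2) = 0
  end1 : P1 (3 / 2) = 0
  nonneg : ∀ s, 0 ≤ s → s ≤ 3 / 2 → 0 ≤ P s
  mono : ∀ s, 0 < s → s ≤ 3 / 2 → s * P1 s ≤ P s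

/-- the coefficient `s H(s)` -/
noncomputable def hh (P P1 P2 : ℝ → ℝ) (s : ℝ) : ℝ :=
  3 * P s + 2 * P s * qd1 s / qq s - 2 * s * P2 s - 2 * s * P1 s * qd1 s / qq s

/-- A certificate for the range `[m1, m2]` of the maximum. -/
structure Cert (m1 m2 b : ℝ) (P P1 P2 Ap An : ℝ → ℝ) : Prop where
  test : TestFn P P1 P2
  bpos : 0 < b
  contp : Continuous Ap
  contn : Continuous An
  nnp : ∀ s, 0 ≤ Ap s
  nnn : ∀ s, 0 ≤ An s
  ineq : ∀ s f, 0 < s → s < 3 / 2 → 0 ≤ f → f ≤ m2 →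
    3 * P s * f ^ 3 - hh P P1 P2 s * f - b * s * (f ^ 4 + 1 / 2) ≤ Ap s - An s
  int : b / 6 + 1 / 2 * ∫ s in (0 : ℝ)..(3 / 2), (Ap s - An s * qq s) < m1

end Vale.Agent.P211.S4

end

-- StDefs
section

namespace Vale.Agent.P211.St

open scoped Manifold ContDiff Topology
open Bundle VectorField MeasureTheory Filter

noncomputable section

variable {E : Type*} [NormedAddCommGroup E] [NormedSpace ℝ E]
  {M : Type*} [TopologicalSpace M] [ChartedSpace E M] [Mfd E M] [Metric E M]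

/-- `d` is the divergence (the trace of `∇X`) of the vector field `X`. -/
def IsDiv (cov : Conn E M) (X : Fld E M) (d : M → ℝ) : Prop :=
  ∀ (p : M) (F : Fin 4 → Fld E M), Ortho F p → d p = ∑ i, ip (nab cov (F i) X) (F i) p

/-- A volume form: a smooth field `om` of alternating 4-linear forms with `om = ±1` on orthonormal
bases. It is the same as an orientation of the Riemannian manifold `M`. -/
structure IsVolForm (om : (p : M) → TangentSpace 𝓘(ℝ, E) p [⋀^Fin 4]→ₗ[ℝ] ℝ) : Prop where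
  smooth : ∀ X : Fin 4 → Fld E M, (∀ i, Smooth (X i)) →
    ContMDiff 𝓘(ℝ, E) 𝓘(ℝ) ∞ fun p => om p fun i => X i p
  unit : ∀ (p : M) (F : Fin 4 → Fld E M), Ortho F p → (om p fun i => F i p) ^ 2 = 1

/-- The entry `(i, j)` of the block of the curvature operator of an Einstein metric on the
self-dual two-forms, in the basis `F₀ ∧ Fᵢ + Fₖ ∧ Fₗ` (`i, k, l` cyclic) defined by an orthonormal
frame `F`; self-dual means self-dual for the orientation defined by `F`. -/
def SD (cov : Conn E M) (F : Fin 4 → Fld E M) (i j : Fin 3) (p : M) : ℝ :=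
  Riem cov (F 0) (F i.succ) (F j.succ) (F 0) p +
    Riem cov (F 0) (F i.succ) (F (![3, 1, 2] j)) (F (![2, 3, 1] j)) p

/-- The squared norm of the self-dual block of the curvature operator. -/
def SDsq (cov : Conn E M) (F : Fin 4 → Fld E M) (p : M) : ℝ := ∑ i, ∑ j, SD cov F i j p ^ 2

end

noncomputable section

variable {E : Type*} [NormedAddCommGroup E] [NormedSpace ℝ E]
  {M : Type*} [MetricSpace M] [ChartedSpace E M] [Mfd E M] [Metric E M] [MeasurableSpace M]

/-- `μ` is the Riemannian volume measure of the closed four-manifold `M`. It is characterised by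
the divergence theorem and by its normalisation on small balls: a finite measure for which the
divergence of every smooth vector field has integral zero is a constant multiple of the
Riemannian volume. -/
structure IsVol (cov : Conn E M) (μ : Measure M) : Prop where
  fin : IsFiniteMeasure μ
  div : ∀ (X : Fld E M) (d : M → ℝ), Smooth X → IsDiv cov X d → ∫ p, d p ∂μ = 0
  ball : ∀ p : M, Tendsto (fun r : ℝ => μ.real (Metric.ball p r) / r ^ 4) (𝓝[>] 0)
    (𝓝 (Real.pi ^ 2 / 2))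

end

end Vale.Agent.P211.St

end

-- A8
section

/-! P211, S4, task A8. -/

namespace Vale.Agent.P211.S4

open Topology Filter MeasureTheory Set
open scoped ContDiff

variable {M 𝒪 V : Type*} [TopologicalSpace M] [CommRing 𝒪] [Algebra ℝ 𝒪]
    [AddCommGroup V] [Module 𝒪 V] {G : Geo2 M 𝒪 V}

/-- A8a -/
theorem lap_sync (f : 𝒪) {p : M} {F : Fin 4 → V} (hS : G.Sync p F) :
    G.ev p (G.lap f) = ∑ m, G.ev p (G.D (F m) (G.D (F m) f)) := by
  unfold Geo2.lap
  rw [G.dv_spec (G.grad f) p F hS.at]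
  refine Finset.sum_congr rfl fun i _ => ?_
  have h1 := G.metric (F i) (G.grad f) (F i)
  rw [G.grad_spec] at h1
  have h2 : G.ev p (G.g (G.grad f) (G.nab (F i) (F i))) = 0 := by
    have h3 := G.ptwise p ⟨⟨fun Y => G.g Y (G.grad f), fun a b => G.g_add_left a b _⟩,
      fun a b => G.g_smul_left a b _⟩ (G.nab (F i) (F i)) (hS.nab (F i) i)
    have h4 : G.ev p (G.g (G.nab (F i) (F i)) (G.grad f)) = 0 := h3
    rw [G.g_symm]; exact h4
  rw [h1, map_add, h2, add_zero]

/-- A8b -/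
theorem grad_sq (f : 𝒪) {p : M} {F : Fin 4 → V} (hF : G.ON p F) :
    G.ev p (G.g (G.grad f) (G.grad f)) = ∑ m, G.ev p (G.D (F m) f) ^ 2 := by
  rw [G.parseval p F hF]
  refine Finset.sum_congr rfl fun i _ => ?_
  rw [G.grad_spec]

end Vale.Agent.P211.S4

end
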