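import Vale.Agent.P211.MathlibUsed2
import Vale.Agent.P211.Bdl.S0

set_option linter.all false

-- A12
section

/-! P211, S4, tasks A1 and A2. -/

namespace Vale.Agent.P211.S4

open Topology Filter MeasureTheory Set
open scoped ContDiff

variable {M 𝒪 V : Type*} [TopologicalSpace M] [CommRing 𝒪] [Algebra ℝ 𝒪]
    [AddCommGroup V] [Module 𝒪 V] {G : Geo2 M 𝒪 V} {om : V → V → V → V → 𝒪}

private theorem A12_neg_left (G : Geo2 M 𝒪 V) (X Y : V) : G.g (-X) Y = - G.g X Y := by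
  have := G.g_smul_left (-1) X Y
  simpa only [neg_smul, one_smul, neg_mul, one_mul] using this

private theorem A12_neg_right (G : Geo2 M 𝒪 V) (X Y : V) : G.g X (-Y) = - G.g X Y := by
  rw [G.g_symm, A12_neg_left, G.g_symm]

/-- A1 -/
theorem exists_pos (ho : Orient G om) (p : M) : ∃ F, Pos G om p F := by
  obtain ⟨F, hF⟩ := G.frame p
  have hu := ho.unit p F hF
  have hcase : G.ev p (om (F 0) (F 1) (F 2) (F 3)) = 1 ∨
      G.ev p (om (F 0) (F 1) (F 2) (F 3)) = -1 := by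
    have h0 : (G.ev p (om (F 0) (F 1) (F 2) (F 3)) - 1) *
        (G.ev p (om (F 0) (F 1) (F 2) (F 3)) + 1) = 0 := by
      linear_combination hu
    rcases mul_eq_zero.1 h0 with h | h
    · left; linarith
    · right; linarith
  rcases hcase with h | h
  · exact ⟨F, hF, h⟩
  · refine ⟨fun i => if i = 3 then -F 3 else F i, ?_, ?_⟩
    · intro i j
      by_cases hi : i = 3
      · by_cases hj : j = 3
        · simp only [hi, hj, if_true]
          rw [A12_neg_left, A12_neg_right, neg_neg, hF 3 3]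
          simp
        · simp only [hi, if_true, if_neg hj]
          rw [A12_neg_left, map_neg, hF 3 j, if_neg (Ne.symm hj), neg_zero]
      · by_cases hj : j = 3
        · simp only [hj, if_true, if_neg hi]
          rw [A12_neg_right, map_neg, hF i 3, if_neg hi, neg_zero]
        · simp only [if_neg hi, if_neg hj]
          exact hF i j
    · have e0 : (fun i : Fin 4 => if i = 3 then -F 3 else F i) 0 = F 0 := by simp
      have e1 : (fun i : Fin 4 => if i = 3 then -F 3 else F i) 1 = F 1 := by simp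
      have e2 : (fun i : Fin 4 => if i = 3 then -F 3 else F i) 2 = F 2 := by simp
      have e3 : (fun i : Fin 4 => if i = 3 then -F 3 else F i) 3 = -F 3 := by simp
      rw [e0, e1, e2, e3, ho.t4.neg4, map_neg, h, neg_neg]

/-- A2 -/
theorem pos_sync (ho : Orient G om) {p : M} {F₀ : Fin 4 → V} (h : Pos G om p F₀) :
    ∃ F : Fin 4 → V, G.Sync p F ∧ (∀ i, G.Eqv p (F i) (F₀ i)) ∧
      ∀ᶠ q in 𝓝 p, Pos G om q F := by
  obtain ⟨F, h1, h2, h3⟩ := G.sync p F₀ h.1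
  refine ⟨F, ⟨h1, h3⟩, h2, ?_⟩
  have hval : G.ev p (om (F 0) (F 1) (F 2) (F 3)) = 1 := by
    rw [G.congrAll ho.t4 (h2 0) (h2 1) (h2 2) (h2 3)]
    exact h.2
  have hc : ContinuousAt (fun q => G.ev q (om (F 0) (F 1) (F 2) (F 3))) p :=
    (G.ev_cont _).continuousAt
  have hpos : ∀ᶠ q in 𝓝 p, 0 < G.ev q (om (F 0) (F 1) (F 2) (F 3)) := by
    apply hc.eventually
    apply lt_mem_nhds
    show 0 < G.ev p (om (F 0) (F 1) (F 2) (F 3))
    rw [hval]
    exact one_pos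
  filter_upwards [h1, hpos] with q hq hq2
  refine ⟨hq, ?_⟩
  have hu := ho.unit q F hq
  nlinarith

end Vale.Agent.P211.S4

end

-- A3
section

/-! P211, S4, task A3: `nA` does not depend on the positively oriented orthonormal frame. -/

namespace Vale.Agent.P211.S4

open Topology Filter MeasureTheory Set
open scoped ContDiff

variable {M 𝒪 V : Type*} [TopologicalSpace M] [CommRing 𝒪] [Algebra ℝ 𝒪]
    [AddCommGroup V] [Module 𝒪 V] {G : Geo2 M 𝒪 V} {om : V → V → V → V → 𝒪}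

/-- functions whose sum over an orthonormal frame does not depend on the frame -/
private def A3_Q (G : Geo2 M 𝒪 V) (p : M) (Q : V → ℝ) : Prop :=
  ∀ F F' : Fin 4 → V, G.ON p F → G.ON p F' → ∑ i, Q (F i) = ∑ i, Q (F' i)

/-- pointwise linear functions -/
private def A3_L (G : Geo2 M 𝒪 V) (p : M) (φ : V → ℝ) : Prop :=
  ∀ F : Fin 4 → V, G.ON p F → ∀ Z, φ Z = ∑ i, G.ev p (G.g Z (F i)) * φ (F i)

private theorem A3_mk {p : M} {φ ψ : V → ℝ} (hφ : A3_L G p φ) (hψ : A3_L G p ψ) (c : ℝ) :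
    A3_Q G p (fun X => φ X * ψ X * c) := by
  intro F F' hF hF'
  have h1 : ∀ i, φ (F i) * ψ (F i) * c =
      ∑ j, G.ev p (G.g (F i) (F' j)) * φ (F' j) * ψ (F i) * c := by
    intro i
    conv_lhs => rw [hφ F' hF' (F i)]
    rw [Finset.sum_mul, Finset.sum_mul]
  have h2 : ∀ j, φ (F' j) * ψ (F' j) * c =
      ∑ i, G.ev p (G.g (F i) (F' j)) * φ (F' j) * ψ (F i) * c := by
    intro j
    conv_lhs => rw [hψ F hF (F' j)]
    rw [Finset.mul_sum, Finset.sum_mul]
    refine Finset.sum_congr rfl fun i _ => ?_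
    rw [G.g_symm (F' j) (F i)]
    ring
  rw [Finset.sum_congr rfl fun i _ => h1 i, Finset.sum_comm]
  exact (Finset.sum_congr rfl fun j _ => h2 j).symm

private theorem A3_sum {p : M} {g : Fin 4 → V → ℝ} (h : ∀ j, A3_Q G p (g j)) :
    A3_Q G p (fun X => ∑ j, g j X) := by
  intro F F' hF hF'
  rw [Finset.sum_comm, Finset.sum_comm (f := fun i j => g j (F' i))]
  exact Finset.sum_congr rfl fun j _ => h j F F' hF hF'

private theorem A3_inv4 {p : M} {f : V → V → V → V → ℝ}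
    (h1 : ∀ b c d, A3_Q G p fun X => f X b c d) (h2 : ∀ a c d, A3_Q G p fun X => f a X c d)
    (h3 : ∀ a b d, A3_Q G p fun X => f a b X d) (h4 : ∀ a b c, A3_Q G p fun X => f a b c X)
    {F F' : Fin 4 → V} (hF : G.ON p F) (hF' : G.ON p F') :
    ∑ i, ∑ j, ∑ k, ∑ l, f (F i) (F j) (F k) (F l) =
      ∑ i, ∑ j, ∑ k, ∑ l, f (F' i) (F' j) (F' k) (F' l) := by
  calc ∑ i, ∑ j, ∑ k, ∑ l, f (F i) (F j) (F k) (F l)
      = ∑ i, ∑ j, ∑ k, ∑ l, f (F' i) (F j) (F k) (F l) :=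
        (A3_sum fun j => A3_sum fun k => A3_sum fun l => h1 (F j) (F k) (F l)) F F' hF hF'
    _ = ∑ i, ∑ j, ∑ k, ∑ l, f (F' i) (F' j) (F k) (F l) :=
        Finset.sum_congr rfl fun i _ =>
          (A3_sum fun k => A3_sum fun l => h2 (F' i) (F k) (F l)) F F' hF hF'
    _ = ∑ i, ∑ j, ∑ k, ∑ l, f (F' i) (F' j) (F' k) (F l) :=
        Finset.sum_congr rfl fun i _ => Finset.sum_congr rfl fun j _ =>
          (A3_sum fun l => h3 (F' i) (F' j) (F l)) F F' hF hF'
    _ = ∑ i, ∑ j, ∑ k, ∑ l, f (F' i) (F' j) (F' k) (F' l) :=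
        Finset.sum_congr rfl fun i _ => Finset.sum_congr rfl fun j _ =>
          Finset.sum_congr rfl fun k _ => h4 (F' i) (F' j) (F' k) F F' hF hF'

private theorem A3_inv6 {p : M} {f : V → V → V → V → V → V → ℝ}
    (h1 : ∀ b c d e s, A3_Q G p fun X => f X b c d e s)
    (h2 : ∀ a c d e s, A3_Q G p fun X => f a X c d e s)
    (h3 : ∀ a b d e s, A3_Q G p fun X => f a b X d e s)
    (h4 : ∀ a b c e s, A3_Q G p fun X => f a b c X e s)
    (h5 : ∀ a b c d s, A3_Q G p fun X => f a b c d X s)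
    (h6 : ∀ a b c d e, A3_Q G p fun X => f a b c d e X)
    {F F' : Fin 4 → V} (hF : G.ON p F) (hF' : G.ON p F') :
    ∑ i, ∑ j, ∑ k, ∑ l, ∑ m, ∑ n, f (F i) (F j) (F k) (F l) (F m) (F n) =
      ∑ i, ∑ j, ∑ k, ∑ l, ∑ m, ∑ n, f (F' i) (F' j) (F' k) (F' l) (F' m) (F' n) := by
  calc ∑ i, ∑ j, ∑ k, ∑ l, ∑ m, ∑ n, f (F i) (F j) (F k) (F l) (F m) (F n)
      = ∑ i, ∑ j, ∑ k, ∑ l, ∑ m, ∑ n, f (F' i) (F j) (F k) (F l) (F m) (F n) :=
        (A3_sum fun j => A3_sum fun k => A3_sum fun l => A3_sum fun m => A3_sum fun n =>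
          h1 (F j) (F k) (F l) (F m) (F n)) F F' hF hF'
    _ = ∑ i, ∑ j, ∑ k, ∑ l, ∑ m, ∑ n, f (F' i) (F' j) (F k) (F l) (F m) (F n) :=
        Finset.sum_congr rfl fun i _ =>
          (A3_sum fun k => A3_sum fun l => A3_sum fun m => A3_sum fun n =>
            h2 (F' i) (F k) (F l) (F m) (F n)) F F' hF hF'
    _ = ∑ i, ∑ j, ∑ k, ∑ l, ∑ m, ∑ n, f (F' i) (F' j) (F' k) (F l) (F m) (F n) :=
        Finset.sum_congr rfl fun i _ => Finset.sum_congr rfl fun j _ =>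
          (A3_sum fun l => A3_sum fun m => A3_sum fun n =>
            h3 (F' i) (F' j) (F l) (F m) (F n)) F F' hF hF'
    _ = ∑ i, ∑ j, ∑ k, ∑ l, ∑ m, ∑ n, f (F' i) (F' j) (F' k) (F' l) (F m) (F n) :=
        Finset.sum_congr rfl fun i _ => Finset.sum_congr rfl fun j _ =>
          Finset.sum_congr rfl fun k _ =>
          (A3_sum fun m => A3_sum fun n => h4 (F' i) (F' j) (F' k) (F m) (F n)) F F' hF hF'
    _ = ∑ i, ∑ j, ∑ k, ∑ l, ∑ m, ∑ n, f (F' i) (F' j) (F' k) (F' l) (F' m) (F n) :=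
        Finset.sum_congr rfl fun i _ => Finset.sum_congr rfl fun j _ =>
          Finset.sum_congr rfl fun k _ => Finset.sum_congr rfl fun l _ =>
          (A3_sum fun n => h5 (F' i) (F' j) (F' k) (F' l) (F n)) F F' hF hF'
    _ = ∑ i, ∑ j, ∑ k, ∑ l, ∑ m, ∑ n, f (F' i) (F' j) (F' k) (F' l) (F' m) (F' n) :=
        Finset.sum_congr rfl fun i _ => Finset.sum_congr rfl fun j _ =>
          Finset.sum_congr rfl fun k _ => Finset.sum_congr rfl fun l _ =>
          Finset.sum_congr rfl fun m _ => h6 (F' i) (F' j) (F' k) (F' l) (F' m) F F' hF hF'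

/-- contraction with an alternating array -/
private theorem A3_alt {w c : Arr4} (w12 : ∀ i j k l, w i j k l = - w j i k l)
    (w23 : ∀ i j k l, w i j k l = - w i k j l) (w34 : ∀ i j k l, w i j k l = - w i j l k)
    (w0123 : w 0 1 2 3 = 1) (c12 : ∀ i j k l, c i j k l = - c j i k l)
    (c34 : ∀ i j k l, c i j k l = - c i j l k) (cp : ∀ i j k l, c i j k l = c k l i j) :
    ∑ i, ∑ j, ∑ k, ∑ l, w i j k l * c i j k l =
      8 * (c 0 1 2 3 - c 0 2 1 3 + c 0 3 1 2) := by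
  have z12 : ∀ a k l, w a a k l = 0 := fun a k l => by
    have := w12 a a k l
    linarith only [this]
  have z23 : ∀ i a l, w i a a l = 0 := fun i a l => by
    have := w23 i a a l
    linarith only [this]
  have z34 : ∀ i j a, w i j a a = 0 := fun i j a => by
    have := w34 i j a a
    linarith only [this]
  have z13 : ∀ a b l, w a b a l = 0 := fun a b l => by rw [w12, z23, neg_zero]
  have z24 : ∀ i a b, w i a b a = 0 := fun i a b => by rw [w23, z34, neg_zero]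
  have z14 : ∀ a b k, w a b k a = 0 := fun a b k => by rw [w12, z24, neg_zero]
  have w1023 : w 1 0 2 3 = -1 := by rw [w12 1 0 2 3, w0123]
  have w0213 : w 0 2 1 3 = -1 := by rw [w23 0 2 1 3, w0123]
  have w0132 : w 0 1 3 2 = -1 := by rw [w34 0 1 3 2, w0123]
  have w1203 : w 1 2 0 3 = 1 := by rw [w23 1 2 0 3, w1023]; norm_num
  have w1032 : w 1 0 3 2 = 1 := by rw [w34 1 0 3 2, w1023]; norm_num
  have w2013 : w 2 0 1 3 = 1 := by rw [w12 2 0 1 3, w0213]; norm_num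
  have w0231 : w 0 2 3 1 = 1 := by rw [w34 0 2 3 1, w0213]; norm_num
  have w0312 : w 0 3 1 2 = 1 := by rw [w23 0 3 1 2, w0132]; norm_num
  have w2103 : w 2 1 0 3 = -1 := by rw [w12 2 1 0 3, w1203]
  have w1230 : w 1 2 3 0 = -1 := by rw [w34 1 2 3 0, w1203]
  have w1302 : w 1 3 0 2 = -1 := by rw [w23 1 3 0 2, w1032]
  have w2031 : w 2 0 3 1 = -1 := by rw [w34 2 0 3 1, w2013]
  have w0321 : w 0 3 2 1 = -1 := by rw [w23 0 3 2 1, w0231]
  have w3012 : w 3 0 1 2 = -1 := by rw [w12 3 0 1 2, w0312]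
  have w2130 : w 2 1 3 0 = 1 := by rw [w34 2 1 3 0, w2103]; norm_num
  have w1320 : w 1 3 2 0 = 1 := by rw [w23 1 3 2 0, w1230]; norm_num
  have w3102 : w 3 1 0 2 = 1 := by rw [w12 3 1 0 2, w1302]; norm_num
  have w2301 : w 2 3 0 1 = 1 := by rw [w23 2 3 0 1, w2031]; norm_num
  have w3021 : w 3 0 2 1 = 1 := by rw [w12 3 0 2 1, w0321]; norm_num
  have w2310 : w 2 3 1 0 = -1 := by rw [w23 2 3 1 0, w2130]
  have w3120 : w 3 1 2 0 = -1 := by rw [w12 3 1 2 0, w1320]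
  have w3201 : w 3 2 0 1 = -1 := by rw [w12 3 2 0 1, w2301]
  have w3210 : w 3 2 1 0 = 1 := by rw [w12 3 2 1 0, w2310]; norm_num
  have k1023 : c 1 0 2 3 = - c 0 1 2 3 := by rw [c12 1 0 2 3]
  have k0132 : c 0 1 3 2 = - c 0 1 2 3 := by rw [c34 0 1 3 2]
  have k2301 : c 2 3 0 1 = c 0 1 2 3 := by rw [cp 2 3 0 1]
  have k1032 : c 1 0 3 2 = c 0 1 2 3 := by rw [c34 1 0 3 2, k1023]; rw [neg_neg]
  have k2310 : c 2 3 1 0 = - c 0 1 2 3 := by rw [cp 2 3 1 0, k1023]
  have k3201 : c 3 2 0 1 = - c 0 1 2 3 := by rw [cp 3 2 0 1, k0132]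
  have k3210 : c 3 2 1 0 = c 0 1 2 3 := by rw [cp 3 2 1 0, k1032]
  have k2013 : c 2 0 1 3 = - c 0 2 1 3 := by rw [c12 2 0 1 3]
  have k0231 : c 0 2 3 1 = - c 0 2 1 3 := by rw [c34 0 2 3 1]
  have k1302 : c 1 3 0 2 = c 0 2 1 3 := by rw [cp 1 3 0 2]
  have k2031 : c 2 0 3 1 = c 0 2 1 3 := by rw [c34 2 0 3 1, k2013]; rw [neg_neg]
  have k1320 : c 1 3 2 0 = - c 0 2 1 3 := by rw [cp 1 3 2 0, k2013]
  have k3102 : c 3 1 0 2 = - c 0 2 1 3 := by rw [cp 3 1 0 2, k0231]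
  have k3120 : c 3 1 2 0 = c 0 2 1 3 := by rw [cp 3 1 2 0, k2031]
  have k3012 : c 3 0 1 2 = - c 0 3 1 2 := by rw [c12 3 0 1 2]
  have k0321 : c 0 3 2 1 = - c 0 3 1 2 := by rw [c34 0 3 2 1]
  have k1203 : c 1 2 0 3 = c 0 3 1 2 := by rw [cp 1 2 0 3]
  have k3021 : c 3 0 2 1 = c 0 3 1 2 := by rw [c34 3 0 2 1, k3012]; rw [neg_neg]
  have k1230 : c 1 2 3 0 = - c 0 3 1 2 := by rw [cp 1 2 3 0, k3012]
  have k2103 : c 2 1 0 3 = - c 0 3 1 2 := by rw [cp 2 1 0 3, k0321]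
  have k2130 : c 2 1 3 0 = c 0 3 1 2 := by rw [cp 2 1 3 0, k3021]
  simp only [Fin.sum_univ_four, z12, z23, z34, z13, z24, z14, zero_mul, add_zero, zero_add,
    w0123, w1023, w0213, w0132, w1203, w1032, w2013, w0231, w0312, w2103, w1230, w1302, w2031, w0321, w3012, w2130, w1320, w3102, w2301, w3021, w2310, w3120, w3201, w3210,
    one_mul, neg_mul, k1023, k0132, k2301, k1032, k2310, k3201, k3210, k2013, k0231, k1302, k2031, k1320, k3102, k3120, k3012, k0321, k1203, k3021, k1230, k2103, k2130]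
  ring

/-- the contraction of an array with itself -/
private def A3_cc (r : Arr4) : Arr4 := fun i j k l => ∑ m, ∑ n, r i j m n * r k l m n

private theorem A3_eval {r w : Arr4} {c : ℝ} (h : IsAlgCurv r)
    (ht : ∀ j k, ∑ i, r i j k i = if j = k then c else 0)
    (w12 : ∀ i j k l, w i j k l = - w j i k l)
    (w23 : ∀ i j k l, w i j k l = - w i k j l) (w34 : ∀ i j k l, w i j k l = - w i j l k)
    (w0123 : w 0 1 2 3 = 1) :
    nA r = (∑ i, ∑ j, ∑ k, ∑ l, r i j k l * r i j k l * 1) / 8 +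
      (∑ i, ∑ j, ∑ k, ∑ l, ∑ m, ∑ n, w i j k l * r i j m n * r k l m n) / 16 := by
  have c12 : ∀ i j k l, A3_cc r i j k l = - A3_cc r j i k l := by
    intro i j k l
    simp only [A3_cc, ← Finset.sum_neg_distrib]
    refine Finset.sum_congr rfl fun m _ => Finset.sum_congr rfl fun n _ => ?_
    rw [h.anti12 i j m n]
    ring
  have c34 : ∀ i j k l, A3_cc r i j k l = - A3_cc r i j l k := by
    intro i j k l
    simp only [A3_cc, ← Finset.sum_neg_distrib]
    refine Finset.sum_congr rfl fun m _ => Finset.sum_congr rfl fun n _ => ?_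
    rw [h.anti12 k l m n]
    ring
  have cp : ∀ i j k l, A3_cc r i j k l = A3_cc r k l i j := by
    intro i j k l
    simp only [A3_cc]
    exact Finset.sum_congr rfl fun m _ => Finset.sum_congr rfl fun n _ => mul_comm _ _
  have e1 : ∑ i, ∑ j, ∑ k, ∑ l, ∑ m, ∑ n, w i j k l * r i j m n * r k l m n =
      ∑ i, ∑ j, ∑ k, ∑ l, w i j k l * A3_cc r i j k l := by
    refine Finset.sum_congr rfl fun i _ => Finset.sum_congr rfl fun j _ =>
      Finset.sum_congr rfl fun k _ => Finset.sum_congr rfl fun l _ => ?_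
    simp only [A3_cc, Finset.mul_sum, mul_assoc]
  have e2 : ∑ i, ∑ j, ∑ k, ∑ l, r i j k l * r i j k l * 1 = ∑ i, ∑ j, A3_cc r i j i j := by
    simp only [A3_cc, mul_one]
  rw [e1, e2, A3_alt w12 w23 w34 w0123 c12 c34 cp]
  obtain ⟨h1, h2, h3, -, -⟩ := eq_einArr h ht
  have p10 := h2 1 0
  have p20 := h2 2 0
  have p21 := h2 2 1
  have s10 := h3 1 0
  have s20 := h3 2 0
  have s21 := h3 2 1
  generalize hP : Pm r = P at *
  generalize hS : Sm r = S at *
  have k0 : ∀ i j, A3_cc r i j i j = ∑ m, ∑ n, einArr P S i j m n ^ 2 := by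
    intro i j
    rw [h1]
    simp only [A3_cc, pow_two]
  have k1 : A3_cc r 0 1 2 3 = 4 * (P 0 0 * S 0 0 + P 0 1 * S 0 1 + P 0 2 * S 0 2) := by
    rw [h1]
    simp [A3_cc, einArr, sk, Fin.sum_univ_four]
    ring
  have k2 : A3_cc r 0 2 1 3 = -4 * (P 0 1 * S 0 1 + P 1 1 * S 1 1 + P 1 2 * S 1 2) := by
    rw [h1]
    simp [A3_cc, einArr, sk, Fin.sum_univ_four]
    ring
  have k3 : A3_cc r 0 3 1 2 = 4 * (P 0 2 * S 0 2 + P 1 2 * S 1 2 + P 2 2 * S 2 2) := by
    rw [h1]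
    simp [A3_cc, einArr, sk, Fin.sum_univ_four]
    ring
  have k4 : ∑ i, ∑ j, A3_cc r i j i j =
      8 * (P 0 0 ^ 2 + P 1 1 ^ 2 + P 2 2 ^ 2 + 2 * P 0 1 ^ 2 + 2 * P 0 2 ^ 2 + 2 * P 1 2 ^ 2
        + S 0 0 ^ 2 + S 1 1 ^ 2 + S 2 2 ^ 2 + 2 * S 0 1 ^ 2 + 2 * S 0 2 ^ 2 + 2 * S 1 2 ^ 2) := by
    simp only [k0]
    simp [einArr, sk, Fin.sum_univ_four]
    ring
  have k5 : nA r = ∑ i, ∑ j, (P i j + S i j) ^ 2 := by
    simp only [nA, Ab, hP, hS]
  rw [k4, k1, k2, k3, k5]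
  simp only [Fin.sum_univ_three]
  rw [p10, p20, p21, s10, s20, s21]
  ring

/-- A3 -/
theorem nA_inv (hE : G.Einstein 3) (ho : Orient G om) {p : M} {F F' : Fin 4 → V} (h : Pos G om p F)
    (h' : Pos G om p F') : nA (G.rr p F) = nA (G.rr p F') := by
  have hR := G.isT4_Rm
  have hO := ho.t4
  have r1 : ∀ b c d, A3_L G p fun X => G.ev p (G.Rm X b c d) := fun b c d F hF X =>
    G.exp1 hR hF X b c d
  have r2 : ∀ a c d, A3_L G p fun X => G.ev p (G.Rm a X c d) := fun a c d F hF X =>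
    G.exp2 hR hF a X c d
  have r3 : ∀ a b d, A3_L G p fun X => G.ev p (G.Rm a b X d) := fun a b d F hF X =>
    G.exp3 hR hF a b X d
  have r4 : ∀ a b c, A3_L G p fun X => G.ev p (G.Rm a b c X) := fun a b c F hF X =>
    G.exp4 hR hF a b c X
  have o1 : ∀ b c d, A3_L G p fun X => G.ev p (om X b c d) := fun b c d F hF X =>
    G.exp1 hO hF X b c d
  have o2 : ∀ a c d, A3_L G p fun X => G.ev p (om a X c d) := fun a c d F hF X =>
    G.exp2 hO hF a X c d
  have o3 : ∀ a b d, A3_L G p fun X => G.ev p (om a b X d) := fun a b d F hF X =>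
    G.exp3 hO hF a b X d
  have o4 : ∀ a b c, A3_L G p fun X => G.ev p (om a b c X) := fun a b c F hF X =>
    G.exp4 hO hF a b c X
  have t1 : ∑ i, ∑ j, ∑ k, ∑ l, G.rr p F i j k l * G.rr p F i j k l * 1 =
      ∑ i, ∑ j, ∑ k, ∑ l, G.rr p F' i j k l * G.rr p F' i j k l * 1 :=
    A3_inv4 (G := G) (p := p)
      (f := fun a b c d => G.ev p (G.Rm a b c d) * G.ev p (G.Rm a b c d) * 1)
      (fun b c d => A3_mk (r1 b c d) (r1 b c d) 1) (fun a c d => A3_mk (r2 a c d) (r2 a c d) 1)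
      (fun a b d => A3_mk (r3 a b d) (r3 a b d) 1) (fun a b c => A3_mk (r4 a b c) (r4 a b c) 1)
      h.1 h'.1
  have t2 : ∑ i, ∑ j, ∑ k, ∑ l, ∑ m, ∑ n,
      G.ev p (om (F i) (F j) (F k) (F l)) * G.rr p F i j m n * G.rr p F k l m n =
      ∑ i, ∑ j, ∑ k, ∑ l, ∑ m, ∑ n,
      G.ev p (om (F' i) (F' j) (F' k) (F' l)) * G.rr p F' i j m n * G.rr p F' k l m n := by
    refine A3_inv6 (G := G) (p := p)
      (f := fun a b c d e s => G.ev p (om a b c d) * G.ev p (G.Rm a b e s) *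
        G.ev p (G.Rm c d e s)) ?_ ?_ ?_ ?_ ?_ ?_ h.1 h'.1
    · intro b c d e s
      exact A3_mk (o1 b c d) (r1 b e s) _
    · intro a c d e s
      exact A3_mk (o2 a c d) (r2 a e s) _
    · intro a b d e s
      have := A3_mk (o3 a b d) (r1 d e s) (G.ev p (G.Rm a b e s))
      refine (congrArg (A3_Q G p) (funext fun X => ?_)).mp this
      ring
    · intro a b c e s
      have := A3_mk (o4 a b c) (r2 c e s) (G.ev p (G.Rm a b e s))
      refine (congrArg (A3_Q G p) (funext fun X => ?_)).mp this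
      ring
    · intro a b c d s
      have := A3_mk (r3 a b s) (r3 c d s) (G.ev p (om a b c d))
      refine (congrArg (A3_Q G p) (funext fun X => ?_)).mp this
      ring
    · intro a b c d e
      have := A3_mk (r4 a b e) (r4 c d e) (G.ev p (om a b c d))
      refine (congrArg (A3_Q G p) (funext fun X => ?_)).mp this
      ring
  have key : ∀ F : Fin 4 → V, Pos G om p F → nA (G.rr p F) =
      (∑ i, ∑ j, ∑ k, ∑ l, G.rr p F i j k l * G.rr p F i j k l * 1) / 8 +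
      (∑ i, ∑ j, ∑ k, ∑ l, ∑ m, ∑ n,
        G.ev p (om (F i) (F j) (F k) (F l)) * G.rr p F i j m n * G.rr p F k l m n) / 16 := by
    intro F hF
    refine A3_eval (w := fun i j k l => G.ev p (om (F i) (F j) (F k) (F l))) (c := 3)
      (Geom.algCurv_rr p F) ?_ ?_ ?_ ?_ hF.2
    · intro j k
      have h1 := hE p F hF.1 (F j) (F k)
      rw [hF.1 j k] at h1
      simp only [Geom.rr]
      rw [h1]
      split_ifs <;> simp
    · intro i j k l
      rw [ho.a12, map_neg]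
    · intro i j k l
      rw [ho.a23, map_neg]
    · intro i j k l
      rw [ho.a34, map_neg]
  rw [key F h, key F' h', t1, t2]

end Vale.Agent.P211.S4

end

-- A5
section

/-! P211, S4, task A5: `nA` is a smooth function. -/

namespace Vale.Agent.P211.S4

open Topology Filter MeasureTheory Set
open scoped ContDiff

variable {M 𝒪 V : Type*} [TopologicalSpace M] [CommRing 𝒪] [Algebra ℝ 𝒪]
    [AddCommGroup V] [Module 𝒪 V] {G : Geo2 M 𝒪 V} {om : V → V → V → V → 𝒪}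

private theorem A5_elem (G : Geo2 M 𝒪 V) (F : Fin 4 → V) :
    ∃ ρ : 𝒪, ∀ q, nA (G.rr q F) = G.ev q ρ := by
  refine ⟨(G.Rm (F 0) (F 1) (F 1) (F 0) + G.Rm (F 0) (F 1) (F 3) (F 2)) ^ 2
    + (G.Rm (F 0) (F 1) (F 2) (F 0) + G.Rm (F 0) (F 1) (F 1) (F 3)) ^ 2
    + (G.Rm (F 0) (F 1) (F 3) (F 0) + G.Rm (F 0) (F 1) (F 2) (F 1)) ^ 2
    + ((G.Rm (F 0) (F 2) (F 1) (F 0) + G.Rm (F 0) (F 2) (F 3) (F 2)) ^ 2
    + (G.Rm (F 0) (F 2) (F 2) (F 0) + G.Rm (F 0) (F 2) (F 1) (F 3)) ^ 2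
    + (G.Rm (F 0) (F 2) (F 3) (F 0) + G.Rm (F 0) (F 2) (F 2) (F 1)) ^ 2)
    + ((G.Rm (F 0) (F 3) (F 1) (F 0) + G.Rm (F 0) (F 3) (F 3) (F 2)) ^ 2
    + (G.Rm (F 0) (F 3) (F 2) (F 0) + G.Rm (F 0) (F 3) (F 1) (F 3)) ^ 2
    + (G.Rm (F 0) (F 3) (F 3) (F 0) + G.Rm (F 0) (F 3) (F 2) (F 1)) ^ 2), fun q => ?_⟩
  simp only [nA, Ab, Pm, Sm, Fin.sum_univ_three, Geom.rr, map_add, map_pow]
  simp

/-- A5 (uses A1, A2, A3) -/
theorem exists_a (hE : G.Einstein 3) (ho : Orient G om) :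
    ∃ a : 𝒪, ∀ p F, Pos G om p F → G.ev p a = nA (G.rr p F) := by
  choose F₀ hF₀ using exists_pos ho
  obtain ⟨a, ha⟩ := G.glue (fun q => nA (G.rr q (F₀ q))) (fun p => by
    obtain ⟨F, -, -, hF⟩ := pos_sync ho (hF₀ p)
    obtain ⟨ρ, hρ⟩ := A5_elem G F
    refine ⟨ρ, hF.mono fun q hq => ?_⟩
    rw [← hρ q]
    exact nA_inv hE ho (hF₀ q) hq)
  refine ⟨a, fun p F hF => ?_⟩
  rw [ha p]
  exact nA_inv hE ho (hF₀ p) hF

end Vale.Agent.P211.S4

end

-- A67
section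

/-! P211, S4: tasks A6 and A7. First and second derivatives of `|W+|^2` along a synchronous
frame. -/

namespace Vale.Agent.P211.S4

open Topology Filter MeasureTheory Set
open scoped ContDiff

/-- the index `i + 1`. -/
def a67_c (i : Fin 3) : Fin 4 := ![1, 2, 3] i
/-- first index of the complementary plane. -/
def a67_a (i : Fin 3) : Fin 4 := ![3, 1, 2] i
/-- second index of the complementary plane. -/
def a67_b (i : Fin 3) : Fin 4 := ![2, 3, 1] i

theorem a67_Ab (r : Arr4) (i j : Fin 3) :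
    Ab r i j = r 0 (a67_c i) (a67_c j) 0 + r 0 (a67_c i) (a67_a j) (a67_b j) := by
  fin_cases i <;> fin_cases j <;> simp [Ab, Pm, Sm, a67_c, a67_a, a67_b]

/-- the infinitesimal rotation of an array. -/
def a67_rot (T : Fin 4 → Fin 4 → ℝ) (r : Arr4) : Arr4 := fun i j k l =>
  ∑ n, (T i n * r n j k l + T j n * r i n k l + T k n * r i j n l + T l n * r i j k n)

theorem a67_rot_ein (T : Fin 4 → Fin 4 → ℝ) (hT : ∀ i j, T i j = - T j i)
    (P S : Fin 3 → Fin 3 → ℝ) :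
    ∑ i, ∑ j, Ab (einArr P S) i j * Ab (a67_rot T (einArr P S)) i j = 0 := by
  have h00 : T 0 0 = 0 := by linarith [hT 0 0]
  have h11 : T 1 1 = 0 := by linarith [hT 1 1]
  have h22 : T 2 2 = 0 := by linarith [hT 2 2]
  have h33 : T 3 3 = 0 := by linarith [hT 3 3]
  have h10 := hT 1 0
  have h20 := hT 2 0
  have h30 := hT 3 0
  have h21 := hT 2 1
  have h31 := hT 3 1
  have h32 := hT 3 2
  simp only [Fin.sum_univ_three, a67_Ab, a67_rot, Fin.sum_univ_four, a67_c, a67_a, a67_b,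
    einArr, sk, Matrix.cons_val_zero, Matrix.cons_val_one, Matrix.cons_val, Pi.neg_apply,
    Pi.zero_apply, h00, h11, h22, h33, h10, h20, h30, h21, h31, h32]
  ring

theorem a67_rot_alg {r : Arr4} {c : ℝ} (h : IsAlgCurv r)
    (ht : ∀ j k, ∑ i, r i j k i = if j = k then c else 0)
    (T : Fin 4 → Fin 4 → ℝ) (hT : ∀ i j, T i j = - T j i) :
    ∑ i, ∑ j, Ab r i j * Ab (a67_rot T r) i j = 0 := by
  obtain ⟨h1, -⟩ := eq_einArr h ht
  have h2 := a67_rot_ein T hT (Pm r) (Sm r)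
  rw [← h1] at h2
  exact h2

variable {M 𝒪 V : Type*} [TopologicalSpace M] [CommRing 𝒪] [Algebra ℝ 𝒪]
    [AddCommGroup V] [Module 𝒪 V] {G : Geo2 M 𝒪 V} {om : V → V → V → V → 𝒪}

theorem a67_D_sum {ι : Type*} (X : V) (s : Finset ι) (f : ι → 𝒪) :
    G.D X (∑ i ∈ s, f i) = ∑ i ∈ s, G.D X (f i) := by
  classical
  induction s using Finset.induction_on with
  | empty => simp [G.D_zero]
  | insert a s ha ih => rw [Finset.sum_insert ha, Finset.sum_insert ha, G.D_add, ih]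

/-- the entries of the self-dual block as functions. -/
def a67_x (G : Geo2 M 𝒪 V) (F : Fin 4 → V) (i j : Fin 3) : 𝒪 :=
  G.Rm (F 0) (F (a67_c i)) (F (a67_c j)) (F 0) +
    G.Rm (F 0) (F (a67_c i)) (F (a67_a j)) (F (a67_b j))

/-- the squared norm of the self-dual block as a function. -/
def a67_r (G : Geo2 M 𝒪 V) (F : Fin 4 → V) : 𝒪 := ∑ i, ∑ j, a67_x G F i j * a67_x G F i j

theorem a67_ev_x (F : Fin 4 → V) (q : M) (i j : Fin 3) :
    G.ev q (a67_x G F i j) = Ab (G.rr q F) i j := by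
  rw [a67_x, map_add, a67_Ab]
  rfl

theorem a67_ev_r (F : Fin 4 → V) (q : M) : G.ev q (a67_r G F) = nA (G.rr q F) := by
  rw [a67_r, nA, map_sum]
  refine Finset.sum_congr rfl fun i _ => ?_
  rw [map_sum]
  refine Finset.sum_congr rfl fun j _ => ?_
  rw [map_mul, a67_ev_x, sq]

theorem a67_D_r (F : Fin 4 → V) (U : V) :
    G.D U (a67_r G F) = ∑ i, ∑ j, (G.D U (a67_x G F i j) * a67_x G F i j +
      a67_x G F i j * G.D U (a67_x G F i j)) := by
  rw [a67_r, a67_D_sum]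
  refine Finset.sum_congr rfl fun i _ => ?_
  rw [a67_D_sum]
  exact Finset.sum_congr rfl fun j _ => G.D_mul _ _ _

theorem a67_DD_r (F : Fin 4 → V) (U : V) :
    G.D U (G.D U (a67_r G F)) = ∑ i, ∑ j,
      ((G.D U (G.D U (a67_x G F i j)) * a67_x G F i j +
        G.D U (a67_x G F i j) * G.D U (a67_x G F i j)) +
      (G.D U (a67_x G F i j) * G.D U (a67_x G F i j) +
        a67_x G F i j * G.D U (G.D U (a67_x G F i j)))) := by
  rw [a67_D_r, a67_D_sum]
  refine Finset.sum_congr rfl fun i _ => ?_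
  rw [a67_D_sum]
  refine Finset.sum_congr rfl fun j _ => ?_
  rw [G.D_add, G.D_mul, G.D_mul]

theorem a67_ev_D_x {p : M} {F : Fin 4 → V} (hS : G.Sync p F) (m : Fin 4) (i j : Fin 3) :
    G.ev p (G.D (F m) (a67_x G F i j)) = Ab (G.dd p F m) i j := by
  rw [a67_x, G.D_add, map_add, Geom.D_comp hS, Geom.D_comp hS, a67_Ab]
  rfl

theorem a67_ev_lap_x {p : M} {F : Fin 4 → V} (hS : G.Sync p F) (i j : Fin 3) :
    ∑ m, G.ev p (G.D (F m) (G.D (F m) (a67_x G F i j))) =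
      Ab (fun k l k' l' => ∑ m, G.ss p F m m k l k' l') i j +
        Ab (a67_rot (G.Th p F) (G.rr p F)) i j := by
  have h1 : ∀ m, G.ev p (G.D (F m) (G.D (F m) (a67_x G F i j))) =
      G.ev p (G.D (F m) (G.D (F m) (G.Rm (F 0) (F (a67_c i)) (F (a67_c j)) (F 0)))) +
      G.ev p (G.D (F m) (G.D (F m) (G.Rm (F 0) (F (a67_c i)) (F (a67_a j)) (F (a67_b j))))) := by
    intro m
    rw [a67_x, G.D_add, G.D_add, map_add]
  rw [Finset.sum_congr rfl fun m _ => h1 m, Finset.sum_add_distrib, Geom.Lap_comp hS,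
    Geom.Lap_comp hS, a67_Ab, a67_Ab]
  simp only [a67_rot]
  ring

/-- A6 -/
theorem da_sync {a : 𝒪} (ha : ∀ p F, Pos G om p F → G.ev p a = nA (G.rr p F)) {p : M}
    {F : Fin 4 → V} (hS : G.Sync p F) (hP : ∀ᶠ q in 𝓝 p, Pos G om q F) (m : Fin 4) :
    G.ev p (G.D (F m) a) = 2 * ∑ i, ∑ j, Ab (G.rr p F) i j * Ab (G.dd p F m) i j := by
  have h1 : ∀ᶠ q in 𝓝 p, G.ev q a = G.ev q (a67_r G F) := by
    filter_upwards [hP] with q hq
    rw [ha q F hq, a67_ev_r]
  rw [G.D_local p a (a67_r G F) h1 (F m), a67_D_r, map_sum, Finset.mul_sum]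
  refine Finset.sum_congr rfl fun i _ => ?_
  rw [map_sum, Finset.mul_sum]
  refine Finset.sum_congr rfl fun j _ => ?_
  rw [map_add, map_mul, map_mul, a67_ev_x, a67_ev_D_x hS]
  ring

/-- A7 -/
theorem dda_sync {a : 𝒪} (ha : ∀ p F, Pos G om p F → G.ev p a = nA (G.rr p F)) {p : M}
    (hE : G.Einstein 3)
    {F : Fin 4 → V} (hS : G.Sync p F) (hP : ∀ᶠ q in 𝓝 p, Pos G om q F) :
    ∑ m, G.ev p (G.D (F m) (G.D (F m) a)) =
      2 * ∑ m, ∑ i, ∑ j, Ab (G.dd p F m) i j ^ 2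
      + 2 * ∑ i, ∑ j, Ab (G.rr p F) i j *
          Ab (fun k l k' l' => ∑ m, G.ss p F m m k l k' l') i j := by
  have h1 : ∀ᶠ q in 𝓝 p, G.ev q a = G.ev q (a67_r G F) := by
    filter_upwards [hP] with q hq
    rw [ha q F hq, a67_ev_r]
  have h2 : ∀ m, ∀ᶠ q in 𝓝 p, G.ev q (G.D (F m) a) = G.ev q (G.D (F m) (a67_r G F)) := by
    intro m
    filter_upwards [h1.eventually_nhds] with q hq
    exact G.D_local q _ _ hq (F m)
  have h3 : ∀ m, G.ev p (G.D (F m) (G.D (F m) a)) =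
      ∑ i, ∑ j, (2 * Ab (G.dd p F m) i j ^ 2 +
        2 * (Ab (G.rr p F) i j * G.ev p (G.D (F m) (G.D (F m) (a67_x G F i j))))) := by
    intro m
    rw [G.D_local p _ _ (h2 m) (F m), a67_DD_r, map_sum]
    refine Finset.sum_congr rfl fun i _ => ?_
    rw [map_sum]
    refine Finset.sum_congr rfl fun j _ => ?_
    simp only [map_add, map_mul, a67_ev_x, a67_ev_D_x hS]
    ring
  have hJ := Geom.einsteinJet hE hS
  have h4 := a67_rot_alg hJ.hr hJ.hrt (G.Th p F) (Geom.Th_anti hS)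
  rw [Finset.sum_congr rfl fun m _ => h3 m]
  have h5 : ∑ m, ∑ i, ∑ j, (2 * Ab (G.dd p F m) i j ^ 2 +
        2 * (Ab (G.rr p F) i j * G.ev p (G.D (F m) (G.D (F m) (a67_x G F i j))))) =
      2 * ∑ m, ∑ i, ∑ j, Ab (G.dd p F m) i j ^ 2 +
        2 * ∑ i, ∑ j, Ab (G.rr p F) i j *
          ∑ m, G.ev p (G.D (F m) (G.D (F m) (a67_x G F i j))) := by
    simp only [Finset.sum_add_distrib, ← Finset.mul_sum]
    congr 2
    rw [Finset.sum_comm]
    refine Finset.sum_congr rfl fun i _ => ?_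
    rw [Finset.sum_comm]
    refine Finset.sum_congr rfl fun j _ => ?_
    rw [Finset.mul_sum]
  rw [h5]
  congr 2
  have h6 : ∑ i, ∑ j, Ab (G.rr p F) i j *
      ∑ m, G.ev p (G.D (F m) (G.D (F m) (a67_x G F i j))) =
      ∑ i, ∑ j, Ab (G.rr p F) i j * Ab (fun k l k' l' => ∑ m, G.ss p F m m k l k' l') i j +
        ∑ i, ∑ j, Ab (G.rr p F) i j * Ab (a67_rot (G.Th p F) (G.rr p F)) i j := by
    simp only [a67_ev_lap_x hS, mul_add, Finset.sum_add_distrib]
  rw [h6, h4, add_zero]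

end Vale.Agent.P211.S4

end

-- A4
section

/-! P211, S4, task A4: the self-dual block is diagonal in a suitable frame. -/

namespace Vale.Agent.P211.S4

open Topology Filter MeasureTheory Set
open scoped ContDiff

variable {M 𝒪 V : Type*} [TopologicalSpace M] [CommRing 𝒪] [Algebra ℝ 𝒪]
    [AddCommGroup V] [Module 𝒪 V] {G : Geo2 M 𝒪 V} {om : V → V → V → V → 𝒪}

theorem A4_eig (A : Fin 3 → Fin 3 → ℝ) (h : ∀ i j, A i j = A j i) :
    ∃ (a b : Fin 3 → ℝ) (μ ν : ℝ), (∑ i, a i * a i = 1) ∧ (∑ i, b i * b i = 1) ∧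
      (∑ i, a i * b i = 0) ∧ (∀ i, ∑ j, A i j * a j = μ * a i) ∧
      (∀ i, ∑ j, A i j * b j = ν * b i) := by
  have hA : (Matrix.of A).IsHermitian := by
    ext i j
    simp [Matrix.conjTranspose_apply, h i j]
  have ho := orthonormal_iff_ite.mp hA.eigenvectorBasis.orthonormal
  have hin : ∀ i j, ∑ k, hA.eigenvectorBasis i k * hA.eigenvectorBasis j k =
      if i = j then 1 else 0 := by
    intro i j
    rw [← ho i j, PiLp.inner_apply]
    refine Finset.sum_congr rfl fun k _ => ?_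
    simp [mul_comm]
  have hev : ∀ i k, ∑ l, A k l * hA.eigenvectorBasis i l =
      hA.eigenvalues i * hA.eigenvectorBasis i k := by
    intro i k
    have := congrFun (hA.mulVec_eigenvectorBasis i) k
    simpa [Matrix.mulVec, dotProduct] using this
  refine ⟨fun k => hA.eigenvectorBasis 0 k, fun k => hA.eigenvectorBasis 1 k,
    hA.eigenvalues 0, hA.eigenvalues 1, ?_, ?_, ?_, hev 0, hev 1⟩
  · simpa using hin 0 0
  · simpa using hin 1 1
  · simpa using hin 0 1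

/-- rotation fixing the first vector -/
def A4_rot (a b c : Fin 3 → ℝ) : Fin 4 → Fin 4 → ℝ :=
  ![![1, 0, 0, 0], ![0, a 0, a 1, a 2], ![0, b 0, b 1, b 2], ![0, c 0, c 1, c 2]]

theorem A4_orth {a b c : Fin 3 → ℝ} (ha : ∑ i, a i * a i = 1) (hb : ∑ i, b i * b i = 1)
    (hc : ∑ i, c i * c i = 1) (hab : ∑ i, a i * b i = 0) (hac : ∑ i, a i * c i = 0)
    (hbc : ∑ i, b i * c i = 0) (i j : Fin 4) :
    ∑ x, A4_rot a b c i x * A4_rot a b c j x = if i = j then 1 else 0 := by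
  rw [Fin.sum_univ_three] at ha hb hc hab hac hbc
  fin_cases i <;> fin_cases j <;> simp [A4_rot, Fin.sum_univ_four] <;> linarith

theorem A4_qf {A : Fin 3 → Fin 3 → ℝ} (h : ∀ i j, A i j = A j i) {u v : Fin 3 → ℝ} {μ : ℝ}
    (hu : ∀ i, ∑ j, A i j * u j = μ * u i) : qf A u v = μ * ∑ i, u i * v i := by
  have h0 := hu 0
  have h1 := hu 1
  have h2 := hu 2
  rw [Fin.sum_univ_three] at h0 h1 h2
  rw [Fin.sum_univ_three]
  rw [h 1 0] at h1
  rw [h 2 0, h 2 1] at h2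
  simp only [qf]
  linear_combination v 0 * h0 + v 1 * h1 + v 2 * h2

theorem A4_qf_symm (A : Fin 3 → Fin 3 → ℝ) (u v : Fin 3 → ℝ) : qf A u v = qf A v u := by
  simp only [qf]; ring

/-- entries of the self-dual block in the rotated frame -/
theorem A4_Ab {P S : Fin 3 → Fin 3 → ℝ} {a b c : Fin 3 → ℝ}
    (hbc : wF (A4_rot a b c 2) (A4_rot a b c 3) = a)
    (hca : wF (A4_rot a b c 3) (A4_rot a b c 1) = b)
    (hab : wF (A4_rot a b c 1) (A4_rot a b c 2) = c) :
    Ab (rotArr (einArr P S) (A4_rot a b c)) = fun i j =>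
      qf (fun i j => P i j + S i j) ((![a, b, c] : Fin 3 → Fin 3 → ℝ) i)
        ((![a, b, c] : Fin 3 → Fin 3 → ℝ) j) := by
  have e1 : wE (A4_rot a b c 0) (A4_rot a b c 1) = a := by
    funext k; fin_cases k <;> simp [wE, A4_rot]
  have e2 : wE (A4_rot a b c 0) (A4_rot a b c 2) = b := by
    funext k; fin_cases k <;> simp [wE, A4_rot]
  have e3 : wE (A4_rot a b c 0) (A4_rot a b c 3) = c := by
    funext k; fin_cases k <;> simp [wE, A4_rot]
  have z1 : wF (A4_rot a b c 0) (A4_rot a b c 1) = 0 := by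
    funext k; fin_cases k <;> simp [wF, A4_rot]
  have z2 : wF (A4_rot a b c 0) (A4_rot a b c 2) = 0 := by
    funext k; fin_cases k <;> simp [wF, A4_rot]
  have z3 : wF (A4_rot a b c 0) (A4_rot a b c 3) = 0 := by
    funext k; fin_cases k <;> simp [wF, A4_rot]
  have y1 : wE (A4_rot a b c 2) (A4_rot a b c 3) = 0 := by
    funext k; fin_cases k <;> simp [wE, A4_rot]
  have y2 : wE (A4_rot a b c 3) (A4_rot a b c 1) = 0 := by
    funext k; fin_cases k <;> simp [wE, A4_rot]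
  have y3 : wE (A4_rot a b c 1) (A4_rot a b c 2) = 0 := by
    funext k; fin_cases k <;> simp [wE, A4_rot]
  have q1 : ∀ (A : Fin 3 → Fin 3 → ℝ) (v : Fin 3 → ℝ), qf A 0 v = 0 := by
    intro A v; simp [qf]
  have q2 : ∀ (A : Fin 3 → Fin 3 → ℝ) (v : Fin 3 → ℝ), qf A v 0 = 0 := by
    intro A v; simp [qf]
  have q3 : ∀ u v : Fin 3 → ℝ, qf P u v + qf S u v = qf (fun i j => P i j + S i j) u v := by
    intro u v; simp only [qf]; ring
  have key : ∀ (i j x y : Fin 4), rotArr (einArr P S) (A4_rot a b c) i j x y =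
      qf P (wE (A4_rot a b c i) (A4_rot a b c j)) (wE (A4_rot a b c y) (A4_rot a b c x)) +
      qf P (wF (A4_rot a b c i) (A4_rot a b c j)) (wF (A4_rot a b c y) (A4_rot a b c x)) +
      qf S (wE (A4_rot a b c i) (A4_rot a b c j)) (wF (A4_rot a b c y) (A4_rot a b c x)) +
      qf S (wF (A4_rot a b c i) (A4_rot a b c j)) (wE (A4_rot a b c y) (A4_rot a b c x)) :=
    fun i j x y => rf_einArr P S _ _ _ _
  funext i j
  fin_cases i <;> fin_cases j <;>
    simp only [Ab, Pm, Sm, Fin.zero_eta, Fin.mk_one, Fin.reduceFinMk, Matrix.cons_val, key, e1, e2, e3, z1, z2, z3, y1, y2, y3,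
      hab, hbc, hca, q1, q2, add_zero, zero_add, q3]

/-- positivity of the rotated frame -/
theorem A4_om (ho : Orient G om) {p : M} {F : Fin 4 → V} (hF : Pos G om p F) (a b c : Fin 3 → ℝ)
    (hd : a 0 * (b 1 * c 2 - b 2 * c 1) + a 1 * (b 2 * c 0 - b 0 * c 2)
      + a 2 * (b 0 * c 1 - b 1 * c 0) = 1) :
    G.ev p (om (Geom.comb (𝒪 := 𝒪) F (A4_rot a b c 0)) (Geom.comb (𝒪 := 𝒪) F (A4_rot a b c 1))
      (Geom.comb (𝒪 := 𝒪) F (A4_rot a b c 2)) (Geom.comb (𝒪 := 𝒪) F (A4_rot a b c 3))) = 1 := by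
  have hcf : ∀ (x : Fin 4 → ℝ) (i : Fin 4), G.ev p (G.g (Geom.comb (𝒪 := 𝒪) F x) (F i)) = x i :=
    fun x i => congrFun (Geom.cf_comb hF.1 x) i
  obtain ⟨w, hw⟩ : ∃ w : Arr4, w = fun i j k l => G.ev p (om (F i) (F j) (F k) (F l)) := ⟨_, rfl⟩
  have hw' : ∀ i j k l, G.ev p (om (F i) (F j) (F k) (F l)) = w i j k l := by
    intro i j k l; rw [hw]
  have w12 : ∀ i j k l, w i j k l = - w j i k l := by
    intro i j k l; rw [← hw', ← hw', ho.a12, map_neg]
  have w23 : ∀ i j k l, w i j k l = - w i k j l := by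
    intro i j k l; rw [← hw', ← hw', ho.a23, map_neg]
  have w34 : ∀ i j k l, w i j k l = - w i j l k := by
    intro i j k l; rw [← hw', ← hw', ho.a34, map_neg]
  have w0123 : w 0 1 2 3 = 1 := by rw [← hw']; exact hF.2
  have z23 : ∀ i a l, w i a a l = 0 := fun i a l => by
    have := w23 i a a l
    linarith only [this]
  have z34 : ∀ i j a, w i j a a = 0 := fun i j a => by
    have := w34 i j a a
    linarith only [this]
  have z24 : ∀ i a b, w i a b a = 0 := fun i a b => by rw [w23, z34, neg_zero]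
  have w0213 : w 0 2 1 3 = -1 := by rw [w23 0 2 1 3, w0123]
  have w0132 : w 0 1 3 2 = -1 := by rw [w34 0 1 3 2, w0123]
  have w0231 : w 0 2 3 1 = 1 := by rw [w34 0 2 3 1, w0213]; norm_num
  have w0312 : w 0 3 1 2 = 1 := by rw [w23 0 3 1 2, w0132]; norm_num
  have w0321 : w 0 3 2 1 = -1 := by rw [w23 0 3 2 1, w0231]
  have hO := ho.t4
  have e0 : ∀ X Y Z : V, G.ev p (om (Geom.comb (𝒪 := 𝒪) F (A4_rot a b c 0)) X Y Z) =
      G.ev p (om (F 0) X Y Z) := by
    intro X Y Z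
    rw [G.exp1 hO hF.1]
    simp only [hcf, Fin.sum_univ_four, A4_rot, Matrix.cons_val]
    ring
  have e1 : ∀ X Y Z : V, G.ev p (om X (Geom.comb (𝒪 := 𝒪) F (A4_rot a b c 1)) Y Z) =
      a 0 * G.ev p (om X (F 1) Y Z) + a 1 * G.ev p (om X (F 2) Y Z) +
        a 2 * G.ev p (om X (F 3) Y Z) := by
    intro X Y Z
    rw [G.exp2 hO hF.1]
    simp only [hcf, Fin.sum_univ_four, A4_rot, Matrix.cons_val]
    ring
  have e2 : ∀ X Y Z : V, G.ev p (om X Y (Geom.comb (𝒪 := 𝒪) F (A4_rot a b c 2)) Z) =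
      b 0 * G.ev p (om X Y (F 1) Z) + b 1 * G.ev p (om X Y (F 2) Z) +
        b 2 * G.ev p (om X Y (F 3) Z) := by
    intro X Y Z
    rw [G.exp3 hO hF.1]
    simp only [hcf, Fin.sum_univ_four, A4_rot, Matrix.cons_val]
    ring
  have e3 : ∀ X Y Z : V, G.ev p (om X Y Z (Geom.comb (𝒪 := 𝒪) F (A4_rot a b c 3))) =
      c 0 * G.ev p (om X Y Z (F 1)) + c 1 * G.ev p (om X Y Z (F 2)) +
        c 2 * G.ev p (om X Y Z (F 3)) := by
    intro X Y Z
    rw [G.exp4 hO hF.1]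
    simp only [hcf, Fin.sum_univ_four, A4_rot, Matrix.cons_val]
    ring
  rw [e0, e1]
  simp only [e2]
  simp only [e3]
  simp only [hw', z23, z34, z24, w0123, w0213, w0132, w0231, w0312, w0321]
  linear_combination hd

/-- A4 -/
theorem exists_diag (hE : G.Einstein 3) (ho : Orient G om) (p : M) :
    ∃ F, Pos G om p F ∧ ∀ i j : Fin 3, i ≠ j → Ab (G.rr p F) i j = 0 := by
  obtain ⟨F, hF⟩ := exists_pos ho p
  have ht : ∀ j k, ∑ i, G.rr p F i j k i = if j = k then (3 : ℝ) else 0 := by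
    intro j k
    have h1 := hE p F hF.1 (F j) (F k)
    rw [hF.1 j k] at h1
    simp only [Geom.rr]
    rw [h1]
    split_ifs <;> simp
  obtain ⟨h1, h2, h3, -, -⟩ := eq_einArr (Geom.algCurv_rr p F) ht
  have hsymm : ∀ i j, (fun i j => Pm (G.rr p F) i j + Sm (G.rr p F) i j) i j =
      (fun i j => Pm (G.rr p F) i j + Sm (G.rr p F) i j) j i := by
    intro i j
    simp only [h2 i j, h3 i j]
  obtain ⟨a, b, μ, ν, ha, hb, hab, hμ, hν⟩ := A4_eig _ hsymm
  obtain ⟨c, hc⟩ : ∃ c : Fin 3 → ℝ, c = ![a 1 * b 2 - a 2 * b 1, a 2 * b 0 - a 0 * b 2,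
    a 0 * b 1 - a 1 * b 0] := ⟨_, rfl⟩
  have c0 : c 0 = a 1 * b 2 - a 2 * b 1 := by rw [hc]; rfl
  have c1 : c 1 = a 2 * b 0 - a 0 * b 2 := by rw [hc]; rfl
  have c2 : c 2 = a 0 * b 1 - a 1 * b 0 := by rw [hc]; rfl
  have hac : ∑ i, a i * c i = 0 := by
    rw [Fin.sum_univ_three, c0, c1, c2]; ring
  have hbc : ∑ i, b i * c i = 0 := by
    rw [Fin.sum_univ_three, c0, c1, c2]; ring
  have ha' := ha
  have hb' := hb
  have hab' := hab
  rw [Fin.sum_univ_three] at ha' hb' hab'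
  have hcc : ∑ i, c i * c i = 1 := by
    rw [Fin.sum_univ_three, c0, c1, c2]
    linear_combination (b 0 * b 0 + b 1 * b 1 + b 2 * b 2) * ha' + hb' -
      (a 0 * b 0 + a 1 * b 1 + a 2 * b 2) * hab'
  have horth := A4_orth ha hb hcc hab hac hbc
  have w1 : wF (A4_rot a b c 2) (A4_rot a b c 3) = a := by
    funext k
    fin_cases k <;> simp [wF, A4_rot, c0, c1, c2]
    · linear_combination a 0 * hb' - b 0 * hab'
    · linear_combination a 1 * hb' - b 1 * hab'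
    · linear_combination a 2 * hb' - b 2 * hab'
  have w2 : wF (A4_rot a b c 3) (A4_rot a b c 1) = b := by
    funext k
    fin_cases k <;> simp [wF, A4_rot, c0, c1, c2]
    · linear_combination b 0 * ha' - a 0 * hab'
    · linear_combination b 1 * ha' - a 1 * hab'
    · linear_combination b 2 * ha' - a 2 * hab'
  have w3 : wF (A4_rot a b c 1) (A4_rot a b c 2) = c := by
    funext k
    fin_cases k <;> simp [wF, A4_rot, c0, c1, c2]
  refine ⟨fun i => Geom.comb (𝒪 := 𝒪) F (A4_rot a b c i), ⟨Geom.comb_on hF.1 horth, ?_⟩, ?_⟩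
  · refine A4_om ho hF a b c ?_
    rw [Fin.sum_univ_three, c0, c1, c2] at hcc
    rw [c0, c1, c2]
    linear_combination hcc
  · have e1 : G.rr p (fun i => Geom.comb (𝒪 := 𝒪) F (A4_rot a b c i)) =
        rotArr (G.rr p F) (A4_rot a b c) := by
      rw [Geom.rr_rot hF.1]
      congr 1
      funext i
      exact Geom.cf_comb hF.1 _
    rw [e1, h1, A4_Ab w1 w2 w3]
    have d01 : qf (fun i j => Pm (G.rr p F) i j + Sm (G.rr p F) i j) a b = 0 := by
      rw [A4_qf hsymm hμ, hab, mul_zero]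
    have d02 : qf (fun i j => Pm (G.rr p F) i j + Sm (G.rr p F) i j) a c = 0 := by
      rw [A4_qf hsymm hμ, hac, mul_zero]
    have d12 : qf (fun i j => Pm (G.rr p F) i j + Sm (G.rr p F) i j) b c = 0 := by
      rw [A4_qf hsymm hν, hbc, mul_zero]
    intro i j hij
    fin_cases i <;> fin_cases j
    · exact absurd rfl hij
    · exact d01
    · exact d02
    · exact (A4_qf_symm _ _ _).trans d01
    · exact absurd rfl hij
    · exact d12
    · exact (A4_qf_symm _ _ _).trans d02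
    · exact (A4_qf_symm _ _ _).trans d12
    · exact absurd rfl hij

end Vale.Agent.P211.S4

end

-- A9
section

/-! P211, S4, A9: the Laplacian of the self-dual block, contracted with the self-dual block. -/

namespace Vale.Agent.P211.S4

private def A9_lap (r : Arr4) (i j k l : Fin 4) : ℝ :=
  - ∑ m, (ricciComm r m i j m k l + ricciComm r m j m i k l)

section
variable (P S : Fin 3 → Fin 3 → ℝ) (h01 : P 0 1 = - S 0 1) (h02 : P 0 2 = - S 0 2)
    (h12 : P 1 2 = - S 1 2) (hS : S 2 2 = - S 0 0 - S 1 1)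
include h01 h02 h12 hS

private lemma A9_00 :
    A9_lap (einArr P S) 0 1 1 0 + A9_lap (einArr P S) 0 1 3 2 =
      2 * (P 0 0 + P 1 1 + P 2 2) * (P 0 0 + S 0 0) - 2 * (P 0 0 + S 0 0) ^ 2
      - 4 * ((P 1 1 + S 1 1) * (P 2 2 + S 2 2)) := by
  simp only [A9_lap, ricciComm, Fin.sum_univ_four]
  simp only [einArr, sk, Matrix.cons_val]
  simp only [Matrix.cons_val, Pi.neg_apply, Pi.zero_apply,
    neg_zero, mul_zero, zero_mul, add_zero, zero_add, neg_neg]
  rw [h01, h02, h12, hS]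
  ring

private lemma A9_11 :
    A9_lap (einArr P S) 0 2 2 0 + A9_lap (einArr P S) 0 2 1 3 =
      2 * (P 0 0 + P 1 1 + P 2 2) * (P 1 1 + S 1 1) - 2 * (P 1 1 + S 1 1) ^ 2
      - 4 * ((P 0 0 + S 0 0) * (P 2 2 + S 2 2)) := by
  simp only [A9_lap, ricciComm, Fin.sum_univ_four]
  simp only [einArr, sk, Matrix.cons_val]
  simp only [Matrix.cons_val, Pi.neg_apply, Pi.zero_apply,
    neg_zero, mul_zero, zero_mul, add_zero, zero_add, neg_neg]
  rw [h01, h02, h12, hS]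
  ring

private lemma A9_22 :
    A9_lap (einArr P S) 0 3 3 0 + A9_lap (einArr P S) 0 3 2 1 =
      2 * (P 0 0 + P 1 1 + P 2 2) * (P 2 2 + S 2 2) - 2 * (P 2 2 + S 2 2) ^ 2
      - 4 * ((P 0 0 + S 0 0) * (P 1 1 + S 1 1)) := by
  simp only [A9_lap, ricciComm, Fin.sum_univ_four]
  simp only [einArr, sk, Matrix.cons_val]
  simp only [Matrix.cons_val, Pi.neg_apply, Pi.zero_apply,
    neg_zero, mul_zero, zero_mul, add_zero, zero_add, neg_neg]
  rw [h01, h02, h12, hS]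
  ring

end

theorem lap_alg {r : Arr4} {d : Fin 4 → Arr4} {s : Fin 4 → Fin 4 → Arr4}
    (h : EinsteinJet 3 r d s) (hd : ∀ i j : Fin 3, i ≠ j → Ab r i j = 0) :
    ∑ i, ∑ j, Ab r i j * Ab (fun k l k' l' => ∑ m, s m m k l k' l') i j =
      ∑ i, Ab r i i * (6 * Ab r i i - 2 * Ab r i i ^ 2)
        - 12 * (Ab r 0 0 * Ab r 1 1 * Ab r 2 2) := by
  obtain ⟨he, hP, hS, htP, htS⟩ := eq_einArr h.hr h.hrt
  have h01 : Pm r 0 1 = - Sm r 0 1 := by
    have := hd 0 1 (by decide)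
    unfold Ab at this
    linarith only [this]
  have h02 : Pm r 0 2 = - Sm r 0 2 := by
    have := hd 0 2 (by decide)
    unfold Ab at this
    linarith only [this]
  have h12 : Pm r 1 2 = - Sm r 1 2 := by
    have := hd 1 2 (by decide)
    unfold Ab at this
    linarith only [this]
  have hS2 : Sm r 2 2 = - Sm r 0 0 - Sm r 1 1 := by linarith only [htS]
  have e0 : Ab (fun k l k' l' => ∑ m, s m m k l k' l') 0 0 =
      6 * Ab r 0 0 - 2 * Ab r 0 0 ^ 2 - 4 * (Ab r 1 1 * Ab r 2 2) := by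
    have h1 : Ab (fun k l k' l' => ∑ m, s m m k l k' l') 0 0 =
        ∑ m, s m m 0 1 1 0 + ∑ m, s m m 0 1 3 2 := rfl
    have h2 := A9_00 (Pm r) (Sm r) h01 h02 h12 hS2
    rw [← he, htP] at h2
    rw [h1, h.lap, h.lap]
    unfold A9_lap at h2
    unfold Ab
    linarith only [h2]
  have e1 : Ab (fun k l k' l' => ∑ m, s m m k l k' l') 1 1 =
      6 * Ab r 1 1 - 2 * Ab r 1 1 ^ 2 - 4 * (Ab r 0 0 * Ab r 2 2) := by
    have h1 : Ab (fun k l k' l' => ∑ m, s m m k l k' l') 1 1 =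
        ∑ m, s m m 0 2 2 0 + ∑ m, s m m 0 2 1 3 := rfl
    have h2 := A9_11 (Pm r) (Sm r) h01 h02 h12 hS2
    rw [← he, htP] at h2
    rw [h1, h.lap, h.lap]
    unfold A9_lap at h2
    unfold Ab
    linarith only [h2]
  have e2 : Ab (fun k l k' l' => ∑ m, s m m k l k' l') 2 2 =
      6 * Ab r 2 2 - 2 * Ab r 2 2 ^ 2 - 4 * (Ab r 0 0 * Ab r 1 1) := by
    have h1 : Ab (fun k l k' l' => ∑ m, s m m k l k' l') 2 2 =
        ∑ m, s m m 0 3 3 0 + ∑ m, s m m 0 3 2 1 := rfl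
    have h2 := A9_22 (Pm r) (Sm r) h01 h02 h12 hS2
    rw [← he, htP] at h2
    rw [h1, h.lap, h.lap]
    unfold A9_lap at h2
    unfold Ab
    linarith only [h2]
  simp only [Fin.sum_univ_three]
  rw [hd 0 1 (by decide), hd 0 2 (by decide), hd 1 0 (by decide), hd 1 2 (by decide),
    hd 2 0 (by decide), hd 2 1 (by decide), e0, e1, e2]
  ring

end Vale.Agent.P211.S4

end

-- A10
section

/-! P211, S4, task A10 (helper442): refined Kato inequality for the self-dual block. -/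

namespace Vale.Agent.P211.S4

private theorem A10_u {u v w : Fin 4 → ℝ} (h : SDRow u v w) :
    ∑ m, u m ^ 2 ≤ 2 * ∑ m, v m ^ 2 + 2 * ∑ m, w m ^ 2 := by
  have h0 : u 1 = -(v 2 + w 3) := by linarith only [h.e0]
  have h1 : u 0 = w 2 - v 3 := by linarith only [h.e1]
  have h2 : u 3 = v 0 + w 1 := by linarith only [h.e2]
  have h3 : u 2 = v 1 - w 0 := by linarith only [h.e3]
  simp only [Fin.sum_univ_four]
  rw [h0, h1, h2, h3]
  linarith only [sq_nonneg (v 2 - w 3), sq_nonneg (w 2 + v 3), sq_nonneg (v 0 - w 1), sq_nonneg (v 1 + w 0)]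

private theorem A10_v {u v w : Fin 4 → ℝ} (h : SDRow u v w) :
    ∑ m, v m ^ 2 ≤ 2 * ∑ m, u m ^ 2 + 2 * ∑ m, w m ^ 2 := by
  have h0 : v 2 = -(u 1 + w 3) := by linarith only [h.e0]
  have h1 : v 3 = w 2 - u 0 := by linarith only [h.e1]
  have h2 : v 0 = u 3 - w 1 := by linarith only [h.e2]
  have h3 : v 1 = w 0 + u 2 := by linarith only [h.e3]
  simp only [Fin.sum_univ_four]
  rw [h0, h1, h2, h3]
  linarith only [sq_nonneg (w 0 - u 2), sq_nonneg (u 3 + w 1), sq_nonneg (w 2 + u 0), sq_nonneg (u 1 - w 3)]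

private theorem A10_w {u v w : Fin 4 → ℝ} (h : SDRow u v w) :
    ∑ m, w m ^ 2 ≤ 2 * ∑ m, u m ^ 2 + 2 * ∑ m, v m ^ 2 := by
  have h0 : w 3 = -(u 1 + v 2) := by linarith only [h.e0]
  have h1 : w 2 = u 0 + v 3 := by linarith only [h.e1]
  have h2 : w 1 = u 3 - v 0 := by linarith only [h.e2]
  have h3 : w 0 = v 1 - u 2 := by linarith only [h.e3]
  simp only [Fin.sum_univ_four]
  rw [h0, h1, h2, h3]
  linarith only [sq_nonneg (v 1 + u 2), sq_nonneg (u 3 + v 0), sq_nonneg (u 0 - v 3), sq_nonneg (u 1 - v 2)]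

/-- A10 -/
theorem kato_alg {r : Arr4} {d : Fin 4 → Arr4} {s : Fin 4 → Fin 4 → Arr4}
    (h : EinsteinJet 3 r d s) (w : Fin 3 → ℝ) :
    ∑ m, (∑ i, w i * Ab (d m) i i) ^ 2 ≤
      2 / 3 * (∑ i, w i ^ 2) * ∑ m, ∑ i, ∑ j, Ab (d m) i j ^ 2 := by
  have hE := fun m => eq_einArr (c := 0) (h.hd m) (fun j k => by rw [h.hdt m j k, ite_self])
  obtain ⟨r0, r1, r2⟩ := (rows h.hd h.hdt h.hdb (P := fun m => Pm (d m)) (S := fun m => Sm (d m))
    (fun m => (hE m).1)).1
  have hs : ∀ m i j, Ab (d m) i j = Ab (d m) j i := fun m i j => by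
    unfold Ab
    rw [(hE m).2.1 i j, (hE m).2.2.1 i j]
  have k0 : ∑ m, Ab (d m) 0 0 ^ 2 ≤ 2 * ∑ m, Ab (d m) 0 1 ^ 2 + 2 * ∑ m, Ab (d m) 0 2 ^ 2 := A10_u r0
  have k1 : ∑ m, Ab (d m) 1 1 ^ 2 ≤ 2 * ∑ m, Ab (d m) 0 1 ^ 2 + 2 * ∑ m, Ab (d m) 1 2 ^ 2 := A10_v r1
  have k2 : ∑ m, Ab (d m) 2 2 ^ 2 ≤ 2 * ∑ m, Ab (d m) 0 2 ^ 2 + 2 * ∑ m, Ab (d m) 1 2 ^ 2 := A10_w r2
  have hW : 0 ≤ ∑ i, w i ^ 2 := Finset.sum_nonneg fun i _ => sq_nonneg _
  have hN : ∑ m, ∑ i, ∑ j, Ab (d m) i j ^ 2 =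
      (∑ m, Ab (d m) 0 0 ^ 2 + ∑ m, Ab (d m) 1 1 ^ 2 + ∑ m, Ab (d m) 2 2 ^ 2) +
        2 * (∑ m, Ab (d m) 0 1 ^ 2 + ∑ m, Ab (d m) 0 2 ^ 2 + ∑ m, Ab (d m) 1 2 ^ 2) := by
    simp only [← Finset.sum_add_distrib, Finset.mul_sum]
    refine Finset.sum_congr rfl fun m _ => ?_
    simp only [Fin.sum_univ_three, hs m 1 0, hs m 2 0, hs m 2 1]
    ring
  have hX : ∑ m, (∑ i, w i * Ab (d m) i i) ^ 2 ≤ (∑ i, w i ^ 2) *
      (∑ m, Ab (d m) 0 0 ^ 2 + ∑ m, Ab (d m) 1 1 ^ 2 + ∑ m, Ab (d m) 2 2 ^ 2) := by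
    simp only [← Finset.sum_add_distrib, Finset.mul_sum (Finset.univ : Finset (Fin 4))]
    refine Finset.sum_le_sum fun m _ => ?_
    have := Finset.sum_mul_sq_le_sq_mul_sq Finset.univ w (fun i => Ab (d m) i i)
    simp only [Fin.sum_univ_three] at this ⊢
    exact this
  refine hX.trans ?_
  rw [hN, mul_right_comm, mul_comm (2 / 3 * _) _]
  refine mul_le_mul_of_nonneg_left ?_ hW
  linarith only [k2, k1, k0]

end Vale.Agent.P211.S4

end

-- A1113
section

/-! P211, S4: tasks A11, A12, A13. -/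

namespace Vale.Agent.P211.S4

open Topology Filter MeasureTheory Set
open scoped ContDiff

variable {M 𝒪 V : Type*} [TopologicalSpace M] [CommRing 𝒪] [Algebra ℝ 𝒪]
    [AddCommGroup V] [Module 𝒪 V] {G : Geo2 M 𝒪 V} {om : V → V → V → V → 𝒪}

/-- A11 -/
theorem cubic_le (w : Fin 3 → ℝ) (h : w 0 + w 1 + w 2 = 0) {u : ℝ}
    (hu : 6 * u = w 0 ^ 2 + w 1 ^ 2 + w 2 ^ 2) :
    3 * (w 0 * w 1 * w 2) ≤ 6 * (u * Real.sqrt u) := by
  have hu0 : 0 ≤ u := by
    have h0 := sq_nonneg (w 0)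
    have h1 := sq_nonneg (w 1)
    have h2 := sq_nonneg (w 2)
    linarith only [hu, h0, h1, h2]
  have hs : Real.sqrt u ^ 2 = u := Real.sq_sqrt hu0
  have hs0 : 0 ≤ Real.sqrt u := Real.sqrt_nonneg u
  have hw2 : w 2 = - (w 0 + w 1) := by linarith only [h]
  have hu' : u = (w 0 ^ 2 + w 0 * w 1 + w 1 ^ 2) / 3 := by
    rw [hw2] at hu
    linarith only [hu]
  have key : (3 * (w 0 * w 1 * w 2)) ^ 2 ≤ (6 * (u * Real.sqrt u)) ^ 2 := by
    have e : (6 * (u * Real.sqrt u)) ^ 2 = 36 * u ^ 3 := by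
      rw [mul_pow, mul_pow, hs]
      ring
    rw [e, hw2, hu']
    have h3 : 0 ≤ ((w 0 - w 1) * (2 * w 0 + w 1) * (w 0 + 2 * w 1)) ^ 2 := sq_nonneg _
    linarith only [h3]
  have hr : 0 ≤ 6 * (u * Real.sqrt u) := by positivity
  exact le_trans (le_abs_self _) (abs_le_of_sq_le_sq key hr)

/-- traces in a frame -/
theorem a1113_tr (hE : G.Einstein 3) {p : M} {F : Fin 4 → V} (hF : G.ON p F) :
    ∀ j k, ∑ i, G.rr p F i j k i = if j = k then 3 else 0 := by
  intro j k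
  have := hE p F hF (F j) (F k)
  rw [hF j k] at this
  simp only [Geom.rr]
  rw [this]
  split_ifs <;> simp

/-- nonnegativity in a frame -/
theorem a1113_rf (hK : G.SecGe 0) {p : M} {F : Fin 4 → V} (hF : G.ON p F) (X Y : Fin 4 → ℝ) :
    0 ≤ rf (G.rr p F) X Y Y X := by
  have h := hK p (Geom.comb (𝒪 := 𝒪) F X) (Geom.comb (𝒪 := 𝒪) F Y)
  rw [Geom.Rm_rf hF] at h
  simp only [Geom.cf_comb hF, zero_mul] at h
  exact h

/-- A13 -/
theorem Ab_tr (hE : G.Einstein 3) {p : M} {F : Fin 4 → V} (hF : G.ON p F) :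
    Ab (G.rr p F) 0 0 + Ab (G.rr p F) 1 1 + Ab (G.rr p F) 2 2 = 3 ∧
      ∀ i j, Ab (G.rr p F) i j = Ab (G.rr p F) j i := by
  obtain ⟨_, h2, h3, h4, h5⟩ := eq_einArr (Geom.algCurv_rr p F) (a1113_tr hE hF)
  constructor
  · unfold Ab
    linarith only [h4, h5]
  · intro i j
    unfold Ab
    rw [h2 i j, h3 i j]

/-- A12 -/
theorem Ab_ge (hE : G.Einstein 3) (hK : G.SecGe 0) {p : M} {F : Fin 4 → V} (hF : G.ON p F)
    (i : Fin 3) : -1 ≤ Ab (G.rr p F) i i := by
  obtain ⟨h1, h2, h3, h4, h5⟩ := eq_einArr (Geom.algCurv_rr p F) (a1113_tr hE hF)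
  have hge := a1113_rf hK hF
  unfold Ab
  set P := Pm (G.rr p F) with hP
  set S := Sm (G.rr p F) with hS
  have key : ∀ X Y : Fin 4 → ℝ,
      0 ≤ qf P (wE X Y) (wE X Y) + qf P (wF X Y) (wF X Y) + 2 * qf S (wE X Y) (wF X Y) := by
    intro X Y
    have := hge X Y
    rw [h1, rf_einArr] at this
    have e : qf S (wF X Y) (wE X Y) = qf S (wE X Y) (wF X Y) := by simp only [qf, Fin.isValue]; ring
    rw [e] at this
    linarith only [this]
  have p00 := key ![1, 0, 0, 0] ![0, 1, 0, 0]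
  have p11 := key ![1, 0, 0, 0] ![0, 0, 1, 0]
  have p22 := key ![1, 0, 0, 0] ![0, 0, 0, 1]
  have p01 := key ![1, 0, 0, -1] ![0, 1, 1, 0]
  have p10 := key ![1, 0, 0, 1] ![0, 1, 1, 0]
  have p12 := key ![1, -1, 0, 0] ![0, 0, 1, 1]
  have p21 := key ![1, 1, 0, 0] ![0, 0, 1, 1]
  have p20 := key ![1, 0, -1, 0] ![0, 1, 0, 1]
  have p02 := key ![1, 0, 1, 0] ![0, 1, 0, 1]
  simp only [qf, wE, wF, Matrix.cons_val_zero, Matrix.cons_val_one, Matrix.cons_val]
    at p00 p11 p22 p01 p10 p12 p21 p20 p02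
  fin_cases i
  · simp only [Fin.zero_eta, Fin.isValue]
    linarith only [h5, h4, p02, p01, p00]
  · simp only [Fin.mk_one, Fin.isValue]
    linarith only [h5, h4, p12, p10, p11]
  · simp only [Fin.reduceFinMk, Fin.isValue]
    linarith only [h5, h4, p21, p20, p22]

end Vale.Agent.P211.S4

end

-- A14
section

/-! P211, S4: part I, assembly. -/

namespace Vale.Agent.P211.S4

open Topology Filter

variable {M 𝒪 V : Type*} [TopologicalSpace M] [CommRing 𝒪] [Algebra ℝ 𝒪]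
    [AddCommGroup V] [Module 𝒪 V] {G : Geo2 M 𝒪 V} {om : V → V → V → V → 𝒪}

/-- the trace of the self-dual block of a trace-free array -/
theorem a14_tr {d : Arr4} (hd : IsAlgCurv d) (ht : ∀ j k, ∑ i, d i j k i = 0) :
    Ab d 0 0 + Ab d 1 1 + Ab d 2 2 = 0 := by
  obtain ⟨-, -, -, h1, h2⟩ := eq_einArr (c := 0) hd fun j k => by rw [ht j k]; simp
  unfold Ab
  linarith

/-- the algebra of part I in terms of the eigenvalues -/
theorem a14_alg {a0 a1 a2 u N g L : ℝ} (hs : a0 + a1 + a2 = 3)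
    (h0 : -1 ≤ a0) (h1 : -1 ≤ a1) (h2 : -1 ≤ a2)
    (hu : 6 * u + 3 = a0 ^ 2 + a1 ^ 2 + a2 ^ 2)
    (hg : 9 * g ≤ 2 / 3 * ((a0 - 1) ^ 2 + (a1 - 1) ^ 2 + (a2 - 1) ^ 2) * N)
    (hL : 3 * L = N + (a0 * (6 * a0 - 2 * a0 ^ 2) + a1 * (6 * a1 - 2 * a1 ^ 2)
      + a2 * (6 * a2 - 2 * a2 ^ 2) - 12 * (a0 * a1 * a2))) :
    (0 ≤ u ∧ u ≤ 4) ∧ 12 * u * (u - u * Real.sqrt u) + 3 / 4 * g ≤ u * L := by
  have e2 : a2 = 3 - a0 - a1 := by linarith
  have hw : 6 * u = (a0 - 1) ^ 2 + (a1 - 1) ^ 2 + (a2 - 1) ^ 2 := by nlinarith only [hu, hs]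
  have hu0 : 0 ≤ u := by linarith only [sq_nonneg (a2 - 1), sq_nonneg (a1 - 1), sq_nonneg (a0 - 1), hw]
  have hc : 3 * ((a0 - 1) * (a1 - 1) * (a2 - 1)) ≤ 6 * (u * Real.sqrt u) :=
    cubic_le ![a0 - 1, a1 - 1, a2 - 1] (by simp; linarith) (by simp; linarith)
  refine ⟨⟨hu0, ?_⟩, ?_⟩
  · have p1 := mul_nonneg (by linarith only [h0] : (0 : ℝ) ≤ a0 + 1) (by linarith only [h1] : (0 : ℝ) ≤ a1 + 1)
    have p2 := mul_nonneg (by linarith only [h0] : (0 : ℝ) ≤ a0 + 1) (by linarith only [h2] : (0 : ℝ) ≤ a2 + 1)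
    have p3 := mul_nonneg (by linarith only [h1] : (0 : ℝ) ≤ a1 + 1) (by linarith only [h2] : (0 : ℝ) ≤ a2 + 1)
    subst e2
    linarith only [hw, p3, p2, p1]
  · rw [← hw] at hg
    have hL2 : 3 * L = N + 36 * u - 18 * ((a0 - 1) * (a1 - 1) * (a2 - 1)) := by
      rw [hL]
      subst e2
      linear_combination (-6) * hw
    have h3 : N + 36 * u - 36 * (u * Real.sqrt u) ≤ 3 * L := by linarith only [hL2, hc]
    have h4 := mul_le_mul_of_nonneg_left h3 hu0
    linarith only [h4, hg]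

/-- A14 -/
theorem partI (hE : G.Einstein 3) (hK : G.SecGe 0) (ho : Orient G om) :
    ∃ u : 𝒪, (∀ p F, Pos G om p F → 6 * G.ev p u + 3 = nA (G.rr p F)) ∧
      (∀ p, 0 ≤ G.ev p u ∧ G.ev p u ≤ 4) ∧
      ∀ p, 12 * G.ev p u * (G.ev p u - G.ev p u * Real.sqrt (G.ev p u))
        + 3 / 4 * G.ev p (G.g (G.grad u) (G.grad u)) ≤ G.ev p u * G.ev p (G.lap u) := by
  obtain ⟨a, ha⟩ := exists_a hE ho
  set u : 𝒪 := algebraMap ℝ 𝒪 (1 / 6) * (a - algebraMap ℝ 𝒪 3) with hu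
  have hev : ∀ p, 6 * G.ev p u + 3 = G.ev p a := by
    intro p
    rw [hu, map_mul, map_sub, AlgHom.commutes, AlgHom.commutes]
    simp only [Algebra.algebraMap_self, RingHom.id_apply]
    ring
  have hD : ∀ X, G.D X u = algebraMap ℝ 𝒪 (1 / 6) * G.D X a := by
    intro X
    rw [hu, G.D_mul, G.D_const, zero_mul, zero_add, G.D_sub, G.D_const, sub_zero]
  have hDD : ∀ X, G.D X (G.D X u) = algebraMap ℝ 𝒪 (1 / 6) * G.D X (G.D X a) := by
    intro X
    rw [hD, G.D_mul, G.D_const, zero_mul, zero_add]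
  have hc6 : ∀ p, G.ev p (algebraMap ℝ 𝒪 (1 / 6)) = 1 / 6 := fun p => by
    rw [AlgHom.commutes]; simp
  have key : ∀ p, (0 ≤ G.ev p u ∧ G.ev p u ≤ 4) ∧
      12 * G.ev p u * (G.ev p u - G.ev p u * Real.sqrt (G.ev p u))
        + 3 / 4 * G.ev p (G.g (G.grad u) (G.grad u)) ≤ G.ev p u * G.ev p (G.lap u) := by
    intro p
    obtain ⟨F0, hF0, hdiag⟩ := exists_diag hE ho p
    obtain ⟨F, hS, hEq, hP⟩ := pos_sync ho hF0
    have hPp : Pos G om p F := hP.self_of_nhds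
    have hrr : G.rr p F = G.rr p F0 := by
      funext i j k l
      exact G.congrAll G.isT4_Rm (hEq i) (hEq j) (hEq k) (hEq l)
    rw [← hrr] at hdiag
    have hJ := Geom.einsteinJet hE hS
    obtain ⟨htr, -⟩ := Ab_tr hE hS.at
    have hd : ∀ m, Ab (G.dd p F m) 0 0 + Ab (G.dd p F m) 1 1 + Ab (G.dd p F m) 2 2 = 0 :=
      fun m => a14_tr (hJ.hd m) (hJ.hdt m)
    have h01 : Ab (G.rr p F) 0 1 = 0 := hdiag 0 1 (by decide)
    have h02 : Ab (G.rr p F) 0 2 = 0 := hdiag 0 2 (by decide)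
    have h10 : Ab (G.rr p F) 1 0 = 0 := hdiag 1 0 (by decide)
    have h12 : Ab (G.rr p F) 1 2 = 0 := hdiag 1 2 (by decide)
    have h20 : Ab (G.rr p F) 2 0 = 0 := hdiag 2 0 (by decide)
    have h21 : Ab (G.rr p F) 2 1 = 0 := hdiag 2 1 (by decide)
    have hnA : 6 * G.ev p u + 3 = Ab (G.rr p F) 0 0 ^ 2 + Ab (G.rr p F) 1 1 ^ 2 +
        Ab (G.rr p F) 2 2 ^ 2 := by
      rw [hev, ha p F hPp, nA]
      simp only [Fin.sum_univ_three, h01, h02, h10, h12, h20, h21]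
      ring
    have hDm : ∀ m, 3 * G.ev p (G.D (F m) u) = ∑ i : Fin 3,
        (Ab (G.rr p F) i i - 1) * Ab (G.dd p F m) i i := by
      intro m
      rw [hD, map_mul, hc6, da_sync ha hS hP m]
      simp only [Fin.sum_univ_three, h01, h02, h10, h12, h20, h21]
      linear_combination hd m
    refine a14_alg (N := ∑ m, ∑ i, ∑ j, Ab (G.dd p F m) i j ^ 2) htr (Ab_ge hE hK hS.at 0)
      (Ab_ge hE hK hS.at 1) (Ab_ge hE hK hS.at 2) hnA ?_ ?_
    · rw [grad_sq u hS.at]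
      have hk := kato_alg hJ fun i => Ab (G.rr p F) i i - 1
      have e : 9 * ∑ m, G.ev p (G.D (F m) u) ^ 2 =
          ∑ m, (∑ i : Fin 3, (Ab (G.rr p F) i i - 1) * Ab (G.dd p F m) i i) ^ 2 := by
        rw [Finset.mul_sum]
        refine Finset.sum_congr rfl fun m _ => ?_
        rw [← hDm m]
        ring
      rw [e]
      refine hk.trans (le_of_eq ?_)
      simp only [Fin.sum_univ_three]
    · rw [lap_sync u hS]
      have e : ∀ m, G.ev p (G.D (F m) (G.D (F m) u)) =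
          1 / 6 * G.ev p (G.D (F m) (G.D (F m) a)) := fun m => by
        rw [hDD, map_mul, hc6]
      rw [Finset.sum_congr rfl fun m _ => e m, ← Finset.mul_sum, dda_sync ha hE hS hP,
        lap_alg hJ hdiag]
      simp only [Fin.sum_univ_three]
      ring
  refine ⟨u, fun p F hF => by rw [hev, ha p F hF], fun p => (key p).1, fun p => (key p).2⟩

end Vale.Agent.P211.S4

end

-- A15
section

/-! P211, S4, A15: constant curvature from the two norms. -/

namespace Vale.Agent.P211.S4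

open Topology Filter MeasureTheory Set
open scoped ContDiff

variable {M 𝒪 V : Type*} [TopologicalSpace M] [CommRing 𝒪] [Algebra ℝ 𝒪]
    [AddCommGroup V] [Module 𝒪 V] {G : Geo2 M 𝒪 V} {om : V → V → V → V → 𝒪}

private def a15refl (F : Fin 4 → V) : Fin 4 → V := ![-F 0, F 1, F 2, F 3]

omit [Algebra ℝ 𝒪] in
private theorem a15_neg1 {T : V → V → V → V → 𝒪} (h : IsT4 T) (X Y Z W : V) :
    T (-X) Y Z W = - T X Y Z W := by
  have := h.smul1 (-1) X Y Z W
  simpa using this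

omit [Algebra ℝ 𝒪] in
private theorem a15_neg4 {T : V → V → V → V → 𝒪} (h : IsT4 T) (X Y Z W : V) :
    T X Y Z (-W) = - T X Y Z W := by
  have := h.smul4 (-1) X Y Z W
  simpa using this

private theorem a15_on {p : M} {F : Fin 4 → V} (hF : G.ON p F) : G.ON p (a15refl F) := by
  have gl : ∀ X Y : V, G.g (-X) Y = - G.g X Y := G.g_neg_left
  have gr : ∀ X Y : V, G.g X (-Y) = - G.g X Y := fun X Y => by rw [G.g_symm, gl, G.g_symm]
  intro i j
  have h := hF i j
  fin_cases i <;> fin_cases j <;>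
    simp only [a15refl, Fin.isValue, Matrix.cons_val_zero, Matrix.cons_val_one,
      Matrix.cons_val, Fin.zero_eta, Fin.mk_one, Fin.reduceFinMk, gl, gr, map_neg, neg_neg] at h ⊢ <;>
    simp_all

private theorem a15_alg {P S : Fin 3 → Fin 3 → ℝ} (hP : ∀ a b, P a b = P b a)
    (hS : ∀ a b, S a b = S b a) (h3 : P 0 0 + P 1 1 + P 2 2 = 3)
    (h1 : ∑ i, ∑ j, (P i j + S i j) ^ 2 = 3) (h2 : ∑ i, ∑ j, (P i j - S i j) ^ 2 = 3) :
    P 0 0 = 1 ∧ P 1 1 = 1 ∧ P 2 2 = 1 ∧ P 0 1 = 0 ∧ P 0 2 = 0 ∧ P 1 2 = 0 ∧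
    S 0 0 = 0 ∧ S 1 1 = 0 ∧ S 2 2 = 0 ∧ S 0 1 = 0 ∧ S 0 2 = 0 ∧ S 1 2 = 0 := by
  simp only [Fin.sum_univ_three] at h1 h2
  rw [hP 1 0, hP 2 0, hP 2 1, hS 1 0, hS 2 0, hS 2 1] at h1 h2
  have k : (P 0 0 - 1) ^ 2 + (P 1 1 - 1) ^ 2 + (P 2 2 - 1) ^ 2 + 2 * P 0 1 ^ 2 + 2 * P 0 2 ^ 2
      + 2 * P 1 2 ^ 2 + S 0 0 ^ 2 + S 1 1 ^ 2 + S 2 2 ^ 2 + 2 * S 0 1 ^ 2 + 2 * S 0 2 ^ 2
      + 2 * S 1 2 ^ 2 = 0 := by nlinarith only [h1, h2, h3]
  have q : ∀ x : ℝ, x ^ 2 ≤ 0 → x = 0 := fun x hx =>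
    pow_eq_zero_iff two_ne_zero |>.mp (le_antisymm hx (sq_nonneg x))
  refine ⟨sub_eq_zero.1 (q _ ?_), sub_eq_zero.1 (q _ ?_), sub_eq_zero.1 (q _ ?_), q _ ?_, q _ ?_,
    q _ ?_, q _ ?_, q _ ?_, q _ ?_, q _ ?_, q _ ?_, q _ ?_⟩ <;>
  linarith only [k, sq_nonneg (P 0 0 - 1), sq_nonneg (P 1 1 - 1), sq_nonneg (P 2 2 - 1),
    sq_nonneg (P 0 1), sq_nonneg (P 0 2), sq_nonneg (P 1 2), sq_nonneg (S 0 0),
    sq_nonneg (S 1 1), sq_nonneg (S 2 2), sq_nonneg (S 0 1), sq_nonneg (S 0 2),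
    sq_nonneg (S 1 2)]

/-- A15 -/
theorem round_of (hE : G.Einstein 3) (ho : Orient G om) {p : M}
    (h1 : ∀ F, Pos G om p F → nA (G.rr p F) = 3)
    (h2 : ∀ F, G.ON p F → G.ev p (om (F 0) (F 1) (F 2) (F 3)) = -1 → nA (G.rr p F) = 3)
    (X Y : V) : G.ev p (G.Rm X Y Y X) =
      G.ev p (G.g X X) * G.ev p (G.g Y Y) - G.ev p (G.g X Y) ^ 2 := by
  obtain ⟨F, hF⟩ := G.frame p
  have hF' : G.ON p F := hF
  have hR := a15_on hF'
  have hom : G.ev p (om (a15refl F 0) (a15refl F 1) (a15refl F 2) (a15refl F 3)) =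
      - G.ev p (om (F 0) (F 1) (F 2) (F 3)) := by
    simp only [a15refl, Fin.isValue, Matrix.cons_val_zero, Matrix.cons_val_one, Matrix.cons_val]
    rw [a15_neg1 ho.t4, map_neg]
  have hu := ho.unit p F hF'
  have key : nA (G.rr p F) = 3 ∧ nA (G.rr p (a15refl F)) = 3 := by
    have hc : G.ev p (om (F 0) (F 1) (F 2) (F 3)) = 1 ∨
        G.ev p (om (F 0) (F 1) (F 2) (F 3)) = -1 := by
      rcases mul_eq_zero.1 (show (G.ev p (om (F 0) (F 1) (F 2) (F 3)) - 1) *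
        (G.ev p (om (F 0) (F 1) (F 2) (F 3)) + 1) = 0 by linear_combination hu) with h | h
      · exact Or.inl (by linarith only [h])
      · exact Or.inr (by linarith only [h])
    rcases hc with h | h
    · exact ⟨h1 F ⟨hF', h⟩, h2 _ hR (by rw [hom, h])⟩
    · exact ⟨h2 F hF' h, h1 _ ⟨hR, by rw [hom, h, neg_neg]⟩⟩
  have ht : ∀ j k, ∑ i, G.rr p F i j k i = if j = k then 3 else 0 := by
    intro j k
    have := hE p F hF' (F j) (F k)
    rw [hF' j k] at this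
    simpa [Geom.rr] using this
  obtain ⟨e1, e2, e3, e4, e5⟩ := eq_einArr (Geom.algCurv_rr p F) ht
  have hR4 := G.isT4_Rm
  have hPm : ∀ a b, Pm (G.rr p (a15refl F)) a b = Pm (G.rr p F) a b := by
    intro a b
    fin_cases a <;> fin_cases b <;>
      simp only [Pm, Geom.rr, a15refl, Fin.isValue, Matrix.cons_val_zero, Matrix.cons_val_one,
        Matrix.cons_val, Fin.zero_eta, Fin.mk_one, Fin.reduceFinMk, a15_neg1 hR4, a15_neg4 hR4,
        neg_neg]
  have hSm : ∀ a b, Sm (G.rr p (a15refl F)) a b = - Sm (G.rr p F) a b := by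
    intro a b
    fin_cases a <;> fin_cases b <;>
      simp only [Sm, Geom.rr, a15refl, Fin.isValue, Matrix.cons_val_zero, Matrix.cons_val_one,
        Matrix.cons_val, Fin.zero_eta, Fin.mk_one, Fin.reduceFinMk, a15_neg1 hR4, map_neg]
  obtain ⟨k1, k2⟩ := key
  simp only [nA, Ab] at k1
  simp only [nA, Ab, hPm, hSm, ← sub_eq_add_neg] at k2
  obtain ⟨p0, p1, p2, p01, p02, p12, s0, s1, s2, s01, s02, s12⟩ := a15_alg e2 e3 e4 k1 k2
  rw [Geom.Rm_rf hF', Geom.g_cf hF', Geom.g_cf hF', Geom.g_cf hF', wedge_norm', e1, rf_einArr]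
  have hw := wedge_self (G.cf p F X) (G.cf p F Y)
  simp only [qf, p0, p1, p2, p01, p02, p12, s0, s1, s2, s01, s02, s12]
  linear_combination 2 * hw

end Vale.Agent.P211.S4

end

-- R10
section

set_option linter.all false

/-! P211, S4: comparison (part II), tasks R9 and R10. The first part (radial function, Riccati
equation, comparison) is by helper350, the second part by helper441. -/

namespace Vale.Agent.P211

open Topology Filter

namespace Geom

variable {M 𝒪 V : Type*} [TopologicalSpace M] [CommRing 𝒪] [Algebra ℝ 𝒪]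
    [AddCommGroup V] [Module 𝒪 V] (G : Geom M 𝒪 V)

/-- radial function: `phi = d(p,.)^2/2` on `{phi < T1}`, `N` its gradient, `L` its Laplacian. -/
structure Rad (phi : 𝒪) (N : V) (L : 𝒪) (p : M) (T1 : ℝ) : Prop where
  grad : ∀ X, G.g N X = G.D X phi
  eik : ∀ x, G.ev x phi < T1 → G.ev x (G.g N N) = 2 * G.ev x phi
  nn : ∀ x, 0 ≤ G.ev x phi
  zero : ∀ x, G.ev x phi = 0 → x = p
  atp : G.ev p phi = 0
  T1pos : 0 < T1
  hess0 : ∀ X, G.ev p (G.g (G.nab X N) X) = G.ev p (G.g X X)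
  lap : ∀ x F, G.ON x F → G.ev x L = ∑ i, G.ev x (G.g (G.nab (F i) N) (F i))

variable {G}
variable {phi : 𝒪} {N : V} {L : 𝒪} {p : M} {T1 : ℝ}

theorem ev_alg (x : M) (c : ℝ) : G.ev x (algebraMap ℝ 𝒪 c) = c := by
  simp

theorem hess_symm (h : ∀ X, G.g N X = G.D X phi) (X Y : V) :
    G.g (G.nab X N) Y = G.g (G.nab Y N) X := by
  have h1 := G.metric X N Y
  have h2 := G.metric Y N X
  have h3 := G.comm X Y phi
  rw [G.D_sub_left] at h3
  rw [h, h] at h1 h2
  linear_combination -h1 + h2 - h3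

theorem open_U (x : M) (hx : G.ev x phi < T1) : ∀ᶠ y in 𝓝 x, G.ev y phi < T1 :=
  (G.ev_cont phi).continuousAt.eventually_lt continuousAt_const hx

/-- (R1) -/
theorem Rad.r1 (h : G.Rad phi N L p T1) {x : M} (hx : G.ev x phi < T1) (X : V) :
    G.ev x (G.g (G.nab N N) X) = G.ev x (G.g N X) := by
  have e1 : G.g (G.nab N N) X = G.g (G.nab X N) N := hess_symm h.grad N X
  have e2 := G.metric X N N
  have e3 : G.g N (G.nab X N) = G.g (G.nab X N) N := G.g_symm _ _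
  have e4 : G.ev x (G.D X (G.g N N)) = G.ev x (G.D X (algebraMap ℝ 𝒪 2 * phi)) := by
    apply G.D_local
    filter_upwards [open_U x hx] with y hy
    rw [h.eik y hy, map_mul, ev_alg]
  rw [G.D_mul, G.D_const, e2, e3] at e4
  simp only [map_add, map_mul, map_zero, ev_alg, zero_mul, zero_add] at e4
  rw [e1, h.grad]
  linarith

/-- (R1') -/
theorem Rad.r1' (h : G.Rad phi N L p T1) {x : M} (hx : G.ev x phi < T1) (X Y : V) :
    G.ev x (G.g (G.nab X (G.nab N N)) Y) = G.ev x (G.g (G.nab X N) Y) := by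
  have e1 := G.metric X (G.nab N N) Y
  have e2 := G.metric X N Y
  have e3 : G.ev x (G.D X (G.g (G.nab N N) Y)) = G.ev x (G.D X (G.g N Y)) := by
    apply G.D_local
    filter_upwards [open_U x hx] with y hy
    exact h.r1 hy Y
  rw [e1, e2, map_add, map_add] at e3
  have e4 := h.r1 hx (G.nab X Y)
  linarith

/-- parallel at a point -/
def Par (G : Geom M 𝒪 V) (x : M) (X : V) : Prop :=
  ∀ Z, G.ev x (G.g (G.nab Z X) (G.nab Z X)) = 0

theorem Par.nab_zero {x : M} {X : V} (hX : G.Par x X) (Z Y : V) :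
    G.ev x (G.g Y (G.nab Z X)) = 0 :=
  G.ptwise x ⟨⟨fun W => G.g Y W, fun a b => G.g_add_right Y a b⟩,
    fun a b => G.g_smul_right a Y b⟩ _ (hX Z)

theorem Par.nab_zero' {x : M} {X : V} (hX : G.Par x X) (Z Y W : V) :
    G.ev x (G.g (G.nab (G.nab Z X) Y) W) = 0 :=
  G.ptwise x ⟨⟨fun U => G.g (G.nab U Y) W, fun a b => by
    change G.g (G.nab (a + b) Y) W = _
    rw [G.nab_add_left, G.g_add_left]⟩,
    fun a b => by
    change G.g (G.nab (a • b) Y) W = a • G.g (G.nab b Y) W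
    rw [G.nab_smul_left, G.g_smul_left, smul_eq_mul]⟩ _ (hX Z)

/-- (R2) Riccati equation -/
theorem Rad.r2 (h : G.Rad phi N L p T1) {x : M} (hx : G.ev x phi < T1) {X : V}
    (hX : G.Par x X) :
    G.ev x (G.D N (G.g (G.nab X N) X)) = G.ev x (G.g (G.nab X N) X)
      - G.ev x (G.g (G.nab X N) (G.nab X N)) - G.ev x (G.Rm N X X N) := by
  have e0 := G.metric N (G.nab X N) X
  have e1 : G.R N X N = G.nab N (G.nab X N) - G.nab X (G.nab N N) - G.nab (G.brk N X) N := rfl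
  have e2 : G.nab (G.brk N X) N = G.nab (G.nab N X) N - G.nab (G.nab X N) N := by
    rw [LC.brk, G.nab_sub_left]
  have e3 : G.Rm N X N X = G.g (G.nab N (G.nab X N)) X - G.g (G.nab X (G.nab N N)) X
      - (G.g (G.nab (G.nab N X) N) X - G.g (G.nab (G.nab X N) N) X) := by
    rw [LC.Rm, e1, e2, G.g_sub_left, G.g_sub_left, G.g_sub_left]
  have e4 : G.Rm N X N X = - G.Rm N X X N := G.Rm_anti34 N X N X
  have e5 : G.g (G.nab (G.nab X N) N) X = G.g (G.nab X N) (G.nab X N) :=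
    hess_symm h.grad (G.nab X N) X
  have e6 := h.r1' hx X X
  have e7 := hX.nab_zero N (G.nab X N)
  have e8 := hX.nab_zero' N N X
  have e9 := congrArg (G.ev x) e3
  rw [e4, e5] at e9
  simp only [map_sub, map_neg] at e9
  rw [e0, map_add]
  linarith


theorem D_fsum (X : V) (f : Fin 4 → 𝒪) : G.D X (∑ i, f i) = ∑ i, G.D X (f i) := by
  simp only [Fin.sum_univ_four, G.D_add]

/-- (R3) traced Riccati equation -/
theorem Rad.r3 (h : G.Rad phi N L p T1) (hE : G.Einstein 3) {x : M} (hx : G.ev x phi < T1)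
    {F : Fin 4 → V} (hF : G.Sync x F) :
    G.ev x (G.D N L) = G.ev x L - ∑ i, G.ev x (G.g (G.nab (F i) N) (G.nab (F i) N))
      - 6 * G.ev x phi := by
  have e0 : G.ev x (G.D N L) = G.ev x (G.D N (∑ i, G.g (G.nab (F i) N) (F i))) := by
    apply G.D_local
    filter_upwards [hF.on] with y hy
    rw [h.lap y F hy, map_sum]
  have e1 : ∀ i, G.ev x (G.D N (G.g (G.nab (F i) N) (F i))) = G.ev x (G.g (G.nab (F i) N) (F i))
      - G.ev x (G.g (G.nab (F i) N) (G.nab (F i) N)) - G.ev x (G.Rm N (F i) (F i) N) :=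
    fun i => h.r2 hx (fun Z => hF.nab Z i)
  have e2 := hE x F hF.at N N
  have e3 : ∀ i, G.Rm N (F i) (F i) N = G.Rm (F i) N N (F i) := fun i => G.Rm_pair _ _ _ _
  rw [h.eik x hx] at e2
  rw [e0, D_fsum, map_sum, h.lap x F hF.at]
  simp only [e1, e3, Finset.sum_sub_distrib]
  rw [e2]
  ring

/-- Cauchy-Schwarz at a point -/
theorem cs_unit {x : M} {A X : V} (hX : G.ev x (G.g X X) = 1) :
    (G.ev x (G.g A X)) ^ 2 ≤ G.ev x (G.g A A) := by
  set c := G.ev x (G.g A X) with hc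
  have h0 := G.g_nonneg x (A - algebraMap ℝ 𝒪 c • X)
  have e : G.g (A - algebraMap ℝ 𝒪 c • X) (A - algebraMap ℝ 𝒪 c • X) =
      G.g A A - algebraMap ℝ 𝒪 c * G.g A X - algebraMap ℝ 𝒪 c * (G.g X A)
        + algebraMap ℝ 𝒪 c * (algebraMap ℝ 𝒪 c * G.g X X) := by
    rw [G.g_sub_left, G.g_smul_left, G.g_symm A, G.g_symm X (A - _), G.g_sub_left, G.g_sub_left,
      G.g_smul_left, G.g_smul_left]
    ring
  rw [e, G.g_symm X A] at h0
  simp only [map_add, map_sub, map_mul, ev_alg, hX, ← hc] at h0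
  linarith only [h0]

/-- values of the Hessian in a frame -/
noncomputable def Hf (G : Geom M 𝒪 V) (N : V) (x : M) (F : Fin 4 → V) (i j : Fin 4) : ℝ :=
  G.ev x (G.g (G.nab (F i) N) (F j))

theorem hess_frame {x : M} {F : Fin 4 → V} (hF : G.ON x F) (X Y : V) :
    G.ev x (G.g (G.nab X N) Y) = ∑ i, ∑ j, G.cf x F X i * (G.cf x F Y j * G.Hf N x F i j) := by
  have e1 := G.expand hF ⟨⟨fun Z => G.g (G.nab Z N) Y, fun a b => by
    rw [G.nab_add_left, G.g_add_left]⟩, fun a b => by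
    change G.g (G.nab (a • b) N) Y = a • G.g (G.nab b N) Y
    rw [G.nab_smul_left, G.g_smul_left, smul_eq_mul]⟩ X
  change G.ev x (G.g (G.nab X N) Y) = ∑ i, G.ev x (G.g X (F i)) * G.ev x (G.g (G.nab (F i) N) Y)
    at e1
  rw [e1]
  refine Finset.sum_congr rfl fun i _ => ?_
  have e2 := G.expand hF ⟨⟨fun Z => G.g (G.nab (F i) N) Z, fun a b => G.g_add_right _ a b⟩,
    fun a b => G.g_smul_right a _ b⟩ Y
  change G.ev x (G.g (G.nab (F i) N) Y) =
    ∑ j, G.ev x (G.g Y (F j)) * G.ev x (G.g (G.nab (F i) N) (F j)) at e2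
  rw [e2, Finset.mul_sum]
  rfl

theorem cf_sq {x : M} {F : Fin 4 → V} (hF : G.ON x F) (X : V) :
    ∑ i, (G.cf x F X i) ^ 2 = G.ev x (G.g X X) := by
  rw [G.parseval x F hF]; rfl

theorem comb_g {x : M} {F : Fin 4 → V} (hF : G.ON x F) (a : Fin 4 → ℝ) :
    G.ev x (G.g (comb (𝒪 := 𝒪) F a) (comb (𝒪 := 𝒪) F a)) = ∑ i, a i ^ 2 := by
  rw [← cf_sq hF, cf_comb hF]

/-- attained maximum of the Hessian in a given frame -/
theorem exists_max_frame {x : M} {F : Fin 4 → V} (hF : G.ON x F) (N : V) :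
    ∃ a : Fin 4 → ℝ, ∑ i, a i ^ 2 = 1 ∧
      ∀ Y, G.ev x (G.g Y Y) = 1 → G.ev x (G.g (G.nab Y N) Y) ≤
        G.ev x (G.g (G.nab (comb (𝒪 := 𝒪) F a) N) (comb (𝒪 := 𝒪) F a)) := by
  have hK : IsCompact {a : Fin 4 → ℝ | ∑ i, a i ^ 2 = 1} := by
    apply Metric.isCompact_of_isClosed_isBounded
    · exact isClosed_eq (by fun_prop) continuous_const
    · refine (Metric.isBounded_closedBall (x := (0 : Fin 4 → ℝ)) (r := 1)).subset ?_
      intro a ha
      rw [mem_closedBall_zero_iff, pi_norm_le_iff_of_nonneg zero_le_one]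
      intro i
      have h1 : a i ^ 2 ≤ ∑ j, a j ^ 2 :=
        Finset.single_le_sum (fun j _ => sq_nonneg (a j)) (Finset.mem_univ i)
      rw [ha] at h1
      rw [Real.norm_eq_abs]
      exact abs_le_one_iff_mul_self_le_one.mpr (by linarith only [h1])
  have hne : {a : Fin 4 → ℝ | ∑ i, a i ^ 2 = 1}.Nonempty := by
    refine ⟨fun i => if i = 0 then 1 else 0, ?_⟩
    simp
  obtain ⟨a, ha, hmax⟩ := hK.exists_isMaxOn hne
    (f := fun a => ∑ i, ∑ j, a i * (a j * G.Hf N x F i j)) (by fun_prop)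
  refine ⟨a, ha, fun Y hY => ?_⟩
  rw [hess_frame hF, hess_frame hF, cf_comb hF]
  have : G.cf x F Y ∈ {a : Fin 4 → ℝ | ∑ i, a i ^ 2 = 1} := by
    show ∑ i, _ = _
    rw [cf_sq hF, hY]
  exact hmax this

/-- the largest eigenvalue of the Hessian -/
noncomputable def Lam (G : Geom M 𝒪 V) (N : V) (x : M) : ℝ :=
  sSup {r | ∃ X, G.ev x (G.g X X) = 1 ∧ r = G.ev x (G.g (G.nab X N) X)}

theorem lam_att {x : M} {F : Fin 4 → V} (hF : G.ON x F) (N : V) :
    ∃ a : Fin 4 → ℝ, ∑ i, a i ^ 2 = 1 ∧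
      G.Lam N x = G.ev x (G.g (G.nab (comb (𝒪 := 𝒪) F a) N) (comb (𝒪 := 𝒪) F a)) ∧
      ∀ Y, G.ev x (G.g Y Y) = 1 → G.ev x (G.g (G.nab Y N) Y) ≤ G.Lam N x := by
  obtain ⟨a, ha, hmax⟩ := exists_max_frame hF N
  have hg : IsGreatest {r | ∃ X, G.ev x (G.g X X) = 1 ∧ r = G.ev x (G.g (G.nab X N) X)}
      (G.ev x (G.g (G.nab (comb (𝒪 := 𝒪) F a) N) (comb (𝒪 := 𝒪) F a))) := by
    refine ⟨⟨_, by rw [comb_g hF, ha], rfl⟩, ?_⟩
    rintro r ⟨Y, hY, rfl⟩
    exact hmax Y hY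
  have e : G.Lam N x = _ := hg.csSup_eq
  exact ⟨a, ha, e, fun Y hY => by rw [e]; exact hmax Y hY⟩

theorem abs_le_one_of_sq {a : Fin 4 → ℝ} (ha : ∑ i, a i ^ 2 = 1) (i : Fin 4) : |a i| ≤ 1 := by
  have h1 : a i ^ 2 ≤ ∑ j, a j ^ 2 :=
    Finset.single_le_sum (fun j _ => sq_nonneg (a j)) (Finset.mem_univ i)
  rw [ha] at h1
  exact abs_le_one_iff_mul_self_le_one.mpr (by linarith only [h1])

theorem quad_diff {a : Fin 4 → ℝ} (ha : ∑ i, a i ^ 2 = 1) (A B : Fin 4 → Fin 4 → ℝ) :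
    (∑ i, ∑ j, a i * (a j * A i j)) - (∑ i, ∑ j, a i * (a j * B i j)) ≤
      ∑ i, ∑ j, |A i j - B i j| := by
  rw [← Finset.sum_sub_distrib]
  refine Finset.sum_le_sum fun i _ => ?_
  rw [← Finset.sum_sub_distrib]
  refine Finset.sum_le_sum fun j _ => ?_
  have h1 := abs_le_one_of_sq ha i
  have h2 := abs_le_one_of_sq ha j
  have h3 : a i * (a j * A i j) - a i * (a j * B i j) = a i * a j * (A i j - B i j) := by ring
  rw [h3]
  refine (le_abs_self _).trans ?_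
  rw [abs_mul, abs_mul]
  have h4 : |a i| * |a j| ≤ 1 := mul_le_one₀ h1 (abs_nonneg _) h2
  calc |a i| * |a j| * |A i j - B i j| ≤ 1 * |A i j - B i j| :=
        mul_le_mul_of_nonneg_right h4 (abs_nonneg _)
    _ = _ := one_mul _

theorem lam_diff {x y : M} {F : Fin 4 → V} (hx : G.ON x F) (hy : G.ON y F) (N : V) :
    G.Lam N y - G.Lam N x ≤ ∑ i, ∑ j, |G.Hf N y F i j - G.Hf N x F i j| := by
  obtain ⟨a, ha, e, _⟩ := lam_att hy N
  obtain ⟨_, _, _, hm⟩ := lam_att hx N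
  have h1 := hm (comb (𝒪 := 𝒪) F a) (by rw [comb_g hx, ha])
  rw [hess_frame hx, cf_comb hx] at h1
  rw [hess_frame hy, cf_comb hy] at e
  have h2 := quad_diff ha (G.Hf N y F) (G.Hf N x F)
  linarith

theorem lam_cont (hfr : ∀ x, ∃ F, G.ON x F) (N : V) : Continuous (G.Lam N) := by
  rw [continuous_iff_continuousAt]
  intro x
  obtain ⟨F0, hF0⟩ := hfr x
  obtain ⟨F, hF, -⟩ := exists_sync hF0
  have hH : ∀ i j, Continuous fun y => G.Hf N y F i j := fun i j => G.ev_cont _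
  have hs : Tendsto (fun y => ∑ i, ∑ j, |G.Hf N y F i j - G.Hf N x F i j|) (𝓝 x) (𝓝 0) := by
    have : Continuous fun y => ∑ i, ∑ j, |G.Hf N y F i j - G.Hf N x F i j| :=
      continuous_finset_sum _ fun i _ => continuous_finset_sum _ fun j _ =>
        ((hH i j).sub continuous_const).abs
    have h2 := this.tendsto x
    simpa using h2
  rw [ContinuousAt, tendsto_iff_dist_tendsto_zero]
  refine squeeze_zero' (Filter.Eventually.of_forall fun _ => dist_nonneg) ?_ hs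
  filter_upwards [hF.on] with y hy
  rw [Real.dist_eq, abs_le]
  constructor
  · have := lam_diff hy hF.at N
    have e : ∑ i, ∑ j, |G.Hf N x F i j - G.Hf N y F i j| =
        ∑ i, ∑ j, |G.Hf N y F i j - G.Hf N x F i j| := by
      refine Finset.sum_congr rfl fun i _ => Finset.sum_congr rfl fun j _ => abs_sub_comm _ _
    rw [e] at this
    linarith
  · exact lam_diff hF.at hy N

theorem par_comb {x : M} {F : Fin 4 → V} (hF : G.Sync x F) (a : Fin 4 → ℝ) :
    G.Par x (comb (𝒪 := 𝒪) F a) := by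
  intro Z
  have e : G.nab Z (comb (𝒪 := 𝒪) F a) = ∑ i, algebraMap ℝ 𝒪 (a i) • G.nab Z (F i) := by
    simp only [comb, Fin.sum_univ_four, G.nab_add, G.nab_smul, G.D_const, zero_smul, add_zero]
  have hz : ∀ i W, G.ev x (G.g (G.nab Z (F i)) W) = 0 := fun i W => G.sync_coeff hF Z W i
  rw [e]
  simp only [Fin.sum_univ_four, G.g_add_left, G.g_smul_left, map_add, map_mul, hz, mul_zero,
    add_zero]

/-- (c) upper Hessian comparison -/
theorem Rad.hess_le [CompactSpace M] (h : G.Rad phi N L p T1) (hK : G.SecGe 0)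
    (hfr : ∀ x, ∃ F, G.ON x F) {x : M} (hx : G.ev x phi < T1) : G.Lam N x ≤ 1 := by
  by_contra hcon
  push Not at hcon
  have hcomp : IsCompact {y | G.ev y phi ≤ T1} :=
    (isClosed_le (G.ev_cont phi) continuous_const).isCompact
  have hc : Continuous fun y => (G.Lam N y - 1) * (T1 - G.ev y phi) :=
    ((lam_cont hfr N).sub continuous_const).mul (continuous_const.sub (G.ev_cont phi))
  obtain ⟨x0, hx0, hmax⟩ := hcomp.exists_isMaxOn ⟨x, hx.le⟩ hc.continuousOn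
  have hpos : 0 < (G.Lam N x0 - 1) * (T1 - G.ev x0 phi) :=
    lt_of_lt_of_le (mul_pos (by linarith) (by linarith)) (hmax (show x ∈ {y | _} from hx.le))
  have hx0' : G.ev x0 phi ≤ T1 := hx0
  have hlt : G.ev x0 phi < T1 := by
    rcases hx0'.lt_or_eq with h1 | h1
    · exact h1
    · rw [h1] at hpos; simp at hpos
  have hL1 : 1 < G.Lam N x0 := by
    by_contra h1
    push Not at h1
    have : (G.Lam N x0 - 1) * (T1 - G.ev x0 phi) ≤ 0 :=
      mul_nonpos_of_nonpos_of_nonneg (by linarith) (by linarith)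
    linarith
  obtain ⟨F0, hF0⟩ := hfr x0
  obtain ⟨F, hF, -⟩ := exists_sync hF0
  obtain ⟨a, ha, e, -⟩ := lam_att hF.at N
  set X := comb (𝒪 := 𝒪) F a with hX
  set f : 𝒪 := (G.g (G.nab X N) X - algebraMap ℝ 𝒪 1) * (algebraMap ℝ 𝒪 T1 - phi) with hf
  have evf : ∀ y, G.ev y f = (G.ev y (G.g (G.nab X N) X) - 1) * (T1 - G.ev y phi) := by
    intro y
    rw [hf, map_mul, map_sub, map_sub, ev_alg, ev_alg]
  have hlm : IsLocalMin (fun q => G.ev q (-f)) x0 := by
    filter_upwards [hF.on, open_U x0 hlt] with y hy hy2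
    rw [map_neg, map_neg, neg_le_neg_iff, evf, evf, ← e]
    obtain ⟨-, -, -, hm⟩ := lam_att hy N
    have h1 := hm X (by rw [hX, comb_g hy, ha])
    have h2 : (G.ev y (G.g (G.nab X N) X) - 1) * (T1 - G.ev y phi) ≤
        (G.Lam N y - 1) * (T1 - G.ev y phi) :=
      mul_le_mul_of_nonneg_right (by linarith) (by linarith)
    exact h2.trans (hmax (show y ∈ {y | _} from hy2.le))
  have h0 := (G.min_test x0 _ hlm N).1
  have hpar : G.Par x0 X := par_comb hF a
  have hr2 := h.r2 hlt hpar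
  have hNN := h.eik x0 hlt
  have hgr := h.grad N
  rw [hf, G.D_neg, G.D_mul, G.D_sub, G.D_sub, G.D_const, G.D_const, ← hgr] at h0
  simp only [map_neg, map_add, map_mul, map_sub, map_zero, ev_alg] at h0
  rw [hNN, ← e, hr2, ← e] at h0
  have hcs := cs_unit (G := G) (x := x0) (A := G.nab X N) (X := X) (by rw [hX, comb_g hF.at, ha])
  rw [← e] at hcs
  have hRm : 0 ≤ G.ev x0 (G.Rm N X X N) := by
    have := hK x0 N X
    simpa using this
  have hphi := h.nn x0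
  have h1 : 0 < T1 - G.ev x0 phi := by linarith
  have h2 : G.Lam N x0 - G.ev x0 (G.g (G.nab X N) (G.nab X N)) - G.ev x0 (G.Rm N X X N) < 0 := by
    (by_contra nlg; linarith only [nlg, mul_nonneg (sub_nonneg.2 hRm) (le_of_lt (sub_pos.2 h1)), mul_nonneg (sub_nonneg.2 hcs) (le_of_lt (sub_pos.2 h1)), mul_pos (sub_pos.2 hL1) (sub_pos.2 h1), mul_pos (sub_pos.2 hpos) (sub_pos.2 hL1), mul_nonneg (sub_nonneg.2 (not_lt.1 nlg)) (le_of_lt (sub_pos.2 h1))])
  linarith only [mul_nonneg (sub_nonneg.mpr hL1.le) hphi, mul_neg_of_neg_of_pos h2 h1, h0]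

/-- upper Hessian comparison, quadratic form version -/
theorem Rad.hess_le' [CompactSpace M] (h : G.Rad phi N L p T1) (hK : G.SecGe 0)
    (hfr : ∀ x, ∃ F, G.ON x F) {x : M} (hx : G.ev x phi < T1) {F : Fin 4 → V} (hF : G.ON x F)
    (a : Fin 4 → ℝ) : ∑ i, ∑ j, a i * (a j * G.Hf N x F i j) ≤ ∑ i, a i ^ 2 := by
  have h1 := h.hess_le hK hfr hx
  obtain ⟨-, -, -, hm⟩ := lam_att hF N
  rcases eq_or_ne (∑ i, a i ^ 2) 0 with h0 | h0
  · have ha : ∀ i, a i = 0 := fun i => by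
      have := (Finset.sum_eq_zero_iff_of_nonneg (fun i _ => sq_nonneg (a i))).mp h0 i
        (Finset.mem_univ i)
      exact pow_eq_zero_iff (two_ne_zero) |>.mp this
    simp [ha]
  · have hpos : 0 < ∑ i, a i ^ 2 :=
      lt_of_le_of_ne (Finset.sum_nonneg fun i _ => sq_nonneg _) (Ne.symm h0)
    set c := Real.sqrt (∑ i, a i ^ 2) with hc
    have hc0 : 0 < c := Real.sqrt_pos.mpr hpos
    have hc2 : c * c = ∑ i, a i ^ 2 := Real.mul_self_sqrt hpos.le
    have h2 := hm (comb (𝒪 := 𝒪) F (fun i => a i / c)) (by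
      rw [comb_g hF]
      simp only [div_pow]
      rw [← Finset.sum_div, ← hc2]
      field_simp)
    rw [hess_frame hF, cf_comb hF] at h2
    have e : ∑ i, ∑ j, a i * (a j * G.Hf N x F i j) =
        (c * c) * ∑ i, ∑ j, a i / c * (a j / c * G.Hf N x F i j) := by
      rw [Finset.mul_sum]
      refine Finset.sum_congr rfl fun i _ => ?_
      rw [Finset.mul_sum]
      refine Finset.sum_congr rfl fun j _ => ?_
      field_simp
    rw [e, ← hc2]
    have h3 : ∑ i, ∑ j, a i / c * (a j / c * G.Hf N x F i j) ≤ 1 := h2.trans h1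
    calc c * c * ∑ i, ∑ j, a i / c * (a j / c * G.Hf N x F i j) ≤ c * c * 1 :=
          mul_le_mul_of_nonneg_left h3 (by (clear * - h0; positivity))
      _ = c * c := mul_one _

theorem quad_trace (P : Fin 4 → Fin 4 → ℝ) (hs : ∀ i j, P i j = P j i)
    (hP : ∀ a : Fin 4 → ℝ, 0 ≤ ∑ i, ∑ j, a i * (a j * P i j)) :
    (∀ i, 0 ≤ P i i) ∧ ∑ i, ∑ j, (P i j) ^ 2 ≤ (∑ i, P i i) ^ 2 := by
  have hd : ∀ i, 0 ≤ P i i := by
    intro i
    have := hP (fun k => if k = i then 1 else 0)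
    simpa using this
  have h2 : ∀ i j, (P i j) ^ 2 ≤ P i i * P j j := by
    intro i j
    rcases eq_or_ne i j with rfl | hij
    · rw [sq]
    · have key : ∀ s t : ℝ, 0 ≤ s ^ 2 * P i i + 2 * (s * t * P i j) + t ^ 2 * P j j := by
        intro s t
        have := hP (fun k => if k = i then s else if k = j then t else 0)
        have e : ∑ k, ∑ l, (if k = i then s else if k = j then t else 0) *
            ((if l = i then s else if l = j then t else 0) * P k l) =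
            s ^ 2 * P i i + 2 * (s * t * P i j) + t ^ 2 * P j j := by
          have hsji := hs j i
          revert hsji
          revert hij
          fin_cases i <;> fin_cases j <;> intro hij hsji <;>
            first
            | exact absurd rfl hij
            | (simp [Fin.sum_univ_four] at hsji ⊢
               rw [hsji]; ring)
        rw [e] at this
        exact this
      have hi := hd i
      have hj := hd j
      rcases hi.eq_or_lt with h0 | h0
      · rcases eq_or_ne (P i j) 0 with hz | hz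
        · rw [hz, ← h0]; simp
        · exfalso
          have k1 := key (-(P j j + 1) / P i j) 1
          rw [← h0] at k1
          have k2 : -(P j j + 1) / P i j * 1 * P i j = -(P j j + 1) := by field_simp
          rw [k2] at k1
          linarith only [k1, hj]
      · have k1 := key (-(P i j)) (P i i)
        have : 0 ≤ P i i * (P i i * P j j - (P i j) ^ 2) := by linarith only [k1]
        have := nonneg_of_mul_nonneg_right this h0
        linarith
  refine ⟨hd, ?_⟩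
  calc ∑ i, ∑ j, (P i j) ^ 2 ≤ ∑ i, ∑ j, P i i * P j j :=
        Finset.sum_le_sum fun i _ => Finset.sum_le_sum fun j _ => h2 i j
    _ = (∑ i, P i i) ^ 2 := by rw [sq, Finset.sum_mul_sum]

/-- consequences: `L ≤ 4` and `|H|^2 ≤ 3 + (L-3)^2` -/
theorem Rad.trace_ineq [CompactSpace M] (h : G.Rad phi N L p T1) (hK : G.SecGe 0)
    (hfr : ∀ x, ∃ F, G.ON x F) {x : M} (hx : G.ev x phi < T1) {F : Fin 4 → V} (hF : G.ON x F) :
    G.ev x L ≤ 4 ∧ ∑ i, G.ev x (G.g (G.nab (F i) N) (G.nab (F i) N)) ≤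
      3 + (G.ev x L - 3) ^ 2 := by
  have hL := h.lap x F hF
  set P : Fin 4 → Fin 4 → ℝ := fun i j => (if i = j then 1 else 0) - G.Hf N x F i j with hPdef
  have hsym : ∀ i j, P i j = P j i := by
    intro i j
    simp only [hPdef, Hf]
    rw [hess_symm h.grad (F i) (F j)]
    simp only [eq_comm]
  have hP : ∀ a : Fin 4 → ℝ, 0 ≤ ∑ i, ∑ j, a i * (a j * P i j) := by
    intro a
    have h1 := h.hess_le' hK hfr hx hF a
    have e : ∑ i, ∑ j, a i * (a j * P i j) =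
        (∑ i, a i ^ 2) - ∑ i, ∑ j, a i * (a j * G.Hf N x F i j) := by
      rw [← Finset.sum_sub_distrib]
      refine Finset.sum_congr rfl fun i _ => ?_
      simp only [hPdef, mul_sub, Finset.sum_sub_distrib]
      congr 1
      simp [sq]
    rw [e]; linarith
  obtain ⟨hd, ht⟩ := quad_trace P hsym hP
  have etr : ∑ i, P i i = 4 - G.ev x L := by
    rw [hL]
    simp only [hPdef, Hf, if_true, Finset.sum_sub_distrib]
    simp
  have esq : ∑ i, G.ev x (G.g (G.nab (F i) N) (G.nab (F i) N)) =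
      4 - 2 * ∑ i, P i i + ∑ i, ∑ j, (P i j) ^ 2 := by
    have e1 : ∀ i, G.ev x (G.g (G.nab (F i) N) (G.nab (F i) N)) = ∑ j, (G.Hf N x F i j) ^ 2 :=
      fun i => by rw [G.parseval x F hF]; rfl
    simp only [e1, hPdef]
    simp only [Fin.sum_univ_four, Fin.isValue, if_true]
    simp
    ring
  constructor
  · have : 0 ≤ ∑ i, P i i := Finset.sum_nonneg fun i _ => hd i
    rw [etr] at this; linarith
  · rw [esq]
    rw [etr] at ht ⊢
    linarith only [ht]

/-- (e) -/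
theorem Rad.DL_ge [CompactSpace M] (h : G.Rad phi N L p T1) (hE : G.Einstein 3) (hK : G.SecGe 0)
    (hfr : ∀ x, ∃ F, G.ON x F) {x : M} (hx : G.ev x phi < T1) :
    (G.ev x L - 3) - (G.ev x L - 3) ^ 2 - 6 * G.ev x phi ≤ G.ev x (G.D N L) := by
  obtain ⟨F0, hF0⟩ := hfr x
  obtain ⟨F, hF, -⟩ := exists_sync hF0
  rw [h.r3 hE hx hF]
  have := (h.trace_ineq hK hfr hx hF.at).2
  linarith

theorem Rad.L_le [CompactSpace M] (h : G.Rad phi N L p T1) (hK : G.SecGe 0)
    (hfr : ∀ x, ∃ F, G.ON x F) {x : M} (hx : G.ev x phi < T1) : G.ev x L ≤ 4 := by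
  obtain ⟨F0, hF0⟩ := hfr x
  exact (h.trace_ineq hK hfr hx hF0).1

/-- `D X` as a derivation -/
noncomputable def der (G : Geom M 𝒪 V) (X : V) : Derivation ℝ 𝒪 𝒪 :=
  Derivation.mk' { toFun := G.D X
                   map_add' := fun f h => G.D_add X f h
                   map_smul' := fun c f => by
                     rw [Algebra.smul_def, G.D_mul, G.D_const, RingHom.id_apply,
                       Algebra.smul_def]
                     ring } (fun f h => by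
    change G.D X (f * h) = f • G.D X h + h • G.D X f
    rw [G.D_mul, smul_eq_mul, smul_eq_mul]; ring)

theorem D_aeval (X : V) (f : 𝒪) (q : Polynomial ℝ) :
    G.D X (Polynomial.aeval f q) = Polynomial.aeval f (Polynomial.derivative q) * G.D X f := by
  have := (G.der X).map_aeval q f
  exact this

theorem ev_aeval (x : M) (f : 𝒪) (q : Polynomial ℝ) :
    G.ev x (Polynomial.aeval f q) = q.eval (G.ev x f) := by
  have h1 := Polynomial.aeval_algHom_apply (G.ev x) f q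
  rw [← h1, Polynomial.coe_aeval_eq_eval]

theorem Rad.Lp (h : G.Rad phi N L p T1) (hfr : ∀ x, ∃ F, G.ON x F) : G.ev p L = 4 := by
  obtain ⟨F, hF⟩ := hfr p
  rw [h.lap p F hF]
  simp only [h.hess0, hF _ _, if_true]
  simp

open Polynomial in
/-- (d) lower Laplacian comparison: `(L - 4) q(phi) ≥ 2 phi q'(phi)`. -/
theorem Rad.lap_ge [CompactSpace M] (h : G.Rad phi N L p T1) (hE : G.Einstein 3)
    (hK : G.SecGe 0) (hfr : ∀ x, ∃ F, G.ON x F) (q : Polynomial ℝ)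
    (hq : ∀ s, 0 ≤ s → s < T1 → 0 < q.eval s)
    (hode : ∀ s, 0 ≤ s → s < T1 → 2 * s * (derivative (derivative q)).eval s
      + 3 * (derivative q).eval s + 3 * q.eval s ≤ 0)
    {x : M} (hx : G.ev x phi < T1) :
    2 * G.ev x phi * (derivative q).eval (G.ev x phi) ≤
      (G.ev x L - 4) * q.eval (G.ev x phi) := by
  set A : 𝒪 := (L - algebraMap ℝ 𝒪 4) * aeval phi q
    - algebraMap ℝ 𝒪 2 * phi * aeval phi (derivative q) with hA
  have evA : ∀ y, G.ev y A = (G.ev y L - 4) * q.eval (G.ev y phi)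
      - 2 * G.ev y phi * (derivative q).eval (G.ev y phi) := by
    intro y
    rw [hA]
    simp only [map_sub, map_mul, ev_alg, ev_aeval]
  have hDA : ∀ y, G.ev y phi < T1 → - (G.ev y L - 3) * G.ev y A ≤ G.ev y (G.D N A) := by
    intro y hy
    have e1 := h.DL_ge hE hK hfr hy
    have e2 : G.ev y (G.D N phi) = 2 * G.ev y phi := by rw [← h.grad, h.eik y hy]
    have e3 : G.ev y (G.D N A) = G.ev y (G.D N L) * q.eval (G.ev y phi)
        + (G.ev y L - 4) * ((derivative q).eval (G.ev y phi) * (2 * G.ev y phi))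
        - (2 * (2 * G.ev y phi) * (derivative q).eval (G.ev y phi)
          + 2 * G.ev y phi * ((derivative (derivative q)).eval (G.ev y phi)
            * (2 * G.ev y phi))) := by
      rw [hA, G.D_sub, G.D_mul, G.D_mul, G.D_mul, G.D_sub, G.D_const, G.D_const, D_aeval, D_aeval]
      simp only [map_sub, map_add, map_mul, map_zero, ev_alg, ev_aeval, e2]
      ring
    have hph := h.nn y
    have hqp := hq _ hph hy
    have ho := hode _ hph hy
    rw [e3, evA]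
    set s := G.ev y phi
    set w := G.ev y L
    set q0 := q.eval s
    set q1 := (derivative q).eval s
    set q2 := (derivative (derivative q)).eval s
    have k1 : ((w - 3) - (w - 3) ^ 2 - 6 * s) * q0 ≤ G.ev y (G.D N L) * q0 :=
      mul_le_mul_of_nonneg_right e1 hqp.le
    have k2 : 2 * s * (2 * s * q2 + 3 * q1 + 3 * q0) ≤ 0 :=
      mul_nonpos_of_nonneg_of_nonpos (by positivity) ho
    linarith only [k2, k1]
  -- lower bound of L
  by_contra hcon
  push Not at hcon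
  have hAx : G.ev x A < 0 := by rw [evA]; linarith
  obtain ⟨x1, -, hmin1⟩ := isCompact_univ.exists_isMinOn ⟨x, Set.mem_univ x⟩
    (G.ev_cont L).continuousOn
  set C := |G.ev x1 L - 3| with hC
  have hCle : ∀ y, -C ≤ G.ev y L - 3 := by
    intro y
    have h1 : G.ev x1 L ≤ G.ev y L := hmin1 (Set.mem_univ y)
    have h2 := neg_abs_le (G.ev x1 L - 3)
    linarith
  -- delta
  have hdel : ∃ δ, 0 < δ ∧ ∀ y, G.ev y phi < δ → 0 < G.ev y L - 3 := by
    have hKc : IsCompact {y | G.ev y L ≤ 3} :=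
      (isClosed_le (G.ev_cont L) continuous_const).isCompact
    rcases Set.eq_empty_or_nonempty {y | G.ev y L ≤ 3} with he | hne
    · refine ⟨1, one_pos, fun y _ => ?_⟩
      by_contra hc
      have : y ∈ {y | G.ev y L ≤ 3} := by
        show G.ev y L ≤ 3
        linarith
      rw [he] at this
      exact this
    · obtain ⟨y0, hy0, hm⟩ := hKc.exists_isMinOn hne (G.ev_cont phi).continuousOn
      have hpos : 0 < G.ev y0 phi := by
        rcases (h.nn y0).eq_or_lt with h1 | h1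
        · exfalso
          have := h.zero y0 h1.symm
          rw [this] at hy0
          have h4 := h.Lp hfr
          have h5 : G.ev p L ≤ 3 := hy0
          linarith
        · exact h1
      refine ⟨G.ev y0 phi, hpos, fun y hy => ?_⟩
      by_contra hc
      have h6 : G.ev y0 phi ≤ G.ev y phi := hm (show G.ev y L ≤ 3 by linarith)
      linarith
  obtain ⟨δ, hδ, hδ2⟩ := hdel
  obtain ⟨j, hj⟩ := exists_nat_gt (C * T1 / (2 * δ))
  have hcomp : IsCompact {y | G.ev y phi ≤ T1} :=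
    (isClosed_le (G.ev_cont phi) continuous_const).isCompact
  have hcont : Continuous fun y => G.ev y A * (T1 - G.ev y phi) ^ (j + 1) :=
    (G.ev_cont A).mul ((continuous_const.sub (G.ev_cont phi)).pow _)
  obtain ⟨x0, hx0, hmin⟩ := hcomp.exists_isMinOn ⟨x, hx.le⟩ hcont.continuousOn
  have hneg : G.ev x0 A * (T1 - G.ev x0 phi) ^ (j + 1) < 0 := by
    have h1 : G.ev x0 A * (T1 - G.ev x0 phi) ^ (j + 1) ≤ G.ev x A * (T1 - G.ev x phi) ^ (j + 1) :=
      hmin (show G.ev x phi ≤ T1 from hx.le)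
    refine lt_of_le_of_lt h1 (mul_neg_of_neg_of_pos hAx (pow_pos (by linarith) _))
  have hx0' : G.ev x0 phi ≤ T1 := hx0
  have hlt : G.ev x0 phi < T1 := by
    rcases hx0'.lt_or_eq with h1 | h1
    · exact h1
    · rw [h1] at hneg; simp at hneg
  have hpos : 0 < T1 - G.ev x0 phi := by linarith
  have hA0 : G.ev x0 A < 0 := by
    by_contra hc
    push Not at hc
    have := mul_nonneg hc (pow_pos hpos (j + 1)).le
    linarith
  set B : 𝒪 := A * aeval phi ((Polynomial.C T1 - Polynomial.X) ^ (j + 1)) with hB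
  have evB : ∀ y, G.ev y B = G.ev y A * (T1 - G.ev y phi) ^ (j + 1) := by
    intro y
    rw [hB, map_mul, ev_aeval]
    simp
  have hlm : IsLocalMin (fun y => G.ev y B) x0 := by
    filter_upwards [open_U x0 hlt] with y hy
    rw [evB, evB]
    exact hmin (show G.ev y phi ≤ T1 from hy.le)
  have h0 := (G.min_test x0 _ hlm N).1
  have e2 : G.ev x0 (G.D N phi) = 2 * G.ev x0 phi := by rw [← h.grad, h.eik x0 hlt]
  rw [hB, G.D_mul, D_aeval] at h0
  simp only [map_add, map_mul, ev_aeval, e2] at h0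
  simp only [Polynomial.derivative_pow, Polynomial.derivative_sub, Polynomial.derivative_C,
    Polynomial.derivative_X, Polynomial.eval_mul, Polynomial.eval_pow, Polynomial.eval_sub,
    Polynomial.eval_C, Polynomial.eval_X, Polynomial.eval_zero, Polynomial.eval_one,
    Nat.add_sub_cancel] at h0
  have hD := hDA x0 hlt
  have hph := h.nn x0
  set u := T1 - G.ev x0 phi with hu
  have hupow : 0 < u ^ j := pow_pos hpos j
  -- factor u^j
  have h1 : u ^ j * (G.ev x0 (G.D N A) * u - G.ev x0 A * ((j : ℝ) + 1) * (2 * G.ev x0 phi)) = 0 := by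
    have : ((j + 1 : ℕ) : ℝ) = (j : ℝ) + 1 := by push_cast; ring
    simp only [this, pow_succ] at h0
    linarith [h0]
  have h2 : G.ev x0 (G.D N A) * u = G.ev x0 A * ((j : ℝ) + 1) * (2 * G.ev x0 phi) := by
    rcases mul_eq_zero.mp h1 with h3 | h3
    · exact absurd h3 hupow.ne'
    · linarith
  have h3 : - (G.ev x0 L - 3) * G.ev x0 A * u ≤ G.ev x0 A * ((j : ℝ) + 1) * (2 * G.ev x0 phi) := by
    rw [← h2]
    exact mul_le_mul_of_nonneg_right hD hpos.le
  -- divide by A < 0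
  have h4 : (G.ev x0 L - 3) * u + ((j : ℝ) + 1) * (2 * G.ev x0 phi) ≤ 0 := by
    by_contra hc
    push Not at hc
    have := mul_neg_of_neg_of_pos hA0 hc
    linarith only [this, h3]
  have hj0 : (0 : ℝ) ≤ j := Nat.cast_nonneg j
  rcases lt_or_ge (G.ev x0 phi) δ with h5 | h5
  · have h6 := mul_pos (hδ2 x0 h5) hpos
    have h7 : 0 ≤ ((j : ℝ) + 1) * (2 * G.ev x0 phi) := by (clear * - hph; positivity)
    linarith
  · have h6 : -C * T1 ≤ (G.ev x0 L - 3) * u := by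
      have h7 := hCle x0
      have h8 : u ≤ T1 := by rw [hu]; linarith
      have h9 : 0 ≤ C := abs_nonneg _
      have h10 : -C * u ≤ (G.ev x0 L - 3) * u := mul_le_mul_of_nonneg_right h7 hpos.le
      have h11 : -C * T1 ≤ -C * u := by linarith only [mul_nonneg (sub_nonneg.2 h8) (sub_nonneg.2 h9)]
      linarith
    have h7 : C * T1 < 2 * δ * (j : ℝ) := by
      rw [div_lt_iff₀ (by positivity)] at hj
      linarith
    have h8 : 2 * δ * (j : ℝ) ≤ ((j : ℝ) + 1) * (2 * G.ev x0 phi) := by nlinarith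
    linarith

end Geom

end Vale.Agent.P211

namespace Vale.Agent.P211.S4

open Topology Filter MeasureTheory Set
open scoped ContDiff

variable {M 𝒪 V : Type*} [TopologicalSpace M] [CommRing 𝒪] [Algebra ℝ 𝒪]
    [AddCommGroup V] [Module 𝒪 V] {G : Geo2 M 𝒪 V} {om : V → V → V → V → 𝒪}

/-- the gradient of `φ` vanishes at the centre -/
theorem R10_grad0 {p : M} {T : ℝ} (hT : 0 < T) {φ : 𝒪} (h : Rad0 G p T φ) :
    G.ev p (G.g (G.grad φ) (G.grad φ)) = 0 := by
  have h0 : G.ev p φ = 0 := (h.zero p).mpr rfl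
  rw [h.eik p (by rw [h0]; exact hT), h0, mul_zero]

/-- the Hessian of `φ` at the centre -/
theorem R10_center {p : M} {T : ℝ} (hT : 0 < T) {φ : 𝒪} (h : Rad0 G p T φ) (X : V) :
    G.ev p (G.g (G.nab X (G.grad φ)) X) = G.ev p (G.g X X) := by
  have h0 : G.ev p φ = 0 := (h.zero p).mpr rfl
  have hN := R10_grad0 hT h
  -- linear functionals at the centre
  have hlin : ∀ Z W : V, G.ev p (G.g Z Z) = 0 → G.ev p (G.g Z W) = 0 := fun Z W hZ =>
    G.ptwise p ⟨⟨fun U => G.g U W, fun a b => G.g_add_left a b W⟩,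
      fun a b => G.g_smul_left a b W⟩ Z hZ
  have hsym : ∀ A B : V, G.g (G.nab A (G.grad φ)) B = G.g (G.nab B (G.grad φ)) A := fun A B =>
    Geom.hess_symm (G := G.toGeom) (N := G.grad φ) (phi := φ) (fun Z => G.grad_spec φ Z) A B
  -- first derivative of the eikonal equation
  have h1 : ∀ Y q, G.ev q φ < T →
      G.ev q (G.g (G.nab Y (G.grad φ)) (G.grad φ)) = G.ev q (G.g (G.grad φ) Y) := by
    intro Y q hq
    have e4 : G.ev q (G.D Y (G.g (G.grad φ) (G.grad φ))) =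
        G.ev q (G.D Y (algebraMap ℝ 𝒪 2 * φ)) := by
      apply G.D_local
      filter_upwards [Geom.open_U (G := G.toGeom) q hq] with y hy
      rw [h.eik y hy, map_mul, Geom.ev_alg]
    rw [G.D_mul, G.D_const, G.metric, G.g_symm (G.grad φ) (G.nab Y (G.grad φ)),
      ← G.grad_spec φ Y] at e4
    simp only [map_add, map_mul, Geom.ev_alg, zero_mul, zero_add] at e4
    linarith
  -- second derivative at the centre
  have h2 : ∀ A B : V, G.ev p (G.g (G.nab B (G.grad φ)) (G.nab A (G.grad φ))) =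
      G.ev p (G.g (G.nab A (G.grad φ)) B) := by
    intro A B
    have hp : G.ev p φ < T := by rw [h0]; exact hT
    have e := G.D_local p (G.g (G.nab B (G.grad φ)) (G.grad φ)) (G.g (G.grad φ) B) (by
      filter_upwards [Geom.open_U (G := G.toGeom) p hp] with y hy
      exact h1 B y hy) A
    rw [G.metric, G.metric, map_add, map_add] at e
    have e1 : G.ev p (G.g (G.nab A (G.nab B (G.grad φ))) (G.grad φ)) = 0 := by
      rw [G.g_symm]; exact hlin _ _ hN
    have e2 : G.ev p (G.g (G.grad φ) (G.nab A B)) = 0 := hlin _ _ hN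
    linarith
  -- `Y = X - ∇_X N` is in the kernel of the Hessian
  have h3 : ∀ W : V, G.ev p (G.g (G.nab (X - G.nab X (G.grad φ)) (G.grad φ)) W) = 0 := by
    intro W
    rw [G.nab_sub_left, G.g_sub_left, map_sub, hsym (G.nab X (G.grad φ)) W, h2 X W, sub_self]
  have h4 := h.nondeg _ (h3 _)
  have h5 := hlin _ X h4
  rw [G.g_sub_left, map_sub] at h5
  linarith

/-- the data used in the file `Rad` -/
theorem R10_rad {p : M} {T : ℝ} (hT : 0 < T) {φ : 𝒪} (h : Rad0 G p T φ) :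
    G.toGeom.Rad φ (G.grad φ) (G.lap φ) p T where
  grad := fun X => G.grad_spec φ X
  eik := h.eik
  nn := h.nonneg
  zero := fun x hx => (h.zero x).mp hx
  atp := (h.zero p).mpr rfl
  T1pos := hT
  hess0 := fun X => R10_center hT h X
  lap := fun x F hF => G.dv_spec (G.grad φ) x F hF

/-- the polynomial `qq` -/
noncomputable def R10_q : Polynomial ℝ :=
  1 - Polynomial.X + Polynomial.C (3 / 10) * Polynomial.X ^ 2
    - Polynomial.C (3 / 70) * Polynomial.X ^ 3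

theorem R10_q_eval (s : ℝ) : R10_q.eval s = qq s := by
  simp [R10_q, qq]

theorem R10_q_der : Polynomial.derivative R10_q =
    -1 + Polynomial.C (3 / 5) * Polynomial.X - Polynomial.C (9 / 70) * Polynomial.X ^ 2 := by
  unfold R10_q
  simp only [Polynomial.derivative_sub, Polynomial.derivative_add, Polynomial.derivative_one,
    Polynomial.derivative_X, Polynomial.derivative_C_mul, Polynomial.derivative_X_pow]
  have e1 : (Polynomial.C (3 / 5) : Polynomial ℝ) = Polynomial.C (3 / 10) * 2 := by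
    rw [show (2 : Polynomial ℝ) = Polynomial.C 2 from rfl, ← Polynomial.C_mul]; norm_num
  have e2 : (Polynomial.C (9 / 70) : Polynomial ℝ) = Polynomial.C (3 / 70) * 3 := by
    rw [show (3 : Polynomial ℝ) = Polynomial.C 3 from rfl, ← Polynomial.C_mul]; norm_num
  have e3 : (Polynomial.C 2 : Polynomial ℝ) = 2 := map_ofNat Polynomial.C 2
  have e4 : (Polynomial.C 3 : Polynomial ℝ) = 3 := map_ofNat Polynomial.C 3
  rw [e1, e2]
  norm_num [e3, e4]
  ring

theorem R10_q_der_eval (s : ℝ) : (Polynomial.derivative R10_q).eval s = qd1 s := by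
  rw [R10_q_der]
  simp [qd1]

theorem R10_q_der2_eval (s : ℝ) :
    (Polynomial.derivative (Polynomial.derivative R10_q)).eval s = 3 / 5 - 9 / 35 * s := by
  rw [R10_q_der]
  simp only [Polynomial.derivative_sub, Polynomial.derivative_add, Polynomial.derivative_neg,
    Polynomial.derivative_one,
    Polynomial.derivative_X, Polynomial.derivative_C_mul, Polynomial.derivative_X_pow]
  simp
  ring

theorem R10_qq_pos {s : ℝ} (h1 : s < 61 / 40) : 0 < qq s := by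
  have e : qq s = 1 - 61 / 40 + 3 / 10 * (61 / 40) ^ 2 - 3 / 70 * (61 / 40) ^ 3 +
      (61 / 40 - s) * (1 - 3 / 10 * (s + 61 / 40)
        + 3 / 70 * (s ^ 2 + s * (61 / 40) + (61 / 40) ^ 2)) := by
    unfold qq; ring
  have h2 : 0 ≤ 1 - 3 / 10 * (s + 61 / 40) + 3 / 70 * (s ^ 2 + s * (61 / 40) + (61 / 40) ^ 2) := by
    linarith only [sq_nonneg s, h1]
  rw [e]
  have h3 := mul_nonneg (sub_nonneg.mpr h1.le) h2
  norm_num at h3 ⊢
  linarith only [h3]

/-- R9 -/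
theorem lap_ge [CompactSpace M] (hE : G.Einstein 3) (hK : G.SecGe 0) {p : M} {T : ℝ}
    (hT0 : 0 < T) (hT : T ≤ 61 / 40) {φ : 𝒪} (h : Rad0 G p T φ) {q : M} (hq : G.ev q φ < T) :
    3 + ww (G.ev q φ) ≤ G.ev q (G.lap φ) := by
  have h1 := (R10_rad hT0 h).lap_ge hE hK (fun x => G.frame x) R10_q
    (fun s _ hs1 => by rw [R10_q_eval]; exact R10_qq_pos (hs1.trans_le hT))
    (fun s hs0 _ => by
      rw [R10_q_eval, R10_q_der_eval, R10_q_der2_eval]
      unfold qq qd1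
      linarith only [pow_nonneg hs0 3]) hq
  rw [R10_q_eval, R10_q_der_eval] at h1
  have h2 : 0 < qq (G.ev q φ) := R10_qq_pos (hq.trans_le hT)
  have h3 : 2 * G.ev q φ * qd1 (G.ev q φ) / qq (G.ev q φ) ≤ G.ev q (G.lap φ) - 4 := by
    rw [div_le_iff₀ h2]; exact h1
  unfold ww
  linarith only [h3]

/-- R10 -/
theorem partII [CompactSpace M] [MeasurableSpace M] (μ : Measure M) (hE : G.Einstein 3)
    (hK : G.SecGe 0) {p : M} {T : ℝ} (hT0 : 0 < T) (hT : T ≤ 61 / 40) {φ : 𝒪}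
    (h : Rad0 G p T φ)
    (has : Tendsto (fun t : ℝ => μ.real {q | G.ev q φ < t} / t ^ 2) (𝓝[>] 0)
      (𝓝 (2 * Real.pi ^ 2))) : Radial G μ p T φ where
  nonneg := h.nonneg
  zero := h.zero
  eik := h.eik
  lapU := fun _ hq => (R10_rad hT0 h).L_le hK (fun x => G.frame x) hq
  lapL := fun _ hq => lap_ge hE hK hT0 hT h hq
  asym := has

end Vale.Agent.P211.S4

end
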