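import Vale.Agent.P211.MathlibUsed2
import Vale.Agent.P211.Bdl.S0

set_option linter.all false

-- M123
section

/-! P211, S4: M1, M2, M3. -/

namespace Vale.Agent.P211.S4

open Topology Filter MeasureTheory Set
open scoped ContDiff

variable {M 𝒪 V : Type*} [TopologicalSpace M] [CommRing 𝒪] [Algebra ℝ 𝒪]
    [AddCommGroup V] [Module 𝒪 V] {G : Geo2 M 𝒪 V} {om : V → V → V → V → 𝒪}

/-- M1 without measures -/
theorem M123_dv_smul (a : 𝒪) (X : V) : G.dv (a • X) = G.D X a + a * G.dv X := by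
  apply G.ev_ext
  intro p
  obtain ⟨F, hF⟩ := G.frame p
  have hexp := G.toGeom.expand (p := p) (F := F) hF
    ⟨⟨fun X => G.D X a, fun Y Z => G.D_add_left Y Z a⟩, fun b Y => G.D_smul_left b Y a⟩ X
  have hexp' : G.ev p (G.D X a) = ∑ i, G.ev p (G.g X (F i)) * G.ev p (G.D (F i) a) := hexp
  rw [G.dv_spec _ p F hF, map_add, map_mul, G.dv_spec _ p F hF, hexp', Finset.mul_sum,
    ← Finset.sum_add_distrib]
  refine Finset.sum_congr rfl fun i _ => ?_
  rw [G.nab_smul, G.g_add_left, G.g_smul_left, G.g_smul_left, map_add, map_mul, map_mul]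
  ring

/-- the divergence is additive -/
theorem M123_dv_add (X Y : V) : G.dv (X + Y) = G.dv X + G.dv Y := by
  apply G.ev_ext
  intro p
  obtain ⟨F, hF⟩ := G.frame p
  rw [G.dv_spec _ p F hF, map_add, G.dv_spec _ p F hF, G.dv_spec _ p F hF,
    ← Finset.sum_add_distrib]
  refine Finset.sum_congr rfl fun i _ => ?_
  rw [G.nab_add, G.g_add_left, map_add]

theorem M123_dv_sub (X Y : V) : G.dv (X - Y) = G.dv X - G.dv Y := by
  have h := M123_dv_add (G := G) (X - Y) Y
  rw [sub_add_cancel] at h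
  rw [h]
  ring

/-- vector fields orthogonal to everything have divergence zero -/
theorem M123_dv_null {Z : V} (hZ : ∀ Y, G.g Z Y = 0) : G.dv Z = 0 := by
  apply G.ev_ext
  intro p
  obtain ⟨F, hF⟩ := G.frame p
  rw [G.dv_spec _ p F hF, map_zero]
  refine Finset.sum_eq_zero fun i _ => ?_
  have h := G.metric (F i) Z (F i)
  rw [hZ, hZ, G.toLC.D_zero, add_zero] at h
  rw [← h, map_zero]

section integration

variable [MeasurableSpace M] [BorelSpace M] {μ : Measure M} [IsFiniteMeasure μ]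

/-- M1 -/
theorem dv_smul (a : 𝒪) (X : V) : G.dv (a • X) = G.D X a + a * G.dv X := M123_dv_smul a X

/-- composition with a function of one variable: the value of `D (grad φ) h` -/
theorem M123_comp {p : M} {T : ℝ} {φ : 𝒪} (hr : Radial G μ p T φ) {F : ℝ → ℝ} {T1 : ℝ}
    (hT1 : T1 < T) (hF0 : ∀ s, T1 ≤ s → F s = 0) {h : 𝒪}
    (hh : ∀ q, G.ev q h = F (G.ev q φ) ∧ ∀ X, G.ev q (G.D X h) =
      deriv F (G.ev q φ) * G.ev q (G.D X φ)) (q : M) :
    G.ev q (G.D (G.grad φ) h) = 2 * G.ev q φ * deriv F (G.ev q φ) := by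
  rw [(hh q).2, ← G.grad_spec]
  by_cases hq : G.ev q φ < T
  · rw [hr.eik q hq]
    ring
  · have h1 : deriv F (G.ev q φ) = 0 := by
      have h2 : F =ᶠ[𝓝 (G.ev q φ)] fun _ => 0 := by
        have h3 : T1 < G.ev q φ := by
          push Not at hq
          linarith
        filter_upwards [Ioi_mem_nhds h3] with s hs
        exact hF0 s (le_of_lt hs)
      rw [h2.deriv_eq, deriv_const]
    rw [h1]
    ring

/-- M2 -/
theorem int_rad [CompactSpace M] (hdiv : DivThm G μ) {p : M} {T : ℝ} {φ : 𝒪}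
    (h : Radial G μ p T φ)
    {F : ℝ → ℝ} (hF : ContDiff ℝ ∞ F) {T1 : ℝ} (hT1 : T1 < T) (hF0 : ∀ s, T1 ≤ s → F s = 0) :
    ∫ q, (2 * G.ev q φ * deriv F (G.ev q φ) + F (G.ev q φ) * G.ev q (G.lap φ)) ∂μ = 0 := by
  obtain ⟨k, hk⟩ := G.comp φ F fun q => hF.contDiffAt
  rw [← hdiv (k • G.grad φ)]
  congr 1
  funext q
  rw [M123_dv_smul, map_add, map_mul, M123_comp h hT1 hF0 hk q, (hk q).1]
  rfl

/-- M3 -/
theorem green_rad [CompactSpace M] (hdiv : DivThm G μ) {p : M} {T : ℝ} {φ : 𝒪}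
    (h : Radial G μ p T φ)
    {F : ℝ → ℝ} (hF : ContDiff ℝ ∞ F) {T1 : ℝ} (hT1 : T1 < T) (hF0 : ∀ s, T1 ≤ s → F s = 0)
    (f : 𝒪) :
    ∫ q, (G.ev q f * (2 * G.ev q φ * deriv (deriv F) (G.ev q φ)
        + deriv F (G.ev q φ) * G.ev q (G.lap φ))
      - F (G.ev q φ) * G.ev q (G.lap f)) ∂μ = 0 := by
  have hF1 : ContDiff ℝ ∞ (deriv F) := by
    have h1 : ContDiff ℝ (∞ + 1) F := hF
    exact (contDiff_succ_iff_deriv.1 h1).2.2
  obtain ⟨T2, hT12, hT2⟩ := exists_between hT1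
  have hF10 : ∀ s, T2 ≤ s → deriv F s = 0 := by
    intro s hs
    have h2 : F =ᶠ[𝓝 s] fun _ => 0 := by
      filter_upwards [Ioi_mem_nhds (hT12.trans_le hs)] with t ht
      exact hF0 t (le_of_lt ht)
    rw [h2.deriv_eq, deriv_const]
  obtain ⟨k, hk⟩ := G.comp φ F fun q => hF.contDiffAt
  obtain ⟨k1, hk1⟩ := G.comp φ (deriv F) fun q => hF1.contDiffAt
  have hD : ∀ Y, G.D Y k = k1 * G.D Y φ := by
    intro Y
    apply G.ev_ext
    intro q
    rw [(hk q).2, map_mul, (hk1 q).1]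
  have hZ : ∀ Y, G.g (G.grad k - k1 • G.grad φ) Y = 0 := by
    intro Y
    rw [G.toLC.g_sub_left, G.g_smul_left, G.grad_spec, G.grad_spec, hD, sub_self]
  have hlap : G.lap k = G.D (G.grad φ) k1 + k1 * G.lap φ := by
    have h1 := M123_dv_null hZ
    rw [M123_dv_sub, sub_eq_zero, M123_dv_smul] at h1
    exact h1
  have hsym : G.D (G.grad k) f = G.D (G.grad f) k := by
    rw [← G.grad_spec, ← G.grad_spec, G.g_symm]
  rw [← hdiv (f • G.grad k - k • G.grad f)]
  congr 1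
  funext q
  have h2 : G.dv (f • G.grad k - k • G.grad f) = f * G.lap k - k * G.lap f := by
    rw [M123_dv_sub, M123_dv_smul, M123_dv_smul, hsym]
    change G.D (G.grad f) k + f * G.lap k - (G.D (G.grad f) k + k * G.lap f) = _
    ring
  rw [h2, hlap, map_sub, map_mul, map_mul, map_add, map_mul, M123_comp h hT2 hF10 hk1 q,
    (hk q).1, (hk1 q).1]

end integration

end Vale.Agent.P211.S4

end

-- M4
section

/-! P211, S4, task M4: the asymptotics of the integrals of radial test functions. -/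

namespace Vale.Agent.P211.S4

open Topology Filter MeasureTheory Set
open scoped ContDiff


theorem M4_deriv_bdd {ψ : ℝ → ℝ} (hψ : ContDiff ℝ ∞ ψ) : Continuous (deriv ψ) :=
  hψ.continuous_deriv (by simp)

/-- the formula `ψ x = - ∫ ψ' 1_{x < y}` -/
theorem M4_formula {ψ : ℝ → ℝ} (hψ : ContDiff ℝ ∞ ψ) (h0 : ∀ s, s ≤ 1 → ψ s = 0)
    (h2 : ∀ s, 2 ≤ s → ψ s = 0) (x : ℝ) :
    ψ x = - ∫ y in Ioc (1 : ℝ) 2, deriv ψ y * (if x < y then 1 else 0) := by
  have hD : Continuous (deriv ψ) := M4_deriv_bdd hψ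
  have hd : ∀ y, HasDerivAt ψ (deriv ψ y) y := fun y =>
    (hψ.differentiable (by simp) y).hasDerivAt
  have e : ∀ y, deriv ψ y * (if x < y then 1 else 0) = (Ioi x).indicator (deriv ψ) y := by
    intro y
    by_cases h : x < y
    · rw [if_pos h, mul_one, indicator_of_mem (mem_Ioi.2 h)]
    · rw [if_neg h, mul_zero, indicator_of_notMem (by simpa using h)]
  simp_rw [e]
  rw [setIntegral_indicator measurableSet_Ioi]
  have e2 : Ioc (1 : ℝ) 2 ∩ Ioi x = Ioc (max 1 x) 2 := by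
    ext y
    simp only [mem_inter_iff, mem_Ioc, mem_Ioi, max_lt_iff]
    tauto
  rw [e2]
  by_cases h : max 1 x ≤ 2
  · rw [← intervalIntegral.integral_of_le h,
      intervalIntegral.integral_eq_sub_of_hasDerivAt (fun y _ => hd y)
        (hD.intervalIntegrable _ _), h2 2 le_rfl, zero_sub, neg_neg]
    rcases le_total x 1 with hx | hx
    · rw [max_eq_left hx, h0 x hx, h0 1 le_rfl]
    · rw [max_eq_right hx]
  · have h3 : 2 < x := by
      rcases lt_max_iff.1 (not_le.1 h) with h4 | h4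
      · norm_num at h4
      · exact h4
    rw [Ioc_eq_empty (not_lt.2 (not_le.1 h).le), setIntegral_empty, neg_zero, h2 x h3.le]

theorem M4_fubini {M : Type*} [MeasurableSpace M] {μ : Measure M} [IsFiniteMeasure μ]
    {g : M → ℝ} (hg : Measurable g) {ψ : ℝ → ℝ} (hψ : ContDiff ℝ ∞ ψ)
    (h0 : ∀ s, s ≤ 1 → ψ s = 0) (h2 : ∀ s, 2 ≤ s → ψ s = 0) {ε : ℝ} (hε : 0 < ε) :
    ∫ q, ψ (g q / ε) ∂μ = - ∫ y in Ioc (1 : ℝ) 2, deriv ψ y * μ.real {q | g q < ε * y} := by
  have hD : Continuous (deriv ψ) := M4_deriv_bdd hψ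
  have e1 : ∀ q, ψ (g q / ε) =
      - ∫ y in Ioc (1 : ℝ) 2, deriv ψ y * (if g q / ε < y then 1 else 0) :=
    fun q => M4_formula hψ h0 h2 _
  simp_rw [e1]
  rw [integral_neg]
  congr 1
  have hint : Integrable (Function.uncurry fun (q : M) (y : ℝ) =>
      deriv ψ y * (if g q / ε < y then (1 : ℝ) else 0)) (μ.prod (volume.restrict (Ioc 1 2))) := by
    have hb : Integrable (fun z : M × ℝ => (1 : ℝ) * deriv ψ z.2)
        (μ.prod (volume.restrict (Ioc 1 2))) :=
      (integrable_const (1 : ℝ)).mul_prod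
        ((hD.integrableOn_Icc (a := 1) (b := 2)).mono_set Ioc_subset_Icc_self)
    refine hb.mono ?_ ?_
    · refine Measurable.aestronglyMeasurable ?_
      exact (hD.measurable.comp measurable_snd).mul
        (Measurable.ite (measurableSet_lt ((hg.comp measurable_fst).div_const ε) measurable_snd)
          measurable_const measurable_const)
    · refine Eventually.of_forall fun z => ?_
      show ‖deriv ψ z.2 * (if g z.1 / ε < z.2 then (1 : ℝ) else 0)‖ ≤ ‖(1 : ℝ) * deriv ψ z.2‖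
      rw [one_mul, norm_mul]
      refine mul_le_of_le_one_right (norm_nonneg _) ?_
      split_ifs <;> simp
  rw [integral_integral_swap hint]
  refine setIntegral_congr_fun measurableSet_Ioc fun y _ => ?_
  show ∫ q, deriv ψ y * (if g q / ε < y then (1 : ℝ) else 0) ∂μ =
    deriv ψ y * μ.real {q | g q < ε * y}
  rw [integral_const_mul]
  congr 1
  have hm : MeasurableSet {q | g q < ε * y} := measurableSet_lt hg measurable_const
  rw [← integral_indicator_one hm]
  refine integral_congr_ae (Eventually.of_forall fun q => ?_)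
  show (if g q / ε < y then (1 : ℝ) else 0) = {q | g q < ε * y}.indicator 1 q
  have hiff : g q / ε < y ↔ g q < ε * y := by
    rw [div_lt_iff₀ hε, mul_comm]
  by_cases h : g q < ε * y
  · rw [if_pos (hiff.2 h), indicator_of_mem (show q ∈ {q | g q < ε * y} from h)]
    rfl
  · rw [if_neg (fun h' => h (hiff.1 h')), indicator_of_notMem (show q ∉ {q | g q < ε * y} from h)]

theorem M4_abs {M : Type*} [MeasurableSpace M] {μ : Measure M} [IsFiniteMeasure μ]
    {g : M → ℝ} (hg : Measurable g) {c : ℝ}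
    (has : Tendsto (fun t : ℝ => μ.real {q | g q < t} / t ^ 2) (𝓝[>] 0) (𝓝 c))
    {ψ : ℝ → ℝ} (hψ : ContDiff ℝ ∞ ψ)
    (h0 : ∀ s, s ≤ 1 → ψ s = 0) (h2 : ∀ s, 2 ≤ s → ψ s = 0) :
    Tendsto (fun ε : ℝ => (∫ q, ψ (g q / ε) ∂μ) / ε ^ 2) (𝓝[>] 0)
      (𝓝 (∫ s in (1 : ℝ)..2, ψ s * (2 * c * s))) := by
  have hD : Continuous (deriv ψ) := M4_deriv_bdd hψ
  have hd : ∀ y, HasDerivAt ψ (deriv ψ y) y := fun y =>
    (hψ.differentiable (by simp) y).hasDerivAt
  -- bound
  obtain ⟨δ, hδ0, hδ⟩ : ∃ δ : ℝ, 0 < δ ∧ ∀ t, 0 < t → t < δ →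
      μ.real {q | g q < t} / t ^ 2 ≤ c + 1 := by
    have h1 : ∀ᶠ t in 𝓝[>] (0 : ℝ), μ.real {q | g q < t} / t ^ 2 ≤ c + 1 :=
      has.eventually_le_const (by linarith)
    obtain ⟨δ, hδ, hs⟩ := mem_nhdsGT_iff_exists_Ioo_subset.1 h1
    exact ⟨δ, hδ, fun t ht0 ht1 => hs ⟨ht0, ht1⟩⟩
  have hlim : Tendsto (fun ε : ℝ => ∫ y in Ioc (1 : ℝ) 2,
      deriv ψ y * (μ.real {q | g q < ε * y} / ε ^ 2)) (𝓝[>] 0)
      (𝓝 (∫ y in Ioc (1 : ℝ) 2, deriv ψ y * (c * y ^ 2))) := by
    refine tendsto_integral_filter_of_dominated_convergence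
      (fun y => |deriv ψ y| * (4 * (c + 1))) ?_ ?_ ?_ ?_
    · filter_upwards [self_mem_nhdsWithin] with ε hε
      have hε' : 0 < ε := hε
      have hmono : Monotone fun y : ℝ => μ.real {q | g q < ε * y} := by
        intro y y' hyy
        refine measureReal_mono ?_
        intro q hq
        have hq' : g q < ε * y := hq
        exact lt_of_lt_of_le hq' (mul_le_mul_of_nonneg_left hyy hε'.le)
      exact (hD.measurable.mul (hmono.measurable.div_const _)).aestronglyMeasurable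
    · filter_upwards [Ioo_mem_nhdsGT (show (0 : ℝ) < δ / 2 by positivity)] with ε hε
      refine (ae_restrict_iff' measurableSet_Ioc).2 (Eventually.of_forall fun y hy => ?_)
      have hy0 : 0 < y := lt_trans one_pos hy.1
      have h1 : 0 < ε * y := mul_pos hε.1 hy0
      have h3 : ε * y < δ := by
        have := hε.2
        have h4 : ε * y ≤ ε * 2 := mul_le_mul_of_nonneg_left hy.2 hε.1.le
        linarith
      have h4 := hδ _ h1 h3
      rw [Real.norm_eq_abs, abs_mul]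
      refine mul_le_mul_of_nonneg_left ?_ (abs_nonneg _)
      rw [abs_of_nonneg (by (clear * -; positivity))]
      have h5 : μ.real {q | g q < ε * y} / ε ^ 2 =
          μ.real {q | g q < ε * y} / (ε * y) ^ 2 * y ^ 2 := by
        have := hε.1.ne'
        field_simp
      rw [h5]
      have h6 : 0 ≤ μ.real {q | g q < ε * y} / (ε * y) ^ 2 := by (clear * - h1; positivity)
      have h7 : y ^ 2 ≤ 4 := by (by_contra nlg; linarith only [nlg, mul_nonneg (sub_nonneg.2 hy.2) (sub_nonneg.2 hy.2), mul_nonneg (le_of_lt (sub_pos.2 hy0)) (sub_nonneg.2 hy.2), mul_nonneg (le_of_lt (sub_pos.2 (not_le.1 nlg))) (sub_nonneg.2 hy.2), mul_pos (sub_pos.2 (not_le.1 nlg)) (sub_pos.2 hy0)])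
      have h8 : 0 ≤ y ^ 2 := sq_nonneg y
      linarith only [mul_nonneg (sub_nonneg.2 h6) (sub_nonneg.2 h7), mul_nonneg (sub_nonneg.2 h4) (sub_nonneg.2 h8), mul_nonneg (sub_nonneg.2 h4) (sub_nonneg.2 h7)]
    · exact ((hD.abs.mul continuous_const).integrableOn_Icc).mono_set Ioc_subset_Icc_self
    · refine (ae_restrict_iff' measurableSet_Ioc).2 (Eventually.of_forall fun y hy => ?_)
      have hy0 : 0 < y := lt_trans one_pos hy.1
      have h1 : Tendsto (fun ε : ℝ => ε * y) (𝓝[>] 0) (𝓝[>] 0) := by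
        refine tendsto_nhdsWithin_iff.2 ⟨?_, ?_⟩
        · have h3 : Tendsto (fun ε : ℝ => ε * y) (𝓝 0) (𝓝 (0 * y)) :=
            (continuous_id.mul continuous_const).tendsto 0
          rw [zero_mul] at h3
          exact h3.mono_left nhdsWithin_le_nhds
        · filter_upwards [self_mem_nhdsWithin] with ε hε
          exact mul_pos hε hy0
      have h3 := (has.comp h1).mul_const (y ^ 2)
      refine Tendsto.const_mul _ ?_
      refine h3.congr' ?_
      filter_upwards [self_mem_nhdsWithin] with ε hε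
      have hε' : (ε : ℝ) ≠ 0 := ne_of_gt hε
      show μ.real {q | g q < ε * y} / (ε * y) ^ 2 * y ^ 2 = μ.real {q | g q < ε * y} / ε ^ 2
      field_simp
  have hparts : ∫ s in (1 : ℝ)..2, ψ s * (2 * c * s) =
      - ∫ y in Ioc (1 : ℝ) 2, deriv ψ y * (c * y ^ 2) := by
    rw [← intervalIntegral.integral_of_le (by norm_num : (1 : ℝ) ≤ 2)]
    have h1 := intervalIntegral.integral_mul_deriv_eq_deriv_mul (a := 1) (b := 2)
      (u := fun y : ℝ => c * y ^ 2) (v := ψ) (u' := fun y => c * (2 * y)) (v' := deriv ψ)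
      (fun y _ => by
        have := (hasDerivAt_pow 2 y).const_mul c
        simpa using this)
      (fun y _ => hd y)
      ((by fun_prop : Continuous fun y : ℝ => c * (2 * y)).intervalIntegrable _ _)
      (hD.intervalIntegrable _ _)
    rw [h0 1 le_rfl, h2 2 le_rfl, mul_zero, mul_zero, sub_zero, zero_sub] at h1
    have h3 : ∫ y in (1 : ℝ)..2, deriv ψ y * (c * y ^ 2) =
        ∫ y in (1 : ℝ)..2, c * y ^ 2 * deriv ψ y :=
      intervalIntegral.integral_congr fun y _ => mul_comm _ _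
    rw [h3, h1, neg_neg]
    exact intervalIntegral.integral_congr fun y _ => by ring
  rw [hparts]
  refine hlim.neg.congr' ?_
  filter_upwards [self_mem_nhdsWithin] with ε hε
  rw [M4_fubini hg hψ h0 h2 hε, neg_div, ← integral_div]
  congr 1
  refine integral_congr_ae (Eventually.of_forall fun y => ?_)
  show _ = deriv ψ y * μ.real {q | g q < ε * y} / ε ^ 2
  ring

variable {M 𝒪 V : Type*} [TopologicalSpace M] [CommRing 𝒪] [Algebra ℝ 𝒪]
    [AddCommGroup V] [Module 𝒪 V] {G : Geo2 M 𝒪 V}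

section integration

variable [MeasurableSpace M] [BorelSpace M] {μ : Measure M} [IsFiniteMeasure μ]

/-- M4 -/
theorem asym_test [CompactSpace M] {p : M} {T : ℝ} {φ : 𝒪} (h : Radial G μ p T φ)
    {ψ : ℝ → ℝ} (hψ : ContDiff ℝ ∞ ψ) (h0 : ∀ s, s ≤ 1 → ψ s = 0) (h2 : ∀ s, 2 ≤ s → ψ s = 0) :
    Tendsto (fun ε : ℝ => (∫ q, ψ (G.ev q φ / ε) ∂μ) / ε ^ 2) (𝓝[>] 0)
      (𝓝 (∫ s in (1 : ℝ)..2, ψ s * (4 * Real.pi ^ 2 * s))) := by
  have h1 := M4_abs (G.ev_cont φ).measurable h.asym hψ h0 h2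
  have e : (∫ s in (1 : ℝ)..2, ψ s * (2 * (2 * Real.pi ^ 2) * s)) =
      ∫ s in (1 : ℝ)..2, ψ s * (4 * Real.pi ^ 2 * s) :=
    intervalIntegral.integral_congr fun s _ => by ring
  rw [e] at h1
  exact h1

end integration

end Vale.Agent.P211.S4

end

-- M5
section

/-! P211, S4: M5 (optional). -/

namespace Vale.Agent.P211.S4

open Topology Filter MeasureTheory Set
open scoped ContDiff

/-- smooth bump supported in `[1,2]` with integral one -/
theorem M56_bump : ∃ κ : ℝ → ℝ, ContDiff ℝ ∞ κ ∧ (∀ s, 0 ≤ κ s) ∧ (∀ s, s ≤ 1 → κ s = 0) ∧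
    (∀ s, 2 ≤ s → κ s = 0) ∧ ∫ s in (1 : ℝ)..2, κ s = 1 := by
  let f : ContDiffBump (3 / 2 : ℝ) := ⟨1 / 4, 1 / 2, by norm_num, by norm_num⟩
  have hsupp : Function.support (f.normed volume) = Metric.ball (3 / 2 : ℝ) (1 / 2) :=
    f.support_normed_eq
  have hz : ∀ s, s ∉ Metric.ball (3 / 2 : ℝ) (1 / 2) → f.normed volume s = 0 := by
    intro s hs
    rw [← hsupp] at hs
    exact Function.notMem_support.mp hs
  have h1 : ∀ s : ℝ, s ≤ 1 → f.normed volume s = 0 := fun s hs => hz s (by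
    rw [Metric.mem_ball, Real.dist_eq, not_lt, le_abs]
    right; linarith)
  have h2 : ∀ s : ℝ, 2 ≤ s → f.normed volume s = 0 := fun s hs => hz s (by
    rw [Metric.mem_ball, Real.dist_eq, not_lt, le_abs]
    left; linarith)
  refine ⟨f.normed volume, f.contDiff_normed, fun s => f.nonneg_normed s, h1, h2, ?_⟩
  rw [intervalIntegral.integral_of_le (by norm_num)]
  refine Eq.trans ?_ (f.integral_normed (μ := volume))
  apply setIntegral_eq_integral_of_forall_compl_eq_zero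
  intro s hs
  rw [mem_Ioc, not_and_or, not_lt, not_le] at hs
  rcases hs with hs | hs
  · exact h1 s hs
  · exact h2 s hs.le

theorem M56_int_smooth {g : ℝ → ℝ} (hg : ContDiff ℝ ∞ g) :
    ContDiff ℝ ∞ (fun s => ∫ t in (0 : ℝ)..s, g t) ∧
      ∀ s, HasDerivAt (fun s => ∫ t in (0 : ℝ)..s, g t) (g s) s := by
  have hd : ∀ s, HasDerivAt (fun s => ∫ t in (0 : ℝ)..s, g t) (g s) s := fun s =>
    intervalIntegral.integral_hasDerivAt_right (hg.continuous.intervalIntegrable _ _)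
      (hg.continuous.stronglyMeasurableAtFilter _ _) hg.continuous.continuousAt
  refine ⟨?_, hd⟩
  rw [contDiff_infty_iff_deriv]
  refine ⟨fun s => (hd s).differentiableAt, ?_⟩
  have : deriv (fun s => ∫ t in (0 : ℝ)..s, g t) = g := funext fun s => (hd s).deriv
  rw [this]; exact hg

theorem M56_core {Q Q1 : ℝ → ℝ} (hQ : ContDiff ℝ ∞ Q) (hQ1 : ∀ s, HasDerivAt Q (Q1 s) s)
    {T : ℝ} (hQpos : ∀ s, 0 < s → s < T → 0 < Q s)
    {k : ℝ → ℝ} (hk : ContDiff ℝ ∞ k) (hk0 : ∀ s, 0 ≤ k s) {a b : ℝ}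
    (ha : 0 < a) (hab : a ≤ b) (hb : b < T) (hka : ∀ s, s ≤ a → k s = 0)
    (hkb : ∀ s, b ≤ s → k s = 0)
    {κ : ℝ → ℝ} (hκ : ContDiff ℝ ∞ κ) (hκ0 : ∀ s, 0 ≤ κ s) (hκ1 : ∀ s, s ≤ 1 → κ s = 0)
    (hκ2 : ∀ s, 2 ≤ s → κ s = 0) (hκi : ∫ s in (1 : ℝ)..2, κ s = 1)
    {ε : ℝ} (hε : 0 < ε) (hεa : 2 * ε < a) :
    ∃ F : ℝ → ℝ, ContDiff ℝ ∞ F ∧ (∀ s, b ≤ s → F s = 0) ∧ (∀ s, 0 ≤ F s) ∧
      ∀ s, 0 ≤ s → s < T → 2 * s * deriv F s + F s * (4 + 2 * s * Q1 s / Q s) =
        (∫ s in (0 : ℝ)..T, k s * (4 * Real.pi ^ 2 * s * Q s)) *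
          (κ (s / ε) / (4 * Real.pi ^ 2 * (s / ε)) / ε ^ 2 / Q s) - k s := by
  have hpi : (0 : ℝ) < Real.pi ^ 2 := by positivity
  set g : ℝ → ℝ := fun s => k s * (4 * Real.pi ^ 2 * s * Q s) with hg
  have hgs : ContDiff ℝ ∞ g := hk.mul (((contDiff_const.mul contDiff_const).mul contDiff_id).mul hQ)
  set I := ∫ s in (0 : ℝ)..T, g s with hI
  have hga : ∀ s, s ≤ a → g s = 0 := fun s hs => by simp [hg, hka s hs]
  have hgb : ∀ s, b ≤ s → g s = 0 := fun s hs => by simp [hg, hkb s hs]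
  have hg0 : ∀ s, 0 ≤ g s := by
    intro s
    rcases le_or_gt s a with h1 | h1
    · rw [hga s h1]
    rcases le_or_gt b s with h2 | h2
    · rw [hgb s h2]
    have := hQpos s (ha.trans h1) (h2.trans hb)
    have h3 := hk0 s
    have h4 : 0 < s := ha.trans h1
    (clear * - h3 h4 this; positivity)
  have hgint : ∀ u v : ℝ, IntervalIntegrable g volume u v := fun u v =>
    hgs.continuous.intervalIntegrable _ _
  -- the bump at scale ε
  set κe : ℝ → ℝ := fun s => κ (s / ε) / ε with hκe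
  have hκes : ContDiff ℝ ∞ κe := (hκ.comp (contDiff_id.div_const ε)).div_const ε
  have hκe1 : ∀ s, s ≤ ε → κe s = 0 := fun s hs => by
    simp only [hκe]
    rw [hκ1 _ (by rw [div_le_one hε]; exact hs), zero_div]
  have hκe2 : ∀ s, 2 * ε ≤ s → κe s = 0 := fun s hs => by
    simp only [hκe]
    rw [hκ2 _ (by rw [le_div_iff₀ hε]; exact hs), zero_div]
  have hκe0 : ∀ s, 0 ≤ κe s := fun s => div_nonneg (hκ0 _) hε.le
  have hκint : ∀ u v : ℝ, IntervalIntegrable κe volume u v := fun u v =>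
    hκes.continuous.intervalIntegrable _ _
  have hκtot : ∫ s in ε..(2 * ε), κe s = 1 := by
    simp only [hκe]
    rw [intervalIntegral.integral_div]
    rw [intervalIntegral.integral_comp_div (fun s => κ s) hε.ne']
    rw [div_self hε.ne', mul_div_assoc, div_self hε.ne', mul_one, hκi, smul_eq_mul, mul_one,
      div_self hε.ne']
  have hzero1 : ∀ {f : ℝ → ℝ} {c u v : ℝ}, (∀ s, s ≤ c → f s = 0) → u ≤ c → v ≤ c →
      ∫ s in u..v, f s = 0 := by
    intro f c u v hf hu hv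
    rw [intervalIntegral.integral_congr (g := fun _ => (0 : ℝ))]
    · simp
    · intro s hs
      rw [mem_uIcc] at hs
      apply hf
      rcases hs with hs | hs
      · linarith [hs.2]
      · linarith [hs.2]
  have hzero2 : ∀ {f : ℝ → ℝ} {c u v : ℝ}, (∀ s, c ≤ s → f s = 0) → c ≤ u → c ≤ v →
      ∫ s in u..v, f s = 0 := by
    intro f c u v hf hu hv
    rw [intervalIntegral.integral_congr (g := fun _ => (0 : ℝ))]
    · simp
    · intro s hs
      rw [mem_uIcc] at hs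
      apply hf
      rcases hs with hs | hs
      · linarith [hs.1]
      · linarith [hs.1]
  have hκfull : ∀ s, 2 * ε ≤ s → ∫ t in (0 : ℝ)..s, κe t = 1 := by
    intro s hs
    rw [← intervalIntegral.integral_add_adjacent_intervals (hκint 0 ε) (hκint ε s),
      ← intervalIntegral.integral_add_adjacent_intervals (hκint ε (2 * ε)) (hκint (2 * ε) s),
      hκtot, hzero1 hκe1 hε.le le_rfl, hzero2 hκe2 le_rfl hs]
    ring
  have hgfull : ∀ s, b ≤ s → ∫ t in (0 : ℝ)..s, g t = I := by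
    intro s hs
    rw [hI, ← intervalIntegral.integral_add_adjacent_intervals (hgint 0 b) (hgint b s),
      ← intervalIntegral.integral_add_adjacent_intervals (hgint 0 b) (hgint b T),
      hzero2 hgb le_rfl hs, hzero2 hgb le_rfl hb.le]
  have hI0 : 0 ≤ I := by
    rw [hI]
    exact intervalIntegral.integral_nonneg (by linarith) fun s _ => hg0 s
  set K : ℝ → ℝ := fun s => I * (∫ t in (0 : ℝ)..s, κe t) - ∫ t in (0 : ℝ)..s, g t with hK
  have hKs : ContDiff ℝ ∞ K :=
    (contDiff_const.mul (M56_int_smooth hκes).1).sub (M56_int_smooth hgs).1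
  have hKd : ∀ s, HasDerivAt K (I * κe s - g s) s := fun s =>
    ((M56_int_smooth hκes).2 s).const_mul I |>.sub ((M56_int_smooth hgs).2 s)
  have hKε : ∀ s, s ≤ ε → K s = 0 := by
    intro s hs
    simp only [hK]
    rw [hzero1 hκe1 hε.le hs, hzero1 hga ha.le (by linarith)]
    ring
  have hKb : ∀ s, b ≤ s → K s = 0 := by
    intro s hs
    simp only [hK]
    rw [hκfull s (by linarith), hgfull s hs]
    ring
  have hK0 : ∀ s, 0 ≤ K s := by
    intro s
    rcases le_or_gt s ε with h1 | h1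
    · rw [hKε s h1]
    have hs0 : 0 ≤ s := (hε.trans h1).le
    rcases le_or_gt s a with h2 | h2
    · simp only [hK]
      rw [hzero1 hga ha.le h2, sub_zero]
      exact mul_nonneg hI0 (intervalIntegral.integral_nonneg hs0 fun t _ => hκe0 t)
    · rcases le_or_gt b s with h3 | h3
      · rw [hKb s h3]
      simp only [hK]
      rw [hκfull s (by linarith), mul_one, ← hgfull b le_rfl,
        ← intervalIntegral.integral_add_adjacent_intervals (hgint 0 s) (hgint s b)]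
      have := intervalIntegral.integral_nonneg (μ := volume) (f := g) h3.le fun t _ => hg0 t
      linarith
  set F : ℝ → ℝ := fun s => K s / (8 * Real.pi ^ 2 * s ^ 2 * Q s) with hF
  have hFε : ∀ s, s ≤ ε → F s = 0 := fun s hs => by simp only [hF]; rw [hKε s hs, zero_div]
  have hFb : ∀ s, b ≤ s → F s = 0 := fun s hs => by simp only [hF]; rw [hKb s hs, zero_div]
  have hden : ∀ s, 0 < s → s < T → 0 < 8 * Real.pi ^ 2 * s ^ 2 * Q s := fun s h0 h1 => by
    have := hQpos s h0 h1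
    (clear * - h0 this; positivity)
  have hev1 : ∀ s, s < ε → F =ᶠ[𝓝 s] fun _ => 0 := fun s hs => by
    filter_upwards [Iio_mem_nhds hs] with t ht using hFε t (le_of_lt ht)
  have hev2 : ∀ s, b < s → F =ᶠ[𝓝 s] fun _ => 0 := fun s hs => by
    filter_upwards [Ioi_mem_nhds hs] with t ht using hFb t (le_of_lt ht)
  refine ⟨F, ?_, hFb, ?_, ?_⟩
  · rw [contDiff_iff_contDiffAt]
    intro s
    rcases lt_or_ge s ε with h1 | h1
    · exact contDiffAt_const.congr_of_eventuallyEq (hev1 s h1)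
    rcases lt_or_ge b s with h2 | h2
    · exact contDiffAt_const.congr_of_eventuallyEq (hev2 s h2)
    refine ContDiffAt.div hKs.contDiffAt ?_ (hden s (hε.trans_le h1) (h2.trans_lt hb)).ne'
    exact ((contDiffAt_const.mul (contDiffAt_id.pow 2)).mul hQ.contDiffAt)
  · intro s
    rcases le_or_gt s ε with h1 | h1
    · rw [hFε s h1]
    rcases le_or_gt b s with h2 | h2
    · rw [hFb s h2]
    exact div_nonneg (hK0 s) (hden s (hε.trans h1) (h2.trans hb)).le
  · intro s hs0 hsT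
    rcases lt_or_ge s ε with h1 | h1
    · rw [(hev1 s h1).deriv_eq, deriv_const, hFε s h1.le, hka s (by linarith),
        hκ1 (s / ε) (by rw [div_le_one hε]; exact h1.le)]
      simp
    have hs : 0 < s := hε.trans_le h1
    have hQs := hQpos s hs hsT
    have hdF : HasDerivAt F (((I * κe s - g s) * (8 * Real.pi ^ 2 * s ^ 2 * Q s) -
        K s * (8 * Real.pi ^ 2 * (2 * s) * Q s + 8 * Real.pi ^ 2 * s ^ 2 * Q1 s)) /
        (8 * Real.pi ^ 2 * s ^ 2 * Q s) ^ 2) s := by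
      refine (hKd s).div ?_ (hden s hs hsT).ne'
      have h2 : HasDerivAt (fun s : ℝ => 8 * Real.pi ^ 2 * s ^ 2) (8 * Real.pi ^ 2 * (2 * s)) s := by
        have := (hasDerivAt_pow 2 s).const_mul (8 * Real.pi ^ 2)
        simpa using this
      exact h2.mul (hQ1 s)
    rw [hdF.deriv]
    simp only [hF, hκe, hg]
    have hpine : Real.pi ≠ 0 := Real.pi_ne_zero
    have hsne : s ≠ 0 := hs.ne'
    have hQne : Q s ≠ 0 := hQs.ne'
    have hεne : ε ≠ 0 := hε.ne'
    field_simp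
    ring

variable {M 𝒪 V : Type*} [TopologicalSpace M] [CommRing 𝒪] [Algebra ℝ 𝒪]
    [AddCommGroup V] [Module 𝒪 V] {G : Geo2 M 𝒪 V} {om : V → V → V → V → 𝒪}

variable [MeasurableSpace M] [BorelSpace M] {μ : Measure M} [IsFiniteMeasure μ]

theorem M56_int [CompactSpace M] {f : M → ℝ} (hf : Continuous f) : Integrable f μ :=
  hf.integrable_of_hasCompactSupport (HasCompactSupport.of_compactSpace f)

theorem M56_psi {κ : ℝ → ℝ} (hκ : ContDiff ℝ ∞ κ) (hκ1 : ∀ s, s ≤ 1 → κ s = 0) :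
    ContDiff ℝ ∞ fun s => κ s / (4 * Real.pi ^ 2 * s) := by
  rw [contDiff_iff_contDiffAt]
  intro s
  rcases lt_or_ge s 1 with h1 | h1
  · have : (fun s => κ s / (4 * Real.pi ^ 2 * s)) =ᶠ[𝓝 s] fun _ => 0 := by
      filter_upwards [Iio_mem_nhds h1] with t ht
      rw [hκ1 t (le_of_lt ht), zero_div]
    exact contDiffAt_const.congr_of_eventuallyEq this
  · refine ContDiffAt.div hκ.contDiffAt (contDiffAt_const.mul contDiffAt_id) ?_
    have : 0 < s := by linarith
    positivity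

theorem M56_lim [CompactSpace M] {p : M} {T : ℝ} {φ : 𝒪} (h : Radial G μ p T φ)
    {κ : ℝ → ℝ} (hκ : ContDiff ℝ ∞ κ) (hκ1 : ∀ s, s ≤ 1 → κ s = 0)
    (hκ2 : ∀ s, 2 ≤ s → κ s = 0) (hκi : ∫ s in (1 : ℝ)..2, κ s = 1) (I : ℝ) :
    Tendsto (fun ε : ℝ => I * ((∫ q, κ (G.ev q φ / ε) / (4 * Real.pi ^ 2 * (G.ev q φ / ε)) ∂μ)
      / ε ^ 2)) (𝓝[>] 0) (𝓝 I) := by
  have h1 := asym_test h (M56_psi hκ hκ1) (fun s hs => by rw [hκ1 s hs, zero_div])
    (fun s hs => by rw [hκ2 s hs, zero_div])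
  have h2 : ∫ s in (1 : ℝ)..2, κ s / (4 * Real.pi ^ 2 * s) * (4 * Real.pi ^ 2 * s) = 1 := by
    refine Eq.trans ?_ hκi
    refine intervalIntegral.integral_congr fun s hs => ?_
    rw [uIcc_of_le (by norm_num : (1 : ℝ) ≤ 2)] at hs
    have hs0 : 0 < s := by linarith [hs.1]
    have : 4 * Real.pi ^ 2 * s ≠ 0 := by positivity
    show κ s / (4 * Real.pi ^ 2 * s) * (4 * Real.pi ^ 2 * s) = κ s
    rw [div_mul_cancel₀ _ this]
  rw [h2] at h1
  have h3 := h1.const_mul I
  rwa [mul_one] at h3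

theorem M56_qq_pos {s : ℝ} (h0 : 0 < s) (h1 : s < 61 / 40) : 0 < qq s := by
  unfold qq
  linarith only [mul_nonneg h0.le (sq_nonneg (s - 61 / 40)), sq_nonneg (s - 61 / 40), mul_pos (mul_pos h0 h0) (sub_pos.mpr h1)]

/-- M5 (uses M2, M4) -/
theorem lower_test [CompactSpace M] (hdiv : DivThm G μ) {p : M} {T : ℝ} (hT0 : 0 < T)
    (hT : T ≤ 61 / 40) {φ : 𝒪}
    (h : Radial G μ p T φ) {k : ℝ → ℝ} (hk : ContDiff ℝ ∞ k) (hk0 : ∀ s, 0 ≤ k s) {a b : ℝ}
    (ha : 0 < a) (hab : a ≤ b) (hb : b < T) (hka : ∀ s, s ≤ a → k s = 0)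
    (hkb : ∀ s, b ≤ s → k s = 0) :
    ∫ s in (0 : ℝ)..T, k s * (4 * Real.pi ^ 2 * s * qq s) ≤ ∫ q, k (G.ev q φ) ∂μ := by
  obtain ⟨κ, hκ, hκ0, hκ1, hκ2, hκi⟩ := M56_bump
  have hqs : ContDiff ℝ ∞ qq := by unfold qq; fun_prop
  have hqd : ∀ s, HasDerivAt qq (qd1 s) s := by
    intro s
    have a1 := (hasDerivAt_pow 2 s).const_mul (3 / 10 : ℝ)
    have a2 := (hasDerivAt_pow 3 s).const_mul (3 / 70 : ℝ)
    have a3 := (((hasDerivAt_const s (1 : ℝ)).sub (hasDerivAt_id s)).add a1).sub a2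
    refine HasDerivAt.congr_deriv a3 ?_
    unfold qd1
    push_cast
    ring
  have hqpos : ∀ s, 0 < s → s < T → 0 < qq s := fun s h0 h1 => M56_qq_pos h0 (h1.trans_le hT)
  set I := ∫ s in (0 : ℝ)..T, k s * (4 * Real.pi ^ 2 * s * qq s) with hI
  have hI0 : 0 ≤ I := by
    rw [hI]
    refine intervalIntegral.integral_nonneg hT0.le fun s hs => ?_
    rcases hs.1.eq_or_lt with h1 | h1
    · rw [← h1]; simp
    rcases hs.2.lt_or_eq with h2 | h2
    · have := hqpos s h1 h2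
      have := hk0 s
      positivity
    · rw [h2, hkb T hb.le]; simp
  refine le_of_tendsto (M56_lim h hκ hκ1 hκ2 hκi I) ?_
  have hsmall : ∀ᶠ ε in 𝓝[>] (0 : ℝ), ε < min (a / 2) (1 / 2) :=
    (eventually_lt_nhds (by positivity)).filter_mono nhdsWithin_le_nhds
  filter_upwards [self_mem_nhdsWithin, hsmall] with ε hε hεa'
  have hε0 : 0 < ε := hε
  have hεa : ε < a / 2 := lt_of_lt_of_le hεa' (min_le_left _ _)
  have hε1 : ε < 1 / 2 := lt_of_lt_of_le hεa' (min_le_right _ _)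
  obtain ⟨F, hF, hFb, hF0, hFeq⟩ := M56_core hqs hqd hqpos hk hk0 ha hab hb hka hkb
    hκ hκ0 hκ1 hκ2 hκi hε0 (by linarith only [hεa])
  have h1 := int_rad hdiv h hF hb hFb
  have hcφ := G.ev_cont φ
  have hcL := G.ev_cont (G.lap φ)
  have hcF : Continuous fun q => F (G.ev q φ) := hF.continuous.comp (G.ev_cont φ)
  have hcdF : Continuous fun q => deriv F (G.ev q φ) :=
    (hF.continuous_deriv (by norm_num)).comp (G.ev_cont φ)
  have hψc : Continuous fun q => κ (G.ev q φ / ε) / (4 * Real.pi ^ 2 * (G.ev q φ / ε)) := by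
    have := (M56_psi hκ hκ1).continuous
    exact this.comp (hcφ.div_const ε)
  have h2 : ∫ q, (I * (κ (G.ev q φ / ε) / (4 * Real.pi ^ 2 * (G.ev q φ / ε)) / ε ^ 2)
        - k (G.ev q φ)) ∂μ ≤
      ∫ q, (2 * G.ev q φ * deriv F (G.ev q φ) + F (G.ev q φ) * G.ev q (G.lap φ)) ∂μ := by
    refine integral_mono (((M56_int (hψc.div_const _)).const_mul I).sub
      (M56_int (hk.continuous.comp hcφ))) (M56_int (by continuity)) fun q => ?_
    show _ - _ ≤ _ + _
    rcases lt_or_ge (G.ev q φ) T with h3 | h3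
    · have h4 := hFeq (G.ev q φ) (h.nonneg q) h3
      have h5 : F (G.ev q φ) * (4 + 2 * G.ev q φ * qd1 (G.ev q φ) / qq (G.ev q φ)) ≤
          F (G.ev q φ) * G.ev q (G.lap φ) := by
        refine mul_le_mul_of_nonneg_left ?_ (hF0 _)
        have := h.lapL q h3
        unfold ww at this
        linarith only [this]
      have h6 : I * (κ (G.ev q φ / ε) / (4 * Real.pi ^ 2 * (G.ev q φ / ε)) / ε ^ 2) ≤
          I * (κ (G.ev q φ / ε) / (4 * Real.pi ^ 2 * (G.ev q φ / ε)) / ε ^ 2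
            / qq (G.ev q φ)) := by
        refine mul_le_mul_of_nonneg_left ?_ hI0
        rcases (h.nonneg q).eq_or_lt with h7 | h7
        · rw [← h7]; simp
        rcases le_or_gt (2 * ε) (G.ev q φ) with h8 | h8
        · rw [hκ2 _ (by rw [le_div_iff₀ hε0]; exact h8)]; simp
        · have hq0 := hqpos _ h7 h3
          have hq1 : qq (G.ev q φ) ≤ 1 := by
            unfold qq
            have h9 : G.ev q φ < 1 := by linarith only [h8, hε1]
            linarith only [mul_pos h7 (sub_pos.mpr h9), mul_pos (mul_pos h7 h7) h7, mul_pos h7 h7]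
          rw [le_div_iff₀ hq0]
          have h10 : 0 ≤ κ (G.ev q φ / ε) / (4 * Real.pi ^ 2 * (G.ev q φ / ε)) / ε ^ 2 := by
            have := hκ0 (G.ev q φ / ε)
            (clear * - this h7 hε0; positivity)
          exact mul_le_of_le_one_right h10 hq1
      linarith
    · have h5 : F =ᶠ[𝓝 (G.ev q φ)] fun _ => 0 := by
        filter_upwards [Ioi_mem_nhds (hb.trans_le h3)] with t ht using hFb t (le_of_lt ht)
      rw [h5.deriv_eq, deriv_const, hFb _ (by linarith), hkb _ (by linarith),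
        hκ2 (G.ev q φ / ε) (by rw [le_div_iff₀ hε0]; linarith)]
      simp
  rw [h1, integral_sub (f := fun q => I * (κ (G.ev q φ / ε) / (4 * Real.pi ^ 2
      * (G.ev q φ / ε)) / ε ^ 2)) (g := fun q => k (G.ev q φ))
      ((M56_int (hψc.div_const _)).const_mul I)
    (M56_int (hk.continuous.comp hcφ)), integral_const_mul, integral_div] at h2
  linarith only [h2]

end Vale.Agent.P211.S4

end

-- M6
section

/-! P211, S4: M6. -/

namespace Vale.Agent.P211.S4

open Topology Filter MeasureTheory Set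
open scoped ContDiff

/-! ### one variable -/

/-- a smooth step from `0` to `1` on `[1, 2]` -/
noncomputable def M6_A (x : ℝ) : ℝ := Real.smoothTransition (x - 1)

/-- its derivative -/
noncomputable def M6_kap (x : ℝ) : ℝ := deriv M6_A x

/-- the test function for the small balls -/
noncomputable def M6_psi (x : ℝ) : ℝ := M6_kap x / (4 * Real.pi ^ 2 * x)

theorem M6_A_smooth : ContDiff ℝ ∞ M6_A :=
  Real.smoothTransition.contDiff.comp (contDiff_id.sub contDiff_const)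

theorem M6_A_zero {x : ℝ} (hx : x ≤ 1) : M6_A x = 0 :=
  Real.smoothTransition.zero_of_nonpos (by linarith)

theorem M6_A_one {x : ℝ} (hx : 2 ≤ x) : M6_A x = 1 :=
  Real.smoothTransition.one_of_one_le (by linarith)

theorem M6_A_nonneg (x : ℝ) : 0 ≤ M6_A x := Real.smoothTransition.nonneg _

theorem M6_A_le (x : ℝ) : M6_A x ≤ 1 := Real.smoothTransition.le_one _

theorem M6_kap_smooth : ContDiff ℝ ∞ M6_kap := by
  have h := (contDiff_infty_iff_deriv.1 M6_A_smooth).2
  exact h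

theorem M6_A_deriv (x : ℝ) : HasDerivAt M6_A (M6_kap x) x :=
  ((contDiff_infty_iff_deriv.1 M6_A_smooth).1 x).hasDerivAt

theorem M6_kap_zero {x : ℝ} (hx : x ≤ 1) : M6_kap x = 0 := by
  apply IsLocalMin.deriv_eq_zero
  refine Filter.Eventually.of_forall fun y => ?_
  rw [M6_A_zero hx]
  exact M6_A_nonneg y

theorem M6_kap_two {x : ℝ} (hx : 2 ≤ x) : M6_kap x = 0 := by
  apply IsLocalMax.deriv_eq_zero
  refine Filter.Eventually.of_forall fun y => ?_
  rw [M6_A_one hx]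
  exact M6_A_le y

theorem M6_psi_zero {x : ℝ} (hx : x ≤ 1) : M6_psi x = 0 := by
  rw [M6_psi, M6_kap_zero hx, zero_div]

theorem M6_psi_two {x : ℝ} (hx : 2 ≤ x) : M6_psi x = 0 := by
  rw [M6_psi, M6_kap_two hx, zero_div]

theorem M6_psi_smooth : ContDiff ℝ ∞ M6_psi := by
  rw [contDiff_iff_contDiffAt]
  intro x
  by_cases hx : x < 1
  · have h : M6_psi =ᶠ[𝓝 x] fun _ => 0 := by
      filter_upwards [Iio_mem_nhds hx] with y hy
      exact M6_psi_zero (le_of_lt hy)
    exact contDiffAt_const.congr_of_eventuallyEq h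
  · push Not at hx
    have h0 : (4 * Real.pi ^ 2 * x) ≠ 0 := by
      have := Real.pi_pos
      positivity
    exact M6_kap_smooth.contDiffAt.div (contDiffAt_const.mul contDiffAt_id) h0

theorem M6_psi_int : ∫ s in (1 : ℝ)..2, M6_psi s * (4 * Real.pi ^ 2 * s) = 1 := by
  have h1 : ∫ s in (1 : ℝ)..2, M6_psi s * (4 * Real.pi ^ 2 * s) = ∫ s in (1 : ℝ)..2, M6_kap s := by
    refine intervalIntegral.integral_congr fun s hs => ?_
    rw [uIcc_of_le (by norm_num)] at hs
    have h0 : (4 * Real.pi ^ 2 * s) ≠ 0 := by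
      have := Real.pi_pos
      have := hs.1
      positivity
    simp only [M6_psi]
    rw [div_mul_cancel₀ _ h0]
  rw [h1, intervalIntegral.integral_eq_sub_of_hasDerivAt (fun x _ => M6_A_deriv x)
    (M6_kap_smooth.continuous.intervalIntegrable _ _), M6_A_one le_rfl, M6_A_zero le_rfl, sub_zero]

/-- the primitive of a function vanishing outside `[a, b]` -/
theorem M6_prim {g : ℝ → ℝ} (hg : ContDiff ℝ ∞ g) {a b T : ℝ} (ha : 0 < a) (hab : a ≤ b)
    (hb : b < T) (hg0 : ∀ s, 0 ≤ s → 0 ≤ g s) (hga : ∀ s, s ≤ a → g s = 0)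
    (hgb : ∀ s, b ≤ s → g s = 0) :
    ∃ Gg : ℝ → ℝ, ContDiff ℝ ∞ Gg ∧ (∀ s, HasDerivAt Gg (g s) s) ∧ (∀ s, s ≤ a → Gg s = 0) ∧
      (∀ s, b ≤ s → Gg s = ∫ t in (0 : ℝ)..T, g t) ∧
      (∀ s, 0 ≤ s → Gg s ≤ ∫ t in (0 : ℝ)..T, g t) := by
  have hd : ∀ s, HasDerivAt (fun s => ∫ t in (0 : ℝ)..s, g t) (g s) s := fun s =>
    (hg.continuous.integral_hasStrictDerivAt 0 s).hasDerivAt
  have hadd : ∀ s, (∫ t in (0 : ℝ)..s, g t) + ∫ t in s..T, g t = ∫ t in (0 : ℝ)..T, g t := fun s =>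
    intervalIntegral.integral_add_adjacent_intervals (hg.continuous.intervalIntegrable _ _)
      (hg.continuous.intervalIntegrable _ _)
  have hB : ∀ s, b ≤ s → (∫ t in (0 : ℝ)..s, g t) = ∫ t in (0 : ℝ)..T, g t := by
    intro s hs
    have h1 : ∫ t in s..T, g t = 0 := by
      rw [intervalIntegral.integral_congr (g := fun _ => (0 : ℝ)), intervalIntegral.integral_zero]
      intro t ht
      apply hgb
      rcases le_total s T with h | h
      · rw [uIcc_of_le h] at ht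
        exact hs.trans ht.1
      · rw [uIcc_of_ge h] at ht
        exact hb.le.trans ht.1
    rw [← hadd s, h1, add_zero]
  refine ⟨fun s => ∫ t in (0 : ℝ)..s, g t, ?_, hd, ?_, hB, ?_⟩
  · rw [contDiff_infty_iff_deriv]
    refine ⟨fun s => (hd s).differentiableAt, ?_⟩
    have h1 : deriv (fun s => ∫ t in (0 : ℝ)..s, g t) = g := funext fun s => (hd s).deriv
    rw [h1]
    exact hg
  · intro s hs
    show ∫ t in (0 : ℝ)..s, g t = 0
    rw [intervalIntegral.integral_congr (g := fun _ => (0 : ℝ)), intervalIntegral.integral_zero]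
    intro t ht
    apply hga
    rcases le_total 0 s with h | h
    · rw [uIcc_of_le h] at ht
      exact ht.2.trans hs
    · rw [uIcc_of_ge h] at ht
      exact ht.2.trans ha.le
  · intro s hs
    rcases le_total s T with h | h
    · have h1 : 0 ≤ ∫ t in s..T, g t :=
        intervalIntegral.integral_nonneg h fun t ht => hg0 t (hs.trans ht.1)
      have h2 := hadd s
      show ∫ t in (0 : ℝ)..s, g t ≤ _
      linarith
    · exact (hB s (hb.le.trans h)).le

/-- the radial test function -/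
theorem M6_F {k : ℝ → ℝ} (hk : ContDiff ℝ ∞ k) (hk0 : ∀ s, 0 ≤ k s) {a b T : ℝ}
    (ha : 0 < a) (hab : a ≤ b) (hb : b < T) (hka : ∀ s, s ≤ a → k s = 0)
    (hkb : ∀ s, b ≤ s → k s = 0) {ε : ℝ} (hε : 0 < ε) (hεa : 2 * ε < a) :
    ∃ F : ℝ → ℝ, ContDiff ℝ ∞ F ∧ (∀ s, 0 ≤ F s) ∧ (∀ s, b ≤ s → F s = 0) ∧
      ∀ s, 0 ≤ s → 2 * s * deriv F s + 4 * F s =
        (∫ s in (0 : ℝ)..T, k s * (4 * Real.pi ^ 2 * s)) * (M6_psi (s / ε) / ε ^ 2) - k s := by
  have hπ := Real.pi_pos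
  obtain ⟨Gg, hG1, hG2, hG3, hG4, hG5⟩ := M6_prim (g := fun s => k s * (4 * Real.pi ^ 2 * s))
    (hk.mul (contDiff_const.mul contDiff_id)) ha hab hb
    (fun s hs => mul_nonneg (hk0 s) (by positivity))
    (fun s hs => by rw [hka s hs, zero_mul]) (fun s hs => by rw [hkb s hs, zero_mul])
  set I : ℝ := ∫ s in (0 : ℝ)..T, k s * (4 * Real.pi ^ 2 * s) with hI
  have hI0 : 0 ≤ I := by
    have h1 := hG5 0 le_rfl
    rw [hG3 0 ha.le] at h1
    exact h1
  obtain ⟨K, hK⟩ : ∃ K : ℝ → ℝ, ∀ s, K s = I * M6_A (s / ε) - Gg s :=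
    ⟨fun s => I * M6_A (s / ε) - Gg s, fun _ => rfl⟩
  have hKf : K = fun s => I * M6_A (s / ε) - Gg s := funext hK
  have hKs : ContDiff ℝ ∞ K := by
    rw [hKf]
    exact (contDiff_const.mul (M6_A_smooth.comp (contDiff_id.div_const ε))).sub hG1
  have hKd : ∀ s, HasDerivAt K (I * (M6_kap (s / ε) * (1 / ε)) - k s * (4 * Real.pi ^ 2 * s)) s := by
    intro s
    rw [hKf]
    have h1 : HasDerivAt (fun s : ℝ => s / ε) (1 / ε) s := (hasDerivAt_id s).div_const ε
    exact (((M6_A_deriv (s / ε)).comp s h1).const_mul I).sub (hG2 s)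
  have hK0 : ∀ s, s ≤ ε → K s = 0 := by
    intro s hs
    rw [hK, M6_A_zero ((div_le_one hε).2 hs), hG3 s (by linarith)]
    ring
  have hKb : ∀ s, b ≤ s → K s = 0 := by
    intro s hs
    rw [hK, M6_A_one ((le_div_iff₀ hε).2 (by linarith)), hG4 s hs]
    ring
  have hKn : ∀ s, 0 ≤ K s := by
    intro s
    rcases le_total s a with hs | hs
    · rw [hK, hG3 s hs, sub_zero]
      exact mul_nonneg hI0 (M6_A_nonneg _)
    · rw [hK, M6_A_one ((le_div_iff₀ hε).2 (by linarith)), mul_one]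
      have := hG5 s (ha.le.trans hs)
      linarith
  refine ⟨fun s => K s / (8 * Real.pi ^ 2 * s ^ 2), ?_, fun s => div_nonneg (hKn s) (by positivity),
    fun s hs => by
      show K s / (8 * Real.pi ^ 2 * s ^ 2) = 0
      rw [hKb s hs, zero_div], fun s hs => ?_⟩
  · rw [contDiff_iff_contDiffAt]
    intro s
    by_cases hs : s < ε
    · have h : (fun s => K s / (8 * Real.pi ^ 2 * s ^ 2)) =ᶠ[𝓝 s] fun _ => 0 := by
        filter_upwards [Iio_mem_nhds hs] with y hy
        rw [hK0 y (le_of_lt hy), zero_div]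
      exact contDiffAt_const.congr_of_eventuallyEq h
    · push Not at hs
      have h0 : (8 * Real.pi ^ 2 * s ^ 2) ≠ 0 := by
        have h1 : 0 < s := hε.trans_le hs
        positivity
      exact hKs.contDiffAt.div (contDiffAt_const.mul (contDiffAt_id.pow 2)) h0
  · rcases hs.eq_or_lt with h0 | h0
    · rw [← h0, zero_div, M6_psi_zero (by norm_num), hka 0 ha.le]
      simp
    · have h1 : HasDerivAt (fun s => K s / (8 * Real.pi ^ 2 * s ^ 2))
          (((I * (M6_kap (s / ε) * (1 / ε)) - k s * (4 * Real.pi ^ 2 * s)) *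
            (8 * Real.pi ^ 2 * s ^ 2) - K s * (8 * Real.pi ^ 2 * (2 * s))) /
            (8 * Real.pi ^ 2 * s ^ 2) ^ 2) s := by
        have h2 : HasDerivAt (fun s : ℝ => 8 * Real.pi ^ 2 * s ^ 2)
            (8 * Real.pi ^ 2 * (2 * s)) s := by
          have h3 := (hasDerivAt_pow 2 s).const_mul (8 * Real.pi ^ 2)
          refine h3.congr_deriv ?_
          norm_num
        exact (hKd s).div h2 (by positivity)
      rw [h1.deriv, M6_psi]
      field_simp
      ring

/-! ### the estimate -/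

variable {M 𝒪 V : Type*} [TopologicalSpace M] [CommRing 𝒪] [Algebra ℝ 𝒪]
    [AddCommGroup V] [Module 𝒪 V] {G : Geo2 M 𝒪 V} {om : V → V → V → V → 𝒪}

section integration

variable [MeasurableSpace M] [BorelSpace M] {μ : Measure M} [IsFiniteMeasure μ]

/-- continuous functions are integrable -/
theorem M6_intble [CompactSpace M] {f : M → ℝ} (hf : Continuous f) : Integrable f μ :=
  hf.integrable_of_hasCompactSupport (HasCompactSupport.of_compactSpace f)

/-- M6 -/
theorem upper_test [CompactSpace M] (hdiv : DivThm G μ) {p : M} {T : ℝ} (hT0 : 0 < T)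
    {φ : 𝒪}
    (h : Radial G μ p T φ) {k : ℝ → ℝ} (hk : ContDiff ℝ ∞ k) (hk0 : ∀ s, 0 ≤ k s) {a b : ℝ}
    (ha : 0 < a) (hab : a ≤ b) (hb : b < T) (hka : ∀ s, s ≤ a → k s = 0)
    (hkb : ∀ s, b ≤ s → k s = 0) :
    ∫ q, k (G.ev q φ) ∂μ ≤ ∫ s in (0 : ℝ)..T, k s * (4 * Real.pi ^ 2 * s) := by
  set I : ℝ := ∫ s in (0 : ℝ)..T, k s * (4 * Real.pi ^ 2 * s) with hI
  have hφ : Continuous fun q => G.ev q φ := G.ev_cont φ
  have key : ∀ ε : ℝ, 0 < ε → 2 * ε < a →
      ∫ q, k (G.ev q φ) ∂μ ≤ I * ((∫ q, M6_psi (G.ev q φ / ε) ∂μ) / ε ^ 2) := by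
    intro ε hε hεa
    obtain ⟨F, hF1, hF2, hF3, hF4⟩ := M6_F hk hk0 ha hab hb hka hkb hε hεa
    have h1 := int_rad hdiv h hF1 hb hF3
    have hF' : Continuous (deriv F) := (contDiff_infty_iff_deriv.1 hF1).2.continuous
    have hi1 : Integrable (fun q => 2 * G.ev q φ * deriv F (G.ev q φ) +
        F (G.ev q φ) * G.ev q (G.lap φ)) μ :=
      M6_intble (((continuous_const.mul hφ).mul (hF'.comp hφ)).add
        ((hF1.continuous.comp hφ).mul (G.ev_cont _)))
    have hi2 : Integrable (fun q => 2 * G.ev q φ * deriv F (G.ev q φ) +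
        4 * F (G.ev q φ)) μ :=
      M6_intble (((continuous_const.mul hφ).mul (hF'.comp hφ)).add
        (continuous_const.mul (hF1.continuous.comp hφ)))
    have h2 : ∫ q, (2 * G.ev q φ * deriv F (G.ev q φ) + F (G.ev q φ) * G.ev q (G.lap φ)) ∂μ ≤
        ∫ q, (2 * G.ev q φ * deriv F (G.ev q φ) + 4 * F (G.ev q φ)) ∂μ := by
      refine integral_mono hi1 hi2 fun q => ?_
      show 2 * G.ev q φ * deriv F (G.ev q φ) + F (G.ev q φ) * G.ev q (G.lap φ) ≤
        2 * G.ev q φ * deriv F (G.ev q φ) + 4 * F (G.ev q φ)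
      by_cases hq : G.ev q φ < T
      · have h3 := h.lapU q hq
        have h4 := hF2 (G.ev q φ)
        linarith only [mul_nonneg (sub_nonneg.2 h3) (sub_nonneg.2 h4)]
      · push Not at hq
        rw [hF3 _ (hb.le.trans hq)]
        simp
    rw [h1] at h2
    have hi3 : Integrable (fun q => M6_psi (G.ev q φ / ε)) μ :=
      M6_intble (M6_psi_smooth.continuous.comp (hφ.div_const ε))
    have hi4 : Integrable (fun q => k (G.ev q φ)) μ := M6_intble (hk.continuous.comp hφ)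
    have h5 : ∫ q, (2 * G.ev q φ * deriv F (G.ev q φ) + 4 * F (G.ev q φ)) ∂μ =
        I * ((∫ q, M6_psi (G.ev q φ / ε) ∂μ) / ε ^ 2) - ∫ q, k (G.ev q φ) ∂μ := by
      have h6 : ∀ q, 2 * G.ev q φ * deriv F (G.ev q φ) + 4 * F (G.ev q φ) =
          I / ε ^ 2 * M6_psi (G.ev q φ / ε) - k (G.ev q φ) := by
        intro q
        rw [hF4 _ (h.nonneg q)]
        ring
      simp only [h6]
      rw [integral_sub (hi3.const_mul _) hi4, integral_const_mul]
      ring
    rw [h5] at h2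
    linarith
  have hlim : Tendsto (fun ε : ℝ => I * ((∫ q, M6_psi (G.ev q φ / ε) ∂μ) / ε ^ 2)) (𝓝[>] 0)
      (𝓝 (I * 1)) := by
    rw [← M6_psi_int]
    exact (asym_test h M6_psi_smooth (fun s hs => M6_psi_zero hs)
      (fun s hs => M6_psi_two hs)).const_mul I
  rw [mul_one] at hlim
  refine ge_of_tendsto hlim ?_
  have h7 : ∀ᶠ ε : ℝ in 𝓝[>] 0, ε < a / 2 := nhdsWithin_le_nhds (Iio_mem_nhds (by linarith))
  filter_upwards [self_mem_nhdsWithin, h7] with ε hε h8
  exact key ε hε (by linarith)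

end integration

end Vale.Agent.P211.S4

end

-- M7
section

/-! P211, S4, M7: comparison of measures on the line from smooth test functions. -/

namespace Vale.Agent.P211.S4

open Topology Filter MeasureTheory Set
open scoped ContDiff

private theorem m7_aux {α β : Measure ℝ} [IsFiniteMeasure α] [IsFiniteMeasure β] {T : ℝ}
    (h : ∀ (k : ℝ → ℝ) (a b : ℝ), ContDiff ℝ ∞ k → (∀ s, 0 ≤ k s) → 0 < a → a ≤ b → b < T →
      (∀ s, s ≤ a → k s = 0) → (∀ s, b ≤ s → k s = 0) → ∫ s, k s ∂α ≤ ∫ s, k s ∂β)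
    {K V : Set ℝ} (hK : IsCompact K) (hV : IsOpen V) (hKV : K ⊆ V) (hVT : V ⊆ Ioo 0 T) : α K ≤ β V := by
  rcases K.eq_empty_or_nonempty with rfl | hne
  · simp
  obtain ⟨W, hW, hKW, hWV, hWc⟩ := exists_open_between_and_isCompact_closure hK hV hKV
  obtain ⟨k, hk, hk01, hks, hk1⟩ := exists_contMDiff_support_eq_eq_one_iff (n := ⊤) (modelWithCornersSelf ℝ ℝ) hW
    hK.isClosed hKW
  have hcne : (closure W).Nonempty := (hne.mono hKW).closure
  have ha := hWc.sInf_mem hcne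
  have hb := hWc.sSup_mem hcne
  have ha' := hVT (hWV ha)
  have hb' := hVT (hWV hb)
  have hk0 : ∀ s, 0 ≤ k s := fun s => (hk01 (mem_range_self s)).1
  have hkle : ∀ s, k s ≤ 1 := fun s => (hk01 (mem_range_self s)).2
  have hout : ∀ s, s ∉ closure W → k s = 0 := by
    intro s hs
    by_contra hc
    have : s ∈ Function.support k := hc
    rw [hks] at this
    exact hs (subset_closure this)
  have hab : sInf (closure W) ≤ sSup (closure W) := (csInf_le hWc.bddBelow hb)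
  have key := h k (sInf (closure W) / 2) ((sSup (closure W) + T) / 2) hk.contDiff hk0 (by linarith [ha'.1])
    (by linarith [ha'.1, hb'.2]) (by linarith [hb'.2])
    (fun s hs => hout s fun hs' => by
      have := csInf_le hWc.bddBelow hs'
      linarith [ha'.1])
    (fun s hs => hout s fun hs' => by
      have := le_csSup hWc.bddAbove hs'
      linarith [hb'.2])
  have hki : ∀ μ : Measure ℝ, IsFiniteMeasure μ → Integrable k μ := by
    intro μ hμ
    refine (integrable_const (1 : ℝ)).mono' hk.contDiff.continuous.aestronglyMeasurable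
      (Eventually.of_forall fun s => ?_)
    rw [Real.norm_eq_abs, abs_of_nonneg (hk0 s)]
    exact hkle s
  have h1 : α K ≤ ENNReal.ofReal (∫ s, k s ∂α) := by
    rw [ofReal_integral_eq_lintegral_ofReal (hki α inferInstance) (Eventually.of_forall hk0)]
    rw [← lintegral_indicator_one hK.isClosed.measurableSet]
    refine lintegral_mono fun s => ?_
    by_cases hs : s ∈ K
    · rw [indicator_of_mem hs, (hk1 s).1 hs]
      simp
    · rw [indicator_of_notMem hs]
      exact zero_le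
  have h2 : ENNReal.ofReal (∫ s, k s ∂β) ≤ β V := by
    rw [ofReal_integral_eq_lintegral_ofReal (hki β inferInstance) (Eventually.of_forall hk0)]
    rw [← lintegral_indicator_one hV.measurableSet]
    refine lintegral_mono fun s => ?_
    by_cases hs : s ∈ V
    · rw [indicator_of_mem hs]
      simpa using hkle s
    · rw [hout s fun hs' => hs (hWV hs')]
      simp
  exact h1.trans ((ENNReal.ofReal_le_ofReal key).trans h2)

/-- M7: comparison of measures on the line from smooth test functions -/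
theorem measure_le_of_test {α β : Measure ℝ} [IsFiniteMeasure α] [IsFiniteMeasure β] {T : ℝ}
    (h : ∀ (k : ℝ → ℝ) (a b : ℝ), ContDiff ℝ ∞ k → (∀ s, 0 ≤ k s) → 0 < a → a ≤ b → b < T →
      (∀ s, s ≤ a → k s = 0) → (∀ s, b ≤ s → k s = 0) → ∫ s, k s ∂α ≤ ∫ s, k s ∂β) :
    α.restrict (Ioo 0 T) ≤ β.restrict (Ioo 0 T) := by
  refine Measure.le_iff.2 fun E hE => ?_
  rw [Measure.restrict_apply hE, Measure.restrict_apply hE]
  have hm : MeasurableSet (E ∩ Ioo 0 T) := hE.inter measurableSet_Ioo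
  refine le_of_forall_lt fun c hc => ?_
  obtain ⟨K, hKE, hK, hcK⟩ := hm.exists_lt_isCompact hc
  refine hcK.trans_le ?_
  refine (ENNReal.le_of_forall_pos_le_add fun ε hε _ => ?_ : α K ≤ β (E ∩ Ioo 0 T))
  have hβK : β K < β K + ε := ENNReal.lt_add_right (measure_ne_top _ _) (by exact_mod_cast hε.ne')
  obtain ⟨U, hKU, hU, hUβ⟩ := K.exists_isOpen_lt_of_lt _ hβK
  have h1 := m7_aux h hK (hU.inter isOpen_Ioo) (fun x hx => ⟨hKU hx, (hKE hx).2⟩) inter_subset_right
  refine h1.trans ((measure_mono inter_subset_left).trans (hUβ.le.trans ?_))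
  gcongr

end Vale.Agent.P211.S4

end

-- M89
section

/-! P211, S4: M8, M9 (density of the radial push forward). -/

namespace Vale.Agent.P211.S4

open Topology Filter MeasureTheory Set
open scoped ContDiff

/-- densities times indicator: integral of a function against the restricted density measure -/
private theorem M89_int {T : ℝ} (hT0 : 0 < T) {d : ℝ → ℝ} (hd : Continuous d)
    (hd0 : ∀ s, 0 < s → s < T → 0 ≤ d s) (k : ℝ → ℝ) :
    ∫ s, k s ∂((volume.withDensity fun s => ENNReal.ofReal (d s)).restrict (Ioo 0 T)) =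
      ∫ s in (0 : ℝ)..T, k s * d s := by
  rw [setIntegral_withDensity_eq_setIntegral_toReal_smul (by measurability)
    (Eventually.of_forall fun s => ENNReal.ofReal_lt_top) _ measurableSet_Ioo,
    intervalIntegral.integral_of_le hT0.le, ← integral_Ioc_eq_integral_Ioo]
  refine setIntegral_congr_fun measurableSet_Ioc fun s hs => ?_
  have h0 : 0 ≤ d s := by
    have h1 : s ∈ closure (Ioo (0 : ℝ) T) := by
      rw [closure_Ioo hT0.ne]
      exact Ioc_subset_Icc_self hs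
    exact (isClosed_le continuous_const hd).closure_subset_iff.2
      (fun t ht => hd0 t ht.1 ht.2) h1
  simp only [smul_eq_mul, ENNReal.toReal_ofReal h0]
  ring

private theorem M89_fin {T : ℝ} {d : ℝ → ℝ} (hd : Continuous d) :
    IsFiniteMeasure ((volume.withDensity fun s => ENNReal.ofReal (d s)).restrict (Ioo 0 T)) := by
  rw [restrict_withDensity measurableSet_Ioo]
  refine isFiniteMeasure_withDensity_ofReal ?_
  have h1 : IntegrableOn d (Ioo 0 T) := (hd.integrableOn_Icc).mono_set Ioo_subset_Icc_self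
  exact h1.2

variable {M 𝒪 V : Type*} [TopologicalSpace M] [CommRing 𝒪] [Algebra ℝ 𝒪]
    [AddCommGroup V] [Module 𝒪 V] {G : Geo2 M 𝒪 V} {om : V → V → V → V → 𝒪}
variable [MeasurableSpace M] [BorelSpace M] {μ : Measure M} [IsFiniteMeasure μ]

private theorem M89_qq {s : ℝ} (h0 : 0 < s) (h1 : s < 61 / 40) : 0 ≤ qq s := by
  unfold qq
  linarith only [sq_nonneg (s - 61 / 40), mul_pos (mul_pos h0 (sub_pos.2 h1)) (sub_pos.2 h1), mul_pos (mul_pos h0 (sub_pos.2 h1)) h0]

/-- M8 (uses M5, M7) -/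
theorem dens_lower [CompactSpace M] (hdiv : DivThm G μ) {p : M} {T : ℝ} (hT0 : 0 < T)
    (hT : T ≤ 61 / 40) {φ : 𝒪} (h : Radial G μ p T φ) :
    (volume.withDensity fun s => ENNReal.ofReal (4 * Real.pi ^ 2 * s * qq s)).restrict (Ioo 0 T) ≤
      (μ.map fun q => G.ev q φ).restrict (Ioo 0 T) := by
  have hc : Continuous fun q => G.ev q φ := G.ev_cont φ
  have hm : AEMeasurable (fun q => G.ev q φ) μ := hc.measurable.aemeasurable
  have hd : Continuous fun s : ℝ => 4 * Real.pi ^ 2 * s * qq s := by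
    unfold qq
    fun_prop
  have := M89_fin (T := T) hd
  have key := measure_le_of_test
    (α := (volume.withDensity fun s => ENNReal.ofReal
      (4 * Real.pi ^ 2 * s * qq s)).restrict (Ioo 0 T))
    (β := μ.map fun q => G.ev q φ)
    (T := T) (fun k a b hk hk0 ha hab hb hka hkb => by
      rw [M89_int hT0 hd (fun s hs hsT => by
          have := M89_qq hs (hsT.trans_le hT)
          positivity),
        integral_map hm hk.continuous.aestronglyMeasurable]
      exact lower_test hdiv hT0 hT h hk hk0 ha hab hb hka hkb)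
  rwa [Measure.restrict_restrict measurableSet_Ioo, inter_self] at key

/-- M9 (uses M6, M7) -/
theorem dens_upper [CompactSpace M] (hdiv : DivThm G μ) {p : M} {T : ℝ} (hT0 : 0 < T)
    {φ : 𝒪} (h : Radial G μ p T φ) :
    (μ.map fun q => G.ev q φ).restrict (Ioo 0 T) ≤
      (volume.withDensity fun s => ENNReal.ofReal (4 * Real.pi ^ 2 * s)).restrict (Ioo 0 T) := by
  have hc : Continuous fun q => G.ev q φ := G.ev_cont φ
  have hm : AEMeasurable (fun q => G.ev q φ) μ := hc.measurable.aemeasurable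
  have hd : Continuous fun s : ℝ => 4 * Real.pi ^ 2 * s := by fun_prop
  have := M89_fin (T := T) hd
  have key := measure_le_of_test (α := μ.map fun q => G.ev q φ)
    (β := (volume.withDensity fun s => ENNReal.ofReal (4 * Real.pi ^ 2 * s)).restrict (Ioo 0 T))
    (T := T) (fun k a b hk hk0 ha hab hb hka hkb => by
      rw [M89_int hT0 hd (fun s hs _ => by positivity),
        integral_map hm hk.continuous.aestronglyMeasurable]
      exact upper_test hdiv hT0 h hk hk0 ha hab hb hka hkb)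
  rwa [Measure.restrict_restrict measurableSet_Ioo, inter_self] at key

end Vale.Agent.P211.S4

end

-- M10
section

/-! P211, S4, M10: the differential inequality for the regularised fourth root. -/

namespace Vale.Agent.P211.S4

open Topology Filter MeasureTheory Set
open scoped ContDiff

variable {M 𝒪 V : Type*} [TopologicalSpace M] [CommRing 𝒪] [Algebra ℝ 𝒪]
    [AddCommGroup V] [Module 𝒪 V] {G : Geo2 M 𝒪 V} {om : V → V → V → V → 𝒪}

/-- the real inequality behind `root_ineq`, case `u > 0` -/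
private theorem M10_real {U L N y e : ℝ} (hU : 0 < U) (hy : 0 < y) (he : 0 ≤ e) (hey : e ≤ y)
    (hN : 0 ≤ N) (hw : y ^ 4 = U + e ^ 4)
    (h : 12 * U * (U - U * Real.sqrt U) + 3 / 4 * N ≤ U * L) :
    3 * y - 3 * y ^ 3 - 3 * e ≤ -(3 / 16) / y ^ 7 * N + 1 / 4 / y ^ 3 * L := by
  have hy3 : 0 < y ^ 3 := by positivity
  have hy7 : 0 < y ^ 7 := by positivity
  have he4 : 0 ≤ e ^ 4 := by positivity
  have hs : Real.sqrt U ≤ y ^ 2 := by
    apply Real.sqrt_le_iff.mpr
    refine ⟨by positivity, ?_⟩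
    linarith only [he4, hw]
  have hs0 : 0 ≤ Real.sqrt U := Real.sqrt_nonneg U
  have hUy : U ≤ y ^ 4 := by linarith
  have h1 : U * Real.sqrt U ≤ y ^ 6 := by
    calc U * Real.sqrt U ≤ y ^ 4 * y ^ 2 := mul_le_mul hUy hs hs0 (by positivity)
      _ = y ^ 6 := by ring
  have h2 : e ^ 4 ≤ e * y ^ 3 := by
    have : e ^ 3 ≤ y ^ 3 := pow_le_pow_left₀ he hey 3
    calc e ^ 4 = e * e ^ 3 := by ring
      _ ≤ e * y ^ 3 := mul_le_mul_of_nonneg_left this he
  have hL : 12 * (U - U * Real.sqrt U) + 3 / 4 * N / U ≤ L := by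
    have : U * (12 * (U - U * Real.sqrt U) + 3 / 4 * N / U) ≤ U * L := by
      have e1 : U * (12 * (U - U * Real.sqrt U) + 3 / 4 * N / U)
          = 12 * U * (U - U * Real.sqrt U) + 3 / 4 * N := by
        field_simp
      rw [e1]; exact h
    exact le_of_mul_le_mul_left this hU
  have hk : 1 / 4 / y ^ 3 * (12 * (U - U * Real.sqrt U) + 3 / 4 * N / U) ≤ 1 / 4 / y ^ 3 * L :=
    mul_le_mul_of_nonneg_left hL (by positivity)
  have hNN : 3 / 16 / y ^ 7 * N ≤ 1 / 4 / y ^ 3 * (3 / 4 * N / U) := by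
    have e2 : 3 / 16 / y ^ 7 * N = 3 / 16 * N / y ^ 3 * (1 / y ^ 4) := by
      rw [show y ^ 7 = y ^ 3 * y ^ 4 by ring]
      field_simp
    have e3 : 1 / 4 / y ^ 3 * (3 / 4 * N / U) = 3 / 16 * N / y ^ 3 * (1 / U) := by
      ring
    rw [e2, e3]
    apply mul_le_mul_of_nonneg_left _ (by positivity)
    exact one_div_le_one_div_of_le hU hUy
  have h3 : 3 * y - 3 * y ^ 3 - 3 * e ≤ 3 * (U - U * Real.sqrt U) / y ^ 3 := by
    rw [le_div_iff₀ hy3]
    have hUe : U = y ^ 4 - e ^ 4 := by linarith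
    linarith only [h2, h1, hUe]
  have e4 : 1 / 4 / y ^ 3 * (12 * (U - U * Real.sqrt U) + 3 / 4 * N / U)
      = 3 * (U - U * Real.sqrt U) / y ^ 3 + 1 / 4 / y ^ 3 * (3 / 4 * N / U) := by
    ring
  have e5 : -(3 / 16) / y ^ 7 * N = -(3 / 16 / y ^ 7 * N) := by ring
  rw [e5]
  linarith only [e4, h3, hNN, hk]

/-- M10: the differential inequality for the regularised fourth root. -/
theorem root_ineq {u : 𝒪} (hu0 : ∀ p, 0 ≤ G.ev p u)
    (hu : ∀ p, 12 * G.ev p u * (G.ev p u - G.ev p u * Real.sqrt (G.ev p u))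
        + 3 / 4 * G.ev p (G.g (G.grad u) (G.grad u)) ≤ G.ev p u * G.ev p (G.lap u))
    {ε : ℝ} (hε : 0 < ε) :
    ∃ f : 𝒪, ∀ p, 0 < G.ev p f ∧ G.ev p f ^ 4 = G.ev p u + ε ∧
      3 * G.ev p f - 3 * G.ev p f ^ 3 - 3 * ε ^ (1 / 4 : ℝ) ≤ G.ev p (G.lap f) := by
  have hd : ∀ (a x : ℝ), 0 < x + ε →
      HasDerivAt (fun x : ℝ => (x + ε) ^ a) (a * (x + ε) ^ (a - 1)) x := by
    intro a x hx
    have h1 : HasDerivAt (fun x : ℝ => x + ε) 1 x := (hasDerivAt_id x).add_const ε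
    have := h1.rpow_const (p := a) (Or.inl hx.ne')
    simpa [mul_comm] using this
  have hc : ∀ (a : ℝ) (q : M), ContDiffAt ℝ ∞ (fun x : ℝ => (x + ε) ^ a) (G.ev q u) := by
    intro a q
    have hx : G.ev q u + ε ≠ 0 := by have := hu0 q; positivity
    exact (contDiffAt_id.add contDiffAt_const).rpow_const_of_ne hx
  obtain ⟨f, hf⟩ := G.comp u (fun x : ℝ => (x + ε) ^ (1 / 4 : ℝ)) (hc _)
  obtain ⟨h, hh⟩ := G.comp u (fun x : ℝ => (x + ε) ^ (-3 / 4 : ℝ)) (hc _)
  have hpos : ∀ q, 0 < G.ev q u + ε := fun q => by have := hu0 q; positivity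
  have hDf : ∀ X, G.D X f = algebraMap ℝ 𝒪 (1 / 4) * h * G.D X u := by
    intro X
    apply G.ev_ext
    intro q
    rw [(hf q).2 X, (hd _ _ (hpos q)).deriv, map_mul, map_mul, (hh q).1]
    have : G.ev q (algebraMap ℝ 𝒪 (1 / 4)) = 1 / 4 := by
      rw [AlgHom.commutes]; rfl
    rw [this]
    norm_num
  have hDDf : ∀ (q : M) (X : V), G.ev q (G.D X (G.D X f)) =
      1 / 4 * (-3 / 4 * (G.ev q u + ε) ^ (-7 / 4 : ℝ)) * G.ev q (G.D X u) ^ 2
        + 1 / 4 * (G.ev q u + ε) ^ (-3 / 4 : ℝ) * G.ev q (G.D X (G.D X u)) := by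
    intro q X
    have hq : G.ev q (algebraMap ℝ 𝒪 (1 / 4)) = 1 / 4 := by
      rw [AlgHom.commutes]; rfl
    rw [hDf X, G.D_mul, G.D_mul, G.D_const]
    simp only [map_add, map_mul, hq, map_zero]
    rw [(hh q).2 X, (hd _ _ (hpos q)).deriv, (hh q).1]
    norm_num
    ring
  refine ⟨f, fun p => ?_⟩
  obtain ⟨F₀, hF₀⟩ := G.frame p
  obtain ⟨F, hF1, -, hF3⟩ := G.sync p F₀ hF₀
  have hS : G.Sync p F := ⟨hF1, hF3⟩
  have hw := hpos p
  set U := G.ev p u with hU
  set y := (U + ε) ^ (1 / 4 : ℝ) with hy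
  set e := ε ^ (1 / 4 : ℝ) with he
  have hy0 : 0 < y := Real.rpow_pos_of_pos hw _
  have he0 : 0 < e := Real.rpow_pos_of_pos hε _
  have hy4 : y ^ 4 = U + ε := by
    rw [hy, ← Real.rpow_natCast, ← Real.rpow_mul hw.le]; norm_num
  have he4 : e ^ 4 = ε := by
    rw [he, ← Real.rpow_natCast, ← Real.rpow_mul hε.le]; norm_num
  have hfy : G.ev p f = y := (hf p).1
  have h34 : (U + ε) ^ (-3 / 4 : ℝ) = 1 / y ^ 3 := by
    rw [hy, ← Real.rpow_natCast, ← Real.rpow_mul hw.le, one_div, ← Real.rpow_neg hw.le]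
    norm_num
  have h74 : (U + ε) ^ (-7 / 4 : ℝ) = 1 / y ^ 7 := by
    rw [hy, ← Real.rpow_natCast, ← Real.rpow_mul hw.le, one_div, ← Real.rpow_neg hw.le]
    norm_num
  have hlap : G.ev p (G.lap f) = -(3 / 16) / y ^ 7 * G.ev p (G.g (G.grad u) (G.grad u))
      + 1 / 4 / y ^ 3 * G.ev p (G.lap u) := by
    rw [lap_sync f hS, lap_sync u hS, grad_sq u hS.at, Finset.mul_sum, Finset.mul_sum,
      ← Finset.sum_add_distrib]
    apply Finset.sum_congr rfl
    intro m _
    rw [hDDf p (F m), h34, h74]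
    ring
  rw [hfy]
  refine ⟨hy0, hy4, ?_⟩
  rw [hlap]
  have hN : 0 ≤ G.ev p (G.g (G.grad u) (G.grad u)) := G.g_nonneg p _
  rcases (hu0 p).eq_or_lt with h0 | h0
  · have hmin : IsLocalMin (fun q => G.ev q u) p := by
      apply Filter.Eventually.of_forall
      intro q
      show G.ev p u ≤ G.ev q u
      rw [← h0]; exact hu0 q
    have hmt := G.min_test p u hmin
    have hN0 : G.ev p (G.g (G.grad u) (G.grad u)) = 0 := by
      rw [grad_sq u hS.at]
      apply Finset.sum_eq_zero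
      intro m _
      rw [(hmt (F m)).1]; ring
    have hL0 : 0 ≤ G.ev p (G.lap u) := by
      rw [lap_sync u hS]
      exact Finset.sum_nonneg fun m _ => (hmt (F m)).2
    rw [hN0]
    have hU0 : U = 0 := h0.symm
    have hye : y = e := by rw [hy, he, hU0, zero_add]
    have h5 : 0 ≤ 1 / 4 / y ^ 3 * G.ev p (G.lap u) := by (clear * - h0 hε hL0; positivity)
    have h6 : 0 < y ^ 3 := by positivity
    rw [hye] at h5 h6 ⊢
    linarith only [h6, h5]
  · apply M10_real h0 hy0 he0.le _ hN _ (hu p)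
    · rw [he, hy]
      exact Real.rpow_le_rpow hε.le (by linarith only [h0]) (by norm_num)
    · rw [hy4, he4]

end Vale.Agent.P211.S4

end

-- M11
section

/-! P211, S4, M11: the weighted differential inequality for the fourth root, in the limit. -/

namespace Vale.Agent.P211.S4

open Topology Filter MeasureTheory Set
open scoped ContDiff

variable {M 𝒪 V : Type*} [TopologicalSpace M] [CommRing 𝒪] [Algebra ℝ 𝒪]
    [AddCommGroup V] [Module 𝒪 V] {G : Geo2 M 𝒪 V} {om : V → V → V → V → 𝒪}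

theorem M11_qq_pos {s : ℝ} (hs : s ≤ 61 / 40) : 0 < qq s := by
  unfold qq
  linarith only [mul_nonneg (sub_nonneg.2 hs) (sq_nonneg s), mul_nonneg (sub_nonneg.2 hs) (sq_nonneg (s - 11 / 4)), hs]

/-- the derivative of a function vanishing beyond `T1` vanishes beyond `T1`. -/
theorem M11_deriv_zero {F : ℝ → ℝ} {T1 : ℝ} (hF0 : ∀ s, T1 ≤ s → F s = 0) {s : ℝ} (hs : T1 < s) :
    deriv F s = 0 := by
  have h2 : F =ᶠ[𝓝 s] fun _ => 0 := by
    filter_upwards [Ioi_mem_nhds hs] with t ht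
    exact hF0 t (le_of_lt ht)
  rw [h2.deriv_eq, deriv_const]

/-- `F' w` is continuous. -/
theorem M11_cont {F : ℝ → ℝ} (hF : ContDiff ℝ ∞ F) {T1 : ℝ} (hT1 : T1 < 61 / 40)
    (hF0 : ∀ s, T1 ≤ s → F s = 0) : Continuous fun s => deriv F s * (3 + ww s) := by
  have hF1 : ContDiff ℝ ∞ (deriv F) := by
    have h1 : ContDiff ℝ (∞ + 1) F := hF
    exact (contDiff_succ_iff_deriv.1 h1).2.2
  rw [continuous_iff_continuousAt]
  intro s
  rcases lt_or_ge T1 s with hs | hs
  · have h2 : (fun s => deriv F s * (3 + ww s)) =ᶠ[𝓝 s] fun _ => 0 := by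
      filter_upwards [Ioi_mem_nhds hs] with t ht
      rw [M11_deriv_zero hF0 ht, zero_mul]
    exact (continuousAt_const).congr h2.symm
  · have hq : qq s ≠ 0 := (M11_qq_pos (hs.trans hT1.le)).ne'
    refine hF1.continuous.continuousAt.mul (continuousAt_const.add ?_)
    unfold ww
    refine continuousAt_const.add (ContinuousAt.div ?_ ?_ hq)
    · unfold qd1; fun_prop
    · unfold qq; fun_prop

section integration2

variable [MeasurableSpace M] [BorelSpace M] {μ : Measure M} [IsFiniteMeasure μ]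

theorem M11_integrable [CompactSpace M] {f : M → ℝ} (hf : Continuous f) : Integrable f μ :=
  hf.integrable_of_hasCompactSupport (HasCompactSupport.of_compactSpace f)

/-- M11 (uses M3, M10) -/
theorem star [CompactSpace M] (hdiv : DivThm G μ) {p : M} {T : ℝ} (hT : T ≤ 61 / 40) {φ : 𝒪}
    (h : Radial G μ p T φ) {u : 𝒪} (hu0 : ∀ p, 0 ≤ G.ev p u)
    (hu : ∀ p, 12 * G.ev p u * (G.ev p u - G.ev p u * Real.sqrt (G.ev p u))
        + 3 / 4 * G.ev p (G.g (G.grad u) (G.grad u)) ≤ G.ev p u * G.ev p (G.lap u))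
    {F : ℝ → ℝ} (hF : ContDiff ℝ ∞ F) {T1 : ℝ} (hT1 : T1 < T) (hF0 : ∀ s, T1 ≤ s → F s = 0)
    (hFn : ∀ s, 0 ≤ F s) (hFd : ∀ s, deriv F s ≤ 0) :
    0 ≤ ∫ q, ((G.ev q u) ^ (1 / 4 : ℝ) * (2 * G.ev q φ * deriv (deriv F) (G.ev q φ)
        + deriv F (G.ev q φ) * (3 + ww (G.ev q φ)) - 3 * F (G.ev q φ))
      + 3 * F (G.ev q φ) * ((G.ev q u) ^ (1 / 4 : ℝ)) ^ 3) ∂μ := by
  have hF1 : ContDiff ℝ ∞ (deriv F) := by
    have h1 : ContDiff ℝ (∞ + 1) F := hF
    exact (contDiff_succ_iff_deriv.1 h1).2.2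
  have hF2 : ContDiff ℝ ∞ (deriv (deriv F)) := by
    have h1 : ContDiff ℝ (∞ + 1) (deriv F) := hF1
    exact (contDiff_succ_iff_deriv.1 h1).2.2
  have hcφ : Continuous fun q => G.ev q φ := G.ev_cont φ
  have hcu : Continuous fun q => G.ev q u := G.ev_cont u
  -- the coefficient of the fourth root
  set K : M → ℝ := fun q => 2 * G.ev q φ * deriv (deriv F) (G.ev q φ)
        + deriv F (G.ev q φ) * (3 + ww (G.ev q φ)) - 3 * F (G.ev q φ) with hK
  have hKc : Continuous K := by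
    have h1 := (M11_cont hF (hT1.trans_le hT) hF0).comp hcφ
    have h2 := hF2.continuous.comp hcφ
    have h3 := hF.continuous.comp hcφ
    exact (((continuous_const.mul hcφ).mul h2).add h1).sub (continuous_const.mul h3)
  have hFc : Continuous fun q => F (G.ev q φ) := hF.continuous.comp hcφ
  -- the regularised integrand
  set A : ℝ → M → ℝ := fun ε q => (G.ev q u + ε) ^ (1 / 4 : ℝ) * K q
      + 3 * F (G.ev q φ) * ((G.ev q u + ε) ^ (1 / 4 : ℝ)) ^ 3
      + 3 * F (G.ev q φ) * ε ^ (1 / 4 : ℝ) with hA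
  have hrc : ∀ ε : ℝ, Continuous fun q => (G.ev q u + ε) ^ (1 / 4 : ℝ) := fun ε =>
    (hcu.add continuous_const).rpow_const fun q => Or.inr (by norm_num)
  have hAc : ∀ ε, Continuous (A ε) := fun ε =>
    (((hrc ε).mul hKc).add ((continuous_const.mul hFc).mul ((hrc ε).pow 3))).add
      ((continuous_const.mul hFc).mul continuous_const)
  -- nonnegativity of the regularised integral
  have hpos : ∀ ε : ℝ, 0 < ε → 0 ≤ ∫ q, A ε q ∂μ := by
    intro ε hε
    obtain ⟨f, hf⟩ := root_ineq hu0 hu hε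
    have hfr : ∀ q, G.ev q f = (G.ev q u + ε) ^ (1 / 4 : ℝ) := by
      intro q
      obtain ⟨h1, h2, _⟩ := hf q
      rw [← h2, ← Real.rpow_natCast, ← Real.rpow_mul h1.le]
      norm_num
    have hg := green_rad hdiv h hF hT1 hF0 f
    rw [← hg]
    refine integral_mono (M11_integrable ?_) (M11_integrable (hAc ε)) ?_
    · exact ((G.ev_cont f).mul (((continuous_const.mul hcφ).mul (hF2.continuous.comp hcφ)).add
        ((hF1.continuous.comp hcφ).mul (G.ev_cont _)))).sub (hFc.mul (G.ev_cont _))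
    · intro q
      obtain ⟨h1, h2, h3⟩ := hf q
      have h4 : deriv F (G.ev q φ) * G.ev q (G.lap φ) ≤
          deriv F (G.ev q φ) * (3 + ww (G.ev q φ)) := by
        rcases lt_or_ge (G.ev q φ) T with hq | hq
        · exact mul_le_mul_of_nonpos_left (h.lapL q hq) (hFd _)
        · rw [M11_deriv_zero hF0 (hT1.trans_le hq), zero_mul, zero_mul]
      have h5 : F (G.ev q φ) * (3 * G.ev q f - 3 * G.ev q f ^ 3 - 3 * ε ^ (1 / 4 : ℝ)) ≤
          F (G.ev q φ) * G.ev q (G.lap f) := mul_le_mul_of_nonneg_left h3 (hFn _)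
      have h6 : G.ev q f * (deriv F (G.ev q φ) * G.ev q (G.lap φ)) ≤
          G.ev q f * (deriv F (G.ev q φ) * (3 + ww (G.ev q φ))) :=
        mul_le_mul_of_nonneg_left h4 h1.le
      simp only [hA, hK, ← hfr q]
      linarith only [h6, h5]
  -- passage to the limit
  obtain ⟨C1, hC1⟩ := isCompact_univ.exists_bound_of_continuousOn hKc.continuousOn
  obtain ⟨C2, hC2⟩ := isCompact_univ.exists_bound_of_continuousOn hFc.continuousOn
  obtain ⟨C3, hC3⟩ := isCompact_univ.exists_bound_of_continuousOn (hrc 1).continuousOn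
  have hlim : Tendsto (fun n : ℕ => ∫ q, A (1 / ((n : ℝ) + 1)) q ∂μ) atTop
      (𝓝 (∫ q, ((G.ev q u) ^ (1 / 4 : ℝ) * K q
        + 3 * F (G.ev q φ) * ((G.ev q u) ^ (1 / 4 : ℝ)) ^ 3) ∂μ)) := by
    refine tendsto_integral_of_dominated_convergence
      (fun _ => C3 * C1 + 3 * C2 * C3 ^ 3 + 3 * C2) (fun n => (hAc _).aestronglyMeasurable)
      (integrable_const _) (fun n => Eventually.of_forall fun q => ?_)
      (Eventually.of_forall fun q => ?_)
    · have hn0 : (0 : ℝ) < 1 / ((n : ℝ) + 1) := by positivity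
      have hn1 : 1 / ((n : ℝ) + 1) ≤ 1 := by
        rw [div_le_one (by (clear * -; positivity))]
        linarith only [n.cast_nonneg (α := ℝ)]
      have hr0 : 0 ≤ (G.ev q u + 1 / ((n : ℝ) + 1)) ^ (1 / 4 : ℝ) :=
        Real.rpow_nonneg (by linarith only [hu0 q, hn0]) _
      have hr1 : (G.ev q u + 1 / ((n : ℝ) + 1)) ^ (1 / 4 : ℝ) ≤ C3 := by
        refine le_trans (Real.rpow_le_rpow (by linarith only [hu0 q, hn0]) (by linarith only [hn1]) (by norm_num)
          : _ ≤ (G.ev q u + 1) ^ (1 / 4 : ℝ)) ((le_abs_self _).trans (hC3 q (mem_univ q)))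
      have hC3' : 0 ≤ C3 := hr0.trans hr1
      have he0 : 0 ≤ (1 / ((n : ℝ) + 1)) ^ (1 / 4 : ℝ) := Real.rpow_nonneg hn0.le _
      have he1 : (1 / ((n : ℝ) + 1)) ^ (1 / 4 : ℝ) ≤ 1 :=
        Real.rpow_le_one hn0.le hn1 (by norm_num)
      have hk1 := hC1 q (mem_univ q)
      have hk2 := hC2 q (mem_univ q)
      rw [Real.norm_eq_abs] at hk1 hk2
      have hF' : F (G.ev q φ) ≤ C2 := (le_abs_self _).trans hk2
      have hC2' : 0 ≤ C2 := (hFn _).trans hF'
      rw [Real.norm_eq_abs]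
      simp only [hA]
      refine (abs_add_le _ _).trans (add_le_add ((abs_add_le _ _).trans (add_le_add ?_ ?_)) ?_)
      · rw [abs_mul, abs_of_nonneg hr0]
        exact mul_le_mul hr1 hk1 (abs_nonneg _) hC3'
      · rw [abs_of_nonneg (mul_nonneg (mul_nonneg (by norm_num) (hFn _)) (pow_nonneg hr0 3))]
        refine mul_le_mul (by linarith only [hF']) (pow_le_pow_left₀ hr0 hr1 3) (pow_nonneg hr0 3)
          (by positivity)
      · rw [abs_of_nonneg (mul_nonneg (mul_nonneg (by norm_num) (hFn _)) he0)]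
        linarith only [mul_nonneg (sub_nonneg.2 hF') he0, mul_nonneg hC2' (sub_nonneg.2 he1)]
    · have ht : Tendsto (fun n : ℕ => 1 / ((n : ℝ) + 1)) atTop (𝓝 0) :=
        tendsto_one_div_add_atTop_nhds_zero_nat
      have hc : ∀ a : ℝ, Tendsto (fun n : ℕ => (a + 1 / ((n : ℝ) + 1)) ^ (1 / 4 : ℝ)) atTop
          (𝓝 (a ^ (1 / 4 : ℝ))) := by
        intro a
        have h1 : Tendsto (fun n : ℕ => a + 1 / ((n : ℝ) + 1)) atTop (𝓝 a) := by
          simpa using ht.const_add a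
        exact h1.rpow_const (Or.inr (by norm_num))
      have h0 : Tendsto (fun n : ℕ => (1 / ((n : ℝ) + 1)) ^ (1 / 4 : ℝ)) atTop (𝓝 0) := by
        have h1 := hc 0
        rw [Real.zero_rpow (by norm_num)] at h1
        simpa using h1
      have h2 := (((hc (G.ev q u)).mul_const (K q)).add
        (((hc (G.ev q u)).pow 3).const_mul (3 * F (G.ev q φ)))).add
        (h0.const_mul (3 * F (G.ev q φ)))
      rw [mul_zero, add_zero] at h2
      exact h2
  exact ge_of_tendsto' hlim fun n => hpos _ (by positivity)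

end integration2

end Vale.Agent.P211.S4

end

-- M12a
section

/-! P211, S4, task M12: one-variable part (helper828). -/

namespace Vale.Agent.P211.S4

open Topology Filter MeasureTheory Set
open scoped ContDiff

/-! ### the smooth transition -/

theorem m12_ST_diff : Differentiable ℝ Real.smoothTransition :=
  (Real.smoothTransition.contDiff (n := 1)).differentiable (by simp)

theorem m12_ST_hd (x : ℝ) : HasDerivAt Real.smoothTransition (deriv Real.smoothTransition x) x := (m12_ST_diff x).hasDerivAt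

theorem m12_STd_cont : Continuous (deriv Real.smoothTransition) :=
  (Real.smoothTransition.contDiff (n := 1)).continuous_deriv (by simp)

theorem m12_STd_nonneg (x : ℝ) : 0 ≤ deriv Real.smoothTransition x :=
  Real.smoothTransition.monotone.deriv_nonneg

theorem m12_STd_of_lt {x : ℝ} (hx : x < 0) : deriv Real.smoothTransition x = 0 := by
  have h : Real.smoothTransition =ᶠ[𝓝 x] fun _ => 0 := by
    filter_upwards [gt_mem_nhds hx] with y hy
    exact Real.smoothTransition.zero_of_nonpos hy.le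
  rw [h.deriv_eq]; simp

theorem m12_STd_of_gt {x : ℝ} (hx : 1 < x) : deriv Real.smoothTransition x = 0 := by
  have h : Real.smoothTransition =ᶠ[𝓝 x] fun _ => 1 := by
    filter_upwards [lt_mem_nhds hx] with y hy
    exact Real.smoothTransition.one_of_one_le hy.le
  rw [h.deriv_eq]; simp

theorem m12_STd_zero {x : ℝ} (hx : x ≤ 0) : deriv Real.smoothTransition x = 0 := by
  rcases hx.lt_or_eq with h | rfl
  · exact m12_STd_of_lt h
  · have h1 : Tendsto (deriv Real.smoothTransition) (𝓝[<] 0) (𝓝 (deriv Real.smoothTransition 0)) :=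
      (m12_STd_cont.tendsto 0).mono_left nhdsWithin_le_nhds
    have h2 : Tendsto (deriv Real.smoothTransition) (𝓝[<] 0) (𝓝 0) := by
      refine Tendsto.congr' ?_ tendsto_const_nhds
      filter_upwards [self_mem_nhdsWithin] with y hy
      exact (m12_STd_of_lt hy).symm
    exact tendsto_nhds_unique h1 h2

theorem m12_STd_one {x : ℝ} (hx : 1 ≤ x) : deriv Real.smoothTransition x = 0 := by
  rcases hx.lt_or_eq with h | rfl
  · exact m12_STd_of_gt h
  · have h1 : Tendsto (deriv Real.smoothTransition) (𝓝[>] 1) (𝓝 (deriv Real.smoothTransition 1)) :=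
      (m12_STd_cont.tendsto 1).mono_left nhdsWithin_le_nhds
    have h2 : Tendsto (deriv Real.smoothTransition) (𝓝[>] 1) (𝓝 0) := by
      refine Tendsto.congr' ?_ tendsto_const_nhds
      filter_upwards [self_mem_nhdsWithin] with y hy
      exact (m12_STd_of_gt hy).symm
    exact tendsto_nhds_unique h1 h2

theorem m12_STd_bdd : ∃ C, 0 ≤ C ∧ ∀ x, deriv Real.smoothTransition x ≤ C := by
  obtain ⟨C, hC⟩ := (isCompact_Icc (a := (0 : ℝ)) (b := 1)).exists_bound_of_continuousOn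
    m12_STd_cont.continuousOn
  refine ⟨|C|, abs_nonneg _, fun x => ?_⟩
  by_cases h : x ∈ Icc (0 : ℝ) 1
  · have := hC x h
    rw [Real.norm_eq_abs] at this
    exact (le_abs_self _).trans (this.trans (le_abs_self _))
  · rw [mem_Icc, not_and_or, not_le, not_le] at h
    rcases h with h | h
    · rw [m12_STd_of_lt h]; exact abs_nonneg _
    · rw [m12_STd_of_gt h]; exact abs_nonneg _

/-! ### cutoffs -/

/-- inner cutoff -/
noncomputable def m12a (ε s : ℝ) : ℝ := Real.smoothTransition (s / ε - 1)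
/-- its derivative -/
noncomputable def m12a' (ε s : ℝ) : ℝ := deriv Real.smoothTransition (s / ε - 1) * (1 / ε)
/-- outer cutoff -/
noncomputable def m12b (ε s : ℝ) : ℝ := Real.smoothTransition ((3 / 2 - s) / ε)
/-- minus its derivative -/
noncomputable def m12b' (ε s : ℝ) : ℝ := deriv Real.smoothTransition ((3 / 2 - s) / ε) * (1 / ε)

theorem m12a_hd (ε s : ℝ) : HasDerivAt (m12a ε) (m12a' ε s) s := by
  have h1 : HasDerivAt (fun s : ℝ => s / ε - 1) (1 / ε) s :=
    ((hasDerivAt_id s).div_const ε).sub_const 1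
  exact (m12_ST_hd _).comp s h1

theorem m12b_hd (ε s : ℝ) : HasDerivAt (m12b ε) (-m12b' ε s) s := by
  have h1 : HasDerivAt (fun s : ℝ => (3 / 2 - s) / ε) (-1 / ε) s :=
    ((hasDerivAt_id s).const_sub (3 / 2)).div_const ε
  have h2 := (m12_ST_hd ((3 / 2 - s) / ε)).comp s h1
  refine h2.congr_deriv ?_
  unfold m12b'; ring

theorem m12a_smooth (ε : ℝ) : ContDiff ℝ ∞ (m12a ε) := by
  have : ContDiff ℝ ∞ (fun s : ℝ => s / ε - 1) := by fun_prop
  exact (Real.smoothTransition.contDiff (n := ⊤)).comp this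

theorem m12b_smooth (ε : ℝ) : ContDiff ℝ ∞ (m12b ε) := by
  have : ContDiff ℝ ∞ (fun s : ℝ => (3 / 2 - s) / ε) := by fun_prop
  exact (Real.smoothTransition.contDiff (n := ⊤)).comp this

theorem m12a'_cont (ε : ℝ) : Continuous (m12a' ε) := by
  unfold m12a'
  exact (m12_STd_cont.comp (by fun_prop)).mul continuous_const

theorem m12b'_cont (ε : ℝ) : Continuous (m12b' ε) := by
  unfold m12b'
  exact (m12_STd_cont.comp (by fun_prop)).mul continuous_const

theorem m12a_nonneg (ε s : ℝ) : 0 ≤ m12a ε s := Real.smoothTransition.nonneg _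
theorem m12a_le (ε s : ℝ) : m12a ε s ≤ 1 := Real.smoothTransition.le_one _
theorem m12b_nonneg (ε s : ℝ) : 0 ≤ m12b ε s := Real.smoothTransition.nonneg _
theorem m12b_le (ε s : ℝ) : m12b ε s ≤ 1 := Real.smoothTransition.le_one _

theorem m12a'_nonneg {ε : ℝ} (hε : 0 < ε) (s : ℝ) : 0 ≤ m12a' ε s :=
  mul_nonneg (m12_STd_nonneg _) (by positivity)
theorem m12b'_nonneg {ε : ℝ} (hε : 0 < ε) (s : ℝ) : 0 ≤ m12b' ε s :=
  mul_nonneg (m12_STd_nonneg _) (by positivity)

theorem m12a_zero {ε : ℝ} (hε : 0 < ε) {s : ℝ} (hs : s ≤ ε) : m12a ε s = 0 := by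
  apply Real.smoothTransition.zero_of_nonpos
  rw [sub_nonpos, div_le_one hε]; exact hs

theorem m12a'_zero {ε : ℝ} (hε : 0 < ε) {s : ℝ} (hs : s ≤ ε) : m12a' ε s = 0 := by
  unfold m12a'
  rw [m12_STd_zero, zero_mul]
  rw [sub_nonpos, div_le_one hε]; exact hs

theorem m12a_one {ε : ℝ} (hε : 0 < ε) {s : ℝ} (hs : 2 * ε ≤ s) : m12a ε s = 1 := by
  apply Real.smoothTransition.one_of_one_le
  rw [le_sub_iff_add_le, le_div_iff₀ hε]; linarith

theorem m12a'_one {ε : ℝ} (hε : 0 < ε) {s : ℝ} (hs : 2 * ε ≤ s) : m12a' ε s = 0 := by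
  unfold m12a'
  rw [m12_STd_one, zero_mul]
  rw [le_sub_iff_add_le, le_div_iff₀ hε]; linarith

theorem m12b_zero {ε : ℝ} (hε : 0 < ε) {s : ℝ} (hs : 3 / 2 ≤ s) : m12b ε s = 0 := by
  apply Real.smoothTransition.zero_of_nonpos
  exact div_nonpos_of_nonpos_of_nonneg (by linarith only [hs]) hε.le

theorem m12b'_zero {ε : ℝ} (hε : 0 < ε) {s : ℝ} (hs : 3 / 2 ≤ s) : m12b' ε s = 0 := by
  unfold m12b'
  rw [m12_STd_zero, zero_mul]
  exact div_nonpos_of_nonpos_of_nonneg (by linarith only [hs]) hε.le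

theorem m12b_one {ε : ℝ} (hε : 0 < ε) {s : ℝ} (hs : s ≤ 3 / 2 - ε) : m12b ε s = 1 := by
  apply Real.smoothTransition.one_of_one_le
  rw [le_div_iff₀ hε]; linarith only [hs]

theorem m12b'_one {ε : ℝ} (hε : 0 < ε) {s : ℝ} (hs : s ≤ 3 / 2 - ε) : m12b' ε s = 0 := by
  unfold m12b'
  rw [m12_STd_one, zero_mul]
  rw [le_div_iff₀ hε]; linarith only [hs]

/-! ### the test function -/

/-- numerator `P - s P'` -/
noncomputable def m12N (P P1 : ℝ → ℝ) (s : ℝ) : ℝ := P s - s * P1 s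
/-- `-(P/s)'` -/
noncomputable def m12k (P P1 : ℝ → ℝ) (s : ℝ) : ℝ := m12N P P1 s / s ^ 2
/-- cut off version -/
noncomputable def m12g (P P1 : ℝ → ℝ) (ε s : ℝ) : ℝ := m12a ε s * m12b ε s * m12k P P1 s
/-- the test function -/
noncomputable def m12F (P P1 : ℝ → ℝ) (ε s : ℝ) : ℝ := ∫ t in s..(3 / 2), m12g P P1 ε t

variable {P P1 P2 : ℝ → ℝ}

theorem TestFn.m12_P1 (hP : TestFn P P1 P2) : deriv P = P1 := funext fun s => (hP.d1 s).deriv
theorem TestFn.m12_P2 (hP : TestFn P P1 P2) : deriv P1 = P2 := funext fun s => (hP.d2 s).deriv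

theorem TestFn.m12_P1s (hP : TestFn P P1 P2) : ContDiff ℝ ∞ P1 := by
  rw [← hP.m12_P1]; exact (contDiff_infty_iff_deriv.1 hP.smooth).2

theorem TestFn.m12_P2s (hP : TestFn P P1 P2) : ContDiff ℝ ∞ P2 := by
  rw [← hP.m12_P2]; exact (contDiff_infty_iff_deriv.1 hP.m12_P1s).2

theorem TestFn.m12_N_hd (hP : TestFn P P1 P2) (s : ℝ) : HasDerivAt (m12N P P1) (-(s * P2 s)) s := by
  have h := (hP.d1 s).sub ((hasDerivAt_id s).mul (hP.d2 s))
  refine h.congr_deriv ?_
  simp only [id_eq]; ring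

theorem TestFn.m12_N_smooth (hP : TestFn P P1 P2) : ContDiff ℝ ∞ (m12N P P1) :=
  hP.smooth.sub (contDiff_id.mul hP.m12_P1s)

theorem TestFn.m12_N_nonneg (hP : TestFn P P1 P2) {s : ℝ} (hs : 0 < s) (hs2 : s ≤ 3 / 2) :
    0 ≤ m12N P P1 s := sub_nonneg.2 (hP.mono s hs hs2)

theorem TestFn.m12_k_nonneg (hP : TestFn P P1 P2) {s : ℝ} (hs : 0 < s) (hs2 : s ≤ 3 / 2) :
    0 ≤ m12k P P1 s := div_nonneg (hP.m12_N_nonneg hs hs2) (by positivity)

theorem TestFn.m12_k_hd (hP : TestFn P P1 P2) {s : ℝ} (hs : s ≠ 0) :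
    HasDerivAt (m12k P P1) (-(P2 s / s) - 2 * m12N P P1 s / s ^ 3) s := by
  have h := (hP.m12_N_hd s).div (hasDerivAt_pow 2 s) (pow_ne_zero 2 hs)
  refine h.congr_deriv ?_
  field_simp
  push_cast
  ring

theorem TestFn.m12_Ps_hd (hP : TestFn P P1 P2) {s : ℝ} (hs : s ≠ 0) :
    HasDerivAt (fun s => P s / s) (-m12k P P1 s) s := by
  have h := (hP.d1 s).div (hasDerivAt_id s) hs
  refine h.congr_deriv ?_
  unfold m12k m12N
  simp only [id_eq]
  field_simp
  ring

theorem TestFn.m12_g_hd (hP : TestFn P P1 P2) (ε : ℝ) {s : ℝ} (hs : s ≠ 0) :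
    HasDerivAt (m12g P P1 ε) (m12a' ε s * m12b ε s * m12k P P1 s - m12a ε s * m12b' ε s * m12k P P1 s
      + m12a ε s * m12b ε s * (-(P2 s / s) - 2 * m12N P P1 s / s ^ 3)) s := by
  have h := ((m12a_hd ε s).mul (m12b_hd ε s)).mul (hP.m12_k_hd hs)
  refine h.congr_deriv ?_
  simp only [Pi.mul_apply]
  ring

theorem TestFn.m12_g_smooth (hP : TestFn P P1 P2) {ε : ℝ} (hε : 0 < ε) :
    ContDiff ℝ ∞ (m12g P P1 ε) := by
  rw [contDiff_iff_contDiffAt]
  intro s
  by_cases hs : s < ε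
  · have h : m12g P P1 ε =ᶠ[𝓝 s] fun _ => 0 := by
      filter_upwards [gt_mem_nhds hs] with y hy
      unfold m12g
      rw [m12a_zero hε hy.le]; ring
    exact contDiffAt_const.congr_of_eventuallyEq h
  · have hs0 : s ≠ 0 := by intro h; apply hs; rw [h]; exact hε
    exact ((m12a_smooth ε).contDiffAt.mul (m12b_smooth ε).contDiffAt).mul
      (hP.m12_N_smooth.contDiffAt.div (contDiffAt_id.pow 2) (pow_ne_zero 2 hs0))

theorem TestFn.m12_g_nonneg (hP : TestFn P P1 P2) {ε : ℝ} (hε : 0 < ε) (s : ℝ) :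
    0 ≤ m12g P P1 ε s := by
  unfold m12g
  by_cases h1 : s ≤ ε
  · rw [m12a_zero hε h1]; simp
  · by_cases h2 : 3 / 2 ≤ s
    · rw [m12b_zero hε h2]; simp
    · push Not at h1 h2
      exact mul_nonneg (mul_nonneg (m12a_nonneg _ _) (m12b_nonneg _ _))
        (hP.m12_k_nonneg (hε.trans h1) h2.le)

theorem TestFn.m12_g_le (hP : TestFn P P1 P2) {ε : ℝ} {s : ℝ} (hs : 0 < s)
    (hs2 : s ≤ 3 / 2) : m12g P P1 ε s ≤ m12k P P1 s := by
  have h1 := hP.m12_k_nonneg hs hs2
  have h2 : m12a ε s * m12b ε s ≤ 1 :=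
    mul_le_one₀ (m12a_le _ _) (m12b_nonneg _ _) (m12b_le _ _)
  calc m12g P P1 ε s = (m12a ε s * m12b ε s) * m12k P P1 s := rfl
    _ ≤ 1 * m12k P P1 s := mul_le_mul_of_nonneg_right h2 h1
    _ = _ := one_mul _

theorem TestFn.m12_F_hd (hP : TestFn P P1 P2) {ε : ℝ} (hε : 0 < ε) (s : ℝ) :
    HasDerivAt (m12F P P1 ε) (-m12g P P1 ε s) s := by
  have hc := (hP.m12_g_smooth hε).continuous
  exact intervalIntegral.integral_hasDerivAt_left (hc.intervalIntegrable _ _)
    (hc.stronglyMeasurableAtFilter _ _) hc.continuousAt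

theorem TestFn.m12_F_deriv (hP : TestFn P P1 P2) {ε : ℝ} (hε : 0 < ε) :
    deriv (m12F P P1 ε) = fun s => -m12g P P1 ε s := funext fun s => (hP.m12_F_hd hε s).deriv

theorem TestFn.m12_F_smooth (hP : TestFn P P1 P2) {ε : ℝ} (hε : 0 < ε) :
    ContDiff ℝ ∞ (m12F P P1 ε) := by
  rw [contDiff_infty_iff_deriv]
  refine ⟨fun s => (hP.m12_F_hd hε s).differentiableAt, ?_⟩
  rw [hP.m12_F_deriv hε]
  exact (hP.m12_g_smooth hε).neg

theorem m12_F_zero {ε : ℝ} (hε : 0 < ε) {s : ℝ} (hs : 3 / 2 ≤ s) : m12F P P1 ε s = 0 := by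
  unfold m12F
  rw [intervalIntegral.integral_symm]
  rw [intervalIntegral.integral_congr (g := fun _ => 0)]
  · simp
  · intro t ht
    rw [uIcc_of_le hs] at ht
    simp only [m12g]
    rw [m12b_zero hε ht.1]; ring

theorem TestFn.m12_F_nonneg (hP : TestFn P P1 P2) {ε : ℝ} (hε : 0 < ε) (s : ℝ) :
    0 ≤ m12F P P1 ε s := by
  by_cases hs : 3 / 2 ≤ s
  · rw [m12_F_zero hε hs]
  · exact intervalIntegral.integral_nonneg (not_le.1 hs).le fun t _ => hP.m12_g_nonneg hε t

theorem TestFn.m12_k_cont (hP : TestFn P P1 P2) {a b : ℝ} (ha : 0 < a) :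
    ContinuousOn (m12k P P1) (Icc a b) := by
  intro t ht
  have h0 : t ≠ 0 := (ha.trans_le ht.1).ne'
  exact (hP.m12_k_hd h0).continuousAt.continuousWithinAt

theorem TestFn.m12_k_int (hP : TestFn P P1 P2) {a b : ℝ} (ha : 0 < a) (hab : a ≤ b) :
    ∫ t in a..b, m12k P P1 t = P a / a - P b / b := by
  have h := intervalIntegral.integral_eq_sub_of_hasDerivAt (a := a) (b := b)
    (f := fun s => -(P s / s)) (f' := m12k P P1) (fun t ht => by
      rw [uIcc_of_le hab] at ht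
      have h0 : t ≠ 0 := (ha.trans_le ht.1).ne'
      have h1 := (hP.m12_Ps_hd h0).neg
      rw [neg_neg] at h1
      exact h1) (by
      apply ContinuousOn.intervalIntegrable
      rw [uIcc_of_le hab]
      exact hP.m12_k_cont ha)
  rw [h]; ring

theorem TestFn.m12_F_le (hP : TestFn P P1 P2) {ε : ℝ} (hε : 0 < ε) {s : ℝ} (hs : 0 < s)
    (hs2 : s ≤ 3 / 2) : m12F P P1 ε s ≤ P s / s := by
  have h1 : ∫ t in s..(3 / 2), m12g P P1 ε t ≤ ∫ t in s..(3 / 2), m12k P P1 t := by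
    apply intervalIntegral.integral_mono_on hs2
    · exact (hP.m12_g_smooth hε).continuous.intervalIntegrable _ _
    · apply ContinuousOn.intervalIntegrable
      rw [uIcc_of_le hs2]
      exact hP.m12_k_cont hs
    · intro t ht
      exact hP.m12_g_le (hs.trans_le ht.1) ht.2
  rw [hP.m12_k_int hs hs2, hP.end0] at h1
  unfold m12F
  simpa using h1

theorem TestFn.m12_F_ge (hP : TestFn P P1 P2) {ε : ℝ} (hε : 0 < ε) {s : ℝ} (hs : 2 * ε ≤ s)
    (hs2 : s ≤ 3 / 2 - ε) : P s / s - P (3 / 2 - ε) / (3 / 2 - ε) ≤ m12F P P1 ε s := by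
  have hs0 : 0 < s := by linarith
  have hc := (hP.m12_g_smooth hε).continuous
  have h1 : ∫ t in s..(3 / 2 - ε), m12k P P1 t = ∫ t in s..(3 / 2 - ε), m12g P P1 ε t := by
    apply intervalIntegral.integral_congr
    intro t ht
    rw [uIcc_of_le hs2] at ht
    simp only [m12g]
    rw [m12a_one hε (hs.trans ht.1), m12b_one hε ht.2]; ring
  rw [← hP.m12_k_int hs0 hs2, h1]
  unfold m12F
  rw [← intervalIntegral.integral_add_adjacent_intervals (hc.intervalIntegrable s (3 / 2 - ε))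
    (hc.intervalIntegrable (3 / 2 - ε) (3 / 2))]
  have h2 : 0 ≤ ∫ t in (3 / 2 - ε)..(3 / 2), m12g P P1 ε t :=
    intervalIntegral.integral_nonneg (by linarith only [hε]) fun t _ => hP.m12_g_nonneg hε t
  linarith only [h2]

theorem m12_qq_pos {s : ℝ} (h0 : 0 ≤ s) (h1 : s ≤ 3 / 2) : 0 < qq s := by
  unfold qq
  nlinarith [mul_nonneg h0 (sub_nonneg.2 h1), mul_nonneg (mul_nonneg h0 h0) (sub_nonneg.2 h1),
    mul_nonneg (mul_nonneg h0 (sub_nonneg.2 h1)) (sub_nonneg.2 h1)]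

/-- the singular part -/
noncomputable def m12psi (P P1 : ℝ → ℝ) (ε s : ℝ) : ℝ := 2 * s * m12a' ε s * m12b ε s * m12k P P1 s

/-- the regular part -/
noncomputable def m12R (P P1 P2 : ℝ → ℝ) (ε s : ℝ) : ℝ :=
  2 * s * m12a ε s * m12b' ε s * m12k P P1 s
    + m12a ε s * m12b ε s * ((3 * P s - hh P P1 P2 s) / s) - 3 * m12F P P1 ε s

theorem TestFn.m12_op (hP : TestFn P P1 P2) {ε : ℝ} (hε : 0 < ε) {s : ℝ} (hs : 0 < s)
    (hs2 : s ≤ 3 / 2) :
    2 * s * deriv (deriv (m12F P P1 ε)) s + deriv (m12F P P1 ε) s * (3 + ww s) - 3 * m12F P P1 ε s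
      = - m12psi P P1 ε s + m12R P P1 P2 ε s := by
  have hq := (m12_qq_pos hs.le hs2).ne'
  rw [hP.m12_F_deriv hε]
  have h1 : deriv (fun s => -m12g P P1 ε s) s = -(m12a' ε s * m12b ε s * m12k P P1 s
      - m12a ε s * m12b' ε s * m12k P P1 s
      + m12a ε s * m12b ε s * (-(P2 s / s) - 2 * m12N P P1 s / s ^ 3)) :=
    (hP.m12_g_hd ε hs.ne').neg.deriv
  rw [h1]
  unfold m12psi m12R m12g ww hh m12k m12N
  field_simp
  ring

theorem TestFn.m12_op_zero (hP : TestFn P P1 P2) {ε : ℝ} (hε : 0 < ε) {s : ℝ}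
    (hs2 : 3 / 2 ≤ s) :
    2 * s * deriv (deriv (m12F P P1 ε)) s + deriv (m12F P P1 ε) s * (3 + ww s) - 3 * m12F P P1 ε s
      = 0 := by
  have hs : 0 < s := by linarith
  rw [hP.m12_F_deriv hε]
  have h1 : deriv (fun s => -m12g P P1 ε s) s = -(m12a' ε s * m12b ε s * m12k P P1 s
      - m12a ε s * m12b' ε s * m12k P P1 s
      + m12a ε s * m12b ε s * (-(P2 s / s) - 2 * m12N P P1 s / s ^ 3)) :=
    (hP.m12_g_hd ε hs.ne').neg.deriv
  rw [h1, m12_F_zero hε hs2]
  simp only [m12g, m12b_zero hε hs2, m12b'_zero hε hs2]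
  ring

end Vale.Agent.P211.S4

end

-- M12b
section

/-! P211, S4, task M12: bounds and limits in one variable (helper828). -/

namespace Vale.Agent.P211.S4

open Topology Filter MeasureTheory Set
open scoped ContDiff

variable {P P1 P2 : ℝ → ℝ}

theorem m12_qd1_cont : Continuous qd1 := by unfold qd1; fun_prop
theorem m12_qq_cont : Continuous qq := by unfold qq; fun_prop

theorem m12_bdd_on {f : ℝ → ℝ} (hf : ContinuousOn f (Icc 0 (3 / 2))) :
    ∃ C, 0 ≤ C ∧ ∀ s, 0 ≤ s → s ≤ 3 / 2 → |f s| ≤ C := by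
  obtain ⟨C, hC⟩ := isCompact_Icc.exists_bound_of_continuousOn hf
  refine ⟨|C|, abs_nonneg _, fun s h1 h2 => ?_⟩
  have := hC s ⟨h1, h2⟩
  rw [Real.norm_eq_abs] at this
  exact this.trans (le_abs_self _)

theorem TestFn.m12_N_end (hP : TestFn P P1 P2) : m12N P P1 (3 / 2) = 0 := by
  unfold m12N
  rw [hP.end0, hP.end1]; ring

theorem TestFn.m12_N_le (hP : TestFn P P1 P2) : ∃ C, 0 ≤ C ∧ ∀ s, 0 ≤ s → s ≤ 3 / 2 →
    |m12N P P1 s| ≤ C * (3 / 2 - s) := by
  obtain ⟨C, hC0, hC⟩ := m12_bdd_on (f := fun s => s * P2 s)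
    ((continuous_id.mul hP.m12_P2s.continuous).continuousOn)
  refine ⟨C, hC0, fun s h1 h2 => ?_⟩
  have h3 := (convex_Icc (0 : ℝ) (3 / 2)).norm_image_sub_le_of_norm_hasDerivWithin_le
    (f := m12N P P1) (f' := fun s => -(s * P2 s)) (C := C)
    (fun x _ => (hP.m12_N_hd x).hasDerivWithinAt) (fun x hx => by
      rw [norm_neg, Real.norm_eq_abs]; exact hC x hx.1 hx.2)
    (x := 3 / 2) (y := s) ⟨by norm_num, le_rfl⟩ ⟨h1, h2⟩
  rw [hP.m12_N_end, sub_zero, Real.norm_eq_abs, Real.norm_eq_abs, abs_sub_comm,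
    abs_of_nonneg (sub_nonneg.2 h2)] at h3
  exact h3

theorem TestFn.m12_hh_contOn (hP : TestFn P P1 P2) :
    ContinuousOn (hh P P1 P2) (Icc 0 (3 / 2)) := by
  have h1 := hP.smooth.continuous
  have h2 := hP.m12_P1s.continuous
  have h3 := hP.m12_P2s.continuous
  have h4 := m12_qd1_cont
  have h5 := m12_qq_cont
  have h6 : ∀ s ∈ Icc (0 : ℝ) (3 / 2), qq s ≠ 0 := fun s hs => (m12_qq_pos hs.1 hs.2).ne'
  unfold hh
  refine ContinuousOn.sub (ContinuousOn.sub (ContinuousOn.add ?_ ?_) ?_) ?_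
  · fun_prop
  · exact ContinuousOn.div (by fun_prop) h5.continuousOn h6
  · fun_prop
  · exact ContinuousOn.div (by fun_prop) h5.continuousOn h6

theorem m12a'_le {ε : ℝ} (hε : 0 < ε) {C : ℝ} (hC : ∀ x, deriv Real.smoothTransition x ≤ C) (s : ℝ) :
    m12a' ε s ≤ C / ε := by
  unfold m12a'
  rw [mul_one_div]
  exact div_le_div_of_nonneg_right (hC _) hε.le

theorem m12b'_le {ε : ℝ} (hε : 0 < ε) {C : ℝ} (hC : ∀ x, deriv Real.smoothTransition x ≤ C) (s : ℝ) :
    m12b' ε s ≤ C / ε := by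
  unfold m12b'
  rw [mul_one_div]
  exact div_le_div_of_nonneg_right (hC _) hε.le

/-- uniform bounds -/
theorem TestFn.m12_bound (hP : TestFn P P1 P2) : ∃ C, 0 ≤ C ∧ ∀ ε s, 0 < ε → 0 < s → s < 3 / 2 →
    |m12R P P1 P2 ε s| ≤ C / s ∧ |m12F P P1 ε s| ≤ C / s := by
  obtain ⟨C1, hC10, hC1⟩ := m12_bdd_on hP.smooth.continuous.continuousOn
  obtain ⟨C2, hC20, hC2⟩ := m12_bdd_on (f := fun s => 3 * P s - hh P P1 P2 s)
    ((continuous_const.mul hP.smooth.continuous).continuousOn.sub hP.m12_hh_contOn)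
  obtain ⟨C3, hC30, hC3⟩ := hP.m12_N_le
  obtain ⟨C4, hC40, hC4⟩ := m12_STd_bdd
  refine ⟨2 * C4 * C3 + C2 + 3 * C1, by positivity, fun ε s hε hs hs2 => ?_⟩
  have hF : |m12F P P1 ε s| ≤ C1 / s := by
    rw [abs_of_nonneg (hP.m12_F_nonneg hε s)]
    refine (hP.m12_F_le hε hs hs2.le).trans ?_
    exact div_le_div_of_nonneg_right ((le_abs_self _).trans (hC1 s hs.le hs2.le)) hs.le
  refine ⟨?_, hF.trans (div_le_div_of_nonneg_right (by linarith only [mul_nonneg hC40 hC30, hC20, hC10]) hs.le)⟩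
  have h1 : |2 * s * m12a ε s * m12b' ε s * m12k P P1 s| ≤ 2 * C4 * C3 / s := by
    have e : 2 * s * m12a ε s * m12b' ε s * m12k P P1 s =
        2 * (m12a ε s * (m12b' ε s * m12N P P1 s)) / s := by
      unfold m12k; field_simp
    rw [e, abs_div, abs_of_pos hs]
    refine div_le_div_of_nonneg_right ?_ hs.le
    rw [abs_mul, abs_mul, abs_of_nonneg (m12a_nonneg ε s), abs_two]
    have h2 : |m12b' ε s * m12N P P1 s| ≤ C4 * C3 := by
      by_cases h3 : s ≤ 3 / 2 - ε
      · rw [m12b'_one hε h3]; simp; positivity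
      · push Not at h3
        rw [abs_mul, abs_of_nonneg (m12b'_nonneg hε s)]
        calc m12b' ε s * |m12N P P1 s| ≤ (C4 / ε) * (C3 * ε) := by
              refine mul_le_mul (m12b'_le hε hC4 s) ((hC3 s hs.le hs2.le).trans ?_)
                (abs_nonneg _) (by positivity)
              exact mul_le_mul_of_nonneg_left (by linarith only [h3]) hC30
          _ = C4 * C3 := by field_simp
    calc 2 * (m12a ε s * |m12b' ε s * m12N P P1 s|) ≤ 2 * (1 * (C4 * C3)) := by
          refine mul_le_mul_of_nonneg_left ?_ (by norm_num)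
          exact mul_le_mul (m12a_le ε s) h2 (abs_nonneg _) zero_le_one
      _ = 2 * C4 * C3 := by ring
  have h2 : |m12a ε s * m12b ε s * ((3 * P s - hh P P1 P2 s) / s)| ≤ C2 / s := by
    rw [abs_mul, abs_div, abs_of_pos hs, abs_of_nonneg (mul_nonneg (m12a_nonneg ε s) (m12b_nonneg ε s))]
    calc m12a ε s * m12b ε s * (|3 * P s - hh P P1 P2 s| / s) ≤ 1 * (C2 / s) := by
          refine mul_le_mul (mul_le_one₀ (m12a_le _ _) (m12b_nonneg _ _) (m12b_le _ _)) ?_
            (by positivity) zero_le_one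
          exact div_le_div_of_nonneg_right (hC2 s hs.le hs2.le) hs.le
      _ = C2 / s := one_mul _
  have h3 : |3 * m12F P P1 ε s| ≤ 3 * C1 / s := by
    rw [abs_mul, abs_of_pos (by norm_num : (0 : ℝ) < 3), mul_div_assoc]
    exact mul_le_mul_of_nonneg_left hF (by norm_num)
  unfold m12R
  calc |2 * s * m12a ε s * m12b' ε s * m12k P P1 s
        + m12a ε s * m12b ε s * ((3 * P s - hh P P1 P2 s) / s) - 3 * m12F P P1 ε s|
      ≤ |2 * s * m12a ε s * m12b' ε s * m12k P P1 s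
        + m12a ε s * m12b ε s * ((3 * P s - hh P P1 P2 s) / s)| + |3 * m12F P P1 ε s| := abs_sub _ _
    _ ≤ (|2 * s * m12a ε s * m12b' ε s * m12k P P1 s|
        + |m12a ε s * m12b ε s * ((3 * P s - hh P P1 P2 s) / s)|) + |3 * m12F P P1 ε s| :=
        add_le_add_left (abs_add_le _ _) _
    _ ≤ (2 * C4 * C3 / s + C2 / s) + 3 * C1 / s := add_le_add (add_le_add h1 h2) h3
    _ = (2 * C4 * C3 + C2 + 3 * C1) / s := by ring

theorem TestFn.m12_psi_bound (hP : TestFn P P1 P2) {ε : ℝ} (hε : 0 < ε) :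
    ∃ C, 0 ≤ C ∧ ∀ s, 0 < s → s < 3 / 2 → |m12psi P P1 ε s| ≤ C / s := by
  obtain ⟨C5, hC50, hC5⟩ := m12_bdd_on hP.m12_N_smooth.continuous.continuousOn
  obtain ⟨C4, hC40, hC4⟩ := m12_STd_bdd
  refine ⟨2 * (C4 / ε) * C5, by positivity, fun s hs hs2 => ?_⟩
  have e : m12psi P P1 ε s = 2 * (m12a' ε s * (m12b ε s * m12N P P1 s)) / s := by
    unfold m12psi m12k; field_simp
  rw [e, abs_div, abs_of_pos hs]
  refine div_le_div_of_nonneg_right ?_ hs.le
  rw [abs_mul, abs_mul, abs_mul, abs_of_nonneg (m12a'_nonneg hε s), abs_of_nonneg (m12b_nonneg ε s),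
    abs_two]
  calc 2 * (m12a' ε s * (m12b ε s * |m12N P P1 s|)) ≤ 2 * ((C4 / ε) * (1 * C5)) := by
        refine mul_le_mul_of_nonneg_left ?_ (by norm_num)
        refine mul_le_mul (m12a'_le hε hC4 s) ?_ ?_ (by positivity)
        · exact mul_le_mul (m12b_le ε s) (hC5 s hs.le hs2.le) (abs_nonneg _) zero_le_one
        · exact mul_nonneg (m12b_nonneg ε s) (abs_nonneg _)
    _ = 2 * (C4 / ε) * C5 := by ring

theorem TestFn.m12_F_lim (hP : TestFn P P1 P2) {s : ℝ} (hs : 0 < s) (hs2 : s < 3 / 2) :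
    Tendsto (fun ε => m12F P P1 ε s) (𝓝[>] 0) (𝓝 (P s / s)) := by
  have h1 : Tendsto (fun ε : ℝ => P s / s - P (3 / 2 - ε) / (3 / 2 - ε)) (𝓝[>] 0) (𝓝 (P s / s)) := by
    have hc : ContinuousAt (fun ε : ℝ => P s / s - P (3 / 2 - ε) / (3 / 2 - ε)) 0 := by
      have := hP.smooth.continuous
      refine continuousAt_const.sub (ContinuousAt.div (by fun_prop) (by fun_prop) (by norm_num))
    have h2 := hc.tendsto
    simp only [sub_zero, hP.end0, zero_div] at h2
    exact h2.mono_left nhdsWithin_le_nhds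
  refine tendsto_of_tendsto_of_tendsto_of_le_of_le' h1 tendsto_const_nhds ?_ ?_
  · have h3 : ∀ᶠ ε : ℝ in 𝓝[>] 0, ε < min (s / 2) (3 / 2 - s) :=
      nhdsWithin_le_nhds (gt_mem_nhds (lt_min (by linarith) (by linarith)))
    filter_upwards [h3, self_mem_nhdsWithin] with ε h4 h5
    have h6 := h4.trans_le (min_le_left _ _)
    have h7 := h4.trans_le (min_le_right _ _)
    exact hP.m12_F_ge h5 (by linarith) (by linarith only [h7])
  · filter_upwards [self_mem_nhdsWithin] with ε h5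
    exact hP.m12_F_le h5 hs hs2.le

theorem TestFn.m12_R_lim (hP : TestFn P P1 P2) {s : ℝ} (hs : 0 < s) (hs2 : s < 3 / 2) :
    Tendsto (fun ε => m12R P P1 P2 ε s) (𝓝[>] 0) (𝓝 (-(hh P P1 P2 s) / s)) := by
  have h1 : Tendsto (fun ε => (3 * P s - hh P P1 P2 s) / s - 3 * m12F P P1 ε s) (𝓝[>] 0)
      (𝓝 ((3 * P s - hh P P1 P2 s) / s - 3 * (P s / s))) :=
    tendsto_const_nhds.sub ((hP.m12_F_lim hs hs2).const_mul 3)
  have e : (3 * P s - hh P P1 P2 s) / s - 3 * (P s / s) = -(hh P P1 P2 s) / s := by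
    field_simp; ring
  rw [e] at h1
  refine h1.congr' ?_
  have h3 : ∀ᶠ ε : ℝ in 𝓝[>] 0, ε < min (s / 2) (3 / 2 - s) :=
    nhdsWithin_le_nhds (gt_mem_nhds (lt_min (by linarith only [hs]) (by linarith)))
  filter_upwards [h3, self_mem_nhdsWithin] with ε h4 h5
  have h6 := h4.trans_le (min_le_left _ _)
  have h7 := h4.trans_le (min_le_right _ _)
  have h5' : 0 < ε := h5
  unfold m12R
  rw [m12b'_one h5' (by linarith only [h7]), m12a_one h5' (by linarith only [h6]), m12b_one h5' (by linarith only [h7])]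
  ring

/-- scaled test function -/
noncomputable def m12psi0 (t : ℝ) : ℝ := 2 * deriv Real.smoothTransition (t - 1) / t

theorem m12psi0_smooth : ContDiff ℝ ∞ m12psi0 := by
  have hd : ContDiff ℝ ∞ (deriv Real.smoothTransition) :=
    (contDiff_infty_iff_deriv.1 (Real.smoothTransition.contDiff (n := ⊤))).2
  rw [contDiff_iff_contDiffAt]
  intro s
  by_cases hs : s < 1
  · have h : m12psi0 =ᶠ[𝓝 s] fun _ => 0 := by
      filter_upwards [gt_mem_nhds hs] with y hy
      unfold m12psi0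
      rw [m12_STd_of_lt (by linarith)]; simp
    exact contDiffAt_const.congr_of_eventuallyEq h
  · have hs0 : s ≠ 0 := by intro h; apply hs; rw [h]; norm_num
    have h1 : ContDiffAt ℝ ∞ (fun t : ℝ => deriv Real.smoothTransition (t - 1)) s :=
      (hd.comp (contDiff_id.sub contDiff_const)).contDiffAt
    exact (contDiffAt_const.mul h1).div contDiffAt_id hs0

theorem m12psi0_zero {s : ℝ} (hs : s ≤ 1) : m12psi0 s = 0 := by
  unfold m12psi0
  rw [m12_STd_zero (by linarith)]; simp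

theorem m12psi0_two {s : ℝ} (hs : 2 ≤ s) : m12psi0 s = 0 := by
  unfold m12psi0
  rw [m12_STd_one (by linarith)]; simp

theorem m12psi0_nonneg {s : ℝ} (hs : 0 ≤ s) : 0 ≤ m12psi0 s :=
  div_nonneg (mul_nonneg (by norm_num) (m12_STd_nonneg _)) hs

theorem m12psi0_int : ∫ s in (1 : ℝ)..2, m12psi0 s * (4 * Real.pi ^ 2 * s) = 8 * Real.pi ^ 2 := by
  have h1 : ∫ s in (1 : ℝ)..2, m12psi0 s * (4 * Real.pi ^ 2 * s) =
      ∫ s in (1 : ℝ)..2, (8 * Real.pi ^ 2) * deriv Real.smoothTransition (s - 1) := by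
    apply intervalIntegral.integral_congr
    intro t ht
    rw [uIcc_of_le (by norm_num)] at ht
    have h0 : t ≠ 0 := by have := ht.1; intro h; rw [h] at this; norm_num at this
    simp only [m12psi0]
    field_simp
    ring
  rw [h1, intervalIntegral.integral_const_mul]
  have h2 : ∫ s in (1 : ℝ)..2, deriv Real.smoothTransition (s - 1) = 1 := by
    rw [intervalIntegral.integral_comp_sub_right (fun x => deriv Real.smoothTransition x) 1]
    rw [intervalIntegral.integral_deriv_eq_sub (fun x _ => m12_ST_diff x)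
      (m12_STd_cont.intervalIntegrable _ _)]
    norm_num [Real.smoothTransition.one, Real.smoothTransition.zero]
  rw [h2, mul_one]

/-- comparison with the scaled function -/
theorem TestFn.m12_psi_ge {ε η : ℝ} (hε : 0 < ε) (hε2 : ε ≤ 1 / 2)
    (hη : ∀ s, 0 ≤ s → s ≤ 2 * ε → 1 - η ≤ m12N P P1 s) {s : ℝ} (hs : 0 < s) :
    (1 - η) * (m12psi0 (s / ε) / ε ^ 2) ≤ m12psi P P1 ε s := by
  have e : m12psi P P1 ε s = m12b ε s * m12N P P1 s * (m12psi0 (s / ε) / ε ^ 2) := by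
    unfold m12psi m12k m12psi0 m12a'
    field_simp
  rw [e]
  by_cases h2 : 2 * ε ≤ s
  · rw [m12psi0_two (by rw [le_div_iff₀ hε]; exact h2)]; simp
  · push Not at h2
    rw [m12b_one hε (by linarith only [h2, hε2]), one_mul]
    refine mul_le_mul_of_nonneg_right (hη s hs.le h2.le) ?_
    exact div_nonneg (m12psi0_nonneg (by positivity)) (by positivity)

end Vale.Agent.P211.S4

end

-- M12i
section

/-! P211, S4, M12: integrability of `1 / φ`. -/

namespace Vale.Agent.P211.S4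

open Topology Filter MeasureTheory Set
open scoped ContDiff

/-- `∫ 1/φ` over `0 < φ < 3/2` is finite. -/
theorem M12_integrable_inv {M : Type*} [MeasurableSpace M] {μ : Measure M} {Q : M → ℝ}
    (hQ : Measurable Q) {T : ℝ} (hT : 3 / 2 < T)
    (hU : (μ.map Q).restrict (Ioo 0 T) ≤
      (volume.withDensity fun s => ENNReal.ofReal (4 * Real.pi ^ 2 * s)).restrict (Ioo 0 T)) :
    IntegrableOn (fun q => 1 / Q q) {q | 0 < Q q ∧ Q q < 3 / 2} μ := by
  have hS : {q | 0 < Q q ∧ Q q < 3 / 2} = Q ⁻¹' (Ioo 0 (3 / 2)) := rfl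
  rw [hS]
  have hm : Measurable fun s : ℝ => ENNReal.ofReal (4 * Real.pi ^ 2 * s) :=
    (measurable_const.mul measurable_id).ennreal_ofReal
  refine ⟨(measurable_const.div hQ).aestronglyMeasurable, ?_⟩
  rw [hasFiniteIntegral_iff_norm]
  have hm1 : Measurable fun s : ℝ => ENNReal.ofReal ‖1 / s‖ :=
    (measurable_const.div measurable_id).norm.ennreal_ofReal
  calc ∫⁻ q in Q ⁻¹' (Ioo 0 (3 / 2)), ENNReal.ofReal ‖1 / Q q‖ ∂μ
      = ∫⁻ s in Ioo 0 (3 / 2), ENNReal.ofReal ‖1 / s‖ ∂(μ.map Q) := by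
        rw [setLIntegral_map measurableSet_Ioo hm1 hQ]
    _ ≤ ∫⁻ s in Ioo 0 (3 / 2), ENNReal.ofReal ‖1 / s‖
          ∂(volume.withDensity fun s => ENNReal.ofReal (4 * Real.pi ^ 2 * s)) := by
        refine lintegral_mono' ?_ le_rfl
        have h1 := Measure.restrict_mono_measure hU (Ioo 0 (3 / 2))
        rwa [Measure.restrict_restrict measurableSet_Ioo,
          Measure.restrict_restrict measurableSet_Ioo,
          inter_eq_self_of_subset_left (Ioo_subset_Ioo le_rfl hT.le)] at h1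
    _ = ∫⁻ s in Ioo 0 (3 / 2), (ENNReal.ofReal (4 * Real.pi ^ 2 * s) * ENNReal.ofReal ‖1 / s‖) := by
        rw [restrict_withDensity measurableSet_Ioo, lintegral_withDensity_eq_lintegral_mul _ hm hm1]
        rfl
    _ ≤ ∫⁻ _ in Ioo (0 : ℝ) (3 / 2), ENNReal.ofReal (4 * Real.pi ^ 2) := by
        refine setLIntegral_mono measurable_const fun s hs => ?_
        rw [← ENNReal.ofReal_mul (by have := hs.1; positivity)]
        apply le_of_eq
        congr 1
        rw [Real.norm_of_nonneg (by have := hs.1; positivity)]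
        have := hs.1.ne'
        field_simp
    _ < ⊤ := by
        rw [setLIntegral_const]
        exact ENNReal.mul_lt_top ENNReal.ofReal_lt_top measure_Ioo_lt_top

end Vale.Agent.P211.S4

end

-- M12c
section

/-! P211, S4, M12: concentration at the centre. -/

namespace Vale.Agent.P211.S4

open Topology Filter MeasureTheory Set
open scoped ContDiff

theorem M12_near {M : Type*} [TopologicalSpace M] [CompactSpace M] {Q h : M → ℝ}
    (hQ : Continuous Q) (hh : Continuous h) {p : M} (hQ0 : ∀ q, 0 ≤ Q q)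
    (hz : ∀ q, Q q = 0 ↔ q = p) {e : ℝ} (he : 0 < e) :
    ∃ d, 0 < d ∧ ∀ q, Q q < d → |h q - h p| < e := by
  have hK : IsCompact {q | e ≤ |h q - h p|} :=
    (isClosed_le continuous_const (by fun_prop)).isCompact
  rcases Set.eq_empty_or_nonempty {q | e ≤ |h q - h p|} with h0 | h0
  · refine ⟨1, one_pos, fun q _ => ?_⟩
    by_contra hc
    exact Set.eq_empty_iff_forall_notMem.1 h0 q (not_lt.1 hc)
  · obtain ⟨q0, h1, h2⟩ := hK.exists_isMinOn h0 hQ.continuousOn
    refine ⟨Q q0, ?_, fun q hq => ?_⟩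
    · refine lt_of_le_of_ne (hQ0 q0) fun h3 => ?_
      have h4 := (hz q0).1 h3.symm
      rw [h4] at h1
      have h5 : e ≤ |h p - h p| := h1
      rw [sub_self, abs_zero] at h5
      linarith
    · by_contra hc
      have : Q q0 ≤ Q q := h2 (not_lt.1 hc)
      linarith

theorem M12_conc {M : Type*} [TopologicalSpace M] [CompactSpace M] [MeasurableSpace M]
    [BorelSpace M] {μ : Measure M} [IsFiniteMeasure μ] {Q h : M → ℝ}
    (hQ : Continuous Q) (hh : Continuous h) {p : M} (hQ0 : ∀ q, 0 ≤ Q q)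
    (hz : ∀ q, Q q = 0 ↔ q = p) {ψ : ℝ → ℝ} (hψc : Continuous ψ) (hψ0 : ∀ s, 0 ≤ ψ s)
    (h2 : ∀ s, 2 ≤ s → ψ s = 0) {I : ℝ}
    (hA : Tendsto (fun ε : ℝ => (∫ q, ψ (Q q / ε) ∂μ) / ε ^ 2) (𝓝[>] 0) (𝓝 I)) :
    Tendsto (fun ε : ℝ => (∫ q, h q * ψ (Q q / ε) ∂μ) / ε ^ 2) (𝓝[>] 0) (𝓝 (h p * I)) := by
  have hint : ∀ (g : M → ℝ), Continuous g → Integrable g μ := fun g hg =>
    hg.integrable_of_hasCompactSupport (HasCompactSupport.of_compactSpace g)
  have hc : ∀ ε : ℝ, Continuous fun q => ψ (Q q / ε) := fun ε =>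
    hψc.comp (hQ.div_const ε)
  have hR : Tendsto (fun ε : ℝ => (∫ q, (h q - h p) * ψ (Q q / ε) ∂μ) / ε ^ 2) (𝓝[>] 0) (𝓝 0) := by
    rw [Metric.tendsto_nhds]
    intro e he
    have hd : 0 < e / (|I| + 2) := by positivity
    obtain ⟨d, hd0, hd1⟩ := M12_near hQ hh hQ0 hz hd
    have e1 : ∀ᶠ ε : ℝ in 𝓝[>] 0, (∫ q, ψ (Q q / ε) ∂μ) / ε ^ 2 < |I| + 1 :=
      hA.eventually_lt_const (by have := le_abs_self I; linarith)
    have e2 : ∀ᶠ ε : ℝ in 𝓝[>] 0, ε < d / 2 :=
      nhdsWithin_le_nhds (eventually_lt_nhds (by positivity))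
    filter_upwards [e1, e2, self_mem_nhdsWithin] with ε h1 h3 h4
    have h4' : 0 < ε := h4
    rw [Real.dist_eq, sub_zero, abs_div, abs_of_pos (pow_pos h4' 2)]
    have h5 : |∫ q, (h q - h p) * ψ (Q q / ε) ∂μ| ≤ ∫ q, e / (|I| + 2) * ψ (Q q / ε) ∂μ := by
      rw [← Real.norm_eq_abs]
      refine norm_integral_le_of_norm_le (hint _ (continuous_const.mul (hc ε)))
        (Eventually.of_forall fun q => ?_)
      rw [norm_mul, Real.norm_of_nonneg (hψ0 _), Real.norm_eq_abs]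
      by_cases hq : Q q < d
      · exact mul_le_mul_of_nonneg_right (hd1 q hq).le (hψ0 _)
      · rw [h2 (Q q / ε) (by rw [le_div_iff₀ h4']; linarith)]; simp
    rw [integral_const_mul] at h5
    calc _ ≤ (e / (|I| + 2) * ∫ q, ψ (Q q / ε) ∂μ) / ε ^ 2 := by gcongr
      _ = e / (|I| + 2) * ((∫ q, ψ (Q q / ε) ∂μ) / ε ^ 2) := by ring
      _ ≤ e / (|I| + 2) * (|I| + 1) := by gcongr
      _ < e := by
        have h6 : 0 < |I| + 2 := by positivity
        rw [div_mul_eq_mul_div, div_lt_iff₀ h6]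
        linarith only [he]
  have h6 := (hA.const_mul (h p)).add hR
  rw [add_zero] at h6
  refine h6.congr fun ε => ?_
  have i1 : Integrable (fun q => h p * ψ (Q q / ε)) μ := hint _ (continuous_const.mul (hc ε))
  have i2 : Integrable (fun q => (h q - h p) * ψ (Q q / ε)) μ :=
    hint _ ((hh.sub continuous_const).mul (hc ε))
  rw [← mul_div_assoc, ← integral_const_mul, ← add_div, ← integral_add i1 i2]
  congr 2
  funext q
  ring

/-- the centre is a null set -/
theorem M12_null {M : Type*} [MeasurableSpace M] {μ : Measure M} [IsFiniteMeasure μ] {Q : M → ℝ}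
    (has : Tendsto (fun t : ℝ => μ.real {q | Q q < t} / t ^ 2) (𝓝[>] 0)
      (𝓝 (2 * Real.pi ^ 2))) : μ {q | Q q ≤ 0} = 0 := by
  have h1 : Tendsto (fun t : ℝ => μ.real {q | Q q < t}) (𝓝[>] 0) (𝓝 0) := by
    have h2 : Tendsto (fun t : ℝ => t ^ 2) (𝓝[>] (0 : ℝ)) (𝓝 0) := by
      have : Tendsto (fun t : ℝ => t ^ 2) (𝓝 (0 : ℝ)) (𝓝 (0 ^ 2)) := (continuous_pow 2).tendsto 0
      rw [zero_pow two_ne_zero] at this
      exact this.mono_left nhdsWithin_le_nhds
    have h3 := has.mul h2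
    rw [mul_zero] at h3
    refine h3.congr' ?_
    filter_upwards [self_mem_nhdsWithin] with t ht
    have : (t : ℝ) ≠ 0 := (ne_of_gt ht)
    field_simp
  have h4 : ∀ᶠ t : ℝ in 𝓝[>] 0, μ.real {q | Q q ≤ 0} ≤ μ.real {q | Q q < t} := by
    filter_upwards [self_mem_nhdsWithin] with t ht
    exact measureReal_mono (fun q (hq : Q q ≤ 0) => (lt_of_le_of_lt hq ht : Q q < t))
  have h5 := ge_of_tendsto h1 h4
  have h6 : μ.real {q | Q q ≤ 0} = 0 := le_antisymm h5 measureReal_nonneg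
  rwa [measureReal_eq_zero_iff] at h6

end Vale.Agent.P211.S4

end

-- M12core
section

/-! P211, S4, task M12: assembly on an abstract space (helper828, with helper967). -/

namespace Vale.Agent.P211.S4

open Topology Filter MeasureTheory Set
open scoped ContDiff

variable {P P1 P2 : ℝ → ℝ}

theorem m12psi0_nn (s : ℝ) : 0 ≤ m12psi0 s := by
  by_cases h : s ≤ 1
  · rw [m12psi0_zero h]
  · exact m12psi0_nonneg (by linarith)

theorem TestFn.m12_hh_meas (hP : TestFn P P1 P2) : Measurable (hh P P1 P2) := by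
  have h1 := hP.smooth.continuous.measurable
  have h2 := hP.m12_P1s.continuous.measurable
  have h3 := hP.m12_P2s.continuous.measurable
  have h4 := m12_qd1_cont.measurable
  have h5 := m12_qq_cont.measurable
  unfold hh
  exact (((h1.const_mul 3).add (((h1.const_mul 2).mul h4).div h5)).sub
    ((measurable_id.const_mul 2).mul h3)).sub ((((measurable_id.const_mul 2).mul h2).mul h4).div h5)

theorem TestFn.m12_k_meas (hP : TestFn P P1 P2) : Measurable (m12k P P1) :=
  hP.m12_N_smooth.continuous.measurable.div (measurable_id.pow_const 2)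

theorem TestFn.m12_F_cont (hP : TestFn P P1 P2) {ε : ℝ} (hε : 0 < ε) :
    Continuous (m12F P P1 ε) := (hP.m12_F_smooth hε).continuous

theorem TestFn.m12_R_meas (hP : TestFn P P1 P2) {ε : ℝ} (hε : 0 < ε) :
    Measurable (m12R P P1 P2 ε) := by
  have h1 := (m12a_smooth ε).continuous.measurable
  have h2 := (m12b_smooth ε).continuous.measurable
  have h3 := (m12b'_cont ε).measurable
  have h4 := hP.m12_k_meas
  have h5 := hP.smooth.continuous.measurable
  have h6 := hP.m12_hh_meas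
  have h7 := (hP.m12_F_cont hε).measurable
  unfold m12R
  exact (((((measurable_id.const_mul 2).mul h1).mul h3).mul h4).add
    ((h1.mul h2).mul (((h5.const_mul 3).sub h6).div measurable_id))).sub (h7.const_mul 3)

theorem m12_core {M : Type*} [TopologicalSpace M] [CompactSpace M] [MeasurableSpace M]
    [BorelSpace M] {μ : Measure M} [IsFiniteMeasure μ] {φ w : M → ℝ} (hφ : Continuous φ)
    (hw : Continuous w) (hw0 : ∀ q, 0 ≤ w q) (hφ0 : ∀ q, 0 ≤ φ q) (p : M)
    (hp : ∀ q, φ q = 0 ↔ q = p) (hμ : μ {q | φ q ≤ 0} = 0) {T : ℝ} (hT : 3 / 2 < T)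
    (hup : (μ.map φ).restrict (Ioo 0 T) ≤
      (volume.withDensity fun s => ENNReal.ofReal (4 * Real.pi ^ 2 * s)).restrict (Ioo 0 T))
    (hA : Tendsto (fun ε : ℝ => (∫ q, m12psi0 (φ q / ε) ∂μ) / ε ^ 2) (𝓝[>] 0)
      (𝓝 (8 * Real.pi ^ 2)))
    (hstar : ∀ F : ℝ → ℝ, ContDiff ℝ ∞ F → (∀ s, 3 / 2 ≤ s → F s = 0) → (∀ s, 0 ≤ F s) →
      (∀ s, deriv F s ≤ 0) →
      0 ≤ ∫ q, (w q * (2 * φ q * deriv (deriv F) (φ q) + deriv F (φ q) * (3 + ww (φ q))
        - 3 * F (φ q)) + 3 * F (φ q) * w q ^ 3) ∂μ)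
    (hP : TestFn P P1 P2) :
    8 * Real.pi ^ 2 * w p ≤ ∫ q in {q | 0 < φ q ∧ φ q < 3 / 2},
        (3 * P (φ q) * w q ^ 3 - hh P P1 P2 (φ q) * w q) / φ q ∂μ := by
  have hS : MeasurableSet {q | 0 < φ q ∧ φ q < 3 / 2} :=
    (measurableSet_lt measurable_const hφ.measurable).inter
      (measurableSet_lt hφ.measurable measurable_const)
  have hinv : IntegrableOn (fun q => 1 / φ q) {q | 0 < φ q ∧ φ q < 3 / 2} μ :=
    M12_integrable_inv hφ.measurable hT hup
  obtain ⟨W, hW⟩ := isCompact_univ.exists_bound_of_continuousOn hw.continuousOn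
  have hW' : ∀ q, w q ≤ |W| := fun q => by
    have := hW q (mem_univ q)
    rw [Real.norm_eq_abs] at this
    exact (le_abs_self _).trans (this.trans (le_abs_self _))
  obtain ⟨C, hC0, hC⟩ := hP.m12_bound
  have hWn := abs_nonneg W
  -- the regular integrand
  have hbd : ∀ ε, 0 < ε → ∀ q, 0 < φ q ∧ φ q < 3 / 2 →
      ‖w q * m12R P P1 P2 ε (φ q) + 3 * m12F P P1 ε (φ q) * w q ^ 3‖ ≤
        (|W| * C + 3 * C * |W| ^ 3) * (1 / φ q) := by
    intro ε hε q hq
    obtain ⟨h1, h2⟩ := hC ε (φ q) hε hq.1 hq.2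
    have h3 := hq.1
    rw [Real.norm_eq_abs]
    calc |w q * m12R P P1 P2 ε (φ q) + 3 * m12F P P1 ε (φ q) * w q ^ 3|
        ≤ |w q * m12R P P1 P2 ε (φ q)| + |3 * m12F P P1 ε (φ q) * w q ^ 3| := abs_add_le _ _
      _ = w q * |m12R P P1 P2 ε (φ q)| + 3 * |m12F P P1 ε (φ q)| * w q ^ 3 := by
          rw [abs_mul, abs_mul, abs_mul, abs_of_nonneg (hw0 q), abs_of_nonneg (pow_nonneg (hw0 q) 3),
            abs_of_pos (by norm_num : (0 : ℝ) < 3)]
      _ ≤ |W| * (C / φ q) + 3 * (C / φ q) * |W| ^ 3 := by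
          refine add_le_add (mul_le_mul (hW' q) h1 (abs_nonneg _) hWn) ?_
          exact mul_le_mul (mul_le_mul_of_nonneg_left h2 (by norm_num))
            (pow_le_pow_left₀ (hw0 q) (hW' q) 3) (pow_nonneg (hw0 q) 3) (by (clear * - hC0 h3; positivity))
      _ = (|W| * C + 3 * C * |W| ^ 3) * (1 / φ q) := by ring
  have hmeas : ∀ ε, 0 < ε → AEStronglyMeasurable
      (fun q => w q * m12R P P1 P2 ε (φ q) + 3 * m12F P P1 ε (φ q) * w q ^ 3)
      (μ.restrict {q | 0 < φ q ∧ φ q < 3 / 2}) := by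
    intro ε hε
    apply Measurable.aestronglyMeasurable
    exact (hw.measurable.mul ((hP.m12_R_meas hε).comp hφ.measurable)).add
      ((((hP.m12_F_cont hε).measurable.comp hφ.measurable).const_mul 3).mul
        (hw.measurable.pow_const 3))
  have hinv2 : Integrable (fun q => (|W| * C + 3 * C * |W| ^ 3) * (1 / φ q))
      (μ.restrict {q | 0 < φ q ∧ φ q < 3 / 2}) := Integrable.const_mul hinv _
  have hint : ∀ ε, 0 < ε → Integrable
      (fun q => w q * m12R P P1 P2 ε (φ q) + 3 * m12F P P1 ε (φ q) * w q ^ 3)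
      (μ.restrict {q | 0 < φ q ∧ φ q < 3 / 2}) := fun ε hε =>
    hinv2.mono' (hmeas ε hε) ((ae_restrict_iff' hS).2 (Eventually.of_forall fun q hq => hbd ε hε q hq))
  -- the limit of the regular part
  have hJ : Tendsto (fun ε => ∫ q in {q | 0 < φ q ∧ φ q < 3 / 2},
        (w q * m12R P P1 P2 ε (φ q) + 3 * m12F P P1 ε (φ q) * w q ^ 3) ∂μ) (𝓝[>] 0)
      (𝓝 (∫ q in {q | 0 < φ q ∧ φ q < 3 / 2},
        (3 * P (φ q) * w q ^ 3 - hh P P1 P2 (φ q) * w q) / φ q ∂μ)) := by
    refine tendsto_integral_filter_of_dominated_convergence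
      (fun q => (|W| * C + 3 * C * |W| ^ 3) * (1 / φ q)) ?_ ?_ hinv2 ?_
    · filter_upwards [self_mem_nhdsWithin] with ε hε using hmeas ε hε
    · filter_upwards [self_mem_nhdsWithin] with ε hε
      exact (ae_restrict_iff' hS).2 (Eventually.of_forall fun q hq => hbd ε hε q hq)
    · refine (ae_restrict_iff' hS).2 (Eventually.of_forall fun q hq => ?_)
      have h1 := ((hP.m12_R_lim hq.1 hq.2).const_mul (w q)).add
        (((hP.m12_F_lim hq.1 hq.2).const_mul 3).mul_const (w q ^ 3))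
      have e : w q * (-(hh P P1 P2 (φ q)) / φ q) + 3 * (P (φ q) / φ q) * w q ^ 3 =
          (3 * P (φ q) * w q ^ 3 - hh P P1 P2 (φ q) * w q) / φ q := by ring
      rw [e] at h1
      exact h1
  -- the limit of the singular part
  have hN : Continuous fun q => w q * m12N P P1 (φ q) :=
    hw.mul (hP.m12_N_smooth.continuous.comp hφ)
  have hL := M12_conc (μ := μ) hφ hN hφ0 hp m12psi0_smooth.continuous m12psi0_nn
    (fun s hs => m12psi0_two hs) hA
  have hφp : φ p = 0 := (hp p).2 rfl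
  have e0 : w p * m12N P P1 (φ p) * (8 * Real.pi ^ 2) = 8 * Real.pi ^ 2 * w p := by
    rw [hφp]; unfold m12N; rw [hP.zero]; ring
  rw [e0] at hL
  refine le_of_tendsto_of_tendsto hL hJ ?_
  have hε2 : ∀ᶠ ε : ℝ in 𝓝[>] 0, ε < 1 / 2 :=
    nhdsWithin_le_nhds (eventually_lt_nhds (by norm_num))
  filter_upwards [self_mem_nhdsWithin, hε2] with ε hε0 hε1
  have hε : 0 < ε := hε0
  have h0 := hstar (m12F P P1 ε) (hP.m12_F_smooth hε) (fun s hs => m12_F_zero hε hs)
    (hP.m12_F_nonneg hε) (fun s => by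
      rw [hP.m12_F_deriv hε]; exact neg_nonpos.2 (hP.m12_g_nonneg hε s))
  -- restrict to `S`
  have hae : ∀ᵐ q ∂μ, ¬ φ q ≤ 0 := by
    rw [ae_iff]; simpa using hμ
  have h1 : ∫ q in {q | 0 < φ q ∧ φ q < 3 / 2},
      (w q * (2 * φ q * deriv (deriv (m12F P P1 ε)) (φ q)
        + deriv (m12F P P1 ε) (φ q) * (3 + ww (φ q)) - 3 * m12F P P1 ε (φ q))
        + 3 * m12F P P1 ε (φ q) * w q ^ 3) ∂μ =
      ∫ q, (w q * (2 * φ q * deriv (deriv (m12F P P1 ε)) (φ q)
        + deriv (m12F P P1 ε) (φ q) * (3 + ww (φ q)) - 3 * m12F P P1 ε (φ q))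
        + 3 * m12F P P1 ε (φ q) * w q ^ 3) ∂μ := by
    apply setIntegral_eq_integral_of_ae_compl_eq_zero
    filter_upwards [hae] with q hq hqS
    have h2 : 3 / 2 ≤ φ q := by
      by_contra h3
      exact hqS ⟨not_le.1 hq, not_le.1 h3⟩
    rw [hP.m12_op_zero hε h2, m12_F_zero hε h2]; ring
  rw [← h1] at h0
  have hcI : Integrable (fun q => w q * m12N P P1 (φ q) * m12psi0 (φ q / ε)) μ := by
    have hc : Continuous fun q => w q * m12N P P1 (φ q) * m12psi0 (φ q / ε) :=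
      hN.mul (m12psi0_smooth.continuous.comp (hφ.div_const ε))
    exact hc.integrable_of_hasCompactSupport (HasCompactSupport.of_compactSpace _)
  have h2 : ∫ q in {q | 0 < φ q ∧ φ q < 3 / 2},
      (w q * (2 * φ q * deriv (deriv (m12F P P1 ε)) (φ q)
        + deriv (m12F P P1 ε) (φ q) * (3 + ww (φ q)) - 3 * m12F P P1 ε (φ q))
        + 3 * m12F P P1 ε (φ q) * w q ^ 3) ∂μ =
      ∫ q in {q | 0 < φ q ∧ φ q < 3 / 2},
        ((w q * m12R P P1 P2 ε (φ q) + 3 * m12F P P1 ε (φ q) * w q ^ 3)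
          - (w q * m12N P P1 (φ q) * m12psi0 (φ q / ε)) * (1 / ε ^ 2)) ∂μ := by
    refine setIntegral_congr_fun hS fun q hq => ?_
    have hs : 0 < φ q := hq.1
    rw [hP.m12_op hε hs hq.2.le]
    have e : m12psi P P1 ε (φ q) =
        m12N P P1 (φ q) * m12psi0 (φ q / ε) * (1 / ε ^ 2) := by
      by_cases h3 : 2 * ε ≤ φ q
      · rw [m12psi0_two (by rw [le_div_iff₀ hε]; exact h3)]
        unfold m12psi
        rw [m12a'_one hε h3]; ring
      · push Not at h3
        unfold m12psi m12k m12psi0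
        rw [m12b_one hε (by linarith only [h3, hε1])]
        unfold m12a'
        field_simp
    rw [e]; ring
  rw [h2, integral_sub (hint ε hε) ((hcI.restrict).mul_const _), integral_mul_const] at h0
  have h3 : ∫ q in {q | 0 < φ q ∧ φ q < 3 / 2}, w q * m12N P P1 (φ q) * m12psi0 (φ q / ε) ∂μ =
      ∫ q, w q * m12N P P1 (φ q) * m12psi0 (φ q / ε) ∂μ := by
    apply setIntegral_eq_integral_of_forall_compl_eq_zero
    intro q hqS
    by_cases h4 : φ q ≤ 0
    · rw [m12psi0_zero ((div_nonpos_of_nonpos_of_nonneg h4 hε.le).trans zero_le_one), mul_zero]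
    · have h5 : 3 / 2 ≤ φ q := by
        by_contra h6
        exact hqS ⟨not_le.1 h4, not_le.1 h6⟩
      rw [m12psi0_two (by rw [le_div_iff₀ hε]; linarith only [h5, hε, hε1]), mul_zero]
  rw [h3] at h0
  have h6 : (∫ q, w q * m12N P P1 (φ q) * m12psi0 (φ q / ε) ∂μ) / ε ^ 2 =
      (∫ q, w q * m12N P P1 (φ q) * m12psi0 (φ q / ε) ∂μ) * (1 / ε ^ 2) := by ring
  rw [h6]
  linarith only [h0]

end Vale.Agent.P211.S4

end

-- M12
section

/-! P211, S4, task M12: the limit of `star` (helper828, with helper967). -/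

namespace Vale.Agent.P211.S4

open Topology Filter MeasureTheory Set
open scoped ContDiff

variable {M 𝒪 V : Type*} [TopologicalSpace M] [CommRing 𝒪] [Algebra ℝ 𝒪]
    [AddCommGroup V] [Module 𝒪 V] {G : Geo2 M 𝒪 V}

variable [MeasurableSpace M] [BorelSpace M] {μ : Measure M} [IsFiniteMeasure μ]

theorem main_lim [CompactSpace M] (hdiv : DivThm G μ) {p : M} {T : ℝ} (hT32 : 3 / 2 < T)
    (hT : T ≤ 61 / 40) {φ : 𝒪}
    (h : Radial G μ p T φ) {u : 𝒪} (hu0 : ∀ p, 0 ≤ G.ev p u)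
    (hu : ∀ p, 12 * G.ev p u * (G.ev p u - G.ev p u * Real.sqrt (G.ev p u))
        + 3 / 4 * G.ev p (G.g (G.grad u) (G.grad u)) ≤ G.ev p u * G.ev p (G.lap u))
    {P P1 P2 : ℝ → ℝ} (hP : TestFn P P1 P2) :
    8 * Real.pi ^ 2 * (G.ev p u) ^ (1 / 4 : ℝ) ≤
      ∫ q in {q | 0 < G.ev q φ ∧ G.ev q φ < 3 / 2},
        (3 * P (G.ev q φ) * ((G.ev q u) ^ (1 / 4 : ℝ)) ^ 3
          - hh P P1 P2 (G.ev q φ) * (G.ev q u) ^ (1 / 4 : ℝ)) / G.ev q φ ∂μ := by
  have hT0 : 0 < T := by linarith only [hT, hT32]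
  have hA := asym_test h m12psi0_smooth (fun s hs => m12psi0_zero hs) (fun s hs => m12psi0_two hs)
  rw [m12psi0_int] at hA
  exact m12_core (φ := fun q => G.ev q φ) (w := fun q => (G.ev q u) ^ (1 / 4 : ℝ)) (G.ev_cont φ)
    ((G.ev_cont u).rpow_const fun q => .inr (by norm_num)) (fun q => Real.rpow_nonneg (hu0 q) _)
    h.nonneg p h.zero (M12_null h.asym) hT32 (dens_upper hdiv hT0 h) hA
    (fun F hF hF0 hFn hFd => star hdiv hT h hu0 hu hF hT32 hF0 hFn hFd) hP

end Vale.Agent.P211.S4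

end

-- M13
section

/-! P211, S4, M13: application of a certificate. -/

namespace Vale.Agent.P211.S4

open Topology Filter MeasureTheory Set
open scoped ContDiff

private theorem m13_lint {M : Type*} [MeasurableSpace M] {μ : Measure M} {φ : M → ℝ}
    (hφ : Measurable φ) {T : ℝ} (hT : 3 / 2 < T)
    (hd : (μ.map φ).restrict (Ioo 0 T) ≤
      (volume.withDensity fun s => ENNReal.ofReal (4 * Real.pi ^ 2 * s)).restrict (Ioo 0 T))
    {A : ℝ → ℝ} (hA : Continuous A) (h0 : ∀ s, 0 ≤ A s) :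
    ∫⁻ q in {q | 0 < φ q ∧ φ q < 3 / 2}, ENNReal.ofReal (A (φ q) / φ q) ∂μ ≤
      ENNReal.ofReal (4 * Real.pi ^ 2 * ∫ s in (0 : ℝ)..(3 / 2), A s) := by
  have hg : Measurable fun s : ℝ => ENNReal.ofReal (A s / s) :=
    (hA.measurable.div measurable_id).ennreal_ofReal
  have hw : Measurable fun s : ℝ => ENNReal.ofReal (4 * Real.pi ^ 2 * s) :=
    (measurable_const.mul measurable_id).ennreal_ofReal
  have hsub : Ioo (0 : ℝ) (3 / 2) ⊆ Ioo 0 T := Ioo_subset_Ioo_right hT.le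
  have h1 : ∫⁻ q in {q | 0 < φ q ∧ φ q < 3 / 2}, ENNReal.ofReal (A (φ q) / φ q) ∂μ =
      ∫⁻ s in Ioo (0 : ℝ) (3 / 2), ENNReal.ofReal (A s / s) ∂(μ.map φ) := by
    rw [setLIntegral_map measurableSet_Ioo hg hφ]
    rfl
  have h2 : (μ.map φ).restrict (Ioo 0 (3 / 2)) ≤
      (volume.withDensity fun s => ENNReal.ofReal (4 * Real.pi ^ 2 * s)).restrict (Ioo 0 (3 / 2)) := by
    rw [← Measure.restrict_restrict_of_subset hsub, ← Measure.restrict_restrict_of_subset hsub
      (μ := volume.withDensity fun s => ENNReal.ofReal (4 * Real.pi ^ 2 * s))]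
    exact Measure.restrict_mono le_rfl hd
  rw [h1]
  refine (lintegral_mono' h2 le_rfl).trans ?_
  rw [restrict_withDensity measurableSet_Ioo, lintegral_withDensity_eq_lintegral_mul _ hw hg]
  have h3 : ∀ s ∈ Ioo (0 : ℝ) (3 / 2), ((fun s : ℝ => ENNReal.ofReal (4 * Real.pi ^ 2 * s)) *
      fun s : ℝ => ENNReal.ofReal (A s / s)) s = ENNReal.ofReal (4 * Real.pi ^ 2 * A s) := by
    intro s hs
    have hs0 : s ≠ 0 := hs.1.ne'
    simp only [Pi.mul_apply]
    rw [← ENNReal.ofReal_mul (mul_nonneg (by positivity) hs.1.le)]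
    congr 1
    field_simp
  rw [setLIntegral_congr_fun measurableSet_Ioo h3]
  have h4 : IntegrableOn (fun s => 4 * Real.pi ^ 2 * A s) (Ioo 0 (3 / 2)) := by
    have h5 : IntegrableOn (fun s => 4 * Real.pi ^ 2 * A s) (Icc 0 (3 / 2)) :=
      (continuous_const.mul hA).continuousOn.integrableOn_compact isCompact_Icc
    exact h5.mono_set Ioo_subset_Icc_self
  rw [← ofReal_integral_eq_lintegral_ofReal h4
    (Filter.Eventually.of_forall fun s => mul_nonneg (by positivity) (h0 s)), integral_const_mul,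
    intervalIntegral.integral_of_le (by norm_num), integral_Ioc_eq_integral_Ioo]

private theorem m13_int {M : Type*} [MeasurableSpace M] {μ : Measure M} {φ : M → ℝ}
    (hφ : Measurable φ) {T : ℝ} (hT : 3 / 2 < T)
    (hd : (μ.map φ).restrict (Ioo 0 T) ≤
      (volume.withDensity fun s => ENNReal.ofReal (4 * Real.pi ^ 2 * s)).restrict (Ioo 0 T))
    {A : ℝ → ℝ} (hA : Continuous A) (h0 : ∀ s, 0 ≤ A s) :
    IntegrableOn (fun q => A (φ q) / φ q) {q | 0 < φ q ∧ φ q < 3 / 2} μ ∧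
    ∫ q in {q | 0 < φ q ∧ φ q < 3 / 2}, A (φ q) / φ q ∂μ ≤
      4 * Real.pi ^ 2 * ∫ s in (0 : ℝ)..(3 / 2), A s := by
  have hS : MeasurableSet {q | 0 < φ q ∧ φ q < 3 / 2} := hφ measurableSet_Ioo
  have hm : Measurable fun q => A (φ q) / φ q := (hA.measurable.comp hφ).div hφ
  have hnn : 0 ≤ᵐ[μ.restrict {q | 0 < φ q ∧ φ q < 3 / 2}] fun q => A (φ q) / φ q := by
    filter_upwards [ae_restrict_mem hS] with q hq
    exact div_nonneg (h0 _) hq.1.le
  have h1 := m13_lint hφ hT hd hA h0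
  refine ⟨⟨hm.aestronglyMeasurable, ?_⟩, ?_⟩
  · rw [hasFiniteIntegral_iff_ofReal hnn]
    exact h1.trans_lt ENNReal.ofReal_lt_top
  · rw [integral_eq_lintegral_of_nonneg_ae hnn hm.aestronglyMeasurable]
    refine ENNReal.toReal_le_of_le_ofReal ?_ h1
    have h2 : 0 ≤ ∫ s in (0 : ℝ)..(3 / 2), A s :=
      intervalIntegral.integral_nonneg (by norm_num) fun s _ => h0 s
    positivity

variable {M 𝒪 V : Type*} [TopologicalSpace M] [CommRing 𝒪] [Algebra ℝ 𝒪]
    [AddCommGroup V] [Module 𝒪 V] {G : Geo2 M 𝒪 V} {om : V → V → V → V → 𝒪}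

variable [MeasurableSpace M] [BorelSpace M] {μ : Measure M} [IsFiniteMeasure μ]

/-- M13 (uses M9, M12) -/
theorem cert_apply [CompactSpace M] (hdiv : DivThm G μ) {p : M} {T : ℝ} (hT32 : 3 / 2 < T)
    (hT : T ≤ 61 / 40) {φ : 𝒪}
    (h : Radial G μ p T φ) {u : 𝒪} (hu0 : ∀ p, 0 ≤ G.ev p u)
    (hu : ∀ p, 12 * G.ev p u * (G.ev p u - G.ev p u * Real.sqrt (G.ev p u))
        + 3 / 4 * G.ev p (G.g (G.grad u) (G.grad u)) ≤ G.ev p u * G.ev p (G.lap u))
    {m1 m2 b : ℝ} {P P1 P2 Ap : ℝ → ℝ} (hc : Cert m1 m2 b P P1 P2 Ap (fun _ => 0))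
    (h1 : m1 ≤ (G.ev p u) ^ (1 / 4 : ℝ)) (h2 : ∀ q, (G.ev q u) ^ (1 / 4 : ℝ) ≤ m2) :
    4 * Real.pi ^ 2 / 3 < ∫ q, (G.ev q u + 1 / 2) ∂μ := by
  have hφm : Measurable fun q => G.ev q φ := (G.ev_cont φ).measurable
  have hS : MeasurableSet {q | 0 < G.ev q φ ∧ G.ev q φ < 3 / 2} := hφm measurableSet_Ioo
  have hd := dens_upper hdiv (by linarith only [hT, hT32] : 0 < T) h
  obtain ⟨hi1, hi2⟩ := m13_int hφm hT32 hd hc.contp hc.nnp
  have hui : Integrable (fun q => G.ev q u + 1 / 2) μ := by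
    have hcont : Continuous fun q => G.ev q u + 1 / 2 := (G.ev_cont u).add continuous_const
    exact hcont.integrable_of_hasCompactSupport (HasCompactSupport.of_compactSpace _)
  have hlim := main_lim hdiv hT32 hT h hu0 hu hc.test
  have hb := hc.bpos
  set S : Set M := {q | 0 < G.ev q φ ∧ G.ev q φ < 3 / 2} with hSdef
  have hR : IntegrableOn (fun q => Ap (G.ev q φ) / G.ev q φ + b * (G.ev q u + 1 / 2)) S μ :=
    hi1.add (hui.integrableOn.const_mul b)
  have hle : ∫ q in S, (3 * P (G.ev q φ) * ((G.ev q u) ^ (1 / 4 : ℝ)) ^ 3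
          - hh P P1 P2 (G.ev q φ) * (G.ev q u) ^ (1 / 4 : ℝ)) / G.ev q φ ∂μ ≤
      ∫ q in S, (Ap (G.ev q φ) / G.ev q φ + b * (G.ev q u + 1 / 2)) ∂μ := by
    by_cases hint : IntegrableOn (fun q => (3 * P (G.ev q φ) * ((G.ev q u) ^ (1 / 4 : ℝ)) ^ 3
          - hh P P1 P2 (G.ev q φ) * (G.ev q u) ^ (1 / 4 : ℝ)) / G.ev q φ) S μ
    · refine setIntegral_mono_on hint hR hS fun q hq => ?_
      have hs : 0 < G.ev q φ := hq.1
      have hf0 : 0 ≤ (G.ev q u) ^ (1 / 4 : ℝ) := Real.rpow_nonneg (hu0 q) _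
      have hf4 : ((G.ev q u) ^ (1 / 4 : ℝ)) ^ 4 = G.ev q u := by
        rw [← Real.rpow_natCast, ← Real.rpow_mul (hu0 q)]
        norm_num
      have h3 := hc.ineq (G.ev q φ) ((G.ev q u) ^ (1 / 4 : ℝ)) hs hq.2 hf0 (h2 q)
      rw [hf4, sub_zero] at h3
      rw [div_le_iff₀ hs, add_mul, div_mul_cancel₀ _ hs.ne']
      linarith only [h3]
    · rw [integral_undef hint]
      refine setIntegral_nonneg hS fun q hq => ?_
      exact add_nonneg (div_nonneg (hc.nnp _) hq.1.le)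
        (mul_nonneg hb.le (add_nonneg (hu0 q) (by norm_num)))
  have hsplit : ∫ q in S, (Ap (G.ev q φ) / G.ev q φ + b * (G.ev q u + 1 / 2)) ∂μ =
      (∫ q in S, Ap (G.ev q φ) / G.ev q φ ∂μ) + b * ∫ q in S, (G.ev q u + 1 / 2) ∂μ := by
    rw [integral_add hi1 (hui.integrableOn.const_mul b), integral_const_mul]
  have hmono : ∫ q in S, (G.ev q u + 1 / 2) ∂μ ≤ ∫ q, (G.ev q u + 1 / 2) ∂μ :=
    setIntegral_le_integral hui
      (Filter.Eventually.of_forall fun q => add_nonneg (hu0 q) (by norm_num))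
  have hint := hc.int
  simp only [zero_mul, sub_zero] at hint
  have hpi : 0 < Real.pi ^ 2 := by positivity
  have h5 : b * ∫ q in S, (G.ev q u + 1 / 2) ∂μ ≤ b * ∫ q, (G.ev q u + 1 / 2) ∂μ :=
    mul_le_mul_of_nonneg_left hmono hb.le
  have h6 : 8 * Real.pi ^ 2 * m1 ≤ 8 * Real.pi ^ 2 * (G.ev p u) ^ (1 / 4 : ℝ) :=
    mul_le_mul_of_nonneg_left h1 (by positivity)
  have h7 : 8 * Real.pi ^ 2 * (b / 6 + 1 / 2 * ∫ s in (0 : ℝ)..(3 / 2), Ap s) < 8 * Real.pi ^ 2 * m1 :=
    mul_lt_mul_of_pos_left hint (by positivity)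
  have h8 : b * (4 * Real.pi ^ 2 / 3) < b * ∫ q, (G.ev q u + 1 / 2) ∂μ := by
    have h9 : 8 * Real.pi ^ 2 * (b / 6 + 1 / 2 * ∫ s in (0 : ℝ)..(3 / 2), Ap s) =
        b * (4 * Real.pi ^ 2 / 3) + 4 * Real.pi ^ 2 * ∫ s in (0 : ℝ)..(3 / 2), Ap s := by ring
    linarith
  exact lt_of_mul_lt_mul_left h8 hb.le

end Vale.Agent.P211.S4

end

-- CAll
section

/-!
P211, S4: one certificate for all values of the maximum (helper451, helper813).
-/

namespace Vale.Agent.P211.S4

open Topology Filter MeasureTheory Set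
open scoped ContDiff

/-- numerator of the coefficient `hh` for the weight `1 - s + 4/27 s^3` -/
private noncomputable def CAll_N (s : ℝ) : ℝ :=
  3 * (1 - s + 4 / 27 * s ^ 3) * qq s + 2 * (1 - s + 4 / 27 * s ^ 3) * qd1 s
    - 2 * s * (8 / 9 * s) * qq s - 2 * s * (-1 + 4 / 9 * s ^ 2) * qd1 s

private theorem CAll_qq_pos {s : ℝ} (h0 : 0 ≤ s) (h1 : s ≤ 3 / 2) : 0 < qq s := by
  unfold qq
  linarith only [mul_self_nonneg (3 / 2 - s), mul_nonneg h0 (mul_self_nonneg (3 / 2 - s)), mul_nonneg (mul_nonneg h0 h0) (sub_nonneg.2 h1)]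

private theorem CAll_N1 {s : ℝ} (h0 : 3 / 10 ≤ s) (h1 : s ≤ 1 / 2) :
    qq s * ((123 / 100) + (-26 / 5) * s) ≤ CAll_N s := by
  have hx : 0 ≤ s - 3 / 10 := by linarith
  have hy : 0 ≤ 1 / 2 - s := by linarith only [h1]
  have key : CAll_N s - qq s * ((123 / 100) + (-26 / 5) * s) =
      (228749 / 2240) * (s - 3 / 10) ^ 0 * (1 / 2 - s) ^ 6
        + (397475 / 336) * (s - 3 / 10) ^ 1 * (1 / 2 - s) ^ 5
        + (2041871 / 576) * (s - 3 / 10) ^ 2 * (1 / 2 - s) ^ 4
        + (1000951 / 216) * (s - 3 / 10) ^ 3 * (1 / 2 - s) ^ 3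
        + (1673165 / 576) * (s - 3 / 10) ^ 4 * (1 / 2 - s) ^ 2
        + (792625 / 1008) * (s - 3 / 10) ^ 5 * (1 / 2 - s) ^ 1
        + (622625 / 12096) * (s - 3 / 10) ^ 6 * (1 / 2 - s) ^ 0 := by
    unfold CAll_N qq qd1
    ring
  have : 0 ≤ CAll_N s - qq s * ((123 / 100) + (-26 / 5) * s) := by
    rw [key]
    (clear * - h0 h1; positivity)
  linarith only [this]

private theorem CAll_N2 {s : ℝ} (h0 : 1 / 2 ≤ s) (h1 : s ≤ 11 / 10) :
    qq s * ((943 / 600) + (-353 / 60) * s) ≤ CAll_N s := by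
  have hx : 0 ≤ s - 1 / 2 := by linarith
  have hy : 0 ≤ 11 / 10 - s := by linarith only [h1]
  have key : CAll_N s - qq s * ((943 / 600) + (-353 / 60) * s) =
      (622625 / 8817984) * (s - 1 / 2) ^ 0 * (11 / 10 - s) ^ 6
        + (10183375 / 2939328) * (s - 1 / 2) ^ 1 * (11 / 10 - s) ^ 5
        + (6803005 / 734832) * (s - 1 / 2) ^ 2 * (11 / 10 - s) ^ 4
        + (44741939 / 4408992) * (s - 1 / 2) ^ 3 * (11 / 10 - s) ^ 3
        + (18285847 / 2939328) * (s - 1 / 2) ^ 4 * (11 / 10 - s) ^ 2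
        + (7384015 / 2939328) * (s - 1 / 2) ^ 5 * (11 / 10 - s) ^ 1
        + (12254651 / 22044960) * (s - 1 / 2) ^ 6 * (11 / 10 - s) ^ 0 := by
    unfold CAll_N qq qd1
    ring
  have : 0 ≤ CAll_N s - qq s * ((943 / 600) + (-353 / 60) * s) := by
    rw [key]
    (clear * - h0 h1; positivity)
  linarith only [this]

private theorem CAll_N3 {s : ℝ} (h0 : 11 / 10 ≤ s) (h1 : s ≤ 13 / 10) :
    qq s * ((1 / 20) + (-9 / 2) * s) ≤ CAll_N s := by
  have hx : 0 ≤ s - 11 / 10 := by linarith only [h0]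
  have hy : 0 ≤ 13 / 10 - s := by linarith only [h1]
  have key : CAll_N s - qq s * ((1 / 20) + (-9 / 2) * s) =
      (12254651 / 30240) * (s - 11 / 10) ^ 0 * (13 / 10 - s) ^ 6
        + (17551141 / 10080) * (s - 11 / 10) ^ 1 * (13 / 10 - s) ^ 5
        + (810833 / 252) * (s - 11 / 10) ^ 2 * (13 / 10 - s) ^ 4
        + (3584263 / 1008) * (s - 11 / 10) ^ 3 * (13 / 10 - s) ^ 3
        + (602729 / 224) * (s - 11 / 10) ^ 4 * (13 / 10 - s) ^ 2
        + (1887523 / 1440) * (s - 11 / 10) ^ 5 * (13 / 10 - s) ^ 1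
        + (4447847 / 15120) * (s - 11 / 10) ^ 6 * (13 / 10 - s) ^ 0 := by
    unfold CAll_N qq qd1
    ring
  have : 0 ≤ CAll_N s - qq s * ((1 / 20) + (-9 / 2) * s) := by
    rw [key]
    (clear * - h0 h1; positivity)
  linarith only [this]

private theorem CAll_N4 {s : ℝ} (h0 : 13 / 10 ≤ s) (h1 : s ≤ 3 / 2) :
    qq s * ((-29 / 5) + 0 * s) ≤ CAll_N s := by
  have hx : 0 ≤ s - 13 / 10 := by linarith only [h0]
  have hy : 0 ≤ 3 / 2 - s := by linarith only [h1]
  have key : CAll_N s - qq s * ((-29 / 5) + 0 * s) =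
      (4447847 / 15120) * (s - 13 / 10) ^ 0 * (3 / 2 - s) ^ 6
        + (26561 / 42) * (s - 13 / 10) ^ 1 * (3 / 2 - s) ^ 5
        + (532975 / 1008) * (s - 13 / 10) ^ 2 * (3 / 2 - s) ^ 4
        + (598145 / 378) * (s - 13 / 10) ^ 3 * (3 / 2 - s) ^ 3
        + (502625 / 144) * (s - 13 / 10) ^ 4 * (3 / 2 - s) ^ 2
        + (62000 / 21) * (s - 13 / 10) ^ 5 * (3 / 2 - s) ^ 1
        + (95625 / 112) * (s - 13 / 10) ^ 6 * (3 / 2 - s) ^ 0 := by
    unfold CAll_N qq qd1
    ring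
  have : 0 ≤ CAll_N s - qq s * ((-29 / 5) + 0 * s) := by
    rw [key]
    (clear * - h0 h1; positivity)
  linarith only [this]

private theorem CAll_N0 {s : ℝ} (h0 : 0 ≤ s) (h1 : s ≤ 3 / 10) :
    qq s * (1 - 441 / 100 * s) ≤ CAll_N s := by
  have hy : 0 ≤ 3 / 10 - s := by linarith only [h1]
  have key : CAll_N s - qq s * (1 - 441 / 100 * s) = s * (
      (61000 / 243) * s ^ 0 * (3 / 10 - s) ^ 5
        + (4612700 / 5103) * s ^ 1 * (3 / 10 - s) ^ 4
        + (2078849 / 1701) * s ^ 2 * (3 / 10 - s) ^ 3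
        + (4182683 / 5670) * s ^ 3 * (3 / 10 - s) ^ 2
        + (4349242 / 25515) * s ^ 4 * (3 / 10 - s) ^ 1
        + (2263 / 1134) * s ^ 5 * (3 / 10 - s) ^ 0) := by
    unfold CAll_N qq qd1
    ring
  have : 0 ≤ CAll_N s - qq s * (1 - 441 / 100 * s) := by
    rw [key]
    (clear * - h0 h1; positivity)
  linarith only [this]

private theorem CAll_g0 (f : ℝ) :
    0 ≤ 22 / 5 * f ^ 4 - 176 / 25 * f ^ 3 - 27 / 25 * f + 47 / 10 := by
  nlinarith [sq_nonneg (f ^ 2 - 4 / 5 * f - 109 / 200), sq_nonneg (f - 31 / 25)]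

private theorem CAll_g1 (f : ℝ) :
    0 ≤ 33 / 25 * f ^ 4 - 264 / 125 * f ^ 3 - 33 / 100 * f + 141 / 100 := by
  nlinarith [sq_nonneg (f ^ 2 - 4 / 5 * f - 109 / 200), sq_nonneg (f - 31 / 25)]

private theorem CAll_g2 (f : ℝ) :
    0 ≤ 11 / 5 * f ^ 4 - 14 / 9 * f ^ 3 - 137 / 100 * f + 11 / 10 := by
  nlinarith [sq_nonneg (f ^ 2 - 7 / 20 * f - 67 / 200), sq_nonneg (f - 79 / 100)]

private theorem CAll_g3 (f : ℝ) :
    0 ≤ 121 / 25 * f ^ 4 - 328 / 1125 * f ^ 3 - 49 / 10 * f + 121 / 50 := by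
  nlinarith [sq_nonneg (f ^ 2 - 3 / 100 * f - 2 / 5), sq_nonneg (f - 13 / 20)]

private theorem CAll_g4 (f : ℝ) :
    0 ≤ 143 / 25 * f ^ 4 - 86 / 1125 * f ^ 3 - 29 / 5 * f + 143 / 50 := by
  nlinarith [sq_nonneg (f ^ 2 - 1 / 150 * f - 2 / 5), sq_nonneg (f - 16 / 25)]

/-- the right-hand side of the certificate -/
noncomputable def CAll_A (m s : ℝ) : ℝ :=
  10 / 3 * (3 * m ^ 3 - m - 15 / 8) * max (3 / 10 - s) 0 + 15 / 4 * max (1 / 2 - s) 0

private theorem CAll_poly {m s f C : ℝ} (hs0 : 0 ≤ s) (hs : s ≤ 3 / 2) (hf0 : 0 ≤ f)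
    (hfm : f ≤ m) (hm1 : 1 ≤ m) (hC : C * qq s = CAll_N s) :
    3 * (1 - s + 4 / 27 * s ^ 3) * f ^ 3 - C * f - 22 / 5 * s * (f ^ 4 + 1 / 2) ≤ CAll_A m s := by
  have hq := CAll_qq_pos hs0 hs
  have hf3 : 0 ≤ f ^ 3 := by positivity
  have hf4 : 0 ≤ f ^ 4 := by positivity
  have hlow : ∀ L : ℝ, qq s * L ≤ CAll_N s → L ≤ C := by
    intro L hL
    rw [← hC, mul_comm (qq s)] at hL
    exact le_of_mul_le_mul_right hL hq
  unfold CAll_A
  rcases le_total s (3 / 10) with h1 | h1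
  · rw [max_eq_left (by linarith), max_eq_left (by linarith)]
    have hc := mul_le_mul_of_nonneg_right (hlow _ (CAll_N0 hs0 h1)) hf0
    have hg := mul_nonneg hs0 (CAll_g0 f)
    have hm : 0 ≤ (m - f) * (3 * (m ^ 2 + m * f + f ^ 2) - 1) := by
      apply mul_nonneg (by linarith only [hfm])
      nlinarith [mul_nonneg hf0 (by linarith only [hm1] : (0 : ℝ) ≤ m)]
    have h2 := mul_nonneg (by linarith only [h1] : (0 : ℝ) ≤ 1 - 10 / 3 * s) hm
    have h3 : 0 ≤ s * f := mul_nonneg hs0 hf0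
    have h4 : 0 ≤ s * ((3 / 10 - s) * (3 / 10 + s)) * f ^ 3 := by
      apply mul_nonneg (mul_nonneg hs0 (mul_nonneg (by linarith only [h1]) (by linarith only [hs0]))) hf3
    linarith [hc, hg, h2, h3, h4]
  · rw [max_eq_right (by linarith : 3 / 10 - s ≤ 0), mul_zero, zero_add]
    rcases le_total s (1 / 2) with h2 | h2
    · rw [max_eq_left (by linarith)]
      have hc := mul_le_mul_of_nonneg_right (hlow _ (CAll_N1 h1 h2)) hf0
      have hg1 := mul_nonneg (by linarith : (0 : ℝ) ≤ 1 / 2 - s) (CAll_g1 f)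
      have hg2 := mul_nonneg (by linarith only [h1] : (0 : ℝ) ≤ s - 3 / 10) (CAll_g2 f)
      have h4 : 0 ≤ (s - 3 / 10) * (1 / 2 - s) * (s + 4 / 5) * f ^ 3 := by
        apply mul_nonneg (mul_nonneg (mul_nonneg (by linarith only [h1]) (by linarith only [h2])) (by linarith only [h1])) hf3
      linarith only [h4, hg2, hg1, hc]
    · rw [max_eq_right (by linarith : 1 / 2 - s ≤ 0), mul_zero]
      rcases le_total s (11 / 10) with h3 | h3
      · have hc := mul_le_mul_of_nonneg_right (hlow _ (CAll_N2 h2 h3)) hf0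
        have hg1 := mul_nonneg (by linarith : (0 : ℝ) ≤ 11 / 10 - s) (CAll_g2 f)
        have hg2 := mul_nonneg (by linarith only [h2] : (0 : ℝ) ≤ s - 1 / 2) (CAll_g3 f)
        have h4 : 0 ≤ (s - 1 / 2) * (11 / 10 - s) * (s + 8 / 5) * f ^ 3 := by
          apply mul_nonneg (mul_nonneg (mul_nonneg (by linarith only [h2]) (by linarith only [h3])) (by linarith only [h2])) hf3
        linarith only [h4, hg2, hg1, hc]
      · rcases le_total s (13 / 10) with h5 | h5
        · have hc := mul_le_mul_of_nonneg_right (hlow _ (CAll_N3 h3 h5)) hf0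
          have hg1 := mul_nonneg (by linarith only [h5] : (0 : ℝ) ≤ 13 / 10 - s) (CAll_g3 f)
          have hg2 := mul_nonneg (by linarith only [h3] : (0 : ℝ) ≤ s - 11 / 10) (CAll_g4 f)
          have h4 : 0 ≤ (s - 11 / 10) * (13 / 10 - s) * (s + 12 / 5) * f ^ 3 := by
            apply mul_nonneg (mul_nonneg (mul_nonneg (by linarith only [h3]) (by linarith only [h5])) (by linarith)) hf3
          linarith [hc, hg1, hg2, h4]
        · have hc := mul_le_mul_of_nonneg_right (hlow _ (CAll_N4 h5 hs)) hf0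
          have hg1 := CAll_g4 f
          have hP : 3 * (1 - s + 4 / 27 * s ^ 3) ≤ 86 / 1125 := by
            nlinarith [mul_nonneg (sub_nonneg.2 h5) (sub_nonneg.2 hs),
              mul_nonneg (mul_nonneg (sub_nonneg.2 h5) (sub_nonneg.2 hs))
                (by linarith only [h5] : (0 : ℝ) ≤ s)]
          have h6 := mul_le_mul_of_nonneg_right hP hf3
          have h7 : 0 ≤ (s - 13 / 10) * (f ^ 4 + 1 / 2) :=
            mul_nonneg (by linarith only [h5]) (by linarith only [hf4])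
          linarith only [h7, h6, hg1, hc]

private theorem CAll_int (m : ℝ) : ∫ s in (0 : ℝ)..(3 / 2), CAll_A m s =
    3 / 20 * (3 * m ^ 3 - m - 15 / 8) + 15 / 32 := by
  have key : ∀ c : ℝ, 0 ≤ c → c ≤ 3 / 2 →
      ∫ s in (0 : ℝ)..(3 / 2), max (c - s) 0 = c ^ 2 / 2 := by
    intro c hc0 hc1
    have hcont : Continuous fun s : ℝ => max (c - s) 0 := by fun_prop
    rw [← intervalIntegral.integral_add_adjacent_intervals
      (hcont.intervalIntegrable 0 c) (hcont.intervalIntegrable c (3 / 2))]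
    have e1 : ∫ s in (0 : ℝ)..c, max (c - s) 0 = ∫ s in (0 : ℝ)..c, (c - s) := by
      apply intervalIntegral.integral_congr
      intro s hs
      rw [uIcc_of_le hc0] at hs
      exact max_eq_left (by linarith [hs.2])
    have e2 : ∫ s in c..(3 / 2), max (c - s) 0 = ∫ s in c..(3 / 2), (0 : ℝ) := by
      apply intervalIntegral.integral_congr
      intro s hs
      rw [uIcc_of_le hc1] at hs
      exact max_eq_right (by linarith [hs.1])
    rw [e1, e2]
    rw [intervalIntegral.integral_sub (continuous_const.intervalIntegrable _ _)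
      (continuous_id'.intervalIntegrable _ _)]
    simp
    ring
  have hc1 : Continuous fun s : ℝ => max (3 / 10 - s) 0 := by fun_prop
  have hc2 : Continuous fun s : ℝ => max (1 / 2 - s) 0 := by fun_prop
  unfold CAll_A
  rw [intervalIntegral.integral_add ((hc1.const_mul _).intervalIntegrable _ _)
    ((hc2.const_mul _).intervalIntegrable _ _), intervalIntegral.integral_const_mul,
    intervalIntegral.integral_const_mul, key _ (by norm_num) (by norm_num),
    key _ (by norm_num) (by norm_num)]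
  ring

/-- one certificate for all values of the maximum -/
theorem certAll (m : ℝ) (h1 : 1 ≤ m) (h2 : m ≤ 283 / 200) :
    ∃ b P P1 P2 Ap, Cert m m b P P1 P2 Ap (fun _ => 0) := by
  refine ⟨22 / 5, fun s => 1 - s + 4 / 27 * s ^ 3, fun s => -1 + 4 / 9 * s ^ 2,
    fun s => 8 / 9 * s, CAll_A m, ?_⟩
  constructor
  · constructor
    · fun_prop
    · intro s
      have h := (((hasDerivAt_const s (1 : ℝ)).sub (hasDerivAt_id s)).add
        (((hasDerivAt_id s).pow 3).const_mul (4 / 27)))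
      refine (h.congr_deriv ?_).congr_of_eventuallyEq (Filter.Eventually.of_forall fun x => ?_)
      · simp only [id]
        norm_num
        ring
      · simp
    · intro s
      have h := ((hasDerivAt_const s (-1 : ℝ)).add
        (((hasDerivAt_id s).pow 2).const_mul (4 / 9)))
      refine (h.congr_deriv ?_).congr_of_eventuallyEq (Filter.Eventually.of_forall fun x => ?_)
      · simp only [id]
        norm_num
        ring
      · simp
    · norm_num
    · norm_num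
    · norm_num
    · intro s hs0 hs1
      have : (1 : ℝ) - s + 4 / 27 * s ^ 3 = 4 / 27 * (3 / 2 - s) ^ 2 * (3 + s) := by ring
      rw [this]
      positivity
    · intro s hs0 hs1
      have : (1 : ℝ) - s + 4 / 27 * s ^ 3 - s * (-1 + 4 / 9 * s ^ 2) =
          8 / 27 * (3 / 2 - s) * ((3 / 2) ^ 2 + 3 / 2 * s + s ^ 2) := by ring
      have h3 : 0 ≤ 8 / 27 * (3 / 2 - s) * ((3 / 2) ^ 2 + 3 / 2 * s + s ^ 2) := by
        apply mul_nonneg (by linarith only [hs1])
        positivity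
      linarith only [h3]
  · norm_num
  · unfold CAll_A
    fun_prop
  · exact continuous_const
  · intro s
    unfold CAll_A
    have h3 : 0 ≤ 3 * m ^ 3 - m - 15 / 8 := by
      linarith only [mul_nonneg (mul_nonneg (sub_nonneg.2 h1) (sub_nonneg.2 h1)) (sub_nonneg.2 h1), mul_nonneg (sub_nonneg.2 h1) (sub_nonneg.2 h1), h1]
    positivity
  · intro s
    exact le_rfl
  · intro s f hs0 hs1 hf0 hfm
    have hq := CAll_qq_pos hs0.le hs1.le
    have := CAll_poly (C := hh (fun s => 1 - s + 4 / 27 * s ^ 3) (fun s => -1 + 4 / 9 * s ^ 2)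
      (fun s => 8 / 9 * s) s) hs0.le hs1.le hf0 hfm h1 (by
        unfold hh CAll_N
        field_simp)
    simpa using this
  · simp only [zero_mul, sub_zero]
    rw [CAll_int]
    linarith only [mul_nonneg (mul_nonneg (sub_nonneg.2 h1) (sub_nonneg.2 h2)) (sub_nonneg.2 h1), mul_nonneg (sub_nonneg.2 h1) (sub_nonneg.2 h2), h1]

end Vale.Agent.P211.S4

end

-- M14
section

/-! P211, S4, M14: the end of the integral part. -/

namespace Vale.Agent.P211.S4

open Topology Filter MeasureTheory Set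
open scoped ContDiff

variable {M 𝒪 V : Type*} [TopologicalSpace M] [CommRing 𝒪] [Algebra ℝ 𝒪]
    [AddCommGroup V] [Module 𝒪 V] {G : Geo2 M 𝒪 V} {om : V → V → V → V → 𝒪}

/-- at a maximum point the gradient vanishes and the Laplacian is not positive -/
private theorem m14_max {q : M} {u : 𝒪} (hmax : ∀ x, G.ev x u ≤ G.ev q u) :
    G.ev q (G.g (G.grad u) (G.grad u)) = 0 ∧ G.ev q (G.lap u) ≤ 0 := by
  obtain ⟨F₀, hF₀⟩ := G.frame q
  obtain ⟨F, hS, -⟩ := G.exists_sync (p := q) (F₀ := F₀) hF₀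
  have hlm : IsLocalMin (fun x => G.ev x (-u)) q := by
    refine Filter.Eventually.of_forall fun x => ?_
    simp only [map_neg]
    exact neg_le_neg (hmax x)
  have h1 := fun m => G.min_test q _ hlm (F m)
  have hD : ∀ (X : V) (f : 𝒪), G.D X (-f) = - G.D X f := fun X f => G.D_neg X f
  refine ⟨?_, ?_⟩
  · rw [grad_sq u hS.at]
    refine Finset.sum_eq_zero fun m _ => ?_
    have h2 := (h1 m).1
    rw [hD, map_neg, neg_eq_zero] at h2
    rw [h2]; norm_num
  · rw [lap_sync u hS]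
    refine Finset.sum_nonpos fun m _ => ?_
    have h2 := (h1 m).2
    rw [hD, hD, map_neg] at h2
    linarith

variable [MeasurableSpace M] [BorelSpace M] {μ : Measure M} [IsFiniteMeasure μ]

/-- M14 (uses M13, CAll, A8) -/
theorem partIII [CompactSpace M] (hdiv : DivThm G μ) {T : ℝ} (hT32 : 3 / 2 < T)
    (hT : T ≤ 61 / 40) (h : ∀ p, ∃ φ, Radial G μ p T φ) {u : 𝒪}
    (hu04 : ∀ p, 0 ≤ G.ev p u ∧ G.ev p u ≤ 4)
    (hu : ∀ p, 12 * G.ev p u * (G.ev p u - G.ev p u * Real.sqrt (G.ev p u))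
        + 3 / 4 * G.ev p (G.g (G.grad u) (G.grad u)) ≤ G.ev p u * G.ev p (G.lap u))
    {q : M} (hq : G.ev q u ≠ 0) : 4 * Real.pi ^ 2 / 3 < ∫ q, (G.ev q u + 1 / 2) ∂μ := by
  have : Nonempty M := ⟨q⟩
  obtain ⟨q0, -, hq0⟩ := isCompact_univ.exists_isMaxOn (univ_nonempty (α := M))
    ((G.ev_cont u).continuousOn)
  have hmax : ∀ x, G.ev x u ≤ G.ev q0 u := fun x => hq0 (mem_univ x)
  have hpos : 0 < G.ev q0 u := lt_of_lt_of_le (lt_of_le_of_ne (hu04 q).1 (Ne.symm hq)) (hmax q)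
  obtain ⟨hg, hl⟩ := m14_max hmax
  have h1 : 1 ≤ G.ev q0 u := by
    by_contra hlt
    push Not at hlt
    have h2 := hu q0
    rw [hg, mul_zero, add_zero] at h2
    have h3 : G.ev q0 u * G.ev q0 (G.lap u) ≤ 0 := mul_nonpos_of_nonneg_of_nonpos hpos.le hl
    have h4 : Real.sqrt (G.ev q0 u) < 1 := by
      rw [Real.sqrt_lt' one_pos]; simpa using hlt
    have h5 : 0 < G.ev q0 u - G.ev q0 u * Real.sqrt (G.ev q0 u) := by
      have : 0 < G.ev q0 u * (1 - Real.sqrt (G.ev q0 u)) := mul_pos hpos (by linarith)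
      linarith
    have h6 : 0 < 12 * G.ev q0 u * (G.ev q0 u - G.ev q0 u * Real.sqrt (G.ev q0 u)) :=
      mul_pos (by linarith) h5
    linarith
  set m : ℝ := (G.ev q0 u) ^ (1 / 4 : ℝ) with hm
  have hm1 : 1 ≤ m := Real.one_le_rpow h1 (by norm_num)
  have hm4 : m ^ 4 = G.ev q0 u := by
    rw [hm, ← Real.rpow_natCast, ← Real.rpow_mul hpos.le]
    norm_num
  have hm2 : m ≤ 283 / 200 := by
    by_contra hlt
    push Not at hlt
    have h2 : (283 / 200 : ℝ) ^ 4 < m ^ 4 := pow_lt_pow_left₀ hlt (by norm_num) (by norm_num)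
    rw [hm4] at h2
    have h3 := (hu04 q0).2
    norm_num at h2
    linarith only [h2, h3]
  obtain ⟨φ, hφ⟩ := h q0
  obtain ⟨b, P, P1, P2, Ap, hc⟩ := certAll m hm1 hm2
  exact cert_apply hdiv hT32 hT hφ (fun p => (hu04 p).1) hu hc hm.le
    (fun x => Real.rpow_le_rpow (hu04 x).1 (hmax x) (by norm_num))

end Vale.Agent.P211.S4

end
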