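import Vale.Agent.P211.MathlibUsed2
import Vale.Agent.P211.Bdl.S0

set_option linter.all false

-- G13
section

/-! P211, S4, tasks G1, G2, G3: orthonormal frames, gradients, divergences. -/

namespace Vale.Agent.P211.S4

open scoped Manifold ContDiff Topology
open Bundle Filter VectorField MeasureTheory Set

noncomputable section

section top

variable {E : Type*} [NormedAddCommGroup E] [NormedSpace ℝ E] [FiniteDimensional ℝ E]
  {M : Type*} [TopologicalSpace M] [ChartedSpace E M] [IsManifold 𝓘(ℝ, E) ∞ M] [T2Space M]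
  [RiemannianBundle (fun x : M => TangentSpace 𝓘(ℝ, E) x)]
  [IsContMDiffRiemannianBundle 𝓘(ℝ, E) ∞ E (fun x : M => TangentSpace 𝓘(ℝ, E) x)]

variable {cov : CovariantDerivative 𝓘(ℝ, E) E (TangentSpace 𝓘(ℝ, E) : M → Type _)}

/-- G1 -/
theorem exists_frame4 (hE : Module.finrank ℝ E = 4) (p : M) : ∃ F : Fin 4 → VF E M,
    ∀ i j, gVF (F i) (F j) p = if i = j then 1 else 0 := by
  have : FiniteDimensional ℝ (TangentSpace 𝓘(ℝ, E) p) :=
    inferInstanceAs (FiniteDimensional ℝ E)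
  let b : OrthonormalBasis (Fin 4) ℝ (TangentSpace 𝓘(ℝ, E) p) :=
    (stdOrthonormalBasis ℝ (TangentSpace 𝓘(ℝ, E) p)).reindex (finCongr (finrank_tangent hE p))
  choose F hF using fun i => exists_ext (E := E) p (b i)
  refine ⟨F, fun i j => ?_⟩
  rw [gVF_apply, hF i, hF j]
  exact orthonormal_iff_ite.mp b.orthonormal i j

/-- an orthonormal frame at a point is the restriction of an orthonormal basis -/
private theorem G13_basis (hE : Module.finrank ℝ E = 4) (p : M) (F : Fin 4 → VF E M)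
    (hF : ∀ i j, gVF (F i) (F j) p = if i = j then 1 else 0) :
    ∃ b : OrthonormalBasis (Fin 4) ℝ (TangentSpace 𝓘(ℝ, E) p), ∀ i, b i = F i p := by
  have ho : Orthonormal ℝ (fun i => F i p) := by
    rw [orthonormal_iff_ite]
    intro i j
    exact hF i j
  have hcard : Fintype.card (Fin 4) = Module.finrank ℝ (TangentSpace 𝓘(ℝ, E) p) := by
    rw [finrank_tangent hE]; simp
  have : FiniteDimensional ℝ (TangentSpace 𝓘(ℝ, E) p) :=
    inferInstanceAs (FiniteDimensional ℝ E)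
  let b0 := basisOfOrthonormalOfCardEqFinrank ho hcard
  have hb0 : (b0 : Fin 4 → TangentSpace 𝓘(ℝ, E) p) = fun i => F i p :=
    coe_basisOfOrthonormalOfCardEqFinrank ho hcard
  refine ⟨b0.toOrthonormalBasis (by rw [hb0]; exact ho), ?_⟩
  intro i
  have := b0.coe_toOrthonormalBasis (by rw [hb0]; exact ho)
  rw [show (b0.toOrthonormalBasis (by rw [hb0]; exact ho) : Fin 4 → TangentSpace 𝓘(ℝ, E) p) i =
    b0 i from congrFun this i, hb0]

/-- one Gram-Schmidt step -/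
private theorem G13_gs_step (p : M) (n : ℕ) (F : Fin n → VF E M) (G : VF E M)
    (hF : ∀ᶠ q in 𝓝 p, ∀ i j, gVF (F i) (F j) q = if i = j then 1 else 0)
    (hG : gVF G G p = 1) (hGF : ∀ i, gVF G (F i) p = 0) :
    ∃ W : VF E M, (∀ᶠ q in 𝓝 p, gVF W W q = 1 ∧ ∀ i, gVF W (F i) q = 0) ∧ W p = G p := by
  let W₀ : VF E M := G - ∑ i, gVF G (F i) • F i
  have hW₀p : W₀ p = G p := by
    change G p - (∑ i, gVF G (F i) • F i : VF E M) p = G p
    rw [VF.sum_apply]
    have : ∀ i, (gVF G (F i) • F i : VF E M) p = 0 := by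
      intro i
      rw [smulVF_apply, hGF i, zero_smul]
    simp only [this, Finset.sum_const_zero, sub_zero]
  have horth : ∀ᶠ q in 𝓝 p, ∀ i, gVF W₀ (F i) q = 0 := by
    filter_upwards [hF] with q hq i
    rw [gVF_apply]
    change inner ℝ (G q - (∑ i, gVF G (F i) • F i : VF E M) q) (F i q) = 0
    rw [VF.sum_apply, inner_sub_left, sum_inner]
    have : ∀ j, inner ℝ ((gVF G (F j) • F j : VF E M) q) (F i q)
        = gVF G (F j) q * (if j = i then 1 else 0) := by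
      intro j
      rw [smulVF_apply, inner_smul_left, ← hq j i]; rfl
    simp only [this]
    simp only [gVF_apply, mul_ite, mul_one, mul_zero, Finset.sum_ite_eq', Finset.mem_univ, ↓reduceIte, sub_self]
  have hW₀n : gVF W₀ W₀ p = 1 := by
    rw [gVF_apply, hW₀p]; exact hG
  obtain ⟨u, hu1, hu⟩ := exists_isqrt (gVF W₀ W₀) hW₀n
  refine ⟨u • W₀, ?_, ?_⟩
  · filter_upwards [hu, horth] with q h1 h2
    constructor
    · rw [gVF_apply, smulVF_apply, inner_smul_left, inner_smul_right]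
      rw [← h1, gVF_apply]
      simp [mul_assoc]
    · intro i
      have := h2 i
      rw [gVF_apply] at this ⊢
      rw [smulVF_apply, inner_smul_left, this, mul_zero]
  · rw [smulVF_apply, hu1, one_smul, hW₀p]

/-- Gram-Schmidt near a point -/
private theorem G13_gs (p : M) (n : ℕ) : ∀ (G : Fin n → VF E M),
    (∀ i j, gVF (G i) (G j) p = if i = j then 1 else 0) →
    ∃ F : Fin n → VF E M, (∀ᶠ q in 𝓝 p, ∀ i j, gVF (F i) (F j) q = if i = j then 1 else 0) ∧
      (∀ i, F i p = G i p) := by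
  induction n with
  | zero =>
    intro G _
    exact ⟨G, Eventually.of_forall fun q i => i.elim0, fun i => i.elim0⟩
  | succ n ih =>
    intro G hG
    obtain ⟨F, hF, hFp⟩ := ih (fun i => G i.castSucc)
      (fun i j => by rw [hG]; simp)
    obtain ⟨W, hW, hWp⟩ := G13_gs_step p n F (G (Fin.last n)) hF
      (by rw [hG]; simp) (fun i => by
        rw [gVF_apply, hFp i, ← gVF_apply, hG]
        simp [Fin.ext_iff, ne_of_gt i.2])
    refine ⟨Fin.snoc F W, ?_, ?_⟩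
    · filter_upwards [hF, hW] with q h1 h2 i j
      refine Fin.lastCases ?_ (fun i => ?_) i
      · refine Fin.lastCases ?_ (fun j => ?_) j
        · rw [Fin.snoc_last, h2.1]; simp
        · rw [Fin.snoc_last, Fin.snoc_castSucc, h2.2 j]
          simp [Fin.ext_iff, ne_of_gt j.2]
      · refine Fin.lastCases ?_ (fun j => ?_) j
        · rw [Fin.snoc_last, Fin.snoc_castSucc, gVF_apply, real_inner_comm, ← gVF_apply, h2.2 i]
          simp [Fin.ext_iff, ne_of_lt i.2]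
        · rw [Fin.snoc_castSucc, Fin.snoc_castSucc, h1 i j]; simp
    · intro i
      refine Fin.lastCases ?_ (fun i => ?_) i
      · rw [Fin.snoc_last, hWp]
      · rw [Fin.snoc_castSucc, hFp i]

/-- local orthonormal frames -/
private theorem G13_local (hE : Module.finrank ℝ E = 4) (p : M) : ∃ F : Fin 4 → VF E M,
    ∀ᶠ q in 𝓝 p, ∀ i j, gVF (F i) (F j) q = if i = j then 1 else 0 := by
  obtain ⟨G, hG⟩ := exists_frame4 (E := E) hE p
  obtain ⟨F, hF, -⟩ := G13_gs p 4 G hG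
  exact ⟨F, hF⟩

/-- the derivative of a function in an orthonormal frame -/
private theorem G13_dvf (hE : Module.finrank ℝ E = 4) (f : SF E M) (q : M) (F : Fin 4 → VF E M)
    (hF : ∀ i j, gVF (F i) (F j) q = if i = j then 1 else 0) (X : VF E M) :
    gVF (∑ i, DVF (F i) f • F i) X q = DVF X f q := by
  have h1 := expandVF hE q F hF X
  have h2 : DVF X f q = ∑ i, gVF X (F i) q * DVF (F i) f q := by
    rw [DVF_apply]
    conv_lhs => rw [h1]
    rw [map_sum]
    refine Finset.sum_congr rfl fun i _ => ?_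
    rw [map_smul, smul_eq_mul, DVF_apply]
  rw [h2, gVF_apply, VF.sum_apply, sum_inner]
  refine Finset.sum_congr rfl fun i _ => ?_
  rw [smulVF_apply, inner_smul_left, gVF_apply, real_inner_comm, mul_comm]
  rfl

/-- G2 -/
theorem exists_grad (hE : Module.finrank ℝ E = 4) (f : SF E M) :
    ∃ N : VF E M, ∀ X, gVF N X = DVF X f := by
  have h1 : ∀ p : M, ∃ N : VF E M, ∀ᶠ q in 𝓝 p, ∀ X : VF E M, gVF N X q = DVF X f q := by
    intro p
    obtain ⟨F, hF⟩ := G13_local (E := E) hE p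
    refine ⟨∑ i, DVF (F i) f • F i, ?_⟩
    filter_upwards [hF] with q hq X
    exact G13_dvf hE f q F hq X
  choose N hN using h1
  have huniq : ∀ (q : M) (N N' : VF E M), (∀ X : VF E M, gVF N X q = DVF X f q) →
      (∀ X : VF E M, gVF N' X q = DVF X f q) → N q = N' q := by
    intro q N N' h h'
    have h2 : gVF (N - N') (N - N') q = 0 := by
      have e1 := h (N - N')
      have e2 := h' (N - N')
      rw [gVF_apply] at e1 e2 ⊢
      have e3 : (N - N' : VF E M) q = N q - N' q := rfl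
      rw [e3] at e1 e2 ⊢
      rw [inner_sub_left, e1, e2, sub_self]
    have h3 := gVF_self_eq_zero.mp h2
    exact sub_eq_zero.mp h3
  have hev : ∀ p : M, ∀ᶠ q in 𝓝 p, N q q = N p q := by
    intro p
    filter_upwards [hN p] with q hq
    exact huniq q (N q) (N p) (hN q).self_of_nhds hq
  have hsm : ContMDiff 𝓘(ℝ, E) (𝓘(ℝ, E).prod 𝓘(ℝ, E)) ∞
      (fun q => (⟨q, N q q⟩ : TangentBundle 𝓘(ℝ, E) M)) := by
    intro p
    refine ((N p).contMDiff p).congr_of_eventuallyEq ?_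
    filter_upwards [hev p] with q hq
    rw [hq]
  refine ⟨⟨fun q => N q q, hsm⟩, fun X => ?_⟩
  ext q
  exact (hN q).self_of_nhds X

/-- G3 -/
theorem exists_dv (hcov : IsLC cov) (hE : Module.finrank ℝ E = 4) (X : VF E M) :
    ∃ d : SF E M, ∀ (p : M) (F : Fin 4 → VF E M),
      (∀ i j, gVF (F i) (F j) p = if i = j then 1 else 0) →
        d p = ∑ i, gVF (nabVF cov hcov.smooth (F i) X) (F i) p := by
  let T : (p : M) → TangentSpace 𝓘(ℝ, E) p →ₗ[ℝ] TangentSpace 𝓘(ℝ, E) p := fun p =>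
    (cov X p : TangentSpace 𝓘(ℝ, E) p →ₗ[ℝ] TangentSpace 𝓘(ℝ, E) p)
  have htr : ∀ (p : M) (F : Fin 4 → VF E M),
      (∀ i j, gVF (F i) (F j) p = if i = j then 1 else 0) →
        LinearMap.trace ℝ (TangentSpace 𝓘(ℝ, E) p) (T p) =
          ∑ i, gVF (nabVF cov hcov.smooth (F i) X) (F i) p := by
    intro p F hF
    obtain ⟨b, hb⟩ := G13_basis hE p F hF
    rw [LinearMap.trace_eq_sum_inner (T p) b]
    refine Finset.sum_congr rfl fun i _ => ?_
    rw [hb i, gVF_apply, nabVF_apply, real_inner_comm]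
    rfl
  have hsm : ContMDiff 𝓘(ℝ, E) 𝓘(ℝ) ∞
      (fun p : M => LinearMap.trace ℝ (TangentSpace 𝓘(ℝ, E) p) (T p)) := by
    intro p
    obtain ⟨F, hF⟩ := G13_local (E := E) hE p
    have h1 : (fun q : M => LinearMap.trace ℝ (TangentSpace 𝓘(ℝ, E) q) (T q)) =ᶠ[𝓝 p]
        (∑ i, gVF (nabVF cov hcov.smooth (F i) X) (F i) : SF E M) := by
      filter_upwards [hF] with q hq
      rw [htr q F hq, SF.sum_apply]
    exact ((∑ i, gVF (nabVF cov hcov.smooth (F i) X) (F i) : SF E M).contMDiff p).congr_of_eventuallyEq h1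
  exact ⟨⟨fun p => LinearMap.trace ℝ (TangentSpace 𝓘(ℝ, E) p) (T p), hsm⟩, fun p F hF => htr p F hF⟩

end top

end

end Vale.Agent.P211.S4

end

-- G45
section

/-! P211, S4: gluing of smooth functions and composition with functions of one variable. -/

namespace Vale.Agent.P211.S4

open scoped Manifold ContDiff Topology
open Bundle Filter VectorField MeasureTheory Set

set_option linter.unusedSectionVars false

noncomputable section

section top

variable {E : Type*} [NormedAddCommGroup E] [NormedSpace ℝ E] [FiniteDimensional ℝ E]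
  {M : Type*} [TopologicalSpace M] [ChartedSpace E M] [IsManifold 𝓘(ℝ, E) ∞ M] [T2Space M]
  [RiemannianBundle (fun x : M => TangentSpace 𝓘(ℝ, E) x)]
  [IsContMDiffRiemannianBundle 𝓘(ℝ, E) ∞ E (fun x : M => TangentSpace 𝓘(ℝ, E) x)]

/-- G4 -/
theorem glueSF (h : M → ℝ) (hh : ∀ p, ∃ ρ : SF E M, ∀ᶠ q in 𝓝 p, h q = ρ q) :
    ∃ f : SF E M, ∀ q, f q = h q := by
  have hc : ContMDiff 𝓘(ℝ, E) 𝓘(ℝ) ∞ h := by
    intro p
    obtain ⟨ρ, hρ⟩ := hh p
    exact (ρ.contMDiff p).congr_of_eventuallyEq hρ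
  exact ⟨⟨h, hc⟩, fun q => rfl⟩

/-- G5 -/
theorem compSF (f : SF E M) (γ : ℝ → ℝ) (hγ : ∀ q, ContDiffAt ℝ ∞ γ (f q)) :
    ∃ h : SF E M, ∀ q, h q = γ (f q) ∧ ∀ X : VF E M, DVF X h q = deriv γ (f q) * DVF X f q := by
  have hc : ContMDiff 𝓘(ℝ, E) 𝓘(ℝ) ∞ (fun q => γ (f q)) := by
    intro q
    exact (hγ q).contMDiffAt.comp q (f.contMDiff q)
  refine ⟨⟨fun q => γ (f q), hc⟩, fun q => ⟨rfl, fun X => ?_⟩⟩
  have hd : HasDerivAt γ (deriv γ (f q)) (f q) :=
    ((hγ q).differentiableAt (by simp)).hasDerivAt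
  have h0 : HasMFDerivAt 𝓘(ℝ) 𝓘(ℝ) γ (f q)
      (ContinuousLinearMap.toSpanSingleton ℝ (deriv γ (f q))) :=
    hd.hasFDerivAt.hasMFDerivAt
  have h1 := h0.comp q (f.mdiff q).hasMFDerivAt
  have h2 := h1.mfderiv
  have h3 : mfderiv 𝓘(ℝ, E) 𝓘(ℝ) (fun q => γ (f q)) q (X q)
      = (ContinuousLinearMap.toSpanSingleton ℝ (deriv γ (f q)))
        (mfderiv 𝓘(ℝ, E) 𝓘(ℝ) f q (X q)) := by
    have := congrArg (fun L => L (X q)) h2
    exact this
  have h4 : DVF X (⟨fun q => γ (f q), hc⟩ : SF E M) q = (DVF X f q) • deriv γ (f q) := h3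
  rw [h4, smul_eq_mul, mul_comm]

end top

end

end Vale.Agent.P211.S4

end

-- GeoOf
section

/-! P211, S4: the geometry of a Riemannian four-manifold as an instance of the formal calculus. -/

namespace Vale.Agent.P211.S4

open scoped Manifold ContDiff Topology
open Bundle Filter VectorField MeasureTheory Set

noncomputable section

section top

variable {E : Type*} [NormedAddCommGroup E] [NormedSpace ℝ E] [FiniteDimensional ℝ E]
  {M : Type*} [TopologicalSpace M] [ChartedSpace E M] [IsManifold 𝓘(ℝ, E) ∞ M] [T2Space M]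
  [RiemannianBundle (fun x : M => TangentSpace 𝓘(ℝ, E) x)]
  [IsContMDiffRiemannianBundle 𝓘(ℝ, E) ∞ E (fun x : M => TangentSpace 𝓘(ℝ, E) x)]

variable {cov : CovariantDerivative 𝓘(ℝ, E) E (TangentSpace 𝓘(ℝ, E) : M → Type _)}

/-- the geometry of a Riemannian four-manifold -/
def geo2Of [PreconnectedSpace M] (hcov : IsLC cov) (hE : Module.finrank ℝ E = 4) :
    Geo2 M (SF E M) (VF E M) where
  toGeom := geomOf hcov hE
  frame := exists_frame4 hE
  grad f := (exists_grad hE f).choose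
  grad_spec f X := (exists_grad hE f).choose_spec X
  dv X := (exists_dv hcov hE X).choose
  dv_spec X p F hF := (exists_dv hcov hE X).choose_spec p F hF
  glue h hh := glueSF h hh
  ev_ext f h hfh := by ext q; exact hfh q
  comp f γ hγ := compSF f γ hγ

end top

end

end Vale.Agent.P211.S4

end

-- G711
section

/-! P211, S4: the theorems G7 and G11. -/

namespace Vale.Agent.P211.S4

open scoped Manifold ContDiff Topology
open Bundle Filter VectorField MeasureTheory Set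

noncomputable section

section dist

variable {E : Type*} [NormedAddCommGroup E] [NormedSpace ℝ E] [FiniteDimensional ℝ E]
  {M : Type*} [MetricSpace M] [ChartedSpace E M] [IsManifold 𝓘(ℝ, E) ∞ M]
  [RiemannianBundle (fun x : M => TangentSpace 𝓘(ℝ, E) x)]
  [IsContMDiffRiemannianBundle 𝓘(ℝ, E) ∞ E (fun x : M => TangentSpace 𝓘(ℝ, E) x)]

theorem g711_eta : ∃ η : ℝ → ℝ, ContDiff ℝ ∞ η ∧ (∀ s, s < 61 / 40 → η s = s) ∧
    (∀ s, 61 / 40 ≤ s → 61 / 40 ≤ η s) ∧ (∀ s, 153 / 100 ≤ s → η s = 2) := by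
  refine ⟨fun s => s * (1 - Real.smoothTransition ((s - 61 / 40) * 200)) +
    2 * Real.smoothTransition ((s - 61 / 40) * 200), ?_, ?_, ?_, ?_⟩
  · have hT : ContDiff ℝ ∞ (fun s : ℝ => Real.smoothTransition ((s - 61 / 40) * 200)) :=
      Real.smoothTransition.contDiff.comp ((contDiff_id.sub contDiff_const).mul contDiff_const)
    exact (contDiff_id.mul (contDiff_const.sub hT)).add (contDiff_const.mul hT)
  · intro s hs
    simp only
    rw [Real.smoothTransition.zero_of_nonpos (by linarith)]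
    ring
  · intro s hs
    simp only
    obtain ⟨T, hT⟩ : ∃ T, T = Real.smoothTransition ((s - 61 / 40) * 200) := ⟨_, rfl⟩
    rw [← hT]
    have h0 : 0 ≤ T := hT ▸ Real.smoothTransition.nonneg _
    have h1 : T ≤ 1 := hT ▸ Real.smoothTransition.le_one _
    nlinarith
  · intro s hs
    simp only
    rw [Real.smoothTransition.one_of_one_le (by linarith)]
    ring

/-- G7 -/
theorem exists_phi {p : M}
    (h : ContMDiffOn 𝓘(ℝ, E) 𝓘(ℝ) ∞ (fun q => dist p q ^ 2) (Metric.ball p (7 / 4))) :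
    ∃ φ : SF E M, (∀ q, dist p q ^ 2 / 2 < 61 / 40 → φ q = dist p q ^ 2 / 2) ∧
      ∀ q, 61 / 40 ≤ dist p q ^ 2 / 2 → 61 / 40 ≤ φ q := by
  obtain ⟨η, hη, h1, h2, h3⟩ := g711_eta
  refine ⟨⟨fun q => η (dist p q ^ 2 / 2), ?_⟩, fun q hq => h1 _ hq, fun q hq => h2 _ hq⟩
  intro q
  by_cases hq : q ∈ Metric.ball p (7 / 4)
  · have hd := h.contMDiffAt (Metric.isOpen_ball.mem_nhds hq)
    have e : ContMDiff 𝓘(ℝ) 𝓘(ℝ) ∞ (fun x : ℝ => η (x / 2)) :=
      (hη.comp (contDiff_id.div_const 2)).contMDiff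
    exact e.contMDiffAt.comp q hd
  · have hq' : 7 / 4 ≤ dist p q := by
      rw [Metric.mem_ball, not_lt, dist_comm] at hq
      exact hq
    have hev : ∀ᶠ x in 𝓝 q, 153 / 100 < dist p x ^ 2 / 2 := by
      have hc : Continuous (fun x : M => dist p x ^ 2 / 2) := by fun_prop
      exact hc.continuousAt.eventually_const_lt (by nlinarith)
    exact contMDiffAt_const.congr_of_eventuallyEq (hev.mono fun x hx => h3 _ hx.le)

/-- G11 -/
theorem asym_of [MeasurableSpace M] {μ : Measure M} {p : M} {φ : M → ℝ}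
    (hφ1 : ∀ q, dist p q ^ 2 / 2 < 61 / 40 → φ q = dist p q ^ 2 / 2)
    (hφ2 : ∀ q, 61 / 40 ≤ dist p q ^ 2 / 2 → 61 / 40 ≤ φ q)
    (h : Tendsto (fun r : ℝ => μ.real (Metric.ball p r) / r ^ 4) (𝓝[>] 0)
      (𝓝 (Real.pi ^ 2 / 2))) :
    Tendsto (fun t : ℝ => μ.real {q | φ q < t} / t ^ 2) (𝓝[>] 0) (𝓝 (2 * Real.pi ^ 2)) := by
  have hs : Tendsto (fun t : ℝ => Real.sqrt (2 * t)) (𝓝[>] 0) (𝓝[>] 0) := by
    refine tendsto_nhdsWithin_iff.2 ⟨?_, ?_⟩
    · have hc : Continuous (fun t : ℝ => Real.sqrt (2 * t)) := by fun_prop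
      have := hc.tendsto 0
      simp only [mul_zero, Real.sqrt_zero] at this
      exact this.mono_left nhdsWithin_le_nhds
    · filter_upwards [self_mem_nhdsWithin] with t ht
      exact Real.sqrt_pos.2 (by have := mem_Ioi.1 ht; linarith)
  have h4 := (h.comp hs).const_mul 4
  have e : 4 * (Real.pi ^ 2 / 2) = 2 * Real.pi ^ 2 := by ring
  rw [e] at h4
  refine h4.congr' ?_
  have hlt : ∀ᶠ t : ℝ in 𝓝[>] 0, t < 61 / 40 :=
    nhdsWithin_le_nhds (Iio_mem_nhds (by norm_num))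
  filter_upwards [self_mem_nhdsWithin, hlt] with t ht ht1
  have ht0 : 0 < t := ht
  have hset : {q | φ q < t} = Metric.ball p (Real.sqrt (2 * t)) := by
    ext q
    rw [Set.mem_ofPred_eq, Metric.mem_ball, dist_comm q p, Real.lt_sqrt dist_nonneg]
    constructor
    · intro hq
      by_cases hd : dist p q ^ 2 / 2 < 61 / 40
      · rw [hφ1 q hd] at hq
        linarith only [hq]
      · have := hφ2 q (not_lt.1 hd)
        linarith only [this, hq, ht1]
    · intro hq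
      rw [hφ1 q (by linarith only [hq, ht1])]
      linarith only [hq]
  have h5 : Real.sqrt (2 * t) ^ 4 = 4 * t ^ 2 := by
    have : Real.sqrt (2 * t) ^ 4 = (Real.sqrt (2 * t) ^ 2) ^ 2 := by ring
    rw [this, Real.sq_sqrt (by linarith only [ht0])]
    ring
  simp only [Function.comp]
  rw [hset, h5]
  field_simp

end dist

end

end Vale.Agent.P211.S4

end

-- G8
section

/-! P211, S4: the derivative of half the squared distance. -/

namespace Vale.Agent.P211.S4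

open scoped Manifold ContDiff Topology ENNReal NNReal
open Bundle Filter VectorField MeasureTheory Set Manifold

noncomputable section

section dist

variable {E : Type*} [NormedAddCommGroup E] [NormedSpace ℝ E] [FiniteDimensional ℝ E]
  {M : Type*} [MetricSpace M] [ChartedSpace E M] [IsManifold 𝓘(ℝ, E) ∞ M]
  [RiemannianBundle (fun x : M => TangentSpace 𝓘(ℝ, E) x)]
  [IsContMDiffRiemannianBundle 𝓘(ℝ, E) ∞ E (fun x : M => TangentSpace 𝓘(ℝ, E) x)]

omit [FiniteDimensional ℝ E] [IsManifold 𝓘(ℝ, E) ∞ M]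
  [RiemannianBundle (fun x : M => TangentSpace 𝓘(ℝ, E) x)]
  [IsContMDiffRiemannianBundle 𝓘(ℝ, E) ∞ E (fun x : M => TangentSpace 𝓘(ℝ, E) x)] in
theorem g8_path_zero (p : M) (v : E) : path p v 0 = p := by
  unfold path
  rw [zero_smul, add_zero]
  exact extChartAt_to_inv p

omit [FiniteDimensional ℝ E] [IsManifold 𝓘(ℝ, E) ∞ M]
  [RiemannianBundle (fun x : M => TangentSpace 𝓘(ℝ, E) x)]
  [IsContMDiffRiemannianBundle 𝓘(ℝ, E) ∞ E (fun x : M => TangentSpace 𝓘(ℝ, E) x)] in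
theorem g8_zero_mem (p : M) (v : E) : (0 : ℝ) ∈ pathDom p v := by
  unfold pathDom
  rw [mem_ofPred_eq, zero_smul, add_zero]
  exact mem_extChartAt_target p

theorem g8_vel_zero (p : M) (v : E) : (show E from pathVel p v 0) = v := by
  have hid : ∀ q : M, q = p →
      (mfderiv 𝓘(ℝ, E) 𝓘(ℝ, E) (extChartAt 𝓘(ℝ, E) p) q : E →L[ℝ] E) =
        ContinuousLinearMap.id ℝ E := by
    rintro _ rfl
    exact mfderiv_extChart_self _
  have hsrc : path p v 0 ∈ (chartAt E p).source := by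
    rw [g8_path_zero]; exact mem_chart_source E p
  have h1 := (mdifferentiableAt_extChartAt (I := 𝓘(ℝ, E)) hsrc).hasMFDerivAt
  have h2 : HasMFDerivAt 𝓘(ℝ) 𝓘(ℝ, E) (path p v) 0 (mfderiv 𝓘(ℝ) 𝓘(ℝ, E) (path p v) 0) :=
    (((contMDiffOn_path p v).contMDiffAt
      ((isOpen_pathDom p v).mem_nhds (g8_zero_mem p v))).mdifferentiableAt (by simp)).hasMFDerivAt
  have h3 := h1.comp (0 : ℝ) h2
  have h4 : HasFDerivAt (fun t : ℝ => extChartAt 𝓘(ℝ, E) p p + t • v)
      ((1 : ℝ →L[ℝ] ℝ).smulRight v) 0 := by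
    exact ((hasFDerivAt_id (𝕜 := ℝ) (0 : ℝ)).smul_const v).const_add _
  have h5 : (fun t : ℝ => extChartAt 𝓘(ℝ, E) p p + t • v) =ᶠ[𝓝 0]
      (extChartAt 𝓘(ℝ, E) p ∘ path p v) := by
    filter_upwards [(isOpen_pathDom p v).mem_nhds (g8_zero_mem p v)] with t ht
    exact ((extChartAt 𝓘(ℝ, E) p).right_inv ht).symm
  have h6 := h4.hasMFDerivAt.congr_of_eventuallyEq h5.symm
  have h7 := hasMFDerivAt_unique h3 h6
  have h8 := congrArg (fun A : ℝ →L[ℝ] E => A 1) h7
  have h9 : (mfderiv 𝓘(ℝ, E) 𝓘(ℝ, E) (extChartAt 𝓘(ℝ, E) p) (path p v 0) : E →L[ℝ] E)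
      (show E from pathVel p v 0) = (1 : ℝ) • v := h8
  rw [hid _ (g8_path_zero p v), one_smul] at h9
  exact h9

/-- upper bound of the distance along a straight path in the chart -/
theorem g8_dist_le [IsRiemannianManifold 𝓘(ℝ, E) M] (q : M) (v : E) {c : ℝ}
    (hc : Real.sqrt (inner ℝ (pathVel q v 0) (pathVel q v 0)) < c) :
    ∀ᶠ t in 𝓝[>] (0 : ℝ), dist q (path q v t) ≤ c * t := by
  have hc0 : 0 < c := (Real.sqrt_nonneg _).trans_lt hc
  have hmem : pathDom q v ∈ 𝓝 (0 : ℝ) := (isOpen_pathDom q v).mem_nhds (g8_zero_mem q v)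
  have hcont : ContinuousAt (fun t => inner ℝ (pathVel q v t) (pathVel q v t)) 0 :=
    (continuousOn_speed q v).continuousAt hmem
  have h0 : inner ℝ (pathVel q v 0) (pathVel q v 0) < c ^ 2 := (Real.sqrt_lt' hc0).1 hc
  have hev : ∀ᶠ t in 𝓝 (0 : ℝ), inner ℝ (pathVel q v t) (pathVel q v t) < c ^ 2 :=
    hcont.eventually (Iio_mem_nhds h0)
  obtain ⟨δ, hδ, hball⟩ := Metric.mem_nhds_iff.mp (Filter.inter_mem hev hmem)
  have hIoo : Ioo (0 : ℝ) δ ∈ 𝓝[>] (0 : ℝ) := Ioo_mem_nhdsGT hδ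
  filter_upwards [hIoo] with t ht
  have hin : ∀ s ∈ Icc (0 : ℝ) t, s ∈ Metric.ball (0 : ℝ) δ := by
    intro s hs
    rw [Metric.mem_ball, Real.dist_eq, sub_zero, abs_of_nonneg hs.1]
    exact hs.2.trans_lt ht.2
  have hsm : ContMDiffOn 𝓘(ℝ) 𝓘(ℝ, E) 1 (path q v) (Icc 0 t) :=
    ((contMDiffOn_path q v).of_le (by norm_cast)).mono fun s hs => (hball (hin s hs)).2
  have h1 : riemannianEDist 𝓘(ℝ, E) q (path q v t) ≤ pathELength 𝓘(ℝ, E) (path q v) 0 t :=
    riemannianEDist_le_pathELength hsm (g8_path_zero q v) rfl ht.1.le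
  have h2 : pathELength 𝓘(ℝ, E) (path q v) 0 t ≤ ENNReal.ofReal (c * t) := by
    rw [pathELength_eq_lintegral_mfderiv_Icc]
    calc ∫⁻ s in Icc 0 t, ‖mfderiv 𝓘(ℝ) 𝓘(ℝ, E) (path q v) s 1‖ₑ
        ≤ ∫⁻ s in Icc 0 t, ENNReal.ofReal c := by
          apply setLIntegral_mono' measurableSet_Icc (fun s hs ↦ ?_)
          have h3 : inner ℝ (pathVel q v s) (pathVel q v s) < c ^ 2 := (hball (hin s hs)).1
          rw [real_inner_self_eq_norm_sq] at h3
          have h4 : ‖pathVel q v s‖ ≤ c := (lt_of_pow_lt_pow_left₀ 2 hc0.le h3).le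
          have h5 : ‖pathVel q v s‖ₑ ≤ ENNReal.ofReal c := by
            rw [← ofReal_norm]
            exact ENNReal.ofReal_le_ofReal h4
          exact h5
      _ = ENNReal.ofReal (c * t) := by
          rw [setLIntegral_const, Real.volume_Icc, sub_zero, ENNReal.ofReal_mul hc0.le]
  have h3 : edist q (path q v t) ≤ ENNReal.ofReal (c * t) := by
    rw [IsRiemannianManifold.out (I := 𝓘(ℝ, E))]
    exact h1.trans h2
  rw [edist_dist] at h3
  exact (ENNReal.ofReal_le_ofReal_iff (by have := ht.1; positivity)).mp h3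

/-- G8 -/
theorem deriv_dist_le [IsRiemannianManifold 𝓘(ℝ, E) M] {p q : M} {φ : SF E M}
    (h : ∀ᶠ x in 𝓝 q, φ x = dist p x ^ 2 / 2) (X : VF E M) :
    |DVF X φ q| ≤ dist p q * Real.sqrt (gVF X X q) := by
  obtain ⟨v, hv⟩ : ∃ v : E, v = X q := ⟨X q, rfl⟩
  have hmem : pathDom q v ∈ 𝓝 (0 : ℝ) := (isOpen_pathDom q v).mem_nhds (g8_zero_mem q v)
  have hX0 : X (path q v 0) = pathVel q v 0 := by
    have e1 : ∀ x : M, x = q → (show E from X x) = v := by
      rintro _ rfl; exact hv.symm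
    exact (e1 _ (g8_path_zero q v)).trans (g8_vel_zero q v).symm
  have hd := hasDerivAt_curve (hasMFDerivAt_path q v (g8_zero_mem q v) X hX0) φ
  rw [g8_path_zero] at hd
  have hspeed : inner ℝ (pathVel q v 0) (pathVel q v 0) = gVF X X q := by
    rw [← hX0]
    have e1 : ∀ x : M, x = q → inner ℝ (X x) (X x) = gVF X X q := by
      rintro _ rfl; rfl
    exact e1 _ (g8_path_zero q v)
  have main : ∀ c : ℝ, Real.sqrt (gVF X X q) < c → |DVF X φ q| ≤ dist p q * c := by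
    intro c hc
    have hc0 : 0 < c := (Real.sqrt_nonneg _).trans_lt hc
    have h1 := g8_dist_le (E := E) q v (c := c) (by rw [hspeed]; exact hc)
    have hct : Tendsto (path q v) (𝓝 0) (𝓝 q) := by
      have := ((contMDiffOn_path q v).continuousOn.continuousAt hmem)
      rw [ContinuousAt, g8_path_zero] at this
      exact this
    have h2 : ∀ᶠ t in 𝓝[>] (0 : ℝ), φ (path q v t) = dist p (path q v t) ^ 2 / 2 :=
      nhdsWithin_le_nhds (hct.eventually h)
    have h3 : Tendsto (fun t : ℝ => t⁻¹ * (φ (path q v t) - φ q)) (𝓝[>] 0)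
        (𝓝 (DVF X φ q)) := by
      have h4 := hd.tendsto_slope_zero_right
      refine h4.congr fun t => ?_
      rw [zero_add, g8_path_zero, smul_eq_mul]
    have h5 : Tendsto (fun t : ℝ => c * (2 * dist p q + c * t) / 2) (𝓝[>] 0)
        (𝓝 (c * (2 * dist p q + c * 0) / 2)) := by
      have : Continuous fun t : ℝ => c * (2 * dist p q + c * t) / 2 := by fun_prop
      exact (this.tendsto 0).mono_left nhdsWithin_le_nhds
    have h6 : ∀ᶠ t in 𝓝[>] (0 : ℝ), |t⁻¹ * (φ (path q v t) - φ q)| ≤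
        c * (2 * dist p q + c * t) / 2 := by
      filter_upwards [h1, h2, self_mem_nhdsWithin] with t e1 e2 ht
      have ht' : 0 < t := ht
      rw [e2, h.self_of_nhds, abs_mul, abs_of_pos (inv_pos.mpr ht')]
      have e3 : |dist p (path q v t) - dist p q| ≤ c * t := by
        refine le_trans ?_ e1
        rw [abs_sub_le_iff]
        constructor
        · linarith only [dist_triangle p q (path q v t)]
        · linarith only [dist_triangle_right p q (path q v t)]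
      have e4 : |dist p (path q v t) ^ 2 / 2 - dist p q ^ 2 / 2| ≤
          c * t * (2 * dist p q + c * t) / 2 := by
        have e5 : dist p (path q v t) ^ 2 / 2 - dist p q ^ 2 / 2 =
            (dist p (path q v t) - dist p q) * (dist p (path q v t) + dist p q) / 2 := by ring
        have e6 : dist p (path q v t) + dist p q ≤ 2 * dist p q + c * t := by
          linarith only [(abs_le.mp e3).2]
        have e7 : 0 ≤ dist p (path q v t) + dist p q := by (clear * -; positivity)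
        rw [e5, abs_div, abs_mul, abs_of_nonneg e7, abs_of_pos (two_pos : (0 : ℝ) < 2)]
        gcongr
      calc t⁻¹ * |dist p (path q v t) ^ 2 / 2 - dist p q ^ 2 / 2|
          ≤ t⁻¹ * (c * t * (2 * dist p q + c * t) / 2) := by gcongr
        _ = c * (2 * dist p q + c * t) / 2 := by field_simp
    have h7 := le_of_tendsto_of_tendsto h3.abs h5 h6
    linarith only [h7]
  have hlim : Tendsto (fun c : ℝ => dist p q * c) (𝓝[>] (Real.sqrt (gVF X X q)))
      (𝓝 (dist p q * Real.sqrt (gVF X X q))) := by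
    have : Continuous fun c : ℝ => dist p q * c := by fun_prop
    exact (this.tendsto _).mono_left nhdsWithin_le_nhds
  refine ge_of_tendsto hlim ?_
  filter_upwards [self_mem_nhdsWithin] with c hc
  exact main c hc

end dist

end

end Vale.Agent.P211.S4

end

-- G9
section

/-! P211, S4, G9: the gradient of the distance function has length at least one. -/

namespace Vale.Agent.P211.S4

open scoped Manifold ContDiff Topology
open Bundle Filter VectorField MeasureTheory Set Manifold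

noncomputable section

section dist

variable {E : Type*} [NormedAddCommGroup E] [NormedSpace ℝ E] [FiniteDimensional ℝ E]
  {M : Type*} [MetricSpace M] [ChartedSpace E M] [IsManifold 𝓘(ℝ, E) ∞ M]
  [RiemannianBundle (fun x : M => TangentSpace 𝓘(ℝ, E) x)]
  [IsContMDiffRiemannianBundle 𝓘(ℝ, E) ∞ E (fun x : M => TangentSpace 𝓘(ℝ, E) x)]

private theorem g9_arith {D s ρ η d L1 L2 : ℝ} (hs0 : 0 ≤ s) (hsD : s < D) (hρ : 0 < ρ)
    (hρ1 : ρ ≤ (D - s) / 2) (hη : η = ρ * ((D - s) / (4 * D))) (hd0 : 0 ≤ d) (hd : d ≤ L1)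
    (h2 : ρ ≤ L2) (hL : L1 + L2 < D + η) (htri : D ≤ d + ρ)
    (hf : D ^ 2 / 2 - d ^ 2 / 2 ≤ s * L2) : False := by
  have hD : 0 < D := lt_of_le_of_lt hs0 hsD
  obtain ⟨κ, hκ⟩ : ∃ κ : ℝ, κ = (D - s) / (4 * D) := ⟨_, rfl⟩
  have hκ4 : κ * (4 * D) = D - s := by rw [hκ]; field_simp
  have hκ0 : 0 < κ := by rw [hκ]; apply div_pos <;> linarith
  have hκ1 : κ < 1 := by (by_contra nlg; linarith only [nlg, mul_eq_zero_of_left (sub_eq_zero.2 hκ4) (κ - (0)), mul_nonneg (sub_nonneg.2 hρ1) (le_of_lt (sub_pos.2 hκ0)), mul_pos (sub_pos.2 hρ) (sub_pos.2 hκ0), mul_nonneg (sub_nonneg.2 hs0) (le_of_lt (sub_pos.2 hκ0)), mul_eq_zero_of_left (sub_eq_zero.2 hκ4) (κ - (1)), mul_nonneg (sub_nonneg.2 (not_lt.1 nlg)) (sub_nonneg.2 hρ1), mul_nonneg (sub_nonneg.2 (not_lt.1 nlg)) (le_of_lt (sub_pos.2 hρ))])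
  rw [← hκ] at hη
  have e1 : L2 ≤ ρ + η := by linarith only [htri, hL, hd]
  have e2 : d ≤ D + η - ρ := by linarith only [hL, h2, hd]
  have e3 : d ^ 2 ≤ (D + η - ρ) ^ 2 := by gcongr
  have e4 : s * L2 ≤ s * (ρ + η) := by gcongr
  have e5 : (ρ - η) * (2 * D + η - ρ) ≤ 2 * s * (ρ + η) := by linarith only [e4, e3, hf]
  rw [hη] at e5
  have e6 : ρ * ((1 - κ) * (2 * D + ρ * κ - ρ)) ≤ ρ * (2 * s * (1 + κ)) := by linarith only [e5]
  have e7 : (1 - κ) * (2 * D + ρ * κ - ρ) ≤ 2 * s * (1 + κ) := le_of_mul_le_mul_left e6 hρ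
  have e8 : (1 - κ) * (2 * D - ρ) ≤ (1 - κ) * (2 * D + ρ * κ - ρ) := by
    apply mul_le_mul_of_nonneg_left _ (by linarith only [hκ1])
    linarith only [hη, htri, hL, h2, hd]
  linarith only [mul_nonneg (le_of_lt (sub_pos.2 hκ1)) (sub_nonneg.2 e7), mul_nonneg (le_of_lt (sub_pos.2 hκ0)) (sub_nonneg.2 e7), mul_eq_zero_of_left (sub_eq_zero.2 hκ4) (1 - (κ)), mul_eq_zero_of_left (sub_eq_zero.2 hκ4) (κ - (0)), mul_eq_zero_of_left (sub_eq_zero.2 hη) (1 - (κ)), mul_eq_zero_of_left (sub_eq_zero.2 hη) (κ - (0)), mul_nonneg (sub_nonneg.2 htri) (le_of_lt (sub_pos.2 hκ1)), mul_nonneg (sub_nonneg.2 htri) (le_of_lt (sub_pos.2 hκ0)), mul_pos (sub_pos.2 hL) (sub_pos.2 hκ1), mul_pos (sub_pos.2 hL) (sub_pos.2 hκ0), mul_nonneg (sub_nonneg.2 h2) (le_of_lt (sub_pos.2 hκ1)), mul_nonneg (sub_nonneg.2 h2) (le_of_lt (sub_pos.2 hκ0)), mul_nonneg (sub_nonneg.2 hd) (le_of_lt (sub_pos.2 hκ1)), mul_nonneg (sub_nonneg.2 hd) (le_of_lt (sub_pos.2 hκ0)),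 mul_nonneg (sub_nonneg.2 hd0) (le_of_lt (sub_pos.2 hκ0)), mul_nonneg (sub_nonneg.2 hρ1) (le_of_lt (sub_pos.2 hκ1)), mul_nonneg (sub_nonneg.2 hρ1) (le_of_lt (sub_pos.2 hκ0))]

/-- G9 -/
theorem grad_dist_ge [IsRiemannianManifold 𝓘(ℝ, E) M] [CompactSpace M] [ConnectedSpace M]
    {p q : M} (hpq : p ≠ q) {φ : SF E M}
    (h : ∀ᶠ x in 𝓝 q, φ x = dist p x ^ 2 / 2) {N : VF E M} (hN : ∀ X, gVF N X = DVF X φ) :
    dist p q ^ 2 ≤ gVF N N q := by
  by_contra hcon
  rw [not_le] at hcon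
  obtain ⟨D, hD⟩ : ∃ D : ℝ, D = dist p q := ⟨_, rfl⟩
  have hD0 : 0 < D := by rw [hD]; exact dist_pos.2 hpq
  rw [← hD] at hcon
  obtain ⟨a, ha⟩ : ∃ a : ℝ, a = Real.sqrt (gVF N N q) := ⟨_, rfl⟩
  have ha0 : 0 ≤ a := by rw [ha]; exact Real.sqrt_nonneg _
  have haD : a < D := by
    rw [ha]; exact (Real.sqrt_lt' hD0).2 hcon
  obtain ⟨s, hs⟩ : ∃ s : ℝ, s = (a + D) / 2 := ⟨_, rfl⟩
  have hs0 : 0 < s := by rw [hs]; linarith only [haD, ha0]
  have hsD : s < D := by rw [hs]; linarith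
  have hNq : gVF N N q < s ^ 2 := by
    have : Real.sqrt (gVF N N q) < s := by rw [← ha, hs]; linarith
    exact (Real.sqrt_lt' hs0).1 this
  have hcN : ∀ᶠ x in 𝓝 q, gVF N N x < s ^ 2 :=
    ((gVF N N).contMDiff.continuous.continuousAt).eventually (Iio_mem_nhds hNq)
  obtain ⟨ρ₀, hρ₀, hball⟩ := Metric.nhds_basis_closedBall.mem_iff.1 (h.and hcN)
  obtain ⟨ρ, hρ⟩ : ∃ ρ : ℝ, ρ = min ρ₀ ((D - s) / 2) := ⟨_, rfl⟩
  have hρ0 : 0 < ρ := by rw [hρ]; exact lt_min hρ₀ (by linarith)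
  have hρ1 : ρ ≤ (D - s) / 2 := by rw [hρ]; exact min_le_right _ _
  have hgood : ∀ x, dist x q ≤ ρ → φ x = dist p x ^ 2 / 2 ∧ gVF N N x < s ^ 2 := by
    intro x hx
    apply hball
    rw [Metric.mem_closedBall]
    exact hx.trans (by rw [hρ]; exact min_le_left _ _)
  -- bound of the derivative
  have hder : ∀ x, dist x q ≤ ρ → ∀ X : VF E M, |DVF X φ x| ≤ s * ‖X x‖ := by
    intro x hx X
    rw [← hN X, gVF_apply]
    refine (abs_real_inner_le_norm _ _).trans ?_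
    gcongr
    have h1 := (hgood x hx).2
    rw [gVF_apply, real_inner_self_eq_norm_sq] at h1
    exact (lt_of_pow_lt_pow_left₀ 2 hs0.le h1).le
  obtain ⟨η, hη⟩ : ∃ η : ℝ, η = ρ * ((D - s) / (4 * D)) := ⟨_, rfl⟩
  have hη0 : 0 < η := by rw [hη]; have := sub_pos.2 hsD; (clear * - hρ0 hsD hD0; positivity)
  have hlt : riemannianEDist 𝓘(ℝ, E) p q < ENNReal.ofReal (D + η) := by
    rw [← IsRiemannianManifold.out p q, edist_dist, ← hD]
    exact (ENNReal.ofReal_lt_ofReal_iff (by linarith only [hη0, hρ1, hρ0, hs, ha0])).2 (by linarith)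
  obtain ⟨γ, hγ0, hγ1, hγs, hγl, -⟩ :=
    exists_lt_locally_constant_of_riemannianEDist_lt hlt zero_lt_one
  have hcont : Continuous fun t => dist (γ t) q := hγs.continuous.dist continuous_const
  -- the last time on the sphere
  obtain ⟨t₀, ht₀, hmax⟩ : ∃ t₀ ∈ {t | t ∈ Icc (0 : ℝ) 1 ∧ dist (γ t) q = ρ},
      ∀ t ∈ {t | t ∈ Icc (0 : ℝ) 1 ∧ dist (γ t) q = ρ}, t ≤ t₀ := by
    have hcpt : IsCompact {t | t ∈ Icc (0 : ℝ) 1 ∧ dist (γ t) q = ρ} := by
      refine isCompact_Icc.inter_right ?_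
      exact isClosed_eq hcont continuous_const
    have hne : {t | t ∈ Icc (0 : ℝ) 1 ∧ dist (γ t) q = ρ}.Nonempty := by
      have := intermediate_value_Icc' zero_le_one hcont.continuousOn
        (show ρ ∈ Icc (dist (γ 1) q) (dist (γ 0) q) by
          rw [hγ0, hγ1, dist_self, ← hD]
          exact ⟨hρ0.le, by linarith only [hρ1, hρ0, hs, ha0]⟩)
      obtain ⟨t, ht, ht'⟩ := this
      exact ⟨t, ht, ht'⟩
    exact hcpt.exists_isGreatest hne
  obtain ⟨⟨ht0, ht1⟩, htρ⟩ := ht₀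
  have hin : ∀ t ∈ Icc t₀ 1, dist (γ t) q ≤ ρ := by
    intro t ht
    by_contra hc
    rw [not_le] at hc
    obtain ⟨t', ht', he⟩ := intermediate_value_Icc' ht.2 hcont.continuousOn
      (show ρ ∈ Icc (dist (γ 1) q) (dist (γ t) q) by
        rw [hγ1, dist_self]
        exact ⟨hρ0.le, hc.le⟩)
    have h1 := hmax t' ⟨⟨by linarith only [ht'.1, ht.1, ht0], ht'.2⟩, he⟩
    have h2 : t' = t := le_antisymm (by linarith only [ht.1, h1]) ht'.1
    rw [h2] at he
    exact absurd he hc.ne'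
  have ht1' : t₀ < 1 := by
    refine lt_of_le_of_ne ht1 fun e => ?_
    rw [e, hγ1, dist_self] at htρ
    exact absurd htρ hρ0.ne
  -- lengths
  have hadd := pathELength_add (I := 𝓘(ℝ, E)) (γ := γ) ht0 ht1
  have hl1 : ENNReal.ofReal (dist p (γ t₀)) ≤ pathELength 𝓘(ℝ, E) γ 0 t₀ := by
    rw [← edist_dist, IsRiemannianManifold.out (I := 𝓘(ℝ, E)) p (γ t₀)]
    exact riemannianEDist_le_pathELength hγs.contMDiffOn hγ0 rfl ht0
  have hl2 : ENNReal.ofReal ρ ≤ pathELength 𝓘(ℝ, E) γ t₀ 1 := by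
    rw [← htρ, ← edist_dist, IsRiemannianManifold.out (I := 𝓘(ℝ, E)) (γ t₀) q]
    exact riemannianEDist_le_pathELength hγs.contMDiffOn rfl hγ1 ht1
  -- fundamental theorem
  have hφγ : ContDiff ℝ 1 fun t => φ (γ t) := by
    have h1 : ContMDiff 𝓘(ℝ, E) 𝓘(ℝ) 1 φ := φ.contMDiff.of_le (by norm_cast)
    exact contMDiff_iff_contDiff.1 (h1.comp hγs)
  have hftc : ‖φ (γ 1) - φ (γ t₀)‖ₑ ≤ ENNReal.ofReal s * pathELength 𝓘(ℝ, E) γ t₀ 1 := by
    calc ‖φ (γ 1) - φ (γ t₀)‖ₑ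
        ≤ ∫⁻ t in Icc t₀ 1, ‖derivWithin (fun t => φ (γ t)) (Icc t₀ 1) t‖ₑ :=
          enorm_sub_le_lintegral_derivWithin_Icc_of_contDiffOn_Icc hφγ.contDiffOn ht1
      _ ≤ ∫⁻ t in Icc t₀ 1, ENNReal.ofReal s * ‖mfderiv 𝓘(ℝ) 𝓘(ℝ, E) γ t 1‖ₑ := by
          apply setLIntegral_mono' measurableSet_Icc (fun t ht ↦ ?_)
          obtain ⟨X, hX⟩ := exists_ext (E := E) (γ t) (mfderiv 𝓘(ℝ) 𝓘(ℝ, E) γ t (1 : ℝ))
          have hm : HasMFDerivAt 𝓘(ℝ) 𝓘(ℝ, E) γ t
              ((1 : ℝ →L[ℝ] ℝ).smulRight (X (γ t))) := by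
            have h2 := (hγs.mdifferentiable one_ne_zero t).hasMFDerivAt
            have e : (1 : ℝ →L[ℝ] ℝ).smulRight (X (γ t)) = mfderiv 𝓘(ℝ) 𝓘(ℝ, E) γ t := by
              rw [hX]
              refine ContinuousLinearMap.ext_ring ?_
              change (1 : ℝ) • (mfderiv 𝓘(ℝ) 𝓘(ℝ, E) γ t (1 : ℝ)) =
                mfderiv 𝓘(ℝ) 𝓘(ℝ, E) γ t (1 : ℝ)
              rw [one_smul]
            rw [e]
            exact h2
          have hd := hasDerivAt_curve hm φ
          rw [hd.hasDerivWithinAt.derivWithin (uniqueDiffOn_Icc ht1' t ht)]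
          have hb := hder (γ t) (hin t ht) X
          rw [hX] at hb
          rw [← ofReal_norm, ← ofReal_norm, ← ENNReal.ofReal_mul hs0.le]
          exact ENNReal.ofReal_le_ofReal hb
      _ = ENNReal.ofReal s * pathELength 𝓘(ℝ, E) γ t₀ 1 := by
          rw [lintegral_const_mul' _ _ ENNReal.ofReal_ne_top,
            pathELength_eq_lintegral_mfderiv_Icc]
  -- real numbers
  rw [← hadd] at hγl
  have hf1 : pathELength 𝓘(ℝ, E) γ 0 t₀ ≠ ⊤ := (lt_of_le_of_lt le_self_add hγl).ne_top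
  have hf2 : pathELength 𝓘(ℝ, E) γ t₀ 1 ≠ ⊤ := (lt_of_le_of_lt le_add_self hγl).ne_top
  obtain ⟨L1, hL1, hL1'⟩ : ∃ L1 : ℝ, 0 ≤ L1 ∧ pathELength 𝓘(ℝ, E) γ 0 t₀ = ENNReal.ofReal L1 :=
    ⟨_, ENNReal.toReal_nonneg, (ENNReal.ofReal_toReal hf1).symm⟩
  obtain ⟨L2, hL2, hL2'⟩ : ∃ L2 : ℝ, 0 ≤ L2 ∧ pathELength 𝓘(ℝ, E) γ t₀ 1 = ENNReal.ofReal L2 :=
    ⟨_, ENNReal.toReal_nonneg, (ENNReal.ofReal_toReal hf2).symm⟩
  rw [hL1', hL2', ← ENNReal.ofReal_add hL1 hL2,
    ENNReal.ofReal_lt_ofReal_iff (by linarith only [hη0, hρ1, hρ0, hs, ha0])] at hγl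
  rw [hL1', ENNReal.ofReal_le_ofReal_iff hL1] at hl1
  rw [hL2', ENNReal.ofReal_le_ofReal_iff hL2] at hl2
  rw [hL2', ← ENNReal.ofReal_mul hs0.le, ← ofReal_norm,
    ENNReal.ofReal_le_ofReal_iff (by (clear * - hs0 hL2; positivity)), Real.norm_eq_abs, hγ1,
    (hgood (γ t₀) htρ.le).1, h.self_of_nhds, ← hD] at hftc
  refine g9_arith hs0.le hsD hρ0 hρ1 hη dist_nonneg hl1 hl2 hγl ?_ ((le_abs_self _).trans hftc)
  rw [hD, ← htρ]
  exact dist_triangle _ _ _

end dist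

end

end Vale.Agent.P211.S4

end

-- G10
section

/-! P211, S4: the second derivative of half the squared distance is nondegenerate at the centre. -/

namespace Vale.Agent.P211.S4

open scoped Manifold ContDiff Topology ENNReal NNReal
open Bundle Filter VectorField MeasureTheory Set Manifold

noncomputable section

section dist

variable {E : Type*} [NormedAddCommGroup E] [NormedSpace ℝ E] [FiniteDimensional ℝ E]
  {M : Type*} [MetricSpace M] [ChartedSpace E M] [IsManifold 𝓘(ℝ, E) ∞ M]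
  [RiemannianBundle (fun x : M => TangentSpace 𝓘(ℝ, E) x)]
  [IsContMDiffRiemannianBundle 𝓘(ℝ, E) ∞ E (fun x : M => TangentSpace 𝓘(ℝ, E) x)]

variable {cov : CovariantDerivative 𝓘(ℝ, E) E (TangentSpace 𝓘(ℝ, E) : M → Type _)}

omit [FiniteDimensional ℝ E] in
theorem g10_cont : IsContinuousRiemannianBundle E (fun x : M => TangentSpace 𝓘(ℝ, E) x) := by
  obtain ⟨g, g_smooth, hg⟩ := IsContMDiffRiemannianBundle.exists_contMDiff (IB := 𝓘(ℝ, E))
    (n := ∞) (F := E) (E := fun x : M => TangentSpace 𝓘(ℝ, E) x)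
  exact ⟨⟨g, g_smooth.continuous, hg⟩⟩

section chart

attribute [local instance] normedAddCommGroupTangentSpaceVectorSpace
attribute [local instance] normedSpaceTangentSpaceVectorSpace

omit [FiniteDimensional ℝ E] in
set_option backward.isDefEq.respectTransparency false in
/-- near `p` the distance from `p` in the chart is bounded by a multiple of the distance -/
theorem g10_chart_le [IsRiemannianManifold 𝓘(ℝ, E) M] (p : M) :
    ∃ C : ℝ≥0, ∀ᶠ x in 𝓝 p,
      ‖extChartAt 𝓘(ℝ, E) p x - extChartAt 𝓘(ℝ, E) p p‖ₑ ≤ C * edist p x := by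
  have hman : IsManifold 𝓘(ℝ, E) 1 M := IsManifold.of_le (n := ∞) (by norm_cast)
  have hcont : IsContinuousRiemannianBundle E (fun x : M => TangentSpace 𝓘(ℝ, E) x) := g10_cont
  obtain ⟨C, C_pos, hC⟩ := eventually_enorm_mfderiv_extChartAt_lt 𝓘(ℝ, E) p
  have hsrc : (chartAt E p).source ∈ 𝓝 p := chart_source_mem_nhds E p
  obtain ⟨ε, hε, hball⟩ := Metric.mem_nhds_iff.mp (Filter.inter_mem hC hsrc)
  refine ⟨C, ?_⟩
  filter_upwards [Metric.ball_mem_nhds p hε] with x hx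
  have hx' : edist p x < ENNReal.ofReal ε := by
    rw [edist_dist, dist_comm]
    exact (ENNReal.ofReal_lt_ofReal_iff hε).mpr hx
  have main : ∀ r : ℝ≥0∞, edist p x < r → r ≤ ENNReal.ofReal ε →
      ‖extChartAt 𝓘(ℝ, E) p x - extChartAt 𝓘(ℝ, E) p p‖ₑ ≤ C * r := by
    intro r hr1 hr2
    have hr3 : riemannianEDist 𝓘(ℝ, E) p x < r := by
      rw [← IsRiemannianManifold.out]; exact hr1
    obtain ⟨γ, hγp, hγx, γ_smooth, hγ, -⟩ :=
      exists_lt_locally_constant_of_riemannianEDist_lt hr3 zero_lt_one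
    have hin : ∀ t ∈ Icc (0 : ℝ) 1, γ t ∈ Metric.ball p ε := by
      intro t ht
      have h1 : riemannianEDist 𝓘(ℝ, E) p (γ t) ≤ pathELength 𝓘(ℝ, E) γ 0 t :=
        riemannianEDist_le_pathELength γ_smooth.contMDiffOn hγp rfl ht.1
      have h2 : pathELength 𝓘(ℝ, E) γ 0 t ≤ pathELength 𝓘(ℝ, E) γ 0 1 :=
        pathELength_mono le_rfl ht.2
      have h3 : edist p (γ t) < ENNReal.ofReal ε := by
        rw [IsRiemannianManifold.out (I := 𝓘(ℝ, E))]
        exact (h1.trans h2).trans_lt (hγ.trans_le hr2)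
      rw [edist_dist, ENNReal.ofReal_lt_ofReal_iff hε] at h3
      rw [Metric.mem_ball, dist_comm]
      exact h3
    have huc : ∀ t ∈ Icc (0 : ℝ) 1, γ t ∈ (chartAt E p).source := fun t ht => (hball (hin t ht)).2
    let γ' := extChartAt 𝓘(ℝ, E) p ∘ γ
    have hCC : ContMDiffOn 𝓘(ℝ) 𝓘(ℝ, E) 1 γ' (Icc 0 1) :=
      contMDiffOn_extChartAt.comp (I' := 𝓘(ℝ, E)) (t := (chartAt E p).source)
        γ_smooth.contMDiffOn (fun t' ht' ↦ huc t' ht')
    have key : ‖γ' 1 - γ' 0‖ₑ ≤ C * r := by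
      calc
        ‖γ' 1 - γ' 0‖ₑ
      _ ≤ ∫⁻ t' in Icc 0 1, ‖derivWithin γ' (Icc 0 1) t'‖ₑ := by
        apply enorm_sub_le_lintegral_derivWithin_Icc_of_contDiffOn_Icc _ zero_le_one
        rwa [← contMDiffOn_iff_contDiffOn]
      _ = ∫⁻ t' in Icc 0 1, ‖mfderivWithin 𝓘(ℝ) 𝓘(ℝ, E) γ' (Icc (0 : ℝ) 1) t' (1 : ℝ)‖ₑ := by
        simp_rw [← fderivWithin_derivWithin, mfderivWithin_eq_fderivWithin]
        rfl
      _ ≤ ∫⁻ t' in Icc 0 1, C * ‖mfderivWithin 𝓘(ℝ) 𝓘(ℝ, E) γ (Icc (0 : ℝ) 1) t' (1 : ℝ)‖ₑ := by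
        apply setLIntegral_mono' measurableSet_Icc (fun t' ht' ↦ ?_)
        have : mfderivWithin 𝓘(ℝ) 𝓘(ℝ, E) γ' (Icc (0 : ℝ) 1) t' =
            (mfderiv 𝓘(ℝ, E) 𝓘(ℝ, E) (extChartAt 𝓘(ℝ, E) p) (γ t')) ∘L
              (mfderivWithin 𝓘(ℝ) 𝓘(ℝ, E) γ (Icc (0 : ℝ) 1) t') := by
          apply mfderiv_comp_mfderivWithin
          · exact mdifferentiableAt_extChartAt (huc t' ht')
          · exact (γ_smooth.mdifferentiable one_ne_zero).mdifferentiableOn _ ht'
          · rw [uniqueMDiffWithinAt_iff_uniqueDiffWithinAt]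
            exact uniqueDiffOn_Icc zero_lt_one _ ht'
        have : mfderivWithin 𝓘(ℝ) 𝓘(ℝ, E) γ' (Icc (0 : ℝ) 1) t' (1 : ℝ) =
            (mfderiv 𝓘(ℝ, E) 𝓘(ℝ, E) (extChartAt 𝓘(ℝ, E) p) (γ t'))
              (mfderivWithin 𝓘(ℝ) 𝓘(ℝ, E) γ (Icc (0 : ℝ) 1) t' (1 : ℝ)) :=
          congr($this 1)
        rw [this]
        apply (ContinuousLinearMap.le_opENorm _ _).trans
        gcongr
        exact (hball (hin t' ht')).1.le
      _ = C * pathELength 𝓘(ℝ, E) γ 0 1 := by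
        rw [lintegral_const_mul' _ _ ENNReal.coe_ne_top,
            pathELength_eq_lintegral_mfderivWithin_Icc]
      _ ≤ C * r := by
        gcongr
    have e1 : γ' 1 = extChartAt 𝓘(ℝ, E) p x := by
      change extChartAt 𝓘(ℝ, E) p (γ 1) = _
      rw [hγx]
    have e0 : γ' 0 = extChartAt 𝓘(ℝ, E) p p := by
      change extChartAt 𝓘(ℝ, E) p (γ 0) = _
      rw [hγp]
    rw [e1, e0] at key
    exact key
  have hC0 : (C : ℝ≥0∞) ≠ 0 := by simpa using C_pos.ne'
  by_contra hlt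
  push Not at hlt
  have h1 : edist p x < ‖extChartAt 𝓘(ℝ, E) p x - extChartAt 𝓘(ℝ, E) p p‖ₑ / C := by
    rw [ENNReal.lt_div_iff_mul_lt (Or.inl hC0) (Or.inl ENNReal.coe_ne_top), mul_comm]
    exact hlt
  obtain ⟨r, hr1, hr2⟩ := exists_between (lt_min h1 hx')
  have h2 := main r hr1 (hr2.le.trans (min_le_right _ _))
  have h3 : r < ‖extChartAt 𝓘(ℝ, E) p x - extChartAt 𝓘(ℝ, E) p p‖ₑ / C :=
    hr2.trans_le (min_le_left _ _)
  rw [ENNReal.lt_div_iff_mul_lt (Or.inl hC0) (Or.inl ENNReal.coe_ne_top), mul_comm] at h3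
  exact absurd h2 (not_le.mpr h3)

end chart

/-- a smooth function, given by a linear functional in the chart, with differential `⟪v, ·⟫` -/
theorem g10_fun (p : M) (V : VF E M) :
    ∃ (L : E →L[ℝ] ℝ) (f : SF E M),
      (∀ᶠ q in 𝓝 p, f q = L (extChartAt 𝓘(ℝ, E) p q - extChartAt 𝓘(ℝ, E) p p)) ∧
      DVF V f p = gVF V V p := by
  let L0 : TangentSpace 𝓘(ℝ, E) p →ₗ[ℝ] ℝ := (innerSL ℝ (V p)).toLinearMap
  let L : E →L[ℝ] ℝ := LinearMap.toContinuousLinearMap (𝕜 := ℝ) (E := E) (F' := ℝ) L0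
  have hL : L (V p) = gVF V V p := by
    rw [gVF_apply]; rfl
  have hU : (chartAt E p).source ∈ 𝓝 p := chart_source_mem_nhds E p
  have hsm : ContMDiffOn 𝓘(ℝ, E) 𝓘(ℝ) ∞
      (fun q => L (extChartAt 𝓘(ℝ, E) p q - extChartAt 𝓘(ℝ, E) p p)) (chartAt E p).source := by
    have h1 : ContMDiffOn 𝓘(ℝ, E) 𝓘(ℝ, E) ∞ (extChartAt 𝓘(ℝ, E) p) (chartAt E p).source :=
      contMDiffOn_extChartAt
    have h2 : ContDiff ℝ ∞ (fun y : E => L (y - extChartAt 𝓘(ℝ, E) p p)) := by
      clear hL hU h1; fun_prop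
    exact h2.contMDiff.comp_contMDiffOn h1
  obtain ⟨f, hf⟩ := cut_fun (E := E) hU hsm
  refine ⟨L, f, hf, ?_⟩
  have e1 : (f : M → ℝ) =ᶠ[𝓝 p] fun q => L (extChartAt 𝓘(ℝ, E) p q - extChartAt 𝓘(ℝ, E) p p) := hf
  rw [DVF_apply, mvfderiv, e1.mfderiv_eq]
  have hd : HasMFDerivAt 𝓘(ℝ, E) 𝓘(ℝ, E) (extChartAt 𝓘(ℝ, E) p) p
      (mfderiv 𝓘(ℝ, E) 𝓘(ℝ, E) (extChartAt 𝓘(ℝ, E) p) p) :=
    (mdifferentiableAt_extChartAt (mem_chart_source E p)).hasMFDerivAt
  have hd2 : HasFDerivAt (fun y : E => L (y - extChartAt 𝓘(ℝ, E) p p)) L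
      (extChartAt 𝓘(ℝ, E) p p) := by
    exact L.hasFDerivAt.comp _ ((hasFDerivAt_id _).sub_const _)
  have hd3 := hd2.hasMFDerivAt.comp p hd
  have e2 : mfderiv 𝓘(ℝ, E) 𝓘(ℝ) (fun q => L (extChartAt 𝓘(ℝ, E) p q - extChartAt 𝓘(ℝ, E) p p)) p
      = _ := hd3.mfderiv
  rw [e2]
  exact (congrArg (fun A : E →L[ℝ] E => L (A (V p))) (mfderiv_extChart_self p)).trans hL

/-- G10 -/
theorem hess_dist_pos [IsRiemannianManifold 𝓘(ℝ, E) M] (hcov : IsLC cov) {p : M} {φ : SF E M}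
    (h : ∀ᶠ x in 𝓝 p, φ x = dist p x ^ 2 / 2) {N : VF E M} (hN : ∀ X, gVF N X = DVF X φ)
    (X : VF E M) (hX : gVF (nabVF cov hcov.smooth X N) X p = 0) : gVF X X p = 0 := by
  have hφp : φ p = 0 := by
    rw [h.self_of_nhds, dist_self]; norm_num
  have hmin : IsLocalMin (fun q => φ q) p := by
    filter_upwards [h] with x hx
    rw [hx, hφp]; positivity
  have hN0 : ∀ Y : VF E M, gVF N Y p = 0 := fun Y => by
    rw [hN Y]; exact (min_testVF p φ hmin Y).1
  have hDD : DVF X (DVF X φ) p = 0 := by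
    rw [← hN X, metricVF hcov X N X p, hX, zero_add]; exact hN0 _
  obtain ⟨L, f, hf, hfX⟩ := g10_fun p X
  have hfp : f p = 0 := by
    rw [hf.self_of_nhds]; simp
  obtain ⟨C, hC⟩ := g10_chart_le (E := E) p
  set K : ℝ := ‖L‖ * C with hK
  have hle : ∀ᶠ q in 𝓝 p, f q * f q ≤ 2 * K ^ 2 * φ q := by
    filter_upwards [hf, hC, h] with q h1 h2 h3
    have h4 : ‖extChartAt 𝓘(ℝ, E) p q - extChartAt 𝓘(ℝ, E) p p‖ ≤ C * dist p q := by
      rw [edist_dist, ← ofReal_norm, ← ENNReal.ofReal_coe_nnreal,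
        ← ENNReal.ofReal_mul C.coe_nonneg] at h2
      exact (ENNReal.ofReal_le_ofReal_iff (by (clear * -; positivity))).mp h2
    have h5 : |f q| ≤ K * dist p q := by
      rw [h1, ← Real.norm_eq_abs]
      calc _ ≤ ‖L‖ * ‖extChartAt 𝓘(ℝ, E) p q - extChartAt 𝓘(ℝ, E) p p‖ := L.le_opNorm _
        _ ≤ ‖L‖ * (C * dist p q) := by gcongr
        _ = K * dist p q := by rw [hK]; ring
    have h6 : f q * f q ≤ (K * dist p q) ^ 2 := by
      rw [← sq, ← sq_abs]
      gcongr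
    rw [h3]
    linarith only [h6]
  let a : SF E M := algebraMap ℝ (SF E M) (2 * K ^ 2)
  let b : SF E M := algebraMap ℝ (SF E M) (-1)
  have ha : ∀ q, a q = 2 * K ^ 2 := fun q => by
    simp [a, Algebra.algebraMap_eq_smul_one]
  have hb : ∀ q, b q = -1 := fun q => by
    simp [b, Algebra.algebraMap_eq_smul_one]
  have hDa : DVF X a = 0 := DVF_const X _
  have hDb : DVF X b = 0 := DVF_const X _
  have hmin2 : IsLocalMin (fun q => (a * φ + b * (f * f)) q) p := by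
    have ev : ∀ q, (a * φ + b * (f * f)) q = 2 * K ^ 2 * φ q - f q * f q := by
      intro q
      have e : (a * φ + b * (f * f)) q = a q * φ q + b q * (f q * f q) := rfl
      rw [e, ha, hb]; ring
    filter_upwards [hle] with q hq
    rw [ev, ev, hφp, hfp]
    linarith
  have h2 := (min_testVF p _ hmin2 X).2
  have e1 : DVF X (a * φ + b * (f * f)) = a * DVF X φ + b * (DVF X f * f + f * DVF X f) := by
    rw [DVF_add, DVF_mul, DVF_mul, DVF_mul, hDa, hDb, zero_mul, zero_add, zero_mul, zero_add]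
  have e2 : DVF X (a * DVF X φ + b * (DVF X f * f + f * DVF X f)) =
      a * DVF X (DVF X φ) + b * ((DVF X (DVF X f) * f + DVF X f * DVF X f) +
        (DVF X f * DVF X f + f * DVF X (DVF X f))) := by
    rw [DVF_add, DVF_mul, DVF_mul, DVF_add, DVF_mul, DVF_mul, hDa, hDb, zero_mul, zero_add,
      zero_mul, zero_add]
  rw [e1, e2] at h2
  have e3 : (a * DVF X (DVF X φ) + b * ((DVF X (DVF X f) * f + DVF X f * DVF X f) +
        (DVF X f * DVF X f + f * DVF X (DVF X f)))) p =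
      a p * DVF X (DVF X φ) p + b p * ((DVF X (DVF X f) p * f p + DVF X f p * DVF X f p) +
        (DVF X f p * DVF X f p + f p * DVF X (DVF X f) p)) := rfl
  rw [e3, hDD, hb, hfp, hfX] at h2
  nlinarith [h2, sq_nonneg (gVF X X p)]

end dist

end

end Vale.Agent.P211.S4

end

-- G12
section

/-! P211, S4, G12: the function `φ` of the concrete manifold. -/

namespace Vale.Agent.P211.S4

open scoped Manifold ContDiff Topology
open Bundle Filter VectorField MeasureTheory Set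

noncomputable section

section dist

variable {E : Type*} [NormedAddCommGroup E] [NormedSpace ℝ E] [FiniteDimensional ℝ E]
  {M : Type*} [MetricSpace M] [ChartedSpace E M] [IsManifold 𝓘(ℝ, E) ∞ M]
  [RiemannianBundle (fun x : M => TangentSpace 𝓘(ℝ, E) x)]
  [IsContMDiffRiemannianBundle 𝓘(ℝ, E) ∞ E (fun x : M => TangentSpace 𝓘(ℝ, E) x)]

variable {cov : CovariantDerivative 𝓘(ℝ, E) E (TangentSpace 𝓘(ℝ, E) : M → Type _)}

/-- G12 (uses G7 - G11) -/
theorem rad0_of [IsRiemannianManifold 𝓘(ℝ, E) M] [CompactSpace M] [ConnectedSpace M]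
    (hcov : IsLC cov) (hE : Module.finrank ℝ E = 4) [MeasurableSpace M] {μ : Measure M} {p : M}
    (h : ContMDiffOn 𝓘(ℝ, E) 𝓘(ℝ) ∞ (fun q => dist p q ^ 2) (Metric.ball p (7 / 4)))
    (hb : Tendsto (fun r : ℝ => μ.real (Metric.ball p r) / r ^ 4) (𝓝[>] 0)
      (𝓝 (Real.pi ^ 2 / 2))) :
    ∃ φ : SF E M, Rad0 (geo2Of hcov hE) p (61 / 40) φ ∧
      Tendsto (fun t : ℝ => μ.real {q | (geo2Of hcov hE).ev q φ < t} / t ^ 2) (𝓝[>] 0)
        (𝓝 (2 * Real.pi ^ 2)) := by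
  obtain ⟨φ, hφ1, hφ2⟩ := exists_phi h
  have hN : ∀ X, gVF ((geo2Of hcov hE).grad φ) X = DVF X φ := (geo2Of hcov hE).grad_spec φ
  have hlt : ∀ q, φ q < 61 / 40 → dist p q ^ 2 / 2 < 61 / 40 := fun q hq => by
    by_contra hcon
    exact absurd (hφ2 q (not_lt.mp hcon)) (not_le.mpr hq)
  have hev : ∀ q, dist p q ^ 2 / 2 < 61 / 40 → ∀ᶠ x in 𝓝 q, φ x = dist p x ^ 2 / 2 := by
    intro q hq
    have hc : Continuous fun x : M => dist p x ^ 2 / 2 := by fun_prop
    exact (hc.continuousAt.eventually_lt continuousAt_const hq).mono fun x hx => hφ1 x hx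
  have hp0 : dist p p ^ 2 / 2 < 61 / 40 := by rw [dist_self]; norm_num
  refine ⟨φ, ⟨fun q => ?_, fun q => ?_, fun q hq => ?_, fun X hX => ?_⟩, ?_⟩
  · change 0 ≤ φ q
    rcases lt_or_ge (dist p q ^ 2 / 2) (61 / 40) with h1 | h1
    · rw [hφ1 q h1]
      (clear * -; positivity)
    · exact le_trans (by norm_num) (hφ2 q h1)
  · change φ q = 0 ↔ q = p
    constructor
    · intro h0
      have h1 := hlt q (by rw [h0]; norm_num)
      rw [hφ1 q h1] at h0
      have h2 : dist p q = 0 := by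
        have : dist p q ^ 2 = 0 := by linarith
        exact pow_eq_zero_iff (two_ne_zero) |>.mp this
      exact (dist_eq_zero.mp h2).symm
    · rintro rfl
      rw [hφ1 q hp0, dist_self]
      norm_num
  · change φ q < 61 / 40 at hq
    change gVF ((geo2Of hcov hE).grad φ) ((geo2Of hcov hE).grad φ) q = 2 * φ q
    have h1 := hlt q hq
    have h2 := hev q h1
    set N := (geo2Of hcov hE).grad φ with hNdef
    have h3 : gVF N N q ≤ dist p q * Real.sqrt (gVF N N q) := by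
      have := deriv_dist_le h2 N
      rw [← hN N] at this
      exact (le_abs_self _).trans this
    have h4 : 0 ≤ gVF N N q := real_inner_self_nonneg (F := TangentSpace 𝓘(ℝ, E) q) (x := N q)
    have h5 : gVF N N q ≤ dist p q ^ 2 := by
      have h6 := Real.sqrt_nonneg (gVF N N q)
      have h7 := Real.sq_sqrt h4
      have h8 : 0 ≤ dist p q := dist_nonneg
      linarith only [sq_nonneg (dist p q - Real.sqrt (gVF N N q)), h7, h3]
    have h6 : dist p q ^ 2 ≤ gVF N N q := by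
      by_cases hpq : p = q
      · rw [← hpq, dist_self]
        rw [hpq]
        simpa using h4
      · exact grad_dist_ge hpq h2 hN
    rw [hφ1 q h1]
    linarith
  · exact hess_dist_pos hcov (hev p hp0) hN X hX
  · exact asym_of hφ1 hφ2 hb

end dist

end

end Vale.Agent.P211.S4

end

-- G6
section

/-! P211, S4: the four-form of an orientation. -/

namespace Vale.Agent.P211.S4

open scoped Manifold ContDiff Topology
open Bundle Filter VectorField MeasureTheory Set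

noncomputable section

section alg

variable {N : Type*} [AddCommGroup N] [Module ℝ N] (f : N [⋀^Fin 4]→ₗ[ℝ] ℝ)

theorem g6_s12 (a b c d : N) : f ![a, b, c, d] = - f ![b, a, c, d] := by
  have h := f.map_swap ![b, a, c, d] (i := 0) (j := 1) (by decide)
  rw [← h]
  congr 1
  funext i
  fin_cases i <;> rfl

theorem g6_s23 (a b c d : N) : f ![a, b, c, d] = - f ![a, c, b, d] := by
  have h := f.map_swap ![a, c, b, d] (i := 1) (j := 2) (by decide)
  rw [← h]
  congr 1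
  funext i
  fin_cases i <;> rfl

theorem g6_s34 (a b c d : N) : f ![a, b, c, d] = - f ![a, b, d, c] := by
  have h := f.map_swap ![a, b, d, c] (i := 2) (j := 3) (by decide)
  rw [← h]
  congr 1
  funext i
  fin_cases i <;> rfl

theorem g6_add1 (a a' b c d : N) : f ![a + a', b, c, d] = f ![a, b, c, d] + f ![a', b, c, d] :=
  f.map_vecCons_add _ _ _

theorem g6_smul1 (t : ℝ) (a b c d : N) : f ![t • a, b, c, d] = t * f ![a, b, c, d] :=
  f.map_vecCons_smul _ _ _

theorem g6_add2 (a a' b c d : N) : f ![b, a + a', c, d] = f ![b, a, c, d] + f ![b, a', c, d] := by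
  rw [g6_s12, g6_add1, g6_s12 f b a, g6_s12 f b a']; ring

theorem g6_smul2 (t : ℝ) (a b c d : N) : f ![b, t • a, c, d] = t * f ![b, a, c, d] := by
  rw [g6_s12, g6_smul1, g6_s12 f b a]; ring

theorem g6_add3 (a a' b c d : N) : f ![b, c, a + a', d] = f ![b, c, a, d] + f ![b, c, a', d] := by
  rw [g6_s23, g6_add2, g6_s23 f b c a, g6_s23 f b c a']; ring

theorem g6_smul3 (t : ℝ) (a b c d : N) : f ![b, c, t • a, d] = t * f ![b, c, a, d] := by
  rw [g6_s23, g6_smul2, g6_s23 f b c a]; ring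

theorem g6_add4 (a a' b c d : N) : f ![b, c, d, a + a'] = f ![b, c, d, a] + f ![b, c, d, a'] := by
  rw [g6_s34, g6_add3, g6_s34 f b c d a, g6_s34 f b c d a']; ring

theorem g6_smul4 (t : ℝ) (a b c d : N) : f ![b, c, d, t • a] = t * f ![b, c, d, a] := by
  rw [g6_s34, g6_smul3, g6_s34 f b c d a]; ring

end alg

section top

variable {E : Type*} [NormedAddCommGroup E] [NormedSpace ℝ E] [FiniteDimensional ℝ E]
  {M : Type*} [TopologicalSpace M] [ChartedSpace E M] [IsManifold 𝓘(ℝ, E) ∞ M] [T2Space M]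
  [RiemannianBundle (fun x : M => TangentSpace 𝓘(ℝ, E) x)]
  [IsContMDiffRiemannianBundle 𝓘(ℝ, E) ∞ E (fun x : M => TangentSpace 𝓘(ℝ, E) x)]

variable {cov : CovariantDerivative 𝓘(ℝ, E) E (TangentSpace 𝓘(ℝ, E) : M → Type _)}

omit [FiniteDimensional ℝ E] [T2Space M]
  [IsContMDiffRiemannianBundle 𝓘(ℝ, E) ∞ E (fun x : M => TangentSpace 𝓘(ℝ, E) x)] in
theorem g6_smooth {wf : (p : M) → TangentSpace 𝓘(ℝ, E) p [⋀^Fin 4]→ₗ[ℝ] ℝ}
    (hom : St.IsVolForm wf) (X Y Z W : VF E M) :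
    ContMDiff 𝓘(ℝ, E) 𝓘(ℝ) ∞ fun p => wf p ![X p, Y p, Z p, W p] := by
  have h := hom.smooth (fun i => ((![X, Y, Z, W] : Fin 4 → VF E M) i))
    (fun i => ((![X, Y, Z, W] : Fin 4 → VF E M) i).contMDiff)
  have e : (fun p => wf p ![X p, Y p, Z p, W p]) =
      fun p => wf p fun i => (![X, Y, Z, W] : Fin 4 → VF E M) i p := by
    funext p
    congr 1
    funext i
    fin_cases i <;> rfl
  rw [e]
  exact h

/-- G6 -/
theorem orient_of [PreconnectedSpace M] (hcov : IsLC cov) (hE : Module.finrank ℝ E = 4)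
    {wf : (p : M) → TangentSpace 𝓘(ℝ, E) p [⋀^Fin 4]→ₗ[ℝ] ℝ} (hom : St.IsVolForm wf) :
    ∃ om : VF E M → VF E M → VF E M → VF E M → SF E M, Orient (geo2Of hcov hE) om ∧
      ∀ X Y Z W p, om X Y Z W p = wf p ![X p, Y p, Z p, W p] := by
  refine ⟨fun X Y Z W => ⟨fun p => wf p ![X p, Y p, Z p, W p], g6_smooth hom X Y Z W⟩,
    ⟨⟨?_, ?_, ?_, ?_, ?_, ?_, ?_, ?_⟩, ?_, ?_, ?_, ?_⟩, fun X Y Z W p => rfl⟩
  · intro X X' Y Z W
    ext p
    exact g6_add1 (wf p) _ _ _ _ _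
  · intro X Y Y' Z W
    ext p
    exact g6_add2 (wf p) _ _ _ _ _
  · intro X Y Z Z' W
    ext p
    exact g6_add3 (wf p) _ _ _ _ _
  · intro X Y Z W W'
    ext p
    exact g6_add4 (wf p) _ _ _ _ _
  · intro a X Y Z W
    ext p
    exact g6_smul1 (wf p) (a p) _ _ _ _
  · intro a X Y Z W
    ext p
    exact g6_smul2 (wf p) (a p) _ _ _ _
  · intro a X Y Z W
    ext p
    exact g6_smul3 (wf p) (a p) _ _ _ _
  · intro a X Y Z W
    ext p
    exact g6_smul4 (wf p) (a p) _ _ _ _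
  · intro X Y Z W
    ext p
    exact g6_s12 (wf p) _ _ _ _
  · intro X Y Z W
    ext p
    exact g6_s23 (wf p) _ _ _ _
  · intro X Y Z W
    ext p
    exact g6_s34 (wf p) _ _ _ _
  · intro p F hF
    have h := hom.unit p (fun i => F i) (fun i j => ⟨(F i).contMDiff, hF i j⟩)
    have e : (![F 0 p, F 1 p, F 2 p, F 3 p] : Fin 4 → TangentSpace 𝓘(ℝ, E) p) =
        fun i => F i p := by
      funext i
      fin_cases i <;> rfl
    change (wf p ![F 0 p, F 1 p, F 2 p, F 3 p]) ^ 2 = 1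
    rw [e]
    exact h

end top

end

end Vale.Agent.P211.S4

end
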