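import Vale.Agent.P211.S4Defs
import Vale.Agent.P211.Bdl.S1
import Vale.Agent.P211.Bdl.S2
import Vale.Agent.P211.Bdl.S3

set_option linter.all false

-- Final2
section

/-! P211, S4: the final theorem. -/

namespace Vale.Agent.P211.S4

open Topology Filter MeasureTheory Set
open scoped ContDiff

section absmain

variable {M 𝒪 V : Type*} [TopologicalSpace M] [CommRing 𝒪] [Algebra ℝ 𝒪]
    [AddCommGroup V] [Module 𝒪 V] {G : Geo2 M 𝒪 V} {om : V → V → V → V → 𝒪}

variable [MeasurableSpace M] [BorelSpace M] {μ : Measure M} [IsFiniteMeasure μ]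

/-- M15 (uses partI, partII, partIII) -/
theorem abstract_main [CompactSpace M] (hE : G.Einstein 3) (hK : G.SecGe 0)
    (ho : Orient G om) (hdiv : DivThm G μ)
    (h : ∀ p, ∃ φ, Rad0 G p (61 / 40) φ ∧
      Tendsto (fun t : ℝ => μ.real {q | G.ev q φ < t} / t ^ 2) (𝓝[>] 0)
        (𝓝 (2 * Real.pi ^ 2)))
    (a : M → ℝ) (ha : ∀ p F, Pos G om p F → a p = nA (G.rr p F))
    (hint : ∫ q, a q ∂μ ≤ 8 * Real.pi ^ 2) : ∀ p F, Pos G om p F → nA (G.rr p F) = 3 := by
  obtain ⟨u, hu1, hu2, hu3⟩ := partI hE hK ho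
  have hau : ∀ p, a p = 6 * G.ev p u + 3 := by
    intro p
    obtain ⟨F, hF⟩ := exists_pos ho p
    rw [ha p F hF, ← hu1 p F hF]
  have h0 : ∀ q, G.ev q u = 0 := by
    intro q
    by_contra hq
    have h3 := partIII (G := G) (μ := μ) hdiv (T := 61 / 40) (by norm_num) le_rfl
      (fun p => by
        obtain ⟨φ, h1, h2⟩ := h p
        exact ⟨φ, partII μ hE hK (by norm_num) le_rfl h1 h2⟩) hu2 hu3 hq
    have h4 : ∫ q, a q ∂μ = 6 * ∫ q, (G.ev q u + 1 / 2) ∂μ := by
      rw [← integral_const_mul]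
      refine integral_congr_ae (Eventually.of_forall fun q => ?_)
      simp only [hau]; ring
    rw [h4] at hint
    linarith only [h3, hint]
  intro p F hF
  rw [← hu1 p F hF, h0 p]; ring


end absmain

end Vale.Agent.P211.S4

namespace Vale.Agent.P211.S4

open scoped Manifold ContDiff Topology
open Bundle Filter VectorField MeasureTheory Set

section

variable {E : Type*} [NormedAddCommGroup E] [NormedSpace ℝ E] [FiniteDimensional ℝ E]
  {M : Type*} [TopologicalSpace M] [ChartedSpace E M] [IsManifold 𝓘(ℝ, E) ∞ M] [T2Space M]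
  [RiemannianBundle (fun x : M => TangentSpace 𝓘(ℝ, E) x)]
  [IsContMDiffRiemannianBundle 𝓘(ℝ, E) ∞ E (fun x : M => TangentSpace 𝓘(ℝ, E) x)]
  {cov : CovariantDerivative 𝓘(ℝ, E) E (TangentSpace 𝓘(ℝ, E) : M → Type _)}
  [PreconnectedSpace M]

theorem sd_eq (h : IsLC cov) (hE : Module.finrank ℝ E = 4) (F : Fin 4 → VF E M) (p : M)
    (i j : Fin 3) : St.SD cov (fun k => F k) i j p = Ab ((geo2Of h hE).rr p F) i j := by
  have e : ∀ a b c d : Fin 4, St.Riem cov (F a) (F b) (F c) (F d) p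
      = (geo2Of h hE).rr p F a b c d := fun a b c d => by rw [riem_eq h]; rfl
  unfold St.SD Ab
  rw [e, e]
  fin_cases i <;> fin_cases j <;> rfl

theorem sdsq_eq (h : IsLC cov) (hE : Module.finrank ℝ E = 4) (F : Fin 4 → VF E M) (p : M) :
    St.SDsq cov (fun k => F k) p = nA ((geo2Of h hE).rr p F) := by
  unfold St.SDsq nA
  simp only [sd_eq h hE]

end

section

variable {E : Type*} [NormedAddCommGroup E] [NormedSpace ℝ E] [FiniteDimensional ℝ E]
  {M : Type*} [MetricSpace M] [ChartedSpace E M] [IsManifold 𝓘(ℝ, E) ∞ M]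
  [RiemannianBundle (fun x : M => TangentSpace 𝓘(ℝ, E) x)]
  [IsContMDiffRiemannianBundle 𝓘(ℝ, E) ∞ E (fun x : M => TangentSpace 𝓘(ℝ, E) x)]

/-- one side -/
theorem one_side (hE : Module.finrank ℝ E = 4) [CompactSpace M] [ConnectedSpace M]
    [IsRiemannianManifold 𝓘(ℝ, E) M] [MeasurableSpace M] [BorelSpace M]
    (cov : St.Conn E M) (hcov : St.IsLeviCivita cov) (hEin : St.IsEinstein cov 3)
    (hsec : ∀ p X Y, St.Smooth X → St.Smooth Y → 0 ≤ St.Riem cov X Y Y X p)
    (hinj : ∀ p : M, ContMDiffOn 𝓘(ℝ, E) 𝓘(ℝ) ∞ (fun q => dist p q ^ 2) (Metric.ball p (7 / 4)))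
    (μ : Measure M) (hμ : St.IsVol cov μ)
    (om : (p : M) → TangentSpace 𝓘(ℝ, E) p [⋀^Fin 4]→ₗ[ℝ] ℝ) (hom : St.IsVolForm om)
    (a : M → ℝ)
    (ha : ∀ p F, St.Ortho F p → om p (fun i => F i p) = 1 → a p = St.SDsq cov F p)
    (hint : ∫ p, a p ∂μ ≤ 8 * Real.pi ^ 2) :
    ∀ p F, St.Ortho F p → om p (fun i => F i p) = 1 → St.SDsq cov F p = 3 := by
  have h := isLC_of hcov
  haveI := hμ.fin
  obtain ⟨w, hw, hwe⟩ := orient_of h hE hom
  have hw4 : ∀ (F : Fin 4 → VF E M) (p : M), w (F 0) (F 1) (F 2) (F 3) p = om p (fun i => F i p) := by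
    intro F p
    rw [hwe]
    congr 1
    ext i
    fin_cases i <;> rfl
  have hEin' : (geo2Of h hE).Einstein 3 := einstein_of h hE hEin
  have hK : (geo2Of h hE).SecGe 0 := by
    intro p X Y
    have := hsec p X Y X.contMDiff Y.contMDiff
    rw [riem_eq h] at this
    rw [zero_mul]
    exact this
  have hdiv : DivThm (geo2Of h hE) μ := by
    intro X
    refine hμ.div X _ X.contMDiff ?_
    intro p F hF
    exact (geo2Of h hE).dv_spec X p (fun i => mkVF (F i) (hF i i).1) fun i j => (hF i j).2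
  have hmain := abstract_main (G := geo2Of h hE) hEin' hK hw hdiv
    (fun p => rad0_of h hE (hinj p) (hμ.ball p)) a
    (fun p F hF => by
      rw [← sdsq_eq h hE]
      exact ha p (fun k => F k) (fun i j => ⟨(F i).contMDiff, hF.1 i j⟩)
        ((hw4 F p).symm.trans hF.2)) hint
  intro p F hF hF1
  have := hmain p (fun i => mkVF (F i) (hF i i).1) ⟨fun i j => (hF i j).2, by
    have e := hw4 (fun i => mkVF (F i) (hF i i).1) p
    exact e.trans hF1⟩
  rw [← sdsq_eq h hE] at this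
  exact this

theorem final_main (hE : Module.finrank ℝ E = 4) [CompactSpace M] [ConnectedSpace M]
    [IsRiemannianManifold 𝓘(ℝ, E) M] [MeasurableSpace M] [BorelSpace M]
    (cov : St.Conn E M) (hcov : St.IsLeviCivita cov) (hEin : St.IsEinstein cov 3)
    (hsec : ∀ p X Y, St.Smooth X → St.Smooth Y → 0 ≤ St.Riem cov X Y Y X p)
    (hinj : ∀ p : M, ContMDiffOn 𝓘(ℝ, E) 𝓘(ℝ) ∞ (fun q => dist p q ^ 2) (Metric.ball p (7 / 4)))
    (μ : Measure M) (hμ : St.IsVol cov μ)
    (om : (p : M) → TangentSpace 𝓘(ℝ, E) p [⋀^Fin 4]→ₗ[ℝ] ℝ) (hom : St.IsVolForm om)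
    (a b : M → ℝ)
    (ha : ∀ p F, St.Ortho F p → om p (fun i => F i p) = 1 → a p = St.SDsq cov F p)
    (hb : ∀ p F, St.Ortho F p → om p (fun i => F i p) = -1 → b p = St.SDsq cov F p) :
    (∫ p, a p ∂μ ≤ 8 * Real.pi ^ 2 → ∀ p F, St.Ortho F p → om p (fun i => F i p) = 1 →
      ∀ i j, St.SD cov F i j p = if i = j then 1 else 0) ∧
    (∫ p, b p ∂μ ≤ 8 * Real.pi ^ 2 → ∀ p F, St.Ortho F p → om p (fun i => F i p) = -1 →
      ∀ i j, St.SD cov F i j p = if i = j then 1 else 0) ∧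
    (∫ p, a p ∂μ ≤ 8 * Real.pi ^ 2 → ∫ p, b p ∂μ ≤ 8 * Real.pi ^ 2 →
      ∀ p X Y, St.Smooth X → St.Smooth Y → St.Riem cov X Y Y X p = St.dot X Y X Y p) := by
  have h := isLC_of hcov
  have hEin' : (geo2Of h hE).Einstein 3 := einstein_of h hE hEin
  have hom' : St.IsVolForm (fun p => -om p) := by
    refine ⟨fun X hX => ?_, fun p F hF => ?_⟩
    · exact (hom.smooth X hX).neg
    · have := hom.unit p F hF
      simpa using this
  have A := one_side hE cov hcov hEin hsec hinj μ hμ om hom a ha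
  have B := one_side hE cov hcov hEin hsec hinj μ hμ (fun p => -om p) hom' b
    (fun p F hF h1 => hb p F hF (by
      have : -(om p fun i => F i p) = 1 := h1
      linarith))
  have unit : ∀ p F, St.Ortho F p → St.SDsq cov F p = 3 →
      ∀ i j, St.SD cov F i j p = if i = j then (1 : ℝ) else 0 := by
    intro p F hF h3
    obtain ⟨ht, -⟩ := Ab_tr (G := geo2Of h hE) hEin' (p := p)
      (F := fun i => mkVF (F i) (hF i i).1) (fun i j => (hF i j).2)
    rw [← sd_eq, ← sd_eq, ← sd_eq] at ht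
    change St.SD cov F 0 0 p + St.SD cov F 1 1 p + St.SD cov F 2 2 p = 3 at ht
    unfold St.SDsq at h3
    have hs : ∑ i, ∑ j, (St.SD cov F i j p - if i = j then (1 : ℝ) else 0) ^ 2 = 0 := by
      have e : ∀ i j : Fin 3, (St.SD cov F i j p - if i = j then (1 : ℝ) else 0) ^ 2 =
        St.SD cov F i j p ^ 2 - 2 * (if i = j then St.SD cov F i j p else 0)
          + if i = j then (1 : ℝ) else 0 := by
        intro i j
        split_ifs <;> ring
      simp only [e, Finset.sum_add_distrib, Finset.sum_sub_distrib, ← Finset.mul_sum,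
        Finset.sum_ite_eq, Finset.mem_univ, if_true, h3]
      rw [Fin.sum_univ_three]
      simp only [Finset.sum_const, Finset.card_univ, Fintype.card_fin]
      rw [ht]
      norm_num
    intro i j
    have h1 := (Finset.sum_eq_zero_iff_of_nonneg (fun i _ => Finset.sum_nonneg fun j _ =>
      sq_nonneg _)).1 hs i (Finset.mem_univ i)
    have h2 := (Finset.sum_eq_zero_iff_of_nonneg (fun j _ => sq_nonneg _)).1 h1 j
      (Finset.mem_univ j)
    exact sub_eq_zero.mp (pow_eq_zero_iff two_ne_zero |>.mp h2)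
  refine ⟨fun hi p F hF h1 => unit p F hF (A hi p F hF h1), fun hi p F hF h1 => ?_, ?_⟩
  · refine unit p F hF (B hi p F hF ?_)
    change -(om p fun i => F i p) = 1
    rw [h1]; norm_num
  · intro hia hib p X Y hX hY
    obtain ⟨w, hw, hwe⟩ := orient_of h hE hom
    have hw4 : ∀ (F : Fin 4 → VF E M) (p : M),
        w (F 0) (F 1) (F 2) (F 3) p = om p (fun i => F i p) := by
      intro F p
      rw [hwe]
      congr 1
      ext i
      fin_cases i <;> rfl
    have := round_of (G := geo2Of h hE) hEin' hw (p := p)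
      (fun F hF => by
        rw [← sdsq_eq h hE]
        exact A hia p (fun k => F k) (fun i j => ⟨(F i).contMDiff, hF.1 i j⟩)
          ((hw4 F p).symm.trans hF.2))
      (fun F hF hF1 => by
        rw [← sdsq_eq h hE]
        refine B hib p (fun k => F k) (fun i j => ⟨(F i).contMDiff, hF i j⟩) ?_
        change -(om p fun i => F i p) = 1
        have : om p (fun i => F i p) = -1 := (hw4 F p).symm.trans hF1
        rw [this]; norm_num)
      (mkVF X hX) (mkVF Y hY)
    have e := congrFun (riem_eq h (mkVF X hX) (mkVF Y hY) (mkVF Y hY) (mkVF X hX)) p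
    refine e.trans (this.trans ?_)
    unfold St.dot
    have e2 : St.ip Y X p = St.ip X Y p := real_inner_comm (X p) (Y p)
    rw [e2, ← sq]
    rfl

end

end Vale.Agent.P211.S4

end

-- Final3
section

/-! P211, S4: the bridge to the definitions of the statement. -/

namespace Vale.Agent.P211.SD

open scoped Manifold ContDiff Topology
open Bundle VectorField MeasureTheory Filter

section

variable {E : Type} [NormedAddCommGroup E] [NormedSpace ℝ E]
  {M : Type} [TopologicalSpace M] [ChartedSpace E M] [Mfd E M] [Metric E M]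

theorem riem_st (cov : Conn E M) (X Y Z W : Fld E M) (p : M) :
    Riem cov X Y Z W p = St.Riem cov X Y Z W p := by
  have e : ∀ A B W : Fld E M, St.ip (A - B) W p = St.ip A W p - St.ip B W p := by
    intro A B W
    exact inner_sub_left (A p) (B p) (W p)
  unfold St.Riem
  rw [e, e]
  rfl

theorem sd_st (cov : Conn E M) (F : Fin 4 → Fld E M) (i j : Fin 3) (p : M) :
    SD cov F i j p = St.SD cov F i j p := by
  unfold SD St.SD
  rw [riem_st, riem_st]
  fin_cases j <;> rfl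

end

theorem final
    {E : Type} [NormedAddCommGroup E] [NormedSpace ℝ E] [FiniteDimensional ℝ E]
    (hdim : Module.finrank ℝ E = 4)
    {M : Type} [MetricSpace M] [ChartedSpace E M] [Mfd E M] [CompactSpace M] [ConnectedSpace M]
    [Metric E M] [IsContMDiffRiemannianBundle 𝓘(ℝ, E) ∞ E fun p : M => TangentSpace 𝓘(ℝ, E) p]
    [IsRiemannianManifold 𝓘(ℝ, E) M] [MeasurableSpace M] [BorelSpace M]
    (cov : Conn E M) (hcov : IsLeviCivita cov)
    (hEin : ∀ (p : M) (F : Fin 4 → Fld E M), Ortho F p → ∀ Y Z, Smooth Y → Smooth Z →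
      ∑ i, Riem cov (F i) Y Z (F i) p = 3 * ip Y Z p)
    (hsec : ∀ p X Y, Smooth X → Smooth Y → 0 ≤ Riem cov X Y Y X p)
    (hinj : ∀ p : M, ContMDiffOn 𝓘(ℝ, E) 𝓘(ℝ) ∞ (fun q => dist p q ^ 2) (Metric.ball p (7 / 4)))
    (μ : Measure M) (hfin : IsFiniteMeasure μ)
    (hdiv : ∀ (X : Fld E M) (d : M → ℝ), Smooth X →
      (∀ p F, Ortho F p → d p = ∑ i, ip (nab cov (F i) X) (F i) p) → ∫ p, d p ∂μ = 0)
    (hball : ∀ p : M, Tendsto (fun r : ℝ => μ.real (Metric.ball p r) / r ^ 4) (𝓝[>] 0)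
      (𝓝 (Real.pi ^ 2 / 2)))
    (om : (p : M) → TangentSpace 𝓘(ℝ, E) p [⋀^Fin 4]→ₗ[ℝ] ℝ)
    (hom : ∀ F : Fin 4 → Fld E M, (∀ i, Smooth (F i)) → ContMDiff 𝓘(ℝ, E) 𝓘(ℝ) ∞ (val om F))
    (hom1 : ∀ p F, Ortho F p → val om F p ^ 2 = 1)
    (a b : M → ℝ)
    (ha : ∀ p F, Ortho F p → val om F p = 1 → a p = ∑ i, ∑ j, SD cov F i j p ^ 2)
    (hb : ∀ p F, Ortho F p → val om F p = -1 → b p = ∑ i, ∑ j, SD cov F i j p ^ 2) :
    (∫ p, a p ∂μ ≤ 8 * Real.pi ^ 2 → ∀ p F, Ortho F p → val om F p = 1 →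
      ∀ i j, SD cov F i j p = if i = j then 1 else 0) ∧
    (∫ p, b p ∂μ ≤ 8 * Real.pi ^ 2 → ∀ p F, Ortho F p → val om F p = -1 →
      ∀ i j, SD cov F i j p = if i = j then 1 else 0) ∧
    (∫ p, a p ∂μ ≤ 8 * Real.pi ^ 2 → ∫ p, b p ∂μ ≤ 8 * Real.pi ^ 2 →
      ∀ p X Y, Smooth X → Smooth Y →
        Riem cov X Y Y X p = ip X X p * ip Y Y p - ip X Y p ^ 2) := by
  have hcov' : St.IsLeviCivita (E := E) cov :=
    ⟨hcov.1, fun X Y hX hY => funext fun p => (hcov.2 X Y hX hY p).1,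
      fun X Y Z hX hY hZ p => (hcov.2 X Y hX hY p).2 Z hZ⟩
  have hEin' : St.IsEinstein (E := E) cov 3 := by
    intro p F hF Y Z hY hZ
    have h := hEin p F hF Y Z hY hZ
    simp only [riem_st] at h
    exact h
  have hsec' : ∀ p X Y, St.Smooth (E := E) (M := M) X → St.Smooth Y →
      0 ≤ St.Riem cov X Y Y X p := by
    intro p X Y hX hY
    rw [← riem_st]
    exact hsec p X Y hX hY
  have hμ' : St.IsVol (E := E) cov μ := ⟨hfin, fun X d hX hd => hdiv X d hX hd, hball⟩
  have hom' : St.IsVolForm (E := E) om := ⟨fun X hX => hom X hX, fun p F hF => hom1 p F hF⟩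
  have es : ∀ (F : Fin 4 → Fld E M) (p : M), ∑ i, ∑ j, SD cov F i j p ^ 2 = St.SDsq cov F p := by
    intro F p
    unfold St.SDsq
    simp only [sd_st]
  have key := S4.final_main (E := E) hdim cov hcov' hEin' hsec' hinj μ hμ' om hom' a b
    (fun p F hF h => (ha p F hF h).trans (es F p)) (fun p F hF h => (hb p F hF h).trans (es F p))
  refine ⟨fun h p F hF h1 i j => ?_, fun h p F hF h1 i j => ?_, fun h1 h2 p X Y hX hY => ?_⟩
  · rw [sd_st]; exact key.1 h p F hF h1 i j
  · rw [sd_st]; exact key.2.1 h p F hF h1 i j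
  · rw [riem_st]
    refine (key.2.2 h1 h2 p X Y hX hY).trans ?_
    have e : ip Y X p = ip X Y p := real_inner_comm (X p) (Y p)
    change ip X X p * ip Y Y p - ip X Y p * ip Y X p = _
    rw [e, sq]

end Vale.Agent.P211.SD

end
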