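import Mathlib
import Vale.Agent.P211.S4Defs
import Vale.Agent.P231.Bd3.B5
import Vale.Agent.P231.Bd3.B6
import Vale.Agent.P211.Bdl.S2
import Vale.Agent.P211.Bdl.S3

set_option linter.all false

-- V1
section

/-! P211, S4, V1: the squared distance is smooth inside the injectivity radius. -/

set_option maxSynthPendingDepth 3
set_option linter.unusedSectionVars false

namespace Vale.Agent.P211.S4

open scoped Manifold ContDiff Topology
open Bundle Filter MeasureTheory Set
open Vale.Agent.P234 Vale.Agent.P231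

noncomputable section

variable {E : Type*} [NormedAddCommGroup E] [NormedSpace ℝ E] [FiniteDimensional ℝ E]
  {M : Type*} [MetricSpace M] [ChartedSpace E M] [IsManifold 𝓘(ℝ, E) ∞ M]
  [RiemannianBundle (fun x : M => TangentSpace 𝓘(ℝ, E) x)]
  [IsContMDiffRiemannianBundle 𝓘(ℝ, E) ∞ E (fun x : M => TangentSpace 𝓘(ℝ, E) x)]
  [IsRiemannianManifold 𝓘(ℝ, E) M] [CompactSpace M] [ConnectedSpace M]

variable {e : ∀ x : M, TangentSpace 𝓘(ℝ, E) x → M}

/-- V1: geodesics of length at most `D` are minimising: the squared distance is smooth. -/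
theorem smooth_dist_sq (F : Facts e) {D : ℝ} (hB : InjGE e D) (p : M) :
    ContMDiffOn 𝓘(ℝ, E) 𝓘(ℝ) ∞ (fun q => dist p q ^ 2) (Metric.ball p D) := by
  intro y hy
  rw [Metric.mem_ball, dist_comm] at hy
  obtain ⟨v, hv, hd⟩ := F.hopfRinow p y
  have hs := F.smooth_cost p v (hB.mem_injDomain (by rw [← hd]; exact hy))
  rw [hv] at hs
  have h1 := hs.contMDiffAt
  have h2 : ContMDiffAt 𝓘(ℝ, E) (𝓘(ℝ, E).prod 𝓘(ℝ, E)) ∞ (fun q : M => (p, q)) y :=
    contMDiffAt_const.prodMk contMDiffAt_id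
  have h3 : ContMDiffAt 𝓘(ℝ, E) 𝓘(ℝ, ℝ) ∞ (fun q : M => cost p q) y :=
    ContMDiffAt.comp (x := y) (g := fun p : M × M => cost p.1 p.2) (f := fun q : M => (p, q)) h1 h2
  have h4 : ContMDiff 𝓘(ℝ, ℝ) 𝓘(ℝ, ℝ) ∞ (fun t : ℝ => 2 * t) :=
    (contDiff_const.mul contDiff_id).contMDiff
  have h5 := h4.contMDiffAt.comp y h3
  refine (h5.congr_of_eventuallyEq (Filter.Eventually.of_forall fun q => ?_)).contMDiffWithinAt
  simp only [Function.comp_apply, cost]
  ring

end

end Vale.Agent.P211.S4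

end

-- V23
section

/-! P211, S4: V2 and V3 (small geodesics are minimising, volume of small balls). -/

set_option maxSynthPendingDepth 3

namespace Vale.Agent.P211.S4

open scoped Manifold ContDiff Topology
open Bundle Filter VectorField MeasureTheory Set
open Vale.Agent.P234 Vale.Agent.P231

noncomputable section

/-- the volume of a ball in dimension four -/
theorem V23_vol_Eu {E : Type*} [NormedAddCommGroup E] [NormedSpace ℝ E]
    (hE : Module.finrank ℝ E = 4) {r : ℝ} (hr : 0 ≤ r) :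
    volume (Metric.ball (0 : Eu E) r) = ENNReal.ofReal (Real.pi ^ 2 / 2 * r ^ 4) := by
  have h1 : √Real.pi ^ 4 = Real.pi ^ 2 := by
    have h := Real.sq_sqrt Real.pi_pos.le
    calc √Real.pi ^ 4 = (√Real.pi ^ 2) ^ 2 := by ring
      _ = _ := by rw [h]
  have h2 : Real.Gamma (((4 : ℕ) : ℝ) / 2 + 1) = 2 := by
    have h3 : (((4 : ℕ) : ℝ) / 2 + 1) = ((2 : ℕ) : ℝ) + 1 := by norm_num
    rw [h3, Real.Gamma_nat_eq_factorial]
    norm_num [Nat.factorial]
  have h3 : volume (Metric.ball (0 : Eu E) r) =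
      ENNReal.ofReal r ^ (Module.finrank ℝ E) *
        ENNReal.ofReal (√Real.pi ^ (Module.finrank ℝ E) /
          Real.Gamma (((Module.finrank ℝ E : ℕ) : ℝ) / 2 + 1)) := by
    have : Nonempty (Fin (Module.finrank ℝ E)) := ⟨⟨0, by omega⟩⟩
    have h := EuclideanSpace.volume_ball (ι := Fin (Module.finrank ℝ E)) 0 r
    rwa [Fintype.card_fin] at h
  rw [h3, hE, h1, h2, ← ENNReal.ofReal_pow hr, ← ENNReal.ofReal_mul (by positivity), mul_comm]

variable {E : Type*} [NormedAddCommGroup E] [NormedSpace ℝ E] [FiniteDimensional ℝ E]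
  {M : Type*} [MetricSpace M] [ChartedSpace E M] [IsManifold 𝓘(ℝ, E) ∞ M]
  [RiemannianBundle (fun x : M => TangentSpace 𝓘(ℝ, E) x)]
  [IsContMDiffRiemannianBundle 𝓘(ℝ, E) ∞ E (fun x : M => TangentSpace 𝓘(ℝ, E) x)]
  [IsRiemannianManifold 𝓘(ℝ, E) M] [CompactSpace M] [ConnectedSpace M]

variable {e : ∀ x : M, TangentSpace 𝓘(ℝ, E) x → M}

omit [FiniteDimensional ℝ E]
  [IsContMDiffRiemannianBundle 𝓘(ℝ, E) ∞ E (fun x : M => TangentSpace 𝓘(ℝ, E) x)]
  [IsRiemannianManifold 𝓘(ℝ, E) M] [CompactSpace M] [ConnectedSpace M] in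
/-- V2 -/
theorem injGE_small (F : Facts e) : ∃ D : ℝ, 0 < D ∧ InjGE e D := by
  obtain ⟨ρ, hρ, h⟩ := F.isExp.minimizing
  refine ⟨ρ, hρ, fun x v hv => ?_⟩
  have h1 := h x v 0 1 (by simpa using hv)
  rw [zero_smul, one_smul, F.isExp.map_zero] at h1
  simpa using h1

omit [IsContMDiffRiemannianBundle 𝓘(ℝ, E) ∞ E (fun x : M => TangentSpace 𝓘(ℝ, E) x)]
  [IsRiemannianManifold 𝓘(ℝ, E) M] [CompactSpace M] [ConnectedSpace M] in
theorem V23_image (F : Facts e) {D : ℝ} (hB : InjGE e D) (x : M) {r : ℝ} (hr : r ≤ D) :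
    ef e x '' Metric.ball (0 : Eu E) r = Metric.ball x r := by
  ext y
  simp only [mem_image, Metric.mem_ball, dist_zero_right]
  constructor
  · rintro ⟨ξ, hξ, rfl⟩
    have h := hB x (fr (E := E) x ξ) ((nm_fr (E := E) x ξ).trans_le (hξ.le.trans hr))
    rw [dist_comm]
    exact (h.trans (nm_fr (E := E) x ξ)).trans_lt hξ
  · intro hy
    obtain ⟨v, hv, hd⟩ := F.hopfRinow x y
    obtain ⟨w, hw⟩ : ∃ w : E, w = v := ⟨v, rfl⟩
    have h2 : fr (E := E) x ((fr (E := E) x).symm w) = w :=
      ContinuousLinearEquiv.apply_symm_apply _ _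
    have hd' : dist x y = nm x w := by rw [hw]; exact hd
    have hv' : e x w = y := by rw [hw]; exact hv
    refine ⟨(fr (E := E) x).symm w, ?_, ?_⟩
    · have h1 := nm_fr (E := E) x ((fr (E := E) x).symm w)
      rw [h2] at h1
      rw [← h1]
      exact (hd'.symm.trans (dist_comm _ _)).trans_lt hy
    · unfold ef
      rw [h2]
      exact hv'

section meas

variable [MeasurableSpace M] [BorelSpace M]

/-- V3 -/
theorem vol_ball (F : Facts e) (hE : Module.finrank ℝ E = 4) (p : M) :
    Tendsto (fun r : ℝ => (riemVol 4 M).real (Metric.ball p r) / r ^ 4) (𝓝[>] 0)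
      (𝓝 (Real.pi ^ 2 / 2)) := by
  obtain ⟨D, hD, hB⟩ := injGE_small F
  rw [Metric.tendsto_nhds]
  intro ε hε
  obtain ⟨c, hc⟩ : ∃ c : ℝ, c = Real.pi ^ 2 / 2 := ⟨_, rfl⟩
  have hcp : 0 < c := by rw [hc]; positivity
  obtain ⟨η, hη0, hη1, hη2⟩ : ∃ η : ℝ, 0 < η ∧ η < 1 ∧ η * c < ε := by
    refine ⟨min (1 / 2) (ε / (2 * c)), lt_min (by norm_num) (by positivity), ?_, ?_⟩
    · exact (min_le_left _ _).trans_lt (by norm_num)
    · calc min (1 / 2) (ε / (2 * c)) * c ≤ ε / (2 * c) * c :=
            mul_le_mul_of_nonneg_right (min_le_right _ _) hcp.le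
        _ = ε / 2 := by field_simp
        _ < ε := by linarith
  obtain ⟨δ, hδ, h⟩ := riemVol_small F p hη0
  have h0 : Ioo (0 : ℝ) (min δ D) ∈ 𝓝[>] (0 : ℝ) := Ioo_mem_nhdsGT (lt_min hδ hD)
  filter_upwards [h0] with r hr
  have hr1 : r < δ := hr.2.trans_le (min_le_left _ _)
  have hr2 : r < D := hr.2.trans_le (min_le_right _ _)
  obtain ⟨h1, h2⟩ := h (Metric.ball 0 r) (Metric.ball_subset_ball hr1.le)
  rw [V23_image F hB p hr2.le, V23_vol_Eu hE hr.1.le, hE, ← ENNReal.ofReal_mul (by linarith),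
    ← hc] at h1 h2
  have hfin : riemVol 4 M (Metric.ball p r) ≠ ⊤ := ne_top_of_le_ne_top ENNReal.ofReal_ne_top h2
  have hr4 : 0 < r ^ 4 := pow_pos hr.1 4
  have h1' : (1 - η) * (c * r ^ 4) ≤ (riemVol 4 M).real (Metric.ball p r) :=
    (ENNReal.ofReal_le_iff_le_toReal hfin).1 h1
  have h2' : (riemVol 4 M).real (Metric.ball p r) ≤ (1 + η) * (c * r ^ 4) :=
    ENNReal.toReal_le_of_le_ofReal (by (clear * - hη0 hcp hr4; positivity)) h2
  have h3 : (1 - η) * c ≤ (riemVol 4 M).real (Metric.ball p r) / r ^ 4 := by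
    rw [le_div_iff₀ hr4]; linarith
  have h4 : (riemVol 4 M).real (Metric.ball p r) / r ^ 4 ≤ (1 + η) * c := by
    rw [div_le_iff₀ hr4]; linarith
  rw [Real.dist_eq, ← hc, abs_lt]
  constructor <;> nlinarith

end meas

end

end Vale.Agent.P211.S4

end

-- V4
section

/-! P211, S4, task V4: change of variables in a normal ball. -/

set_option maxSynthPendingDepth 3

namespace Vale.Agent.P211.S4

open scoped Manifold ContDiff Topology
open Bundle Filter VectorField MeasureTheory Set
open Vale.Agent.P234 Vale.Agent.P231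

noncomputable section

variable {E : Type*} [NormedAddCommGroup E] [NormedSpace ℝ E] [FiniteDimensional ℝ E]
  {M : Type*} [MetricSpace M] [ChartedSpace E M] [IsManifold 𝓘(ℝ, E) ∞ M]
  [RiemannianBundle (fun x : M => TangentSpace 𝓘(ℝ, E) x)]
  [IsContMDiffRiemannianBundle 𝓘(ℝ, E) ∞ E (fun x : M => TangentSpace 𝓘(ℝ, E) x)]
  [IsRiemannianManifold 𝓘(ℝ, E) M] [CompactSpace M] [ConnectedSpace M]

variable {e : ∀ x : M, TangentSpace 𝓘(ℝ, E) x → M}

/-- V4: change of variables in a normal ball (from `area`). -/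
theorem integral_normal [MeasurableSpace M] [BorelSpace M] (F : Facts e) {D : ℝ} (hD : 0 < D)
    (hB : InjGE e D) (x : M) {r : ℝ} (hr : r < D) (h : M → ℝ) (hc : Continuous h)
    (hs : ∀ y, r ≤ dist x y → h y = 0) :
    ∫ y, h y ∂(riemVol (Module.finrank ℝ E) M) =
      ∫ ξ in Metric.ball (0 : Eu E) D, h (ef e x ξ) * jac e x (fr x ξ) := by
  have h1 : ∫ y, h y ∂(riemVol (Module.finrank ℝ E) M) =
      ∫ y in ef e x '' Metric.ball 0 D, h y ∂(riemVol (Module.finrank ℝ E) M) := by
    symm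
    refine setIntegral_eq_integral_of_forall_compl_eq_zero fun y hy => hs y ?_
    rw [log_image_ball F hB x, mem_ofPred_eq, not_lt] at hy
    linarith
  rw [h1, log_integral_image F hD hB x hc]
  refine setIntegral_congr_fun measurableSet_ball fun ξ _ => ?_
  ring

end

end Vale.Agent.P211.S4

end

-- V5
section

/-! P211, S4, V5: coordinate fields of normal coordinates. -/

set_option maxSynthPendingDepth 3
set_option linter.unusedSectionVars false
set_option linter.unusedVariables false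

namespace Vale.Agent.P211.S4

open scoped Manifold ContDiff Topology
open Bundle Filter VectorField MeasureTheory Set
open Vale.Agent.P234 Vale.Agent.P231

noncomputable section

variable {E : Type*} [NormedAddCommGroup E] [NormedSpace ℝ E] [FiniteDimensional ℝ E]
  {M : Type*} [MetricSpace M] [ChartedSpace E M] [IsManifold 𝓘(ℝ, E) ∞ M]
  [RiemannianBundle (fun x : M => TangentSpace 𝓘(ℝ, E) x)]
  [IsContMDiffRiemannianBundle 𝓘(ℝ, E) ∞ E (fun x : M => TangentSpace 𝓘(ℝ, E) x)]

variable {e : ∀ x : M, TangentSpace 𝓘(ℝ, E) x → M}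

/-- inside the injectivity radius `logMap` is the inverse of the exponential map -/
theorem V5log_eq (F : Facts e) {D : ℝ} (hB : InjGE e D) {x : M}
    {v : TangentSpace 𝓘(ℝ, E) x} (hv : ‖v‖ < D) : logMap e x (e x v) = v :=
  logMap_eq F.isExp (hB x v hv.le) (F.smooth_cost x v (hB.mem_injDomain hv))

/-- `logMap` is smooth inside the injectivity radius -/
theorem V5log_smooth (F : Facts e) {D : ℝ} (hB : InjGE e D) {x y : M}
    (hy : dist x y < D) :
    ContMDiffAt 𝓘(ℝ, E) 𝓘(ℝ, TangentSpace 𝓘(ℝ, E) x) ∞ (logMap e x) y ∧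
      e x (logMap e x y) = y := by
  obtain ⟨v, hv, hd⟩ := F.hopfRinow x y
  have hvD : ‖v‖ < D := by rw [← hd]; exact hy
  have hs := F.smooth_cost x v (hB.mem_injDomain hvD)
  have h1 := contMDiffAt_logMap F.isExp hs
  have h2 := V5log_eq F hB hvD
  rw [hv] at h1 h2
  exact ⟨h1, by rw [h2, hv]⟩

/-- the coordinate field on the normal ball is smooth -/
theorem V5section (F : Facts e) {D : ℝ} (hB : InjGE e D) {x : M} (a : E) {y : M}
    (hy : dist x y < D) :
    ContMDiffAt 𝓘(ℝ, E) 𝓘(ℝ, E).tangent ∞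
      (fun z : M => tb z (dE e x (logMap e x z) a)) y := by
  have h1 := (V5log_smooth F hB hy).1
  have h2 := (taylor_contMDiff_dE F.isExp x (a : TangentSpace 𝓘(ℝ, E) x)).contMDiffAt
    (x := logMap e x y)
  have h3 := h2.comp y h1
  refine h3.congr_of_eventuallyEq ?_
  have hev : ∀ᶠ z in 𝓝 y, dist x z < D :=
    (isOpen_lt (continuous_const.dist continuous_id) continuous_const).mem_nhds hy
  filter_upwards [hev] with z hz
  exact tb_congr (V5log_smooth F hB hz).2.symm rfl

variable [IsRiemannianManifold 𝓘(ℝ, E) M] [CompactSpace M] [ConnectedSpace M]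

omit [RiemannianBundle (fun x : M => TangentSpace 𝓘(ℝ, E) x)]
  [IsContMDiffRiemannianBundle 𝓘(ℝ, E) ∞ E (fun x : M => TangentSpace 𝓘(ℝ, E) x)]
  [IsRiemannianManifold 𝓘(ℝ, E) M] [ConnectedSpace M] in
/-- a smooth cutoff function -/
theorem V5cut (x : M) {r D : ℝ} (hr : r < D) :
    ∃ χ : SF E M, (∀ y, dist x y ≤ r → χ y = 1) ∧ ∀ y, D ≤ dist x y → ∀ᶠ z in 𝓝 y, χ z = 0 := by
  have hcl : Metric.closedBall x r ⊆ interior (Metric.closedBall x ((r + D) / 2)) := by
    refine subset_trans ?_ Metric.ball_subset_interior_closedBall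
    exact Metric.closedBall_subset_ball (by linarith)
  obtain ⟨χ, h1, h0, -⟩ := exists_contMDiffMap_one_nhds_of_subset_interior (n := ⊤) 𝓘(ℝ, E)
    (Metric.isClosed_closedBall (x := x) (ε := r)) hcl
  refine ⟨χ, fun y hy => ?_, fun y hy => ?_⟩
  · exact h1.self_of_nhdsSet y (by rw [Metric.mem_closedBall, dist_comm]; exact hy)
  · have hev : ∀ᶠ z in 𝓝 y, (r + D) / 2 < dist x z :=
      (isOpen_lt continuous_const (continuous_const.dist continuous_id)).mem_nhds (by
        have : (r + D) / 2 < dist x y := by linarith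
        exact this)
    filter_upwards [hev] with z hz
    refine h0 z ?_
    rw [Metric.mem_closedBall, dist_comm]
    exact not_le.2 hz

/-- V5 -/
theorem exists_coord (F : Facts e) {D : ℝ} (hD : 0 < D) (hB : InjGE e D) (x : M) {r : ℝ}
    (hr : r < D) :
    ∃ C : Fin (Module.finrank ℝ E) → VF E M, ∀ ξ : Eu E, ‖ξ‖ < r → ∀ i,
      (C i (ef e x ξ) : E) = dE e x (fr x ξ) (fr x (EuclideanSpace.single i 1)) := by
  obtain ⟨χ, h1, h0⟩ := V5cut (E := E) x hr
  have key : ∀ a : E, ContMDiff 𝓘(ℝ, E) 𝓘(ℝ, E).tangent ∞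
      (fun z : M => tb z (χ z • dE e x (logMap e x z) a)) := by
    intro a y
    rcases lt_or_ge (dist x y) D with hy | hy
    · exact (χ.contMDiff y).smul_section (V5section F hB a hy)
    · refine (contMDiff_zeroSection ℝ (fun z : M => TangentSpace 𝓘(ℝ, E) z) y).congr_of_eventuallyEq ?_
      filter_upwards [h0 y hy] with z hz
      rw [hz, zero_smul]
      rfl
  refine ⟨fun i => ⟨fun z => χ z • dE e x (logMap e x z) (fr x (EuclideanSpace.single i 1)),
    key _⟩, fun ξ hξ i => ?_⟩
  have hn : nm x (fr x ξ) = ‖ξ‖ := nm_fr x ξ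
  have hl : logMap e x (ef e x ξ) = (fr x ξ : E) :=
    V5log_eq F hB (x := x) (v := (fr x ξ : E)) (lt_of_eq_of_lt hn (hξ.trans hr))
  have hd : dist x (ef e x ξ) = ‖ξ‖ :=
    (hB x (fr x ξ : E) (le_of_eq_of_le hn (hξ.trans hr).le)).trans hn
  change χ (ef e x ξ) • dE e x (logMap e x (ef e x ξ)) (fr x (EuclideanSpace.single i 1)) = _
  rw [h1 _ (by rw [hd]; exact hξ.le), one_smul, hl]

end

end Vale.Agent.P211.S4

end

-- V67
section

/-! P211, S4, V6 and V7: derivatives along the coordinate fields, the coordinate fields commute. -/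

set_option maxSynthPendingDepth 3

namespace Vale.Agent.P211.S4

open scoped Manifold ContDiff Topology
open Bundle Filter VectorField MeasureTheory Set
open Vale.Agent.P234 Vale.Agent.P231

noncomputable section

variable {E : Type*} [NormedAddCommGroup E] [NormedSpace ℝ E] [FiniteDimensional ℝ E]
  {M : Type*} [MetricSpace M] [ChartedSpace E M] [IsManifold 𝓘(ℝ, E) ∞ M]
  [RiemannianBundle (fun x : M => TangentSpace 𝓘(ℝ, E) x)]
  [IsContMDiffRiemannianBundle 𝓘(ℝ, E) ∞ E (fun x : M => TangentSpace 𝓘(ℝ, E) x)]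
  [IsRiemannianManifold 𝓘(ℝ, E) M] [CompactSpace M] [ConnectedSpace M]

variable {cov : CovariantDerivative 𝓘(ℝ, E) E (TangentSpace 𝓘(ℝ, E) : M → Type _)}
  {e : ∀ x : M, TangentSpace 𝓘(ℝ, E) x → M}

theorem V67_smooth (F : Facts e) (x : M) (f : SF E M) :
    ContDiff ℝ ∞ (fun η : Eu E => f (ef e x η)) := by
  rw [contDiff_iff_contDiffAt]
  intro ξ
  exact (area_chain (E := E) (areaA (E := E) x) (e x) f (ContinuousLinearMap.id ℝ ℝ) (ξ := ξ)
    (y := ef e x ξ) rfl (contMDiff_exp_fiber F.isExp x).contMDiffAt f.contMDiff.contMDiffAt).1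

/-- V6: derivative along the coordinate fields. -/
theorem coord_deriv (F : Facts e) {D : ℝ} (hB : InjGE e D) (x : M) {r : ℝ} (hr : r < D)
    {C : Fin (Module.finrank ℝ E) → VF E M}
    (hC : ∀ ξ : Eu E, ‖ξ‖ < r → ∀ i,
      (C i (ef e x ξ) : E) = dE e x (fr x ξ) (fr x (EuclideanSpace.single i 1)))
    (f : SF E M) {ξ : Eu E} (hξ : ‖ξ‖ < r) (i : Fin (Module.finrank ℝ E)) :
    DVF (C i) f (ef e x ξ) =
      fderiv ℝ (fun η : Eu E => f (ef e x η)) ξ (EuclideanSpace.single i 1) := by
  have h := (area_chain (E := E) (areaA (E := E) x) (e x) f (ContinuousLinearMap.id ℝ ℝ) (ξ := ξ)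
    (y := ef e x ξ) rfl (contMDiff_exp_fiber F.isExp x).contMDiffAt f.contMDiff.contMDiffAt).2
    (EuclideanSpace.single i 1)
  rw [DVF_apply]
  have h2 : mvfderiv 𝓘(ℝ, E) f (ef e x ξ) (C i (ef e x ξ)) =
      mfderiv 𝓘(ℝ, E) 𝓘(ℝ, ℝ) f (ef e x ξ) (dE e x (fr x ξ) (fr x (EuclideanSpace.single i 1)) :
        E) := by
    rw [← hC ξ hξ i]; rfl
  rw [h2]
  exact h.symm

/-- V7: the coordinate fields commute (uses V6). -/
theorem coord_comm (hcov : IsLC cov) (F : Facts e) {D : ℝ} (hB : InjGE e D) (x : M) {r : ℝ}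
    (hr : r < D)
    {C : Fin (Module.finrank ℝ E) → VF E M}
    (hC : ∀ ξ : Eu E, ‖ξ‖ < r → ∀ i,
      (C i (ef e x ξ) : E) = dE e x (fr x ξ) (fr x (EuclideanSpace.single i 1)))
    {ξ : Eu E} (hξ : ‖ξ‖ < r) (i j : Fin (Module.finrank ℝ E)) :
    nabVF cov hcov.smooth (C i) (C j) (ef e x ξ) = nabVF cov hcov.smooth (C j) (C i) (ef e x ξ) := by
  have key : ∀ (f : SF E M) (i j : Fin (Module.finrank ℝ E)),
      DVF (C i) (DVF (C j) f) (ef e x ξ) =
        fderiv ℝ (fderiv ℝ (fun η : Eu E => f (ef e x η))) ξ (EuclideanSpace.single i 1)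
          (EuclideanSpace.single j 1) := by
    intro f i j
    rw [coord_deriv F hB x hr hC (DVF (C j) f) hξ i]
    have hev : (fun η : Eu E => DVF (C j) f (ef e x η)) =ᶠ[𝓝 ξ]
        fun η => fderiv ℝ (fun η : Eu E => f (ef e x η)) η (EuclideanSpace.single j 1) := by
      have h1 : ∀ᶠ η : Eu E in 𝓝 ξ, ‖η‖ < r := continuous_norm.continuousAt.eventually
        (Iio_mem_nhds hξ)
      filter_upwards [h1] with η hη
      exact coord_deriv F hB x hr hC f hη j
    rw [hev.fderiv_eq]
    have hd : DifferentiableAt ℝ (fderiv ℝ (fun η : Eu E => f (ef e x η))) ξ :=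
      (((V67_smooth F x f).fderiv_right (m := 1) (by norm_cast)).differentiable (by simp)) ξ
    have h2 := hd.hasFDerivAt.clm_apply (hasFDerivAt_const (EuclideanSpace.single j (1 : ℝ)) ξ)
    rw [h2.fderiv]
    simp
  have hsymm : ∀ f : SF E M, DVF (C i) (DVF (C j) f) (ef e x ξ) =
      DVF (C j) (DVF (C i) f) (ef e x ξ) := by
    intro f
    rw [key f i j, key f j i]
    have h3 : IsSymmSndFDerivAt ℝ (fun η : Eu E => f (ef e x η)) ξ :=
      (V67_smooth F x f).contDiffAt.isSymmSndFDerivAt (by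
        rw [minSmoothness_of_isRCLikeNormedField]
        exact WithTop.coe_le_coe.mpr (le_top : (2 : ℕ∞) ≤ ⊤))
    exact h3.eq _ _
  obtain ⟨L, f, -, hf⟩ := g10_fun (E := E) (ef e x ξ)
    (nabVF cov hcov.smooth (C i) (C j) - nabVF cov hcov.smooth (C j) (C i))
  have h4 := congrArg (fun h : SF E M => h (ef e x ξ)) ((lcOf hcov).comm (C i) (C j) f)
  have h5 : DVF (nabVF cov hcov.smooth (C i) (C j) - nabVF cov hcov.smooth (C j) (C i)) f
      (ef e x ξ) = DVF (C i) (DVF (C j) f) (ef e x ξ) - DVF (C j) (DVF (C i) f) (ef e x ξ) := h4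
  rw [hsymm f, sub_self, hf, gVF_self_eq_zero] at h5
  exact sub_eq_zero.mp h5

end

end Vale.Agent.P211.S4

end

-- V8
section

/-! P211, S4, V8: the Jacobian and the Gram determinant of the coordinate fields. -/

set_option maxSynthPendingDepth 3

namespace Vale.Agent.P211.S4

open scoped Manifold ContDiff Topology
open Bundle Filter VectorField MeasureTheory Set
open Vale.Agent.P234 Vale.Agent.P231

noncomputable section

variable {E : Type*} [NormedAddCommGroup E] [NormedSpace ℝ E] [FiniteDimensional ℝ E]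
  {M : Type*} [MetricSpace M] [ChartedSpace E M] [IsManifold 𝓘(ℝ, E) ∞ M]
  [RiemannianBundle (fun x : M => TangentSpace 𝓘(ℝ, E) x)]
  [IsContMDiffRiemannianBundle 𝓘(ℝ, E) ∞ E (fun x : M => TangentSpace 𝓘(ℝ, E) x)]
  [IsRiemannianManifold 𝓘(ℝ, E) M] [CompactSpace M] [ConnectedSpace M]

variable {e : ∀ x : M, TangentSpace 𝓘(ℝ, E) x → M}

omit [IsManifold 𝓘(ℝ, E) ∞ M]
  [IsContMDiffRiemannianBundle 𝓘(ℝ, E) ∞ E (fun x : M => TangentSpace 𝓘(ℝ, E) x)]
  [IsRiemannianManifold 𝓘(ℝ, E) M] [CompactSpace M] [ConnectedSpace M] in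
theorem V8_ip (y : M) (a b : E) :
    ∑ k : Fin (Module.finrank ℝ E), Vale.Agent.P231.ip y (fr y (EuclideanSpace.single k 1)) a *
      Vale.Agent.P231.ip y (fr y (EuclideanSpace.single k 1)) b = Vale.Agent.P231.ip y a b := by
  obtain ⟨a', rfl⟩ := (fr (E := E) y).surjective a
  obtain ⟨b', rfl⟩ := (fr (E := E) y).surjective b
  rw [ip_fr]
  simp only [ip_fr]
  rw [PiLp.inner_apply]
  refine Finset.sum_congr rfl fun k _ => ?_
  rw [EuclideanSpace.inner_single_left, EuclideanSpace.inner_single_left]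
  simp [mul_comm]

/-- V8: the Jacobian is the square root of the Gram determinant of the coordinate fields. -/
theorem jac_gram (F : Facts e) {D : ℝ} (hB : InjGE e D) (x : M) {r : ℝ}
    (hr : r < D)
    {C : Fin (Module.finrank ℝ E) → VF E M}
    (hC : ∀ ξ : Eu E, ‖ξ‖ < r → ∀ i,
      (C i (ef e x ξ) : E) = dE e x (fr x ξ) (fr x (EuclideanSpace.single i 1)))
    {ξ : Eu E} (hξ : ‖ξ‖ < r) :
    0 < jac e x (fr x ξ) ∧ jac e x (fr x ξ) ^ 2 =
      (Matrix.of fun i j => gVF (C i) (C j) (ef e x ξ)).det := by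
  refine ⟨jac_pos F hB (by rw [nm_fr]; exact hξ.trans hr), ?_⟩
  have hg : gam e x (fr x ξ) 1 = ef e x ξ := by
    have h1 : ((1 : ℝ) • (fr x ξ : E)) = fr x ξ := one_smul ℝ _
    exact congrArg (e x) h1
  unfold jac
  rw [hg, sq_abs, sq]
  set A : Matrix (Fin (Module.finrank ℝ E)) (Fin (Module.finrank ℝ E)) ℝ :=
    Matrix.of fun i j => Vale.Agent.P231.ip (ef e x ξ) (fr (ef e x ξ) (EuclideanSpace.single i 1))
      (dE e x (fr x ξ) (fr x (EuclideanSpace.single j 1))) with hA
  have h2 : (Matrix.of fun i j => gVF (C i) (C j) (ef e x ξ)) = A.transpose * A := by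
    ext i j
    rw [Matrix.mul_apply]
    simp only [Matrix.transpose_apply, hA, Matrix.of_apply]
    rw [V8_ip, ← hC ξ hξ i, ← hC ξ hξ j]
    rfl
  rw [h2, Matrix.det_mul, Matrix.det_transpose]

end

end Vale.Agent.P211.S4

end

-- V9
section

/-! P211, S4, task V9: the derivative of the Gram determinant of commuting fields. -/

set_option maxSynthPendingDepth 3

namespace Vale.Agent.P211.S4

open scoped Manifold ContDiff Topology
open Bundle Filter VectorField MeasureTheory Set

noncomputable section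

/-- a point derivation applied to a determinant -/
theorem V9_det {R : Type*} [CommRing R] (ev : R →+* ℝ) (δ : R → ℝ)
    (hadd : ∀ a b, δ (a + b) = δ a + δ b) (hmul : ∀ a b, δ (a * b) = ev a * δ b + δ a * ev b)
    (A : Matrix (Fin 4) (Fin 4) R) (c S : Matrix (Fin 4) (Fin 4) ℝ)
    (h0 : ∀ i j, ev (A i j) = (c * c.transpose) i j)
    (h1 : ∀ i j, δ (A i j) = (c * S * c.transpose) i j) :
    ev A.det = c.det ^ 2 ∧ δ A.det = c.det ^ 2 * S.trace := by
  have hone : δ 1 = 0 := by
    have := hmul 1 1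
    simp only [mul_one, map_one, one_mul] at this
    linarith
  have hzero : δ 0 = 0 := by
    have := hadd 0 0
    simp only [add_zero] at this
    linarith
  let φ : R →+* DualNumber ℝ :=
    { toFun := fun f => (ev f, δ f)
      map_one' := by
        refine Prod.ext ?_ ?_
        · exact map_one ev
        · exact hone
      map_mul' := fun a b => by
        refine Prod.ext ?_ ?_
        · exact map_mul ev a b
        · exact hmul a b
      map_zero' := by
        refine Prod.ext ?_ ?_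
        · exact map_zero ev
        · exact hzero
      map_add' := fun a b => by
        refine Prod.ext ?_ ?_
        · exact map_add ev a b
        · exact hadd a b }
  let ι : ℝ →+* DualNumber ℝ := TrivSqZeroExt.inlHom ℝ ℝ
  have hι : ∀ x : ℝ, ι x = TrivSqZeroExt.inl x := fun x => rfl
  have hM : φ.mapMatrix A = ι.mapMatrix c *
      (1 + (DualNumber.eps : DualNumber ℝ) • ι.mapMatrix S) * (ι.mapMatrix c).transpose := by
    have e1 : ι.mapMatrix c * (1 + (DualNumber.eps : DualNumber ℝ) • ι.mapMatrix S) *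
        (ι.mapMatrix c).transpose = ι.mapMatrix (c * c.transpose) +
          (DualNumber.eps : DualNumber ℝ) • ι.mapMatrix (c * S * c.transpose) := by
      have e2 : (ι.mapMatrix c).transpose = ι.mapMatrix c.transpose := rfl
      rw [mul_add, mul_one, add_mul, e2, Matrix.mul_smul, Matrix.smul_mul, map_mul, map_mul,
        map_mul]
    rw [e1]
    clear e1
    generalize c * c.transpose = X at h0 ⊢
    generalize c * S * c.transpose = Y at h1 ⊢
    ext i j
    · change ev (A i j) = _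
      rw [h0]
      change X i j = X i j + 0 * Y i j
      ring
    · change δ (A i j) = _
      rw [h1]
      simp [hι]
  have hd : φ A.det = (ι c.det) ^ 2 * (1 + ι S.trace * DualNumber.eps) := by
    rw [RingHom.map_det, hM, Matrix.det_mul, Matrix.det_mul, Matrix.det_transpose,
      Matrix.det_one_add_smul, RingHom.map_det]
    have e3 : (DualNumber.eps : DualNumber ℝ) ^ 2 = 0 := by rw [sq, DualNumber.eps_mul_eps]
    rw [e3, mul_zero, add_zero]
    have e4 : (ι.mapMatrix S).trace = ι S.trace := by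
      rw [Matrix.trace, Matrix.trace, map_sum]
      rfl
    rw [e4]
    ring
  have hf : (φ A.det).fst = ev A.det := rfl
  have hs : (φ A.det).snd = δ A.det := rfl
  rw [hd] at hf hs
  constructor
  · rw [← hf]
    simp [hι, sq]
  · rw [← hs]
    simp [hι, sq]

section top

variable {E : Type*} [NormedAddCommGroup E] [NormedSpace ℝ E] [FiniteDimensional ℝ E]
  {M : Type*} [TopologicalSpace M] [ChartedSpace E M] [IsManifold 𝓘(ℝ, E) ∞ M] [T2Space M]
  [RiemannianBundle (fun x : M => TangentSpace 𝓘(ℝ, E) x)]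
  [IsContMDiffRiemannianBundle 𝓘(ℝ, E) ∞ E (fun x : M => TangentSpace 𝓘(ℝ, E) x)]

variable {cov : CovariantDerivative 𝓘(ℝ, E) E (TangentSpace 𝓘(ℝ, E) : M → Type _)}

/-- V9: abstract linear algebra and calculus: if the commuting fields `C i` have the Gram
determinant `g` then `C k g = 2 g * div (C k)` at `q`. -/
theorem deriv_gram [PreconnectedSpace M] (hcov : IsLC cov) (hE : Module.finrank ℝ E = 4)
    (C : Fin 4 → VF E M) {q : M}
    (hcomm : ∀ i j, nabVF cov hcov.smooth (C i) (C j) q = nabVF cov hcov.smooth (C j) (C i) q)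
    (g : SF E M) (hg : ∀ y, g y = (Matrix.of fun i j => gVF (C i) (C j) y).det) (k : Fin 4) :
    DVF (C k) g q = 2 * g q * (geo2Of hcov hE).ev q ((geo2Of hcov hE).dv (C k)) := by
  have : FiniteDimensional ℝ (TangentSpace 𝓘(ℝ, E) q) :=
    inferInstanceAs (FiniteDimensional ℝ E)
  let b : OrthonormalBasis (Fin 4) ℝ (TangentSpace 𝓘(ℝ, E) q) :=
    (stdOrthonormalBasis ℝ (TangentSpace 𝓘(ℝ, E) q)).reindex (finCongr (finrank_tangent hE q))
  choose F hF using fun i => exists_ext (E := E) q (b i)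
  have hFo : ∀ i j, gVF (F i) (F j) q = if i = j then 1 else 0 := fun i j => by
    rw [gVF_apply, hF i, hF j]
    exact orthonormal_iff_ite.mp b.orthonormal i j
  have hdiv : (geo2Of hcov hE).ev q ((geo2Of hcov hE).dv (C k)) =
      ∑ i, gVF (nabVF cov hcov.smooth (F i) (C k)) (F i) q :=
    (geo2Of hcov hE).dv_spec (C k) q F hFo
  let c : Matrix (Fin 4) (Fin 4) ℝ := Matrix.of fun i m => inner ℝ (b m) (C i q)
  let T : Matrix (Fin 4) (Fin 4) ℝ := Matrix.of fun m l => inner ℝ (cov (C k) q (b m)) (b l)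
  have hC : ∀ i, C i q = ∑ m, c i m • b m := fun i => (b.sum_repr' (C i q)).symm
  have hT : ∀ i j, inner ℝ (cov (C k) q (C i q)) (C j q) = (c * T * c.transpose) i j := by
    intro i j
    rw [hC i, hC j, map_sum, sum_inner, Matrix.mul_apply]
    simp only [Matrix.mul_apply, inner_sum, map_smul, inner_smul_left, inner_smul_right,
      Finset.sum_mul, Matrix.transpose_apply]
    rw [Finset.sum_comm]
    refine Finset.sum_congr rfl fun l _ => Finset.sum_congr rfl fun m _ => ?_
    change _ = c i m * inner ℝ (cov (C k) q (b m)) (b l) * c j l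
    simp only [conj_trivial]
    ring
  let ev : SF E M →+* ℝ := (((geo2Of hcov hE).ev q : SF E M →ₐ[ℝ] ℝ) : SF E M →+* ℝ)
  have hev : ∀ f : SF E M, ev f = f q := fun f => rfl
  have key := V9_det ev (fun f => DVF (C k) f q) (fun a b => by rw [DVF_add]; rfl)
    (fun a b => by rw [DVF_mul_apply, hev, hev]; ring)
    (Matrix.of fun i j => gVF (C i) (C j)) c (T + T.transpose) (fun i j => ?_) (fun i j => ?_)
  · have hgd : g = (Matrix.of fun i j => gVF (C i) (C j)).det := by
      ext y
      rw [hg y]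
      let evy : SF E M →+* ℝ := (((geo2Of hcov hE).ev y : SF E M →ₐ[ℝ] ℝ) : SF E M →+* ℝ)
      have h1 := RingHom.map_det evy (Matrix.of fun i j => gVF (C i) (C j))
      exact h1.symm
    have h2 : g q = c.det ^ 2 := by rw [hgd]; exact key.1
    have h3 : DVF (C k) g q = c.det ^ 2 * (T + T.transpose).trace := by rw [hgd]; exact key.2
    have h4 : (∑ i, gVF (nabVF cov hcov.smooth (F i) (C k)) (F i) q) = T.trace := by
      refine Finset.sum_congr rfl fun i _ => ?_
      rw [gVF_apply, nabVF_apply, hF i]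
      rfl
    rw [h3, hdiv, h4, h2, Matrix.trace_add, Matrix.trace_transpose]
    ring
  · change inner ℝ (C i q) (C j q) = _
    rw [Matrix.mul_apply, ← b.sum_inner_mul_inner]
    refine Finset.sum_congr rfl fun m _ => ?_
    rw [real_inner_comm]
    rfl
  · change DVF (C k) (gVF (C i) (C j)) q = _
    rw [metricVF hcov, gVF_apply, gVF_apply, hcomm k i, hcomm k j, nabVF_apply, nabVF_apply,
      hT i j, real_inner_comm, hT j i, Matrix.mul_add, Matrix.add_mul]
    change _ = (c * T * c.transpose) i j + (c * T.transpose * c.transpose) i j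
    congr 1
    rw [← Matrix.transpose_apply (c * T * c.transpose) i j, Matrix.transpose_mul,
      Matrix.transpose_mul, Matrix.transpose_transpose, Matrix.mul_assoc]

end top

end

end Vale.Agent.P211.S4

end

-- V10A
section

/-! P211, S4, task V10, part A: a field supported in a coordinate ball in terms of coordinate
fields. -/

set_option maxSynthPendingDepth 3

namespace Vale.Agent.P211.S4

open scoped Manifold ContDiff Topology
open Bundle Filter VectorField MeasureTheory Set

noncomputable section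

section top

variable {E : Type*} [NormedAddCommGroup E] [NormedSpace ℝ E] [FiniteDimensional ℝ E]
  {M : Type*} [TopologicalSpace M] [ChartedSpace E M] [IsManifold 𝓘(ℝ, E) ∞ M] [T2Space M]
  [RiemannianBundle (fun x : M => TangentSpace 𝓘(ℝ, E) x)]
  [IsContMDiffRiemannianBundle 𝓘(ℝ, E) ∞ E (fun x : M => TangentSpace 𝓘(ℝ, E) x)]

variable {cov : CovariantDerivative 𝓘(ℝ, E) E (TangentSpace 𝓘(ℝ, E) : M → Type _)}

/-- a tangent vector orthogonal to four vectors with invertible Gram matrix vanishes -/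
theorem V10A_zero (hE : Module.finrank ℝ E = 4) (q : M) (C : Fin 4 → TangentSpace 𝓘(ℝ, E) q)
    (hdet : (Matrix.of fun i j => inner ℝ (C i) (C j) : Matrix (Fin 4) (Fin 4) ℝ).det ≠ 0)
    (Z : TangentSpace 𝓘(ℝ, E) q) (hZ : ∀ j, inner ℝ (C j) Z = 0) : Z = 0 := by
  have : FiniteDimensional ℝ (TangentSpace 𝓘(ℝ, E) q) :=
    inferInstanceAs (FiniteDimensional ℝ E)
  let b : OrthonormalBasis (Fin 4) ℝ (TangentSpace 𝓘(ℝ, E) q) :=
    (stdOrthonormalBasis ℝ (TangentSpace 𝓘(ℝ, E) q)).reindex (finCongr (finrank_tangent hE q))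
  let c : Matrix (Fin 4) (Fin 4) ℝ := Matrix.of fun i m => inner ℝ (C i) (b m)
  have hG : (Matrix.of fun i j => inner ℝ (C i) (C j) : Matrix (Fin 4) (Fin 4) ℝ) =
      c * c.transpose := by
    ext i j
    rw [Matrix.mul_apply]
    change inner ℝ (C i) (C j) = ∑ m, inner ℝ (C i) (b m) * inner ℝ (C j) (b m)
    rw [← b.sum_inner_mul_inner]
    refine Finset.sum_congr rfl fun m _ => ?_
    rw [real_inner_comm (C j) (b m)]
  have hc : c.det ≠ 0 := by
    intro h
    rw [hG, Matrix.det_mul, h, zero_mul] at hdet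
    exact hdet rfl
  have h1 : c.mulVec (fun m => inner ℝ (b m) Z) = 0 := by
    ext j
    change ∑ m, inner ℝ (C j) (b m) * inner ℝ (b m) Z = 0
    rw [b.sum_inner_mul_inner, hZ j]
  have h2 := Matrix.eq_zero_of_mulVec_eq_zero hc h1
  rw [← b.sum_repr' Z]
  refine Finset.sum_eq_zero fun m _ => ?_
  have h3 : inner ℝ (b m) Z = 0 := congrFun h2 m
  rw [h3, zero_smul]

/-- V10, part A -/
theorem split_field [PreconnectedSpace M] (hcov : IsLC cov) (hE : Module.finrank ℝ E = 4)
    (C : Fin 4 → VF E M) (X : VF E M) (U V : Set M) (hU : IsOpen U) (hV : IsOpen V)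
    (hUV : ∀ y, y ∈ U ∨ y ∈ V)
    (hdet : ∀ y ∈ U, (Matrix.of fun i j => gVF (C i) (C j) y).det ≠ 0)
    (hX : ∀ y ∈ V, X y = 0) :
    ∃ c : Fin 4 → SF E M, (∀ i y, X y = 0 → c i y = 0) ∧
      ∀ y, (geo2Of hcov hE).ev y ((geo2Of hcov hE).dv X) =
        ∑ i, (DVF (C i) (c i) y +
          c i y * (geo2Of hcov hE).ev y ((geo2Of hcov hE).dv (C i))) := by
  classical
  let A : Matrix (Fin 4) (Fin 4) (SF E M) := Matrix.of fun i j => gVF (C i) (C j)
  let g : SF E M := A.det
  let b : Fin 4 → SF E M := fun i => ∑ j, A.adjugate i j * gVF (C j) X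
  have hgy : ∀ y, g y = (Matrix.of fun i j => gVF (C i) (C j) y).det := by
    intro y
    let evy : SF E M →+* ℝ := (((geo2Of hcov hE).ev y : SF E M →ₐ[ℝ] ℝ) : SF E M →+* ℝ)
    exact RingHom.map_det evy A
  have hby : ∀ i y, b i y = ∑ j, A.adjugate i j y * inner ℝ (C j y) (X y) := by
    intro i y
    let evy : SF E M →+* ℝ := (((geo2Of hcov hE).ev y : SF E M →ₐ[ℝ] ℝ) : SF E M →+* ℝ)
    have h1 : evy (b i) = ∑ j, evy (A.adjugate i j) * evy (gVF (C j) X) := by
      simp only [b, map_sum, map_mul]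
    exact h1
  have hb0 : ∀ i y, X y = 0 → b i y = 0 := by
    intro i y h
    rw [hby]
    refine Finset.sum_eq_zero fun j _ => ?_
    rw [h, inner_zero_right, mul_zero]
  have hsm : ∀ i, ContMDiff 𝓘(ℝ, E) 𝓘(ℝ) ∞ fun y => b i y / g y := by
    intro i y
    rcases hUV y with hy | hy
    · refine ContMDiffAt.div₀ (b i).contMDiff.contMDiffAt g.contMDiff.contMDiffAt ?_
      rw [hgy]
      exact hdet y hy
    · have h1 : (fun y => b i y / g y) =ᶠ[𝓝 y] fun _ => (0 : ℝ) := by
        filter_upwards [hV.mem_nhds hy] with z hz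
        rw [hb0 i z (hX z hz), zero_div]
      exact (contMDiffAt_const (c := (0 : ℝ))).congr_of_eventuallyEq h1
  let c : Fin 4 → SF E M := fun i => ⟨fun y => b i y / g y, hsm i⟩
  have hc : ∀ i y, c i y = b i y / g y := fun i y => rfl
  have hc0 : ∀ i y, X y = 0 → c i y = 0 := fun i y h => by rw [hc, hb0 i y h, zero_div]
  have hsum : X = c 0 • C 0 + c 1 • C 1 + c 2 • C 2 + c 3 • C 3 := by
    have hpt : ∀ y, X y = ∑ i, c i y • C i y := by
      intro y
      by_cases hy0 : X y = 0
      · rw [hy0]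
        refine (Finset.sum_eq_zero fun i _ => ?_).symm
        rw [hc0 i y hy0, zero_smul]
      · have hyU : y ∈ U := (hUV y).resolve_right fun h => hy0 (hX y h)
        have hg0 : g y ≠ 0 := by
          rw [hgy]
          exact hdet y hyU
        refine sub_eq_zero.mp (V10A_zero hE y (fun i => C i y) (hdet y hyU) _ fun j => ?_)
        rw [inner_sub_right, inner_sum]
        have h1 : ∀ i, inner ℝ (C j y) (c i y • C i y) = b i y / g y * A i j y := by
          intro i
          rw [inner_smul_right, hc]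
          congr 1
          exact real_inner_comm (C i y) (C j y)
        rw [Finset.sum_congr rfl fun i _ => h1 i]
        -- `∑ i, b i * A i j = g * ⟨C j, X⟩`
        have h2 : ∑ i, b i * A i j = g * gVF (C j) X := by
          have hsymm : ∀ i k, A.adjugate i k = A.adjugate k i := by
            have hT : A.transpose = A :=
              Matrix.ext fun i k => (geo2Of hcov hE).g_symm (C k) (C i)
            intro i k
            have h3 := congrFun (congrFun (Matrix.adjugate_transpose A) i) k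
            rw [hT, Matrix.transpose_apply] at h3
            exact h3.symm
          have h4 : ∀ k, ∑ i, A.adjugate i k * A i j = if k = j then g else 0 := by
            intro k
            have h5 := congrFun (congrFun (Matrix.adjugate_mul A) k) j
            rw [Matrix.mul_apply, Matrix.smul_apply, Matrix.one_apply] at h5
            rw [Finset.sum_congr rfl fun i _ => by rw [hsymm i k], h5, smul_eq_mul]
            split_ifs <;> simp [g]
          calc ∑ i, b i * A i j = ∑ i, ∑ k, A.adjugate i k * A i j * gVF (C k) X := by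
                refine Finset.sum_congr rfl fun i _ => ?_
                rw [Finset.sum_mul]
                exact Finset.sum_congr rfl fun k _ => by ring
            _ = ∑ k, (∑ i, A.adjugate i k * A i j) * gVF (C k) X := by
                rw [Finset.sum_comm]
                exact Finset.sum_congr rfl fun k _ => by rw [Finset.sum_mul]
            _ = g * gVF (C j) X := by
                simp only [h4, ite_mul, zero_mul, Finset.sum_ite_eq', Finset.mem_univ, if_true]
        have h3 : ∑ i, b i y * A i j y = g y * inner ℝ (C j y) (X y) := by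
          let evy : SF E M →+* ℝ := (((geo2Of hcov hE).ev y : SF E M →ₐ[ℝ] ℝ) : SF E M →+* ℝ)
          have h4 := congrArg evy h2
          rw [map_sum, map_mul] at h4
          simp only [map_mul] at h4
          exact h4
        have h4 : ∑ i, b i y / g y * A i j y = inner ℝ (C j y) (X y) := by
          have h5 : ∀ i, b i y / g y * A i j y = (b i y * A i j y) / g y := fun i => by ring
          rw [Finset.sum_congr rfl fun i _ => h5 i, ← Finset.sum_div, h3]
          field_simp
        rw [h4, sub_self]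
    ext y
    rw [hpt y, Fin.sum_univ_four]
    rfl
  refine ⟨c, hc0, fun y => ?_⟩
  have hD : ∀ i, (geo2Of hcov hE).D (C i) (c i) = DVF (C i) (c i) := fun i => rfl
  have h1 : (geo2Of hcov hE).dv X =
      (DVF (C 0) (c 0) + c 0 * (geo2Of hcov hE).dv (C 0)) +
      (DVF (C 1) (c 1) + c 1 * (geo2Of hcov hE).dv (C 1)) +
      (DVF (C 2) (c 2) + c 2 * (geo2Of hcov hE).dv (C 2)) +
      (DVF (C 3) (c 3) + c 3 * (geo2Of hcov hE).dv (C 3)) := by
    conv_lhs => rw [hsum]
    rw [M123_dv_add, M123_dv_add, M123_dv_add, M123_dv_smul, M123_dv_smul, M123_dv_smul,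
      M123_dv_smul]
    rfl
  rw [h1, Fin.sum_univ_four]
  rfl

end top

end

end Vale.Agent.P211.S4

end

-- V10E
section

/-! P211, S4, task V10, Euclidean part: the divergence theorem for functions with compact support
in a ball. -/

namespace Vale.Agent.P211.S4

open Filter MeasureTheory Set Topology

/-- a smooth function on a ball vanishing near the sphere is the restriction of a `C¹` function
with compact support -/
theorem V10E_ext {V : Type*} [NormedAddCommGroup V] [NormedSpace ℝ V] [FiniteDimensional ℝ V]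
    {D r : ℝ} (hr : r < D) {w : V → ℝ}
    (hw : ContDiffOn ℝ 1 w (Metric.ball 0 D)) (h0 : ∀ ξ ∈ Metric.ball (0 : V) D, r ≤ ‖ξ‖ → w ξ = 0) :
    ∃ W : V → ℝ, ContDiff ℝ 1 W ∧ HasCompactSupport W ∧ (∀ ξ ∈ Metric.ball (0 : V) D, W ξ = w ξ) ∧
      (∀ ξ ∈ Metric.ball (0 : V) D, fderiv ℝ W ξ = fderiv ℝ w ξ) ∧
      ∀ ξ ∉ Metric.ball (0 : V) D, fderiv ℝ W ξ = 0 := by
  classical
  let W : V → ℝ := fun ξ => if ‖ξ‖ < D then w ξ else 0
  have hin : ∀ ξ ∈ Metric.ball (0 : V) D, W ξ = w ξ := fun ξ hξ => by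
    rw [mem_ball_zero_iff] at hξ
    exact if_pos hξ
  have hout : ∀ ξ : V, r ≤ ‖ξ‖ → W ξ = 0 := fun ξ hξ => by
    by_cases h : ‖ξ‖ < D
    · change (if ‖ξ‖ < D then w ξ else 0) = 0
      rw [if_pos h]
      exact h0 ξ (by rwa [mem_ball_zero_iff]) hξ
    · exact if_neg h
  have hev1 : ∀ ξ ∈ Metric.ball (0 : V) D, W =ᶠ[𝓝 ξ] w := fun ξ hξ => by
    filter_upwards [Metric.isOpen_ball.mem_nhds hξ] with η hη
    exact hin η hη
  have hev2 : ∀ ξ : V, r < ‖ξ‖ → W =ᶠ[𝓝 ξ] fun _ => 0 := fun ξ hξ => by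
    filter_upwards [(isOpen_lt continuous_const continuous_norm).mem_nhds hξ] with η hη
    exact hout η (le_of_lt hη)
  refine ⟨W, ?_, ?_, hin, fun ξ hξ => (hev1 ξ hξ).fderiv_eq, fun ξ hξ => ?_⟩
  · rw [contDiff_iff_contDiffAt]
    intro ξ
    by_cases h : ξ ∈ Metric.ball (0 : V) D
    · exact (hw.contDiffAt (Metric.isOpen_ball.mem_nhds h)).congr_of_eventuallyEq (hev1 ξ h)
    · have h2 : r < ‖ξ‖ := by
        rw [mem_ball_zero_iff, not_lt] at h
        linarith
      exact contDiffAt_const.congr_of_eventuallyEq (hev2 ξ h2)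
  · refine HasCompactSupport.intro (isCompact_closedBall (0 : V) r) fun ξ hξ => ?_
    rw [mem_closedBall_zero_iff, not_le] at hξ
    exact hout ξ hξ.le
  · have h2 : r < ‖ξ‖ := by
      rw [mem_ball_zero_iff, not_lt] at hξ
      linarith
    rw [(hev2 ξ h2).fderiv_eq]
    exact fderiv_const_apply 0

theorem V10E_zero {V : Type*} [NormedAddCommGroup V] [NormedSpace ℝ V] [FiniteDimensional ℝ V]
    [MeasurableSpace V] [BorelSpace V] (μ : Measure V) [μ.IsAddHaarMeasure] {W : V → ℝ}
    (hW : ContDiff ℝ 1 W) (hc : HasCompactSupport W) (v : V) :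
    Integrable (fun ξ => fderiv ℝ W ξ v) μ ∧ ∫ ξ, fderiv ℝ W ξ v ∂μ = 0 := by
  have h1 : Continuous fun ξ => fderiv ℝ W ξ v := by
    have := hW.continuous_fderiv (by simp)
    continuity
  have h2 : HasCompactSupport fun ξ => fderiv ℝ W ξ v :=
    hc.fderiv_apply (𝕜 := ℝ) v
  have h3 : Integrable (fun ξ => fderiv ℝ W ξ v) μ := h1.integrable_of_hasCompactSupport h2
  have h4 : Integrable W μ := hW.continuous.integrable_of_hasCompactSupport hc
  refine ⟨h3, ?_⟩
  have h5 := integral_mul_fderiv_eq_neg_fderiv_mul_of_integrable (μ := μ)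
    (f := fun _ : V => (1 : ℝ)) (g := W) (v := v) (by simp) (by simpa using h3)
    (by simpa using h4) (fun _ _ => by fun_prop)
    (fun x _ => hW.differentiable (by simp) x)
  simpa using h5

/-- the divergence theorem for functions with compact support in a ball -/
theorem V10_int {n : ℕ} {D r : ℝ} (hr : r < D)
    (w : Fin n → EuclideanSpace ℝ (Fin n) → ℝ)
    (hw : ∀ i, ContDiffOn ℝ 1 (w i) (Metric.ball 0 D))
    (h0 : ∀ i, ∀ ξ ∈ Metric.ball (0 : EuclideanSpace ℝ (Fin n)) D, r ≤ ‖ξ‖ → w i ξ = 0) :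
    ∫ ξ in Metric.ball (0 : EuclideanSpace ℝ (Fin n)) D,
      ∑ i, fderiv ℝ (w i) ξ (EuclideanSpace.single i 1) = 0 := by
  choose W hW hc _ hd hz using fun i => V10E_ext hr (hw i) (h0 i)
  have h1 : ∫ ξ in Metric.ball (0 : EuclideanSpace ℝ (Fin n)) D,
      ∑ i, fderiv ℝ (w i) ξ (EuclideanSpace.single i 1) =
      ∫ ξ, ∑ i, fderiv ℝ (W i) ξ (EuclideanSpace.single i 1) := by
    have h2 := setIntegral_eq_integral_of_forall_compl_eq_zero
      (μ := (volume : Measure (EuclideanSpace ℝ (Fin n))))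
      (s := Metric.ball (0 : EuclideanSpace ℝ (Fin n)) D)
      (f := fun ξ => ∑ i, fderiv ℝ (W i) ξ (EuclideanSpace.single i 1)) fun ξ hξ => by
        refine Finset.sum_eq_zero fun i _ => ?_
        rw [hz i ξ hξ]
        rfl
    rw [← h2]
    refine setIntegral_congr_fun (Metric.isOpen_ball.measurableSet) fun ξ hξ => ?_
    refine Finset.sum_congr rfl fun i _ => ?_
    rw [hd i ξ hξ]
  rw [h1, integral_finsetSum _ fun i _ => (V10E_zero _ (hW i) (hc i) _).1]
  exact Finset.sum_eq_zero fun i _ => (V10E_zero _ (hW i) (hc i) _).2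

end Vale.Agent.P211.S4

end

-- V10
section

/-! P211, S4, task V10: the divergence theorem for fields supported in a small normal ball. -/

set_option maxSynthPendingDepth 3

namespace Vale.Agent.P211.S4

open scoped Manifold ContDiff Topology
open Bundle Filter VectorField MeasureTheory Set
open Vale.Agent.P234 Vale.Agent.P231

noncomputable section

variable {E : Type*} [NormedAddCommGroup E] [NormedSpace ℝ E] [FiniteDimensional ℝ E]
  {M : Type*} [MetricSpace M] [ChartedSpace E M] [IsManifold 𝓘(ℝ, E) ∞ M]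
  [RiemannianBundle (fun x : M => TangentSpace 𝓘(ℝ, E) x)]
  [IsContMDiffRiemannianBundle 𝓘(ℝ, E) ∞ E (fun x : M => TangentSpace 𝓘(ℝ, E) x)]
  [IsRiemannianManifold 𝓘(ℝ, E) M] [CompactSpace M] [ConnectedSpace M]

variable {cov : CovariantDerivative 𝓘(ℝ, E) E (TangentSpace 𝓘(ℝ, E) : M → Type _)}
  {e : ∀ x : M, TangentSpace 𝓘(ℝ, E) x → M}

theorem V10_dist {D : ℝ} (hB : InjGE e D) (x : M) {ξ : Eu E} (hξ : ‖ξ‖ ≤ D) :
    dist x (ef e x ξ) = ‖ξ‖ := by
  have h1 : nm x (fr x ξ) = ‖ξ‖ := nm_fr x ξ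
  have h2 : dist x (e x (fr x ξ : E)) = nm x (fr x ξ) :=
    hB x (fr x ξ : E) (by
      change nm x (fr x ξ) ≤ D
      rw [h1]
      exact hξ)
  rw [← h1, ← h2]
  rfl

theorem V10_smooth (F : Facts e) (x : M) (f : SF E M) :
    ContDiff ℝ ∞ (fun ξ : Eu E => f (ef e x ξ)) := by
  have h1 := (f.contMDiff).comp
    ((contMDiff_exp_fiber F.isExp x).comp (areaA (E := E) x).contDiff.contMDiff)
  exact h1.contDiff

/-- V10: the divergence theorem for fields supported in a small normal ball. -/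
theorem div_local [MeasurableSpace M] [BorelSpace M] (hcov : IsLC cov)
    (hE : Module.finrank ℝ E = 4) (F : Facts e) {D : ℝ}
    (hD : 0 < D) (hB : InjGE e D) (x : M) {r : ℝ} (hr : r < D) (X : VF E M)
    (hX : ∀ y, r ≤ dist x y → X y = 0) :
    ∫ p, (geo2Of hcov hE).ev p ((geo2Of hcov hE).dv X) ∂(riemVol 4 M) = 0 := by
  classical
  -- radii
  obtain ⟨r1, R, hr1, hr1R, hRD, hR0⟩ : ∃ r1 R, r < r1 ∧ r1 < R ∧ R < D ∧ 0 < R := by
    have h0 : max r 0 < D := max_lt hr hD
    refine ⟨(2 * max r 0 + D) / 3, (max r 0 + 2 * D) / 3, ?_, ?_, ?_, ?_⟩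
    · have := le_max_left r 0; linarith
    · linarith
    · linarith
    · have := le_max_right r 0; linarith
  have hBR : InjGE e R := fun y v hv => hB y v (hv.trans hRD.le)
  obtain ⟨C, hC⟩ := exists_coord F hD hB x hRD
  let σ : Fin 4 ≃ Fin (Module.finrank ℝ E) := finCongr hE.symm
  let C' : Fin 4 → VF E M := fun k => C (σ k)
  have hdetC : ∀ y, (Matrix.of fun i j => gVF (C' i) (C' j) y).det =
      (Matrix.of fun i j => gVF (C i) (C j) y).det := fun y =>
    Matrix.det_submatrix_equiv_self σ (Matrix.of fun i j => gVF (C i) (C j) y)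
  -- the open cover
  have himg : ∀ y, dist x y < R → ∃ ξ : Eu E, ‖ξ‖ < R ∧ ef e x ξ = y := by
    intro y hy
    have h1 : y ∈ ef e x '' Metric.ball 0 R := by
      rw [log_image_ball F hBR x]
      exact hy
    obtain ⟨ξ, hξ, h2⟩ := h1
    exact ⟨ξ, mem_ball_zero_iff.1 hξ, h2⟩
  obtain ⟨c, hc0, hcX⟩ := split_field hcov hE C' X {y | dist x y < R} {y | r < dist x y}
    (isOpen_lt (by fun_prop) continuous_const) (isOpen_lt continuous_const (by fun_prop))
    (fun y => by
      by_cases h : dist x y < R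
      · exact Or.inl h
      · right
        change r < dist x y
        push Not at h
        linarith)
    (fun y hy => by
      obtain ⟨ξ, hξ, rfl⟩ := himg y hy
      rw [hdetC]
      have h1 := jac_gram F hB x hRD hC hξ
      rw [← h1.2]
      exact pow_ne_zero 2 h1.1.ne')
    (fun y hy => hX y (le_of_lt hy))
  -- the Gram determinant
  let g : SF E M := (Matrix.of fun i j => gVF (C' i) (C' j) : Matrix (Fin 4) (Fin 4) (SF E M)).det
  have hg : ∀ y, g y = (Matrix.of fun i j => gVF (C' i) (C' j) y).det := by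
    intro y
    let evy : SF E M →+* ℝ := (((geo2Of hcov hE).ev y : SF E M →ₐ[ℝ] ℝ) : SF E M →+* ℝ)
    exact RingHom.map_det evy (Matrix.of fun i j => gVF (C' i) (C' j))
  -- the Jacobian
  let J : Eu E → ℝ := fun ξ => jac e x (fr x ξ)
  have hJpos : ∀ ξ ∈ Metric.ball (0 : Eu E) R, 0 < J ξ := fun ξ hξ =>
    (jac_gram F hB x hRD hC (mem_ball_zero_iff.1 hξ)).1
  have hJg : ∀ ξ ∈ Metric.ball (0 : Eu E) R, J ξ = Real.sqrt (g (ef e x ξ)) := by
    intro ξ hξ
    have h1 := jac_gram F hB x hRD hC (mem_ball_zero_iff.1 hξ)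
    rw [hg, hdetC, ← h1.2, Real.sqrt_sq h1.1.le]
  have hgpos : ∀ ξ ∈ Metric.ball (0 : Eu E) R, 0 < g (ef e x ξ) := by
    intro ξ hξ
    have h1 := jac_gram F hB x hRD hC (mem_ball_zero_iff.1 hξ)
    rw [hg, hdetC, ← h1.2]
    exact pow_pos h1.1 2
  have hGd : ContDiff ℝ ∞ (fun ξ : Eu E => g (ef e x ξ)) := V10_smooth F x g
  have hJev : ∀ ξ ∈ Metric.ball (0 : Eu E) R,
      J =ᶠ[𝓝 ξ] fun η => Real.sqrt (g (ef e x η)) := by
    intro ξ hξ
    filter_upwards [Metric.isOpen_ball.mem_nhds hξ] with η hη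
    exact hJg η hη
  have hJc : ContDiffOn ℝ 1 J (Metric.ball 0 R) := by
    intro ξ hξ
    refine ContDiffAt.contDiffWithinAt ?_
    refine ContDiffAt.congr_of_eventuallyEq ?_ (hJev ξ hξ)
    exact ((hGd.of_le (by exact_mod_cast le_top)).contDiffAt).sqrt (hgpos ξ hξ).ne'
  have hJd : ∀ ξ ∈ Metric.ball (0 : Eu E) R, ∀ k : Fin 4,
      fderiv ℝ J ξ (EuclideanSpace.single (σ k) 1) =
        J ξ * (geo2Of hcov hE).ev (ef e x ξ) ((geo2Of hcov hE).dv (C' k)) := by
    intro ξ hξ k
    have hξ' := mem_ball_zero_iff.1 hξ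
    have h1 : fderiv ℝ J ξ = fderiv ℝ (fun η => Real.sqrt (g (ef e x η))) ξ :=
      (hJev ξ hξ).fderiv_eq
    have hdg : DifferentiableAt ℝ (fun η : Eu E => g (ef e x η)) ξ :=
      hGd.differentiable (by simp) ξ
    have h2 : fderiv ℝ (fun η => Real.sqrt (g (ef e x η))) ξ =
        (1 / (2 * Real.sqrt (g (ef e x ξ)))) • fderiv ℝ (fun η : Eu E => g (ef e x η)) ξ :=
      fderiv_sqrt hdg (hgpos ξ hξ).ne'
    have h3 := coord_deriv F hB x hRD hC g hξ' (σ k)
    have h4 := deriv_gram hcov hE C' (q := ef e x ξ)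
      (fun i j => coord_comm hcov F hB x hRD hC hξ' (σ i) (σ j)) g hg k
    rw [h1, h2, ContinuousLinearMap.smul_apply, ← h3]
    change _ • DVF (C' k) g (ef e x ξ) = _
    rw [h4, ← hJg ξ hξ, smul_eq_mul]
    have h5 : g (ef e x ξ) = J ξ ^ 2 := by
      rw [hJg ξ hξ, Real.sq_sqrt (hgpos ξ hξ).le]
    rw [h5]
    have h6 := (hJpos ξ hξ).ne'
    field_simp
  -- the coefficients
  let w : Fin (Module.finrank ℝ E) → Eu E → ℝ := fun i ξ => c (σ.symm i) (ef e x ξ) * J ξ
  have hw : ∀ i, ContDiffOn ℝ 1 (w i) (Metric.ball 0 R) := fun i =>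
    (((V10_smooth F x (c (σ.symm i))).of_le (by exact_mod_cast le_top)).contDiffOn).mul hJc
  have hw0 : ∀ i, ∀ ξ ∈ Metric.ball (0 : Eu E) R, r ≤ ‖ξ‖ → w i ξ = 0 := by
    intro i ξ hξ hrξ
    have h1 : dist x (ef e x ξ) = ‖ξ‖ :=
      V10_dist hBR x (mem_ball_zero_iff.1 hξ).le
    have h2 : c (σ.symm i) (ef e x ξ) = 0 := hc0 _ _ (hX _ (by rw [h1]; exact hrξ))
    change c (σ.symm i) (ef e x ξ) * J ξ = 0
    rw [h2, zero_mul]
  have key := V10_int (hr1.trans hr1R) w hw hw0
  -- change of variables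
  have hvol : riemVol 4 M = riemVol (Module.finrank ℝ E) M := by rw [hE]
  rw [hvol, integral_normal F hR0 hBR x hr1R
    (fun p => (geo2Of hcov hE).ev p ((geo2Of hcov hE).dv X))
    ((geo2Of hcov hE).ev_cont _) ?_]
  · rw [← key]
    refine setIntegral_congr_fun measurableSet_ball fun ξ hξ => ?_
    have hξ' := mem_ball_zero_iff.1 hξ
    change (geo2Of hcov hE).ev (ef e x ξ) ((geo2Of hcov hE).dv X) * J ξ = _
    rw [hcX, ← Equiv.sum_comp σ, Finset.sum_mul]
    refine Finset.sum_congr rfl fun k _ => ?_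
    have hdc : DifferentiableAt ℝ (fun η : Eu E => c k (ef e x η)) ξ :=
      (V10_smooth F x (c k)).differentiable (by simp) ξ
    have hdJ : DifferentiableAt ℝ J ξ :=
      (hJc.differentiableOn (by simp)).differentiableAt (Metric.isOpen_ball.mem_nhds hξ)
    have h1 : w (σ k) = fun η => c k (ef e x η) * J η := by
      funext η
      change c (σ.symm (σ k)) (ef e x η) * J η = _
      rw [Equiv.symm_apply_apply]
    rw [h1, fderiv_fun_mul hdc hdJ]
    rw [ContinuousLinearMap.add_apply, ContinuousLinearMap.smul_apply,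
      ContinuousLinearMap.smul_apply, hJd ξ hξ k,
      ← coord_deriv F hB x hRD hC (c k) hξ' (σ k), smul_eq_mul, smul_eq_mul]
    change (DVF (C' k) (c k) (ef e x ξ) + _) * J ξ = _ + J ξ * DVF (C' k) (c k) (ef e x ξ)
    ring
  · intro y hy
    rw [hcX]
    refine Finset.sum_eq_zero fun k _ => ?_
    have hy' : r < dist x y := lt_of_lt_of_le hr1 hy
    have h1 : ∀ᶠ z in 𝓝 y, c k z = (0 : SF E M) z := by
      have h2 : IsOpen {z | r < dist x z} := isOpen_lt continuous_const (by fun_prop)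
      filter_upwards [h2.mem_nhds hy'] with z hz
      exact hc0 k z (hX z (le_of_lt hz))
    have h2 : DVF (C' k) (c k) y = 0 := by
      rw [DVF_local y (c k) 0 h1 (C' k)]
      have h3 := (geo2Of hcov hE).toLC.D_zero (C' k)
      have h4 : DVF (C' k) (0 : SF E M) = 0 := h3
      rw [h4]
      rfl
    have h3 : c k y = 0 := hc0 k y (hX y hy'.le)
    rw [h2, h3]
    ring

end

end Vale.Agent.P211.S4

end

-- V1112
section

/-! P211, S4, second stage: the divergence theorem and the Riemannian volume. -/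

set_option maxSynthPendingDepth 3
set_option linter.unusedSectionVars false

namespace Vale.Agent.P211.S4

open scoped Manifold ContDiff Topology
open Bundle Filter VectorField MeasureTheory Set
open Vale.Agent.P234 Vale.Agent.P231

noncomputable section

variable {E : Type*} [NormedAddCommGroup E] [NormedSpace ℝ E] [FiniteDimensional ℝ E]
  {M : Type*} [MetricSpace M] [ChartedSpace E M] [IsManifold 𝓘(ℝ, E) ∞ M]
  [RiemannianBundle (fun x : M => TangentSpace 𝓘(ℝ, E) x)]
  [IsContMDiffRiemannianBundle 𝓘(ℝ, E) ∞ E (fun x : M => TangentSpace 𝓘(ℝ, E) x)]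
  [IsRiemannianManifold 𝓘(ℝ, E) M] [CompactSpace M] [ConnectedSpace M]

variable {cov : CovariantDerivative 𝓘(ℝ, E) E (TangentSpace 𝓘(ℝ, E) : M → Type _)}
  {e : ∀ x : M, TangentSpace 𝓘(ℝ, E) x → M}

theorem V11_dv_add (hcov : IsLC cov) (hE : Module.finrank ℝ E = 4) (X Y : VF E M) (p : M) :
    (geo2Of hcov hE).ev p ((geo2Of hcov hE).dv (X + Y)) =
      (geo2Of hcov hE).ev p ((geo2Of hcov hE).dv X) +
        (geo2Of hcov hE).ev p ((geo2Of hcov hE).dv Y) := by
  obtain ⟨F, hF⟩ := (geo2Of hcov hE).frame p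
  rw [(geo2Of hcov hE).dv_spec _ p F hF, (geo2Of hcov hE).dv_spec _ p F hF,
    (geo2Of hcov hE).dv_spec _ p F hF, ← Finset.sum_add_distrib]
  refine Finset.sum_congr rfl fun i _ => ?_
  rw [(geo2Of hcov hE).nab_add, (geo2Of hcov hE).g_add_left, map_add]

theorem V11_dv_zero (hcov : IsLC cov) (hE : Module.finrank ℝ E = 4) (p : M) :
    (geo2Of hcov hE).ev p ((geo2Of hcov hE).dv (0 : VF E M)) = 0 := by
  have h := V11_dv_add hcov hE (0 : VF E M) 0 p
  rw [add_zero] at h
  linarith only [h]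

section meas

variable [MeasurableSpace M] [BorelSpace M]

theorem V11_finite (F : Facts e) (hE : Module.finrank ℝ E = 4) :
    IsFiniteMeasure (riemVol 4 M) := by
  obtain ⟨D, hD, hB⟩ := injGE_small F
  have h := riemVol_finite F hD hB
  rwa [hE] at h

theorem V11_integrable (hcov : IsLC cov) (hE : Module.finrank ℝ E = 4) (F : Facts e)
    (X : VF E M) :
    Integrable (fun p => (geo2Of hcov hE).ev p ((geo2Of hcov hE).dv X)) (riemVol 4 M) := by
  have := V11_finite F hE
  have h1 : Continuous fun p => (geo2Of hcov hE).ev p ((geo2Of hcov hE).dv X) :=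
    (geo2Of hcov hE).ev_cont _
  exact h1.integrable_of_hasCompactSupport (HasCompactSupport.of_compactSpace _)

theorem V11_sum (hcov : IsLC cov) (hE : Module.finrank ℝ E = 4) (F : Facts e)
    {ι : Type*} (s : Finset ι) (X : ι → VF E M)
    (hX : ∀ i, ∫ p, (geo2Of hcov hE).ev p ((geo2Of hcov hE).dv (X i)) ∂(riemVol 4 M) = 0) :
    ∫ p, (geo2Of hcov hE).ev p ((geo2Of hcov hE).dv (∑ i ∈ s, X i)) ∂(riemVol 4 M) = 0 := by
  classical
  induction s using Finset.induction_on with
  | empty =>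
    simp only [Finset.sum_empty, V11_dv_zero, integral_zero]
  | insert a s ha ih =>
    simp only [Finset.sum_insert ha, V11_dv_add]
    rw [integral_add (V11_integrable hcov hE F _) (V11_integrable hcov hE F _), hX, ih, add_zero]

/-- V11 (uses V2, V10, a smooth partition of unity): the divergence theorem. -/
theorem div_global (hcov : IsLC cov) (hE : Module.finrank ℝ E = 4) (F : Facts e) (X : VF E M) :
    ∫ p, (geo2Of hcov hE).ev p ((geo2Of hcov hE).dv X) ∂(riemVol 4 M) = 0 := by
  obtain ⟨D, hD, hB⟩ := injGE_small F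
  obtain ⟨t, ht⟩ := isCompact_univ.elim_nhds_subcover (fun x : M => Metric.ball x (D / 2))
    (fun x _ => Metric.ball_mem_nhds x (by linarith))
  obtain ⟨f, hf⟩ := SmoothPartitionOfUnity.exists_isSubordinate 𝓘(ℝ, E) (s := (univ : Set M))
    isClosed_univ (fun i : t => Metric.ball (i : M) (D / 2)) (fun i => Metric.isOpen_ball)
    (by
      intro y hy
      have h1 := ht.2 hy
      simp only [mem_iUnion] at h1 ⊢
      obtain ⟨i, hi, h2⟩ := h1
      exact ⟨⟨i, hi⟩, h2⟩)
  have hsum : ∀ y : M, ∑ i, f i y = 1 := by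
    intro y
    rw [← finsum_eq_sum_of_fintype]
    exact f.sum_eq_one (mem_univ y)
  have hdec : X = ∑ i, (f i : SF E M) • X := by
    ext y
    rw [VF.sum_apply]
    have h1 : ∀ i, ((f i : SF E M) • X) y = f i y • X y := fun i => rfl
    simp only [h1]
    rw [← Finset.sum_smul, hsum, one_smul]
  rw [hdec]
  refine V11_sum hcov hE F Finset.univ (fun i => (f i : SF E M) • X) fun i => ?_
  refine div_local hcov hE F hD hB (i : M) (r := D / 2) (by linarith) _ fun y hy => ?_
  have h2 : f i y = 0 := by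
    refine image_eq_zero_of_notMem_tsupport fun h => ?_
    have h3 := hf i h
    rw [Metric.mem_ball, dist_comm] at h3
    linarith
  change f i y • X y = 0
  rw [h2, zero_smul]

/-- V12 (uses V2, V3, V11, `riemVol_finite`): the normalised Hausdorff measure is the Riemannian
volume. -/
theorem isVol (hcov : IsLC cov) (hE : Module.finrank ℝ E = 4) :
    St.IsVol cov (Blaschke.riemannianVolume 4 M) := by
  obtain ⟨e, he, -⟩ := main_unconditional (E := E) (M := M)
  have F : Facts e := facts_of_isExp he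
  have hv : riemVol 4 M = Blaschke.riemannianVolume 4 M := riemVol_eq 3 M
  rw [← hv]
  refine ⟨V11_finite F hE, fun X d hX hd => ?_, fun p => vol_ball F hE p⟩
  have h1 : ∀ p, d p = (geo2Of hcov hE).ev p ((geo2Of hcov hE).dv (mkVF X hX)) := by
    intro p
    obtain ⟨G, hG⟩ := (geo2Of hcov hE).frame p
    rw [(geo2Of hcov hE).dv_spec _ p G hG]
    exact hd p (fun i => G i) fun i j => ⟨(G i).contMDiff, hG i j⟩
  simp only [h1]
  exact div_global hcov hE F _

end meas

end

end Vale.Agent.P211.S4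

end

-- Final4
section

/-! P211, S4: the theorem with the Hausdorff measure. -/

namespace Vale.Agent.P211.SD

open scoped Manifold ContDiff Topology
open Bundle VectorField MeasureTheory Filter

theorem isLC {E : Type} [NormedAddCommGroup E] [NormedSpace ℝ E]
    {M : Type} [TopologicalSpace M] [ChartedSpace E M] [Mfd E M] [Metric E M]
    {cov : Conn E M} (hcov : IsLeviCivita cov) : St.IsLeviCivita (E := E) cov :=
  ⟨hcov.1, fun X Y hX hY => funext fun p => (hcov.2 X Y hX hY p).1,
    fun X Y Z hX hY hZ p => (hcov.2 X Y hX hY p).2 Z hZ⟩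

set_option maxSynthPendingDepth 3 in
theorem isVol_of
    {E : Type} [NormedAddCommGroup E] [NormedSpace ℝ E] [FiniteDimensional ℝ E]
    (hdim : Module.finrank ℝ E = 4)
    {M : Type} [MetricSpace M] [ChartedSpace E M] [Mfd E M] [CompactSpace M] [ConnectedSpace M]
    [Metric E M] [IsContMDiffRiemannianBundle 𝓘(ℝ, E) ∞ E fun p : M => TangentSpace 𝓘(ℝ, E) p]
    [IsRiemannianManifold 𝓘(ℝ, E) M] [MeasurableSpace M] [BorelSpace M]
    (cov : Conn E M) (hcov : St.IsLeviCivita (E := E) cov)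
    (μ : Measure M) (c : ENNReal) (hμ : ∀ s, μ s = c * Measure.hausdorffMeasure 4 s)
    (hball : ∀ p : M, Tendsto (fun r : ℝ => μ.real (Metric.ball p r) / r ^ 4) (𝓝[>] 0)
      (𝓝 (Real.pi ^ 2 / 2))) : St.IsVol (E := E) cov μ := by
  have hv : St.IsVol (E := E) cov (P231.Blaschke.riemannianVolume 4 M) :=
    S4.isVol (isLC_of hcov) hdim
  obtain ⟨c0, h0⟩ : ∃ c0 : ENNReal, P231.Blaschke.riemannianVolume 4 M
      = c0 • Measure.hausdorffMeasure (4 : ℝ) := by
    have h4 : ((4 : ℕ) : ℝ) = 4 := by norm_num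
    unfold P231.Blaschke.riemannianVolume
    rw [← h4]
    exact ⟨_, rfl⟩
  have h1 : μ = c • Measure.hausdorffMeasure (4 : ℝ) := by
    ext s _
    rw [hμ s]; rfl
  obtain ⟨p⟩ : Nonempty M := inferInstance
  have hpi : Real.pi ^ 2 / 2 ≠ 0 := by positivity
  have e : ∀ (c : ENNReal) (r : ℝ), (c • Measure.hausdorffMeasure (4 : ℝ) : Measure M).real (Metric.ball p r) / r ^ 4
      = c.toReal * ((Measure.hausdorffMeasure (4 : ℝ) : Measure M).real (Metric.ball p r) / r ^ 4) := by
    intro c r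
    have : (c • Measure.hausdorffMeasure (4 : ℝ) : Measure M).real (Metric.ball p r)
        = c.toReal * (Measure.hausdorffMeasure (4 : ℝ) : Measure M).real (Metric.ball p r) := by
      simp [Measure.real, ENNReal.toReal_mul]
    rw [this]; ring
  have t1 := hball p
  rw [h1] at t1
  simp only [e] at t1
  have t0 := hv.ball p
  rw [h0] at t0
  simp only [e] at t0
  have hc0 : c0.toReal ≠ 0 := by
    intro h
    rw [h] at t0
    simp only [zero_mul] at t0
    exact hpi (tendsto_nhds_unique t0 tendsto_const_nhds)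
  have hc : c.toReal = c0.toReal := by
    have t2 := t0.const_mul (c.toReal / c0.toReal)
    have e2 : ∀ x : ℝ, c.toReal / c0.toReal * (c0.toReal * x) = c.toReal * x := by
      intro x; field_simp
    simp only [e2] at t2
    have := tendsto_nhds_unique t1 t2
    field_simp at this
    linarith
  have hc1 : c = c0 := by
    have a1 : c ≠ ⊤ := by
      intro h; rw [h] at hc; exact hc0 (by rw [← hc]; rfl)
    have a2 : c0 ≠ ⊤ := by
      intro h; rw [h] at hc0; exact hc0 rfl
    exact (ENNReal.toReal_eq_toReal_iff' a1 a2).1 hc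
  rw [h1, hc1, ← h0]
  exact hv

end Vale.Agent.P211.SD

end
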